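import Claimed.Agent.R286.Sc.Prof

/-!
# Row 286, scalar block (BOX-C): DEFINITIONS on top of `Sc/Prof.lean`      (owner helper183; design D5-D6 of helper95's note B03 + A6 of helper36)

DEFINITIONS ONLY (frozen; changes only through helper183 / helper95).   Step profiles, `scV, scVt, scAl, scPt, scD, scEx, scGam` : `Sc/Prof.lean` (helper95).
* `scLC a = a⁻¹ log cosh (a z)`      the standard terminal datum.
* `scM2, scM3, scM4, scN3, scN4, scM13`      moment curves `E V_zz², E V_zz³, E V_zz⁴, E V_zzz², E V_zzzz², E V_zz V_zzz²` of a step profile.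
* FORWARD FACTOR (FS block): the law of `Z_t` is `p_t(x) exp(α(t) V(t,x) - ψ(t,x)) dx`.   `scFw a h ψ` = evolution of `ψ` inside a step from the time `a` to `a + h`:
  `e^{-ψ(a+h,x)} = scHeat (a h/(a+h)) (e^{-ψ(a)}) (a x/(a+h))`;   at a break point `ψ₊ = ψ₋ + (m₊ - m₋) V`;   start `ψ₋(0) = 0`, `m₋ = 0` (the first step is NOT special);
  the end of the profile is a jump to the mass `0` (as in `scAl`).   `scPsi F π t = ψ(t,·)` (right continuous in `t`, as `scAl`);   `scWt F π t = exp(α V - ψ)`.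
  TARGET (A6):  `scEx F π t φ = scHeat t (fun x => φ x * scWt F π t x) 0`.
* GENERAL PROFILES `α : ℝ → ℝ` (`ScCoef a τ α`: monotone on `[0,τ]`, values in `[0,a]`): `scDy α τ n` = `2^n` steps of length `τ/2^n`, masses `α(k τ/2^n)` (left ends);
  `scDyP` the same with the masses `max · 2^-n` (positive masses: FS block);   `scVa F α τ t z`, `scPa F α τ s t φ z` = limits along `scDy` (`limUnder`; existence and independence of the approximation = S4.5);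
  `scaD k`, `scaEx`, moment curves `scaGam, scaM2, ..`.
* `scAlK a K t = |{v ∈ (0,a) : K v ≤ t}|`      mass profile (variance time) of a clock `K` (function of the mass).
-/

set_option autoImplicit false

namespace Claimed.Agent.R286

open MeasureTheory ProbabilityTheory Filter Topology Set

noncomputable section

/-- the standard terminal datum `a⁻¹ log cosh (a z)` -/
def scLC (a : ℝ) (z : ℝ) : ℝ := a⁻¹ * Real.log (Real.cosh (a * z))

def scM2 (F : ℝ → ℝ) (π : List (ℝ × ℝ)) (t : ℝ) : ℝ := scEx F π t fun z => scD 2 F π t z ^ 2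
def scM3 (F : ℝ → ℝ) (π : List (ℝ × ℝ)) (t : ℝ) : ℝ := scEx F π t fun z => scD 2 F π t z ^ 3
def scM4 (F : ℝ → ℝ) (π : List (ℝ × ℝ)) (t : ℝ) : ℝ := scEx F π t fun z => scD 2 F π t z ^ 4
def scN3 (F : ℝ → ℝ) (π : List (ℝ × ℝ)) (t : ℝ) : ℝ := scEx F π t fun z => scD 3 F π t z ^ 2
def scN4 (F : ℝ → ℝ) (π : List (ℝ × ℝ)) (t : ℝ) : ℝ := scEx F π t fun z => scD 4 F π t z ^ 2
def scM13 (F : ℝ → ℝ) (π : List (ℝ × ℝ)) (t : ℝ) : ℝ := scEx F π t fun z => scD 2 F π t z * scD 3 F π t z ^ 2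

/-- masses and lengths strictly positive -/
def ScPP (π : List (ℝ × ℝ)) : Prop := ∀ p ∈ π, 0 < p.1 ∧ 0 < p.2

/-- same grid -/
def ScSame (π π' : List (ℝ × ℝ)) : Prop := π.map Prod.snd = π'.map Prod.snd

/-- `L¹` distance of two profiles on the same grid -/
def scDist (π π' : List (ℝ × ℝ)) : ℝ := (List.zipWith (fun p q : ℝ × ℝ => |p.1 - q.1| * p.2) π π').sum

/-! ### the forward factor -/

/-- evolution of `ψ` inside a step, from the time `a` to the time `a + h` -/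
def scFw (a h : ℝ) (ψ : ℝ → ℝ) (x : ℝ) : ℝ :=
  - Real.log (scHeat (a * h / (a + h)) (fun y => Real.exp (-(ψ y))) (a / (a + h) * x))

/-- `ψ` at the time `t` after the start of `π`; `a` = time elapsed before `π`, `mp` = previous mass, `ψ` = value BEFORE the jump at the start of `π` -/
def scPsiAux (F : ℝ → ℝ) : List (ℝ × ℝ) → ℝ → ℝ → (ℝ → ℝ) → ℝ → ℝ → ℝ
  | [], _, mp, ψ, _ => fun y => ψ y + (0 - mp) * F y
  | p :: π, a, mp, ψ, t =>
      if p.2 ≤ t then scPsiAux F π (a + p.2) p.1 (scFw a p.2 fun y => ψ y + (p.1 - mp) * scV F (p :: π) y) (t - p.2)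
      else scFw a t fun y => ψ y + (p.1 - mp) * scV F (p :: π) y

/-- the forward factor `ψ(t,·)` of the profile -/
def scPsi (F : ℝ → ℝ) (π : List (ℝ × ℝ)) (t : ℝ) : ℝ → ℝ := scPsiAux F π 0 0 (fun _ => 0) t

/-- the density of the law of `Z_t` with respect to `N(0,t)` -/
def scWt (F : ℝ → ℝ) (π : List (ℝ × ℝ)) (t : ℝ) (x : ℝ) : ℝ := Real.exp (scAl π t * scVt F π t x - scPsi F π t x)

/-! ### general profiles -/

/-- dyadic step profile of `α` on `[0,τ]` (left ends) -/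
def scDy (α : ℝ → ℝ) (τ : ℝ) (n : ℕ) : List (ℝ × ℝ) := (List.range (2 ^ n)).map fun k : ℕ => (α (k * τ / 2 ^ n), τ / 2 ^ n)

/-- the same with positive masses -/
def scDyP (α : ℝ → ℝ) (τ : ℝ) (n : ℕ) : List (ℝ × ℝ) :=
  (List.range (2 ^ n)).map fun k : ℕ => (max (α (k * τ / 2 ^ n)) ((1 / 2 : ℝ) ^ n), τ / 2 ^ n)

/-- admissible coefficient on `[0,τ]` -/
def ScCoef (a τ : ℝ) (α : ℝ → ℝ) : Prop := MonotoneOn α (Icc 0 τ) ∧ ∀ t ∈ Icc 0 τ, 0 ≤ α t ∧ α t ≤ a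

/-- `V_α(t,z)` -/
def scVa (F : ℝ → ℝ) (α : ℝ → ℝ) (τ t z : ℝ) : ℝ := limUnder atTop fun n : ℕ => scVt F (scDy α τ n) t z

/-- `∂_z^k V_α(t,·)` -/
def scaD (k : ℕ) (F : ℝ → ℝ) (α : ℝ → ℝ) (τ t : ℝ) : ℝ → ℝ := deriv^[k] (scVa F α τ t)

/-- `E[φ(Z_t) | Z_s = z]` -/
def scPa (F : ℝ → ℝ) (α : ℝ → ℝ) (τ s t : ℝ) (φ : ℝ → ℝ) (z : ℝ) : ℝ := limUnder atTop fun n : ℕ => scPt F (scDy α τ n) s t φ z

/-- `E φ(Z_t)`, `Z_0 = 0` -/
def scaEx (F : ℝ → ℝ) (α : ℝ → ℝ) (τ t : ℝ) (φ : ℝ → ℝ) : ℝ := scPa F α τ 0 t φ 0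

def scaGam (F : ℝ → ℝ) (α : ℝ → ℝ) (τ t : ℝ) : ℝ := scaEx F α τ t fun z => scaD 1 F α τ t z ^ 2
def scaM2 (F : ℝ → ℝ) (α : ℝ → ℝ) (τ t : ℝ) : ℝ := scaEx F α τ t fun z => scaD 2 F α τ t z ^ 2
def scaM3 (F : ℝ → ℝ) (α : ℝ → ℝ) (τ t : ℝ) : ℝ := scaEx F α τ t fun z => scaD 2 F α τ t z ^ 3
def scaM4 (F : ℝ → ℝ) (α : ℝ → ℝ) (τ t : ℝ) : ℝ := scaEx F α τ t fun z => scaD 2 F α τ t z ^ 4
def scaN3 (F : ℝ → ℝ) (α : ℝ → ℝ) (τ t : ℝ) : ℝ := scaEx F α τ t fun z => scaD 3 F α τ t z ^ 2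
def scaN4 (F : ℝ → ℝ) (α : ℝ → ℝ) (τ t : ℝ) : ℝ := scaEx F α τ t fun z => scaD 4 F α τ t z ^ 2
def scaM13 (F : ℝ → ℝ) (α : ℝ → ℝ) (τ t : ℝ) : ℝ := scaEx F α τ t fun z => scaD 2 F α τ t z * scaD 3 F α τ t z ^ 2

/-- mass profile (in variance time) of a clock `K` (function of the mass `v ∈ (0,a)`) -/
def scAlK (a : ℝ) (K : ℝ → ℝ) (t : ℝ) : ℝ := (volume {v : ℝ | v ∈ Ioo 0 a ∧ K v ≤ t}).toReal

end

end Claimed.Agent.R286
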