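import Claimed.Agent.R286.Sc.Prof

/-!
# Row 286, scalar block, layer S3 / S4 (part 1): invariants by LIST INDUCTION (no Dynkin except inside one step)
OWNER: helper90 (unit C2, head helper197).  0 sorry.  Plan: `origin/helper95:notes/R286/B03_helper95.md` S3.1, S4.1, S4.2; `origin/helper197:notes/R286/F01_helper197.md` R3, R4 (k = 1, 2), R4'.

* `ScAd a F`: `F` is an ADMISSIBLE CONTINUATION for the terminal mass `a`: class `ScB n` for all `n`, even, `|F'| ≤ 1`, `0 < F'' ≤ a (1 - F'²)`.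
  `ScAd.logcosh` (terminal datum), `ScAd.step`, `ScAd.scV`, `ScAd.scVt` (stability), and the consequences `deriv_zero, hess_le, deriv_abs_le_mul, ..`.
* S3.1 in the vocabulary `scD`: `scb_u_abs_le, scad_w_pos, scad_w_le, scb_w_le_mass, scb_u_abs_le_mul, scb_u_zero`.
* R4' : `scb_tr_sech_ge` (one step), `scb_step_hess_ge`, `scb_V_hess_ge`, `scb_w_ge` : `w(t, z) ≥ c e^{-3 a² (len - t)} sech²(a z)`.
* exponential sub-solutions `scb_tr_exp_ge` (one step), `scb_Pt_exp_ge` (lists);  R15 `scb_Pt_sech_pow_ge`;  `scb_Ex_w_pow_ge` : `E w^p ≥ (c e^{-3 a² len})^p`.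
* S4.1 + S4.2 (Guerra) : `scb_V_guerra`, `scb_Vt_guerra` : same grid, ordered masses: `0 ≤ V' - V ≤ (1/2) Σ (m_i' - m_i) s_i`.
-/

set_option autoImplicit false

namespace Claimed.Agent.R286

open MeasureTheory ProbabilityTheory Filter Topology Set

/-- admissible continuation with terminal mass `a`: bounded class of every order, even, `|F'| ≤ 1`,
`0 < F'' ≤ a (1 - F'^2)` -/
structure ScAd (a : ℝ) (F : ℝ → ℝ) : Prop where
  B : ∀ n, ScB n F
  even : ∀ z, F (-z) = F z
  lip : ∀ z, |deriv F z| ≤ 1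
  pos : ∀ z, 0 < deriv (deriv F) z
  hess : ∀ z, deriv (deriv F) z ≤ a * (1 - deriv F z ^ 2)

/-- the Hessian bound `w ≤ a (1 - u²)` is preserved by a step of mass `m ∈ [0, a]` (Jensen only) -/
theorem scb_step_hess_le {F : ℝ → ℝ} (hF : ScB 2 F) {a m : ℝ} (hma : m ≤ a)
    (h : ∀ z, deriv (deriv F) z ≤ a * (1 - deriv F z ^ 2)) (s z : ℝ) :
    deriv (deriv (scStep m s F)) z ≤ a * (1 - deriv (scStep m s F) z ^ 2) := by
  have hF1 : ScB 1 F := hF.of_succ
  have hu : ScE 0 (deriv F) := (hF.deriv_bd).of_succ.scE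
  have hw : ScE 0 (deriv (deriv F)) := (hF.deriv_bd).deriv.scE
  have hu2 : ScE 0 (fun y => deriv F y ^ 2) := hu.pow 2
  rw [sc_step_deriv2 hF, sc_step_deriv hF1]
  have h1 : scTr m s F (deriv (deriv F)) z ≤ scTr m s F (fun y => a * (1 - deriv F y ^ 2)) z :=
    sc_tr_mono hF1 hw (((ScE.const 0 1).sub hu2).const_mul a) h m s z
  have h2 : scTr m s F (fun y => a * (1 - deriv F y ^ 2)) z
      = a * (1 - scTr m s F (fun y => deriv F y ^ 2) z) := by
    rw [sc_tr_const_mul, sc_tr_sub hF1 (ScE.const 0 1) hu2, sc_tr_const hF1]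
  have h3 := sc_tr_sq_le hF1 hu m s z
  nlinarith [mul_le_mul_of_nonneg_left h3 (sub_nonneg.2 hma)]

theorem sc_deriv_odd_of_even {F : ℝ → ℝ} (h : ∀ z, F (-z) = F z) (z : ℝ) : deriv F (-z) = - deriv F z := by
  have e : (fun y => F (-y)) = F := funext h
  have := deriv_comp_neg F z
  rw [e] at this
  linarith

theorem sc_deriv_even_of_odd {F : ℝ → ℝ} (h : ∀ z, F (-z) = - F z) (z : ℝ) : deriv F (-z) = deriv F z := by
  have e : (fun y => F (-y)) = fun y => - F y := funext h
  have := deriv_comp_neg F z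
  rw [e] at this
  have h2 : deriv (fun y => - F y) z = - deriv F z := by
    simp
  rw [h2] at this
  linarith

namespace ScAd

variable {a : ℝ} {F : ℝ → ℝ}

theorem step (h : ScAd a F) {m : ℝ} (hm0 : 0 ≤ m) (hma : m ≤ a) (s : ℝ) : ScAd a (scStep m s F) where
  B := fun n => by
    cases n with
    | zero => exact (sc_step_B (n := 0) (h.B 1) m s).of_succ
    | succ n => exact sc_step_B (h.B (n + 1)) m s
  even := sc_step_even h.even m s
  lip := sc_step_deriv_le (h.B 1) h.lip m s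
  pos := sc_step_strict_convex (h.B 2) h.pos hm0 s
  hess := scb_step_hess_le (h.B 2) hma h.hess s

theorem deriv_odd (h : ScAd a F) (z : ℝ) : deriv F (-z) = - deriv F z := sc_deriv_odd_of_even h.even z

theorem deriv_zero (h : ScAd a F) : deriv F 0 = 0 := by
  have := h.deriv_odd 0
  simp at this
  linarith

theorem deriv2_even (h : ScAd a F) (z : ℝ) : deriv (deriv F) (-z) = deriv (deriv F) z :=
  sc_deriv_even_of_odd h.deriv_odd z

theorem hess_le (h : ScAd a F) (z : ℝ) : deriv (deriv F) z ≤ a := by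
  have h1 := h.hess z
  have ha : 0 < a * (1 - deriv F z ^ 2) := (h.pos z).trans_le h1
  have h2 : 0 ≤ 1 - deriv F z ^ 2 := by
    have := h.lip z
    have := abs_le.1 this
    nlinarith
  have ha0 : 0 < a := by
    by_contra hc
    rw [not_lt] at hc
    nlinarith
  nlinarith [sq_nonneg (deriv F z)]

theorem mass_pos (h : ScAd a F) : 0 < a := (h.pos 0).trans_le (h.hess_le 0)

theorem deriv_abs_le_mul (h : ScAd a F) (z : ℝ) : |deriv F z| ≤ a * |z| := by
  have hd : Differentiable ℝ (deriv F) := (h.B 2).2.2.1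
  have hb : ∀ x, ‖deriv (deriv F) x‖ ≤ a := fun x => by
    rw [Real.norm_eq_abs, abs_of_pos (h.pos x)]
    exact h.hess_le x
  have := Convex.norm_image_sub_le_of_norm_deriv_le (f := deriv F) (s := univ) (x := 0) (y := z)
    (fun x _ => hd x) (fun x _ => hb x) convex_univ (mem_univ _) (mem_univ _)
  simpa [h.deriv_zero] using this

theorem sub_zero_abs_le (h : ScAd a F) (z : ℝ) : |F z - F 0| ≤ |z| := by
  have hd : Differentiable ℝ F := (h.B 1).1
  have := Convex.norm_image_sub_le_of_norm_deriv_le (f := F) (s := univ) (x := 0) (y := z) (C := 1)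
    (fun x _ => hd x) (fun x _ => by simpa using h.lip x) convex_univ (mem_univ _) (mem_univ _)
  simpa using this

theorem deriv_strictMono (h : ScAd a F) : StrictMono (deriv F) :=
  strictMono_of_deriv_pos h.pos

theorem deriv_pos (h : ScAd a F) {z : ℝ} (hz : 0 < z) : 0 < deriv F z := by
  have := h.deriv_strictMono hz
  rwa [h.deriv_zero] at this

theorem zero_le_sub (h : ScAd a F) (z : ℝ) : F 0 ≤ F z := by
  have hd : Differentiable ℝ F := (h.B 1).1
  have key : ∀ x, 0 ≤ x → F 0 ≤ F x := by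
    intro x hx
    have hm : MonotoneOn F (Ici 0) := by
      apply monotoneOn_of_deriv_nonneg (convex_Ici 0) hd.continuous.continuousOn hd.differentiableOn
      intro y hy
      rw [interior_Ici] at hy
      exact (h.deriv_pos hy).le
    exact hm (mem_Ici.2 le_rfl) (mem_Ici.2 hx) hx
  rcases le_total 0 z with hz | hz
  · exact key z hz
  · rw [← h.even z]
    exact key (-z) (by linarith)

end ScAd

/-- the terminal datum `a⁻¹ log cosh (a z)` -/
theorem ScAd.logcosh {a : ℝ} (ha : 0 < a) : ScAd a (fun z => a⁻¹ * Real.log (Real.cosh (a * z))) := by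
  have hd : ∀ z, HasDerivAt (fun z => a⁻¹ * Real.log (Real.cosh (a * z))) (Real.tanh (a * z)) z := by
    intro z
    have h1 : HasDerivAt (fun z : ℝ => a * z) a z := by simpa using (hasDerivAt_id z).const_mul a
    have h2 := (Real.hasDerivAt_cosh (a * z)).comp z h1
    have h3 := (h2.log (Real.cosh_pos _).ne').const_mul a⁻¹
    refine h3.congr_deriv ?_
    simp [Real.tanh_eq_sinh_div_cosh]
    field_simp
  have e1 : deriv (fun z => a⁻¹ * Real.log (Real.cosh (a * z))) = fun z => Real.tanh (a * z) :=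
    funext fun z => (hd z).deriv
  have hd2 : ∀ z, HasDerivAt (fun z => Real.tanh (a * z)) (a * (1 - Real.tanh (a * z) ^ 2)) z := by
    intro z
    have h1 : HasDerivAt (fun z : ℝ => a * z) a z := by simpa using (hasDerivAt_id z).const_mul a
    have := (sc_hasDerivAt_tanh (a * z)).comp z h1
    exact this.congr_deriv (by ring)
  have e2 : deriv (fun z => Real.tanh (a * z)) = fun z => a * (1 - Real.tanh (a * z) ^ 2) :=
    funext fun z => (hd2 z).deriv
  refine ⟨fun n => sc_logcosh_B n a, fun z => by simp, fun z => ?_, fun z => ?_, fun z => ?_⟩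
  · rw [e1]; exact (Real.abs_tanh_lt_one _).le
  · rw [e1, e2]
    have := abs_lt.1 (Real.abs_tanh_lt_one (a * z))
    have : 0 < 1 - Real.tanh (a * z) ^ 2 := by nlinarith
    positivity
  · rw [e1, e2]

/-- `sech² (a y)` written as `1 - tanh² (a y)` -/
noncomputable def scSech (a y : ℝ) : ℝ := 1 - Real.tanh (a * y) ^ 2

theorem scSech_pos (a y : ℝ) : 0 < scSech a y := by
  have := abs_lt.1 (Real.abs_tanh_lt_one (a * y))
  unfold scSech
  nlinarith

theorem scSech_le_one (a y : ℝ) : scSech a y ≤ 1 := by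
  unfold scSech
  nlinarith [sq_nonneg (Real.tanh (a * y))]

theorem sc_hasDerivAt_tanh_mul (a y : ℝ) :
    HasDerivAt (fun y => Real.tanh (a * y)) (a * (1 - Real.tanh (a * y) ^ 2)) y := by
  have h1 : HasDerivAt (fun z : ℝ => a * z) a y := by simpa using (hasDerivAt_id y).const_mul a
  exact ((sc_hasDerivAt_tanh (a * y)).comp y h1).congr_deriv (by ring)

theorem scSech_hasDerivAt (a y : ℝ) :
    HasDerivAt (scSech a) (-(2 * a) * Real.tanh (a * y) * scSech a y) y := by
  have h := ((sc_hasDerivAt_tanh_mul a y).pow 2).const_sub 1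
  refine h.congr_deriv ?_
  unfold scSech
  simp
  ring

theorem scSech_deriv (a : ℝ) : deriv (scSech a) = fun y => -(2 * a) * Real.tanh (a * y) * scSech a y :=
  funext fun y => (scSech_hasDerivAt a y).deriv

theorem scSech_hasDerivAt2 (a y : ℝ) :
    HasDerivAt (fun y => -(2 * a) * Real.tanh (a * y) * scSech a y)
      (a ^ 2 * (6 * Real.tanh (a * y) ^ 2 - 2) * scSech a y) y := by
  have h := ((sc_hasDerivAt_tanh_mul a y).const_mul (-(2 * a))).mul (scSech_hasDerivAt a y)
  refine h.congr_deriv ?_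
  unfold scSech
  ring

theorem scSech_deriv2 (a : ℝ) :
    deriv (deriv (scSech a)) = fun y => a ^ 2 * (6 * Real.tanh (a * y) ^ 2 - 2) * scSech a y := by
  rw [scSech_deriv]
  exact funext fun y => (scSech_hasDerivAt2 a y).deriv

theorem scSech_B (n : ℕ) (a : ℝ) : ScB n (scSech a) := by
  have := sc_poly_tanh_B n a (1 - Polynomial.X ^ 2)
  have e : (fun z => (1 - Polynomial.X ^ 2 : Polynomial ℝ).eval (Real.tanh (a * z))) = scSech a := by
    funext z
    simp [scSech]
  rwa [e] at this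

theorem scSech_E (n : ℕ) (a : ℝ) : ScE n (scSech a) :=
  (scSech_B n a).scE_of_bdd (C := 1) fun z => by
    rw [abs_of_pos (scSech_pos a z)]
    exact scSech_le_one a z

/-- R4' (one step): `E[sech²(a Z_after) | Z_before = z] ≥ e^{-3 a² s} sech²(a z)` -/
theorem scb_tr_sech_ge {a : ℝ} {F : ℝ → ℝ} (h : ScAd a F) {m : ℝ} (hm0 : 0 ≤ m) (hma : m ≤ a) {s : ℝ}
    (hs : 0 ≤ s) (z : ℝ) :
    Real.exp (-(3 * a ^ 2 * s)) * scSech a z ≤ scTr m s F (scSech a) z := by
  have ha : 0 < a := h.mass_pos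
  set E : ℝ → ℝ := fun r => Real.exp (-(3 * a ^ 2 * (s - r))) with hE
  have hEc : Continuous E := by fun_prop
  have hEb : ∃ C, ∀ r ∈ Icc (0 : ℝ) s, |E r| ≤ C := by
    refine ⟨1, fun r hr => ?_⟩
    rw [abs_of_pos (Real.exp_pos _)]
    apply Real.exp_le_one_iff.2
    have : 0 ≤ s - r := sub_nonneg.2 hr.2
    have : 0 ≤ 3 * a ^ 2 * (s - r) := by positivity
    linarith
  have hφ : ScT (Icc 0 s) 2 (fun r y => E r * scSech a y) :=
    (ScT.of_time hEc.continuousOn hEb 2).mul ((scSech_E 2 a).scT _)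
  have hφt : ScT (Icc 0 s) 0 (fun r y => 3 * a ^ 2 * (E r * scSech a y)) :=
    ((ScT.of_time hEc.continuousOn hEb 0).mul ((scSech_E 0 a).scT _)).const_mul _
  have hd : ∀ r ∈ Ioo 0 s, ∀ y, HasDerivAt (fun r => E r * scSech a y) (3 * a ^ 2 * (E r * scSech a y)) r := by
    intro r _ y
    have h1 : HasDerivAt (fun r : ℝ => -(3 * a ^ 2 * (s - r))) (3 * a ^ 2) r := by
      have := (((hasDerivAt_id r).const_sub s).const_mul (3 * a ^ 2)).fun_neg
      exact this.congr_deriv (by ring)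
    exact (h1.exp.mul_const (scSech a y)).congr_deriv (by simp only [hE]; ring)
  have key := sc_tr_dynkin (h.B 3) m hs hφ hφt hd z
  have hnn : 0 ≤ ∫ r in (0 : ℝ)..s, scTr m (r - 0) (scStep m (s - r) F)
        (fun y => 3 * a ^ 2 * (E r * scSech a y) + deriv (deriv (fun y => E r * scSech a y)) y / 2
          + m * deriv (scStep m (s - r) F) y * deriv (fun y => E r * scSech a y) y) z := by
    apply intervalIntegral.integral_nonneg hs
    intro r _
    have hH : ScAd a (scStep m (s - r) F) := h.step hm0 hma _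
    set H := scStep m (s - r) F
    have e1 : deriv (fun y => E r * scSech a y) = fun y => E r * (-(2 * a) * Real.tanh (a * y) * scSech a y) :=
      funext fun y => ((scSech_hasDerivAt a y).const_mul (E r)).deriv
    have e2 : deriv (deriv (fun y => E r * scSech a y))
        = fun y => E r * (a ^ 2 * (6 * Real.tanh (a * y) ^ 2 - 2) * scSech a y) := by
      rw [e1]
      exact funext fun y => ((scSech_hasDerivAt2 a y).const_mul (E r)).deriv
    rw [e2, e1]
    have hct : Continuous fun y => Real.tanh (a * y) :=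
      continuous_iff_continuousAt.2 fun y => (sc_hasDerivAt_tanh_mul a y).continuousAt
    have hT : ScE 0 (fun y => Real.tanh (a * y)) :=
      ⟨hct, ScG.of_bdd (C := 1) fun y => (Real.abs_tanh_lt_one _).le⟩
    have hS : ScE 0 (scSech a) := scSech_E 0 a
    have hHd : ScE 0 (deriv H) := ((hH.B 2).deriv_bd).of_succ.scE
    have hψ : ScE 0 (fun y => 3 * a ^ 2 * (E r * scSech a y)
        + E r * (a ^ 2 * (6 * Real.tanh (a * y) ^ 2 - 2) * scSech a y) / 2
        + m * deriv H y * (E r * (-(2 * a) * Real.tanh (a * y) * scSech a y))) := by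
      have c1 : ScE 0 (fun y => 3 * a ^ 2 * (E r * scSech a y)) := (hS.const_mul _).const_mul _
      have c2 : ScE 0 (fun y => (E r * a ^ 2 / 2) * ((6 * Real.tanh (a * y) ^ 2 - 2) * scSech a y)) :=
        ((((hT.pow 2).const_mul 6).sub (ScE.const 0 2)).mul hS).const_mul _
      have c3 : ScE 0 (fun y => (m * E r * (-(2 * a))) * (deriv H y * (Real.tanh (a * y) * scSech a y))) :=
        (hHd.mul (hT.mul hS)).const_mul _
      have := (c1.add c2).add c3
      refine (congrArg (ScE 0) (funext fun y => ?_)).mp this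
      ring
    have h0 := sc_tr_mono (hH.B 1) (ScE.const 0 0) hψ (fun y => ?_) m (r - 0) z
    · rwa [sc_tr_const (hH.B 1)] at h0
    · have hEr : 0 < E r := Real.exp_pos _
      have hχ := scSech_pos a y
      have ht := abs_le.1 (Real.abs_tanh_lt_one (a * y)).le
      have hu := abs_le.1 (hH.lip y)
      have hprod : deriv H y * Real.tanh (a * y) ≤ 1 := by
        nlinarith [abs_le.1 (abs_mul (deriv H y) (Real.tanh (a * y)) ▸
          (mul_le_one₀ (hH.lip y) (abs_nonneg _) (Real.abs_tanh_lt_one (a * y)).le))]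
      have hb : 0 ≤ 2 * a ^ 2 + 3 * a ^ 2 * Real.tanh (a * y) ^ 2 - 2 * a * m * (deriv H y * Real.tanh (a * y)) := by
        have h1 : m * (deriv H y * Real.tanh (a * y)) ≤ a := by
          rcases le_total 0 (deriv H y * Real.tanh (a * y)) with hp | hp
          · nlinarith
          · nlinarith
        nlinarith [sq_nonneg (Real.tanh (a * y)), sq_nonneg a]
      have : 3 * a ^ 2 * (E r * scSech a y) + E r * (a ^ 2 * (6 * Real.tanh (a * y) ^ 2 - 2) * scSech a y) / 2
          + m * deriv H y * (E r * (-(2 * a) * Real.tanh (a * y) * scSech a y))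
          = E r * scSech a y * (2 * a ^ 2 + 3 * a ^ 2 * Real.tanh (a * y) ^ 2
              - 2 * a * m * (deriv H y * Real.tanh (a * y))) := by ring
      rw [this]
      positivity
  rw [← key] at hnn
  have e0 : E s = 1 := by simp [hE]
  have e00 : E 0 = Real.exp (-(3 * a ^ 2 * s)) := by simp [hE]
  simp only [e0, e00, one_mul, sub_zero] at hnn
  have : (fun y => scSech a y) = scSech a := rfl
  linarith

/-- R4' (one step): the lower bound `w ≥ c sech²(a z)` loses the factor `e^{-3 a² s}` -/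
theorem scb_step_hess_ge {a : ℝ} {F : ℝ → ℝ} (h : ScAd a F) {m : ℝ} (hm0 : 0 ≤ m) (hma : m ≤ a) {s : ℝ}
    (hs : 0 ≤ s) {c : ℝ} (hc : 0 ≤ c) (hF : ∀ z, c * scSech a z ≤ deriv (deriv F) z) (z : ℝ) :
    c * Real.exp (-(3 * a ^ 2 * s)) * scSech a z ≤ deriv (deriv (scStep m s F)) z := by
  have hF1 := h.B 1
  have hu : ScE 0 (deriv F) := ((h.B 2).deriv_bd).of_succ.scE
  have hw : ScE 0 (deriv (deriv F)) := ((h.B 2).deriv_bd).deriv.scE
  rw [sc_step_deriv2 (h.B 2)]
  have h1 := sc_tr_mono hF1 ((scSech_E 0 a).const_mul c) hw hF m s z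
  rw [sc_tr_const_mul] at h1
  have h2 := scb_tr_sech_ge h hm0 hma hs z
  have h3 := sc_tr_sq_le hF1 hu m s z
  have h4 := mul_le_mul_of_nonneg_left h2 hc
  nlinarith [mul_nonneg hm0 (sub_nonneg.2 h3)]


/-! ## lists -/

theorem ScAd.scV {a : ℝ} {F : ℝ → ℝ} (h : ScAd a F) {π : List (ℝ × ℝ)} (hπ : ScAdm a π) : ScAd a (scV F π) := by
  induction π with
  | nil => exact h
  | cons p π ih =>
    have hp := hπ p (by simp)
    exact (ih fun q hq => hπ q (by simp [hq])).step hp.1 hp.2.1 p.2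

theorem ScAd.scVt {a : ℝ} {F : ℝ → ℝ} (h : ScAd a F) {π : List (ℝ × ℝ)} (hπ : ScAdm a π) (t : ℝ) :
    ScAd a (scVt F π t) := by
  induction π generalizing t with
  | nil => exact h
  | cons p π ih =>
    have hp := hπ p (by simp)
    have hπ1 : ScAdm a π := fun q hq => hπ q (by simp [hq])
    by_cases hc : p.2 ≤ t
    · simpa [Claimed.Agent.R286.scVt, hc] using ih hπ1 (t - p.2)
    · simpa [Claimed.Agent.R286.scVt, hc] using (h.scV hπ1).step hp.1 hp.2.1 (p.2 - t)

theorem ScAd.scBI {a : ℝ} {F : ℝ → ℝ} (h : ScAd a F) : ScBI F := h.B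

section S31

variable {a : ℝ} {F : ℝ → ℝ} {π : List (ℝ × ℝ)}

theorem scD_one (F : ℝ → ℝ) (π : List (ℝ × ℝ)) (t : ℝ) : scD 1 F π t = deriv (scVt F π t) := rfl

theorem scD_two (F : ℝ → ℝ) (π : List (ℝ × ℝ)) (t : ℝ) : scD 2 F π t = deriv (deriv (scVt F π t)) := rfl

theorem scb_u_abs_le (h : ScAd a F) (hπ : ScAdm a π) (t z : ℝ) : |scD 1 F π t z| ≤ 1 := (h.scVt hπ t).lip z

theorem scad_w_pos (h : ScAd a F) (hπ : ScAdm a π) (t z : ℝ) : 0 < scD 2 F π t z := (h.scVt hπ t).pos z

theorem scad_w_le (h : ScAd a F) (hπ : ScAdm a π) (t z : ℝ) : scD 2 F π t z ≤ a * (1 - scD 1 F π t z ^ 2) :=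
  (h.scVt hπ t).hess z

theorem scb_w_le_mass (h : ScAd a F) (hπ : ScAdm a π) (t z : ℝ) : scD 2 F π t z ≤ a := (h.scVt hπ t).hess_le z

theorem scb_u_abs_le_mul (h : ScAd a F) (hπ : ScAdm a π) (t z : ℝ) : |scD 1 F π t z| ≤ a * |z| :=
  (h.scVt hπ t).deriv_abs_le_mul z

theorem scb_u_zero (h : ScAd a F) (hπ : ScAdm a π) (t : ℝ) : scD 1 F π t 0 = 0 := (h.scVt hπ t).deriv_zero

theorem scb_u_odd (h : ScAd a F) (hπ : ScAdm a π) (t z : ℝ) : scD 1 F π t (-z) = - scD 1 F π t z :=
  (h.scVt hπ t).deriv_odd z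

theorem scb_w_even (h : ScAd a F) (hπ : ScAdm a π) (t z : ℝ) : scD 2 F π t (-z) = scD 2 F π t z :=
  (h.scVt hπ t).deriv2_even z

theorem scb_u_pos (h : ScAd a F) (hπ : ScAdm a π) (t : ℝ) {z : ℝ} (hz : 0 < z) : 0 < scD 1 F π t z :=
  (h.scVt hπ t).deriv_pos hz

/-- R4', continuation at time `0` -/
theorem scb_V_hess_ge (h : ScAd a F) (hπ : ScAdm a π) {c : ℝ} (hc : 0 ≤ c)
    (hF : ∀ z, c * scSech a z ≤ deriv (deriv F) z) (z : ℝ) :
    c * Real.exp (-(3 * a ^ 2 * scLen π)) * scSech a z ≤ deriv (deriv (scV F π)) z := by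
  induction π generalizing z with
  | nil => simpa [scLen, Claimed.Agent.R286.scV] using hF z
  | cons p π ih =>
    have hp := hπ p (by simp)
    have hπ1 : ScAdm a π := fun q hq => hπ q (by simp [hq])
    have := scb_step_hess_ge (h.scV hπ1) hp.1 hp.2.1 hp.2.2 (c := c * Real.exp (-(3 * a ^ 2 * scLen π)))
      (by positivity) (ih hπ1) z
    have e : c * Real.exp (-(3 * a ^ 2 * scLen (p :: π)))
        = c * Real.exp (-(3 * a ^ 2 * scLen π)) * Real.exp (-(3 * a ^ 2 * p.2)) := by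
      rw [mul_assoc c, ← Real.exp_add]
      congr 2
      simp only [scLen]
      ring
    rw [e]
    exact this

/-- R4' : `w(t, z) ≥ c e^{-3 a² (len - t)} sech²(a z)` for `t ≤ len` -/
theorem scb_w_ge (h : ScAd a F) (hπ : ScAdm a π) {c : ℝ} (hc : 0 ≤ c)
    (hF : ∀ z, c * scSech a z ≤ deriv (deriv F) z) {t : ℝ} (ht : t ≤ scLen π) (z : ℝ) :
    c * Real.exp (-(3 * a ^ 2 * (scLen π - t))) * scSech a z ≤ scD 2 F π t z := by
  rw [scD_two]
  induction π generalizing t z with
  | nil =>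
    simp only [scLen] at ht ⊢
    have h1 : Real.exp (-(3 * a ^ 2 * (0 - t))) ≤ 1 := by
      apply Real.exp_le_one_iff.2
      nlinarith [sq_nonneg a]
    have h2 := scSech_pos a z
    calc c * Real.exp (-(3 * a ^ 2 * (0 - t))) * scSech a z ≤ c * 1 * scSech a z := by gcongr
      _ = c * scSech a z := by ring
      _ ≤ _ := hF z
  | cons p π ih =>
    have hp := hπ p (by simp)
    have hπ1 : ScAdm a π := fun q hq => hπ q (by simp [hq])
    simp only [scLen] at ht
    by_cases hc' : p.2 ≤ t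
    · have := ih hπ1 (t := t - p.2) (by linarith) z
      have e : scLen (p :: π) - t = scLen π - (t - p.2) := by simp only [scLen]; ring
      rw [e]
      simpa [Claimed.Agent.R286.scVt, hc'] using this
    · have hs : 0 ≤ p.2 - t := by linarith [not_le.1 hc']
      have := scb_step_hess_ge (h.scV hπ1) hp.1 hp.2.1 hs (c := c * Real.exp (-(3 * a ^ 2 * scLen π)))
        (by positivity) (scb_V_hess_ge h hπ1 hc hF) z
      have e : c * Real.exp (-(3 * a ^ 2 * (scLen (p :: π) - t)))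
          = c * Real.exp (-(3 * a ^ 2 * scLen π)) * Real.exp (-(3 * a ^ 2 * (p.2 - t))) := by
        rw [mul_assoc c, ← Real.exp_add]
        congr 2
        simp only [scLen]
        ring
      rw [e]
      simpa [Claimed.Agent.R286.scVt, hc'] using this

end S31

/-- second derivative of the terminal datum -/
theorem sc_logcosh_deriv2 {a : ℝ} (ha : a ≠ 0) (z : ℝ) :
    deriv (deriv (fun z => a⁻¹ * Real.log (Real.cosh (a * z)))) z = a * scSech a z := by
  have hd : ∀ z, HasDerivAt (fun z => a⁻¹ * Real.log (Real.cosh (a * z))) (Real.tanh (a * z)) z := by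
    intro z
    have h1 : HasDerivAt (fun z : ℝ => a * z) a z := by simpa using (hasDerivAt_id z).const_mul a
    have h2 := (Real.hasDerivAt_cosh (a * z)).comp z h1
    have h3 := (h2.log (Real.cosh_pos _).ne').const_mul a⁻¹
    refine h3.congr_deriv ?_
    simp [Real.tanh_eq_sinh_div_cosh]
    field_simp
  have e1 : deriv (fun z => a⁻¹ * Real.log (Real.cosh (a * z))) = fun z => Real.tanh (a * z) :=
    funext fun z => (hd z).deriv
  rw [e1]
  exact (sc_hasDerivAt_tanh_mul a z).deriv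

/-! ## S4.1, S4.2 -/

/-- `Σ (m_i' - m_i) s_i` -/
noncomputable def scGap (π π' : List (ℝ × ℝ)) : ℝ := (List.zipWith (fun p q : ℝ × ℝ => (q.1 - p.1) * p.2) π π').sum

/-- same grid, masses pointwise ordered -/
def ScLe (π π' : List (ℝ × ℝ)) : Prop := List.Forall₂ (fun p q : ℝ × ℝ => p.2 = q.2 ∧ p.1 ≤ q.1) π π'

theorem scGap_nonneg {π π' : List (ℝ × ℝ)} (hR : ScLe π π') (hπ : ScPos π) : 0 ≤ scGap π π' := by
  induction hR with
  | nil => simp [scGap]
  | @cons p q π π' hpq _ ih =>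
    have e3 : scGap (p :: π) (q :: π') = (q.1 - p.1) * p.2 + scGap π π' := by simp [scGap]
    rw [e3]
    have := ih fun r hr => hπ r (by simp [hr])
    have h2 := hπ p (by simp)
    nlinarith [mul_nonneg (sub_nonneg.2 hpq.2) h2]

/-- S4.1 + S4.2 (Guerra): same grid, masses pointwise ordered -/
theorem scb_V_guerra {a : ℝ} {F : ℝ → ℝ} (h : ScAd a F) {π π' : List (ℝ × ℝ)}
    (hR : ScLe π π') (hπ : ScAdm a π) (hπ' : ScAdm a π') :
    ∀ z, scV F π z ≤ scV F π' z ∧ scV F π' z - scV F π z ≤ scGap π π' / 2 := by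
  induction hR with
  | nil => intro z; simp [Claimed.Agent.R286.scV, scGap]
  | @cons p q π π' hpq _ ih =>
    have hp := hπ p (by simp)
    have hπ1 : ScAdm a π := fun r hr => hπ r (by simp [hr])
    have hπ1' : ScAdm a π' := fun r hr => hπ' r (by simp [hr])
    have ih := ih hπ1 hπ1'
    have hG := h.scV hπ1
    have hG' := h.scV hπ1'
    intro z
    have e1 : scV F (p :: π) = scStep p.1 p.2 (scV F π) := rfl
    have e2 : scV F (q :: π') = scStep q.1 p.2 (scV F π') := by rw [hpq.1]; rfl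
    have e3 : scGap (p :: π) (q :: π') = (q.1 - p.1) * p.2 + scGap π π' := by simp [scGap]
    rw [e1, e2, e3]
    have a1 := sc_step_mono (hG.B 1) (hG'.B 1) (fun z => (ih z).1) hp.1 p.2 z
    have a2 := sc_step_mono_mass (hG'.B 1) hp.1 hpq.2 p.2 z
    have a3 := sc_step_lip_mass (hG'.B 3) hG'.lip hp.1 hpq.2 hp.2.2 z
    have a4 := sc_step_contract (hG'.B 1) (hG.B 1) (ε := scGap π π' / 2)
      (fun z => by rw [abs_of_nonneg (sub_nonneg.2 (ih z).1)]; exact (ih z).2) hp.1 p.2 z
    have a5 := (abs_le.1 a4).2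
    constructor
    · exact a1.trans a2
    · nlinarith

/-- the same at every time `t ≥ 0` -/
theorem scb_Vt_guerra {a : ℝ} {F : ℝ → ℝ} (h : ScAd a F) {π π' : List (ℝ × ℝ)}
    (hR : ScLe π π') (hπ : ScAdm a π) (hπ' : ScAdm a π') {t : ℝ} (ht : 0 ≤ t) :
    ∀ z, scVt F π t z ≤ scVt F π' t z ∧ scVt F π' t z - scVt F π t z ≤ scGap π π' / 2 := by
  induction hR generalizing t with
  | nil => intro z; simp [Claimed.Agent.R286.scVt, scGap]
  | @cons p q π π' hpq hR' ih =>
    have hp := hπ p (by simp)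
    have hπ1 : ScAdm a π := fun r hr => hπ r (by simp [hr])
    have hπ1' : ScAdm a π' := fun r hr => hπ' r (by simp [hr])
    have e3 : scGap (p :: π) (q :: π') = (q.1 - p.1) * p.2 + scGap π π' := by simp [scGap]
    have hnn : 0 ≤ (q.1 - p.1) * p.2 := mul_nonneg (sub_nonneg.2 hpq.2) hp.2.2
    intro z
    by_cases hc : p.2 ≤ t
    · have hc' : q.2 ≤ t := hpq.1 ▸ hc
      have := ih hπ1 hπ1' (t := t - p.2) (by linarith) z
      have e1 : scVt F (p :: π) t = scVt F π (t - p.2) := by simp [Claimed.Agent.R286.scVt, hc]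
      have e2 : scVt F (q :: π') t = scVt F π' (t - p.2) := by simp [Claimed.Agent.R286.scVt, hc', hpq.1]
      rw [e1, e2, e3]
      exact ⟨this.1, by linarith [this.2]⟩
    · have hc' : ¬ q.2 ≤ t := hpq.1 ▸ hc
      have hs : 0 ≤ p.2 - t := by linarith [not_le.1 hc]
      have ih := scb_V_guerra h hR' hπ1 hπ1'
      have hG := h.scV hπ1
      have hG' := h.scV hπ1'
      have e1 : scVt F (p :: π) t = scStep p.1 (p.2 - t) (scV F π) := by simp [Claimed.Agent.R286.scVt, hc]
      have e2 : scVt F (q :: π') t = scStep q.1 (p.2 - t) (scV F π') := by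
        simp [Claimed.Agent.R286.scVt, hc', hpq.1]
      rw [e1, e2, e3]
      have a1 := sc_step_mono (hG.B 1) (hG'.B 1) (fun z => (ih z).1) hp.1 (p.2 - t) z
      have a2 := sc_step_mono_mass (hG'.B 1) hp.1 hpq.2 (p.2 - t) z
      have a3 := sc_step_lip_mass (hG'.B 3) hG'.lip hp.1 hpq.2 hs z
      have a4 := sc_step_contract (hG'.B 1) (hG.B 1) (ε := scGap π π' / 2)
        (fun z => by rw [abs_of_nonneg (sub_nonneg.2 (ih z).1)]; exact (ih z).2) hp.1 (p.2 - t) z
      have a5 := (abs_le.1 a4).2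
      constructor
      · exact a1.trans a2
      · nlinarith [mul_nonneg (sub_nonneg.2 hpq.2) ht]

/-! ## exponential sub-solutions (one step, lists) -/

/-- one step: if `κ χ + χ''/2 + m u χ' ≥ 0` for all `|u| ≤ 1` then `E[χ(Z_after) | Z_before = z] ≥ e^{-κ s} χ(z)` -/
theorem scb_tr_exp_ge {a : ℝ} {F : ℝ → ℝ} (h : ScAd a F) {m : ℝ} (hm0 : 0 ≤ m) (hma : m ≤ a) {s : ℝ}
    (hs : 0 ≤ s) {χ : ℝ → ℝ} (hχ : ScE 2 χ) {κ : ℝ}
    (hκ : ∀ u y : ℝ, |u| ≤ 1 → 0 ≤ κ * χ y + deriv (deriv χ) y / 2 + m * u * deriv χ y) (z : ℝ) :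
    Real.exp (-(κ * s)) * χ z ≤ scTr m s F χ z := by
  set E : ℝ → ℝ := fun r => Real.exp (-(κ * (s - r))) with hE
  have hEc : Continuous E := by fun_prop
  have hEb : ∃ C, ∀ r ∈ Icc (0 : ℝ) s, |E r| ≤ C :=
    (isCompact_Icc.exists_bound_of_continuousOn hEc.continuousOn).imp fun C hC r hr => by
      simpa using hC r hr
  have hφ : ScT (Icc 0 s) 2 (fun r y => E r * χ y) := (ScT.of_time hEc.continuousOn hEb 2).mul (hχ.scT _)
  have hφt : ScT (Icc 0 s) 0 (fun r y => κ * (E r * χ y)) :=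
    ((ScT.of_time hEc.continuousOn hEb 0).mul ((hχ.mono (by omega)).scT _)).const_mul _
  have hd : ∀ r ∈ Ioo 0 s, ∀ y, HasDerivAt (fun r => E r * χ y) (κ * (E r * χ y)) r := by
    intro r _ y
    have h1 : HasDerivAt (fun r : ℝ => -(κ * (s - r))) κ r := by
      have := (((hasDerivAt_id r).const_sub s).const_mul κ).fun_neg
      exact this.congr_deriv (by ring)
    exact (h1.exp.mul_const (χ y)).congr_deriv (by simp only [hE]; ring)
  have key := sc_tr_dynkin (h.B 3) m hs hφ hφt hd z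
  have hnn : 0 ≤ ∫ r in (0 : ℝ)..s, scTr m (r - 0) (scStep m (s - r) F)
        (fun y => κ * (E r * χ y) + deriv (deriv (fun y => E r * χ y)) y / 2
          + m * deriv (scStep m (s - r) F) y * deriv (fun y => E r * χ y) y) z := by
    apply intervalIntegral.integral_nonneg hs
    intro r _
    have hH : ScAd a (scStep m (s - r) F) := h.step hm0 hma _
    set H := scStep m (s - r) F
    have e1 : deriv (fun y => E r * χ y) = fun y => E r * deriv χ y :=
      funext fun y => ((hχ.differentiable y).hasDerivAt.const_mul (E r)).deriv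
    have e2 : deriv (deriv (fun y => E r * χ y)) = fun y => E r * deriv (deriv χ) y := by
      rw [e1]
      exact funext fun y => ((hχ.deriv.differentiable y).hasDerivAt.const_mul (E r)).deriv
    rw [e2, e1]
    have hHd : ScE 0 (deriv H) := ((hH.B 2).deriv_bd).of_succ.scE
    have hψ : ScE 0 (fun y => κ * (E r * χ y) + E r * deriv (deriv χ) y / 2
        + m * deriv H y * (E r * deriv χ y)) := by
      have c1 : ScE 0 (fun y => κ * (E r * χ y)) := ((hχ.mono (by omega)).const_mul _).const_mul _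
      have c2 : ScE 0 (fun y => (E r / 2) * deriv (deriv χ) y) := hχ.deriv.deriv.const_mul _
      have c3 : ScE 0 (fun y => (m * E r) * (deriv H y * deriv χ y)) := (hHd.mul hχ.deriv.of_succ).const_mul _
      have := (c1.add c2).add c3
      refine (congrArg (ScE 0) (funext fun y => ?_)).mp this
      ring
    have h0 := sc_tr_mono (hH.B 1) (ScE.const 0 0) hψ (fun y => ?_) m (r - 0) z
    · rwa [sc_tr_const (hH.B 1)] at h0
    · have hEr : 0 < E r := Real.exp_pos _
      have := hκ (deriv H y) y (hH.lip y)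
      have e : κ * (E r * χ y) + E r * deriv (deriv χ) y / 2 + m * deriv H y * (E r * deriv χ y)
          = E r * (κ * χ y + deriv (deriv χ) y / 2 + m * deriv H y * deriv χ y) := by ring
      rw [e]
      positivity
  rw [← key] at hnn
  have e0 : E s = 1 := by simp [hE]
  have e00 : E 0 = Real.exp (-(κ * s)) := by simp [hE]
  simp only [e0, e00, one_mul, sub_zero] at hnn
  have : (fun y => χ y) = χ := rfl
  linarith

/-- lists: the same for the transition `scPt` of an admissible profile (no restriction on `s ≤ t`) -/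
theorem scb_Pt_exp_ge {a : ℝ} {F : ℝ → ℝ} (h : ScAd a F) {π : List (ℝ × ℝ)} (hπ : ScAdm a π)
    {χ : ℝ → ℝ} (hχ : ScE 2 χ) (hχ0 : ∀ y, 0 ≤ χ y) {κ : ℝ} (hκ0 : 0 ≤ κ)
    (hκ : ∀ m u y : ℝ, 0 ≤ m → m ≤ a → |u| ≤ 1 → 0 ≤ κ * χ y + deriv (deriv χ) y / 2 + m * u * deriv χ y)
    {s t : ℝ} (hst : s ≤ t) (z : ℝ) :
    Real.exp (-(κ * (t - s))) * χ z ≤ scPt F π s t χ z := by
  induction π generalizing s t z with
  | nil =>
    have h1 : Real.exp (-(κ * (t - s))) ≤ 1 := by
      apply Real.exp_le_one_iff.2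
      have : 0 ≤ κ * (t - s) := mul_nonneg hκ0 (sub_nonneg.2 hst)
      linarith
    simpa [Claimed.Agent.R286.scPt] using mul_le_of_le_one_left (hχ0 z) h1
  | cons p π ih =>
    have hp := hπ p (by simp)
    have hπ1 : ScAdm a π := fun q hq => hπ q (by simp [hq])
    by_cases hc : p.2 ≤ s
    · have := ih hπ1 (s := s - p.2) (t := t - p.2) (by linarith) z
      have e : t - p.2 - (s - p.2) = t - s := by ring
      rw [e] at this
      simpa [Claimed.Agent.R286.scPt, hc] using this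
    · by_cases hc2 : t ≤ p.2
      · have := scb_tr_exp_ge ((h.scV hπ1).step hp.1 hp.2.1 (p.2 - t)) hp.1 hp.2.1 (sub_nonneg.2 hst) hχ
          (fun u y hu => hκ p.1 u y hp.1 hp.2.1 hu) z
        simpa [Claimed.Agent.R286.scPt, hc, hc2] using this
      · rw [not_le] at hc hc2
        have h1 : ∀ y, Real.exp (-(κ * (t - p.2))) * χ y ≤ scPt F π 0 (t - p.2) χ y := by
          intro y
          have := ih hπ1 (s := 0) (t := t - p.2) (by linarith) y
          simpa using this
        have hV := h.scV hπ1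
        have h2 := sc_tr_mono (hV.B 1) ((hχ.mono (by omega)).const_mul _)
          (sc_Pt_E h.scBI (hχ.mono (by omega) : ScE 0 χ) π 0 (t - p.2)) h1 p.1 (p.2 - s) z
        rw [sc_tr_const_mul] at h2
        have h3 := scb_tr_exp_ge hV hp.1 hp.2.1 (sub_nonneg.2 hc.le) hχ
          (fun u y hu => hκ p.1 u y hp.1 hp.2.1 hu) z
        have h4 := mul_le_mul_of_nonneg_left h3 (Real.exp_pos (-(κ * (t - p.2)))).le
        have e : Real.exp (-(κ * (t - s))) = Real.exp (-(κ * (t - p.2))) * Real.exp (-(κ * (p.2 - s))) := by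
          rw [← Real.exp_add]
          congr 1
          ring
        have e2 : scPt F (p :: π) s t χ z = scTr p.1 (p.2 - s) (scV F π) (scPt F π 0 (t - p.2) χ) z := by
          simp [Claimed.Agent.R286.scPt, not_le.2 hc, not_le.2 hc2]
        rw [e2, e, mul_assoc]
        exact h4.trans h2

/-! ## powers of `sech²` -/

theorem scSech_pow_hasDerivAt (a : ℝ) (p : ℕ) (y : ℝ) :
    HasDerivAt (fun y => scSech a y ^ p) (-2 * p * a * Real.tanh (a * y) * scSech a y ^ p) y := by
  have h := (scSech_hasDerivAt a y).pow p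
  refine h.congr_deriv ?_
  cases p with
  | zero => simp
  | succ p =>
    simp only [Nat.add_sub_cancel, pow_succ]
    ring

theorem scSech_pow_deriv (a : ℝ) (p : ℕ) :
    deriv (fun y => scSech a y ^ p) = fun y => -2 * p * a * Real.tanh (a * y) * scSech a y ^ p :=
  funext fun y => (scSech_pow_hasDerivAt a p y).deriv

theorem scSech_pow_hasDerivAt2 (a : ℝ) (p : ℕ) (y : ℝ) :
    HasDerivAt (fun y => -2 * p * a * Real.tanh (a * y) * scSech a y ^ p)
      (a ^ 2 * (-2 * p + (2 * p + 4 * p ^ 2) * Real.tanh (a * y) ^ 2) * scSech a y ^ p) y := by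
  have h := ((sc_hasDerivAt_tanh_mul a y).const_mul (-2 * p * a)).mul (scSech_pow_hasDerivAt a p y)
  refine h.congr_deriv ?_
  generalize scSech a y ^ p = X
  ring

theorem scSech_pow_deriv2 (a : ℝ) (p : ℕ) :
    deriv (deriv (fun y => scSech a y ^ p)) =
      fun y => a ^ 2 * (-2 * p + (2 * p + 4 * p ^ 2) * Real.tanh (a * y) ^ 2) * scSech a y ^ p := by
  rw [scSech_pow_deriv]
  exact funext fun y => (scSech_pow_hasDerivAt2 a p y).deriv

theorem scSech_Bd (n : ℕ) (a : ℝ) : ScBd n (scSech a) :=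
  ⟨⟨1, fun z => by rw [abs_of_pos (scSech_pos a z)]; exact scSech_le_one a z⟩, scSech_B n a⟩

theorem scSech_pow_Bd (n : ℕ) (a : ℝ) (p : ℕ) : ScBd n (fun y => scSech a y ^ p) := (scSech_Bd n a).pow p

/-- **R15**: `E[sech^{2p}(a Z_t) | Z_s = z] ≥ e^{-3 p a² (t - s)} sech^{2p}(a z)` -/
theorem scb_Pt_sech_pow_ge {a : ℝ} {F : ℝ → ℝ} (h : ScAd a F) {π : List (ℝ × ℝ)} (hπ : ScAdm a π) (p : ℕ)
    {s t : ℝ} (hst : s ≤ t) (z : ℝ) :
    Real.exp (-(3 * p * a ^ 2 * (t - s))) * scSech a z ^ p ≤ scPt F π s t (fun y => scSech a y ^ p) z := by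
  have ha : 0 < a := h.mass_pos
  refine scb_Pt_exp_ge h hπ (scSech_pow_Bd 2 a p).scE (fun y => (pow_pos (scSech_pos a y) p).le)
    (by positivity) (fun m u y hm0 hma hu => ?_) hst z
  rw [scSech_pow_deriv2, scSech_pow_deriv]
  have hχ := pow_pos (scSech_pos a y) p
  have hT := (Real.abs_tanh_lt_one (a * y)).le
  have hprod : u * Real.tanh (a * y) ≤ 1 :=
    (le_abs_self _).trans (by rw [abs_mul]; exact mul_le_one₀ hu (abs_nonneg _) hT)
  have h1 : m * (u * Real.tanh (a * y)) ≤ a := by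
    rcases le_total 0 (u * Real.tanh (a * y)) with hp | hp
    · nlinarith
    · nlinarith
  have hb : 0 ≤ 2 * a ^ 2 + (1 + 2 * (p : ℝ)) * a ^ 2 * Real.tanh (a * y) ^ 2
      - 2 * a * (m * (u * Real.tanh (a * y))) := by
    have : 0 ≤ (1 + 2 * (p : ℝ)) * a ^ 2 * Real.tanh (a * y) ^ 2 := by positivity
    nlinarith
  have e : 3 * (p : ℝ) * a ^ 2 * scSech a y ^ p
      + a ^ 2 * (-2 * p + (2 * p + 4 * (p : ℝ) ^ 2) * Real.tanh (a * y) ^ 2) * scSech a y ^ p / 2
      + m * u * (-2 * p * a * Real.tanh (a * y) * scSech a y ^ p)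
      = p * scSech a y ^ p * (2 * a ^ 2 + (1 + 2 * (p : ℝ)) * a ^ 2 * Real.tanh (a * y) ^ 2
      - 2 * a * (m * (u * Real.tanh (a * y)))) := by ring
  rw [e]
  positivity

/-- uniform positivity of the moments of `w` -/
theorem scb_Ex_w_pow_ge {a : ℝ} {F : ℝ → ℝ} (h : ScAd a F) {π : List (ℝ × ℝ)} (hπ : ScAdm a π) {c : ℝ}
    (hc : 0 ≤ c) (hF : ∀ z, c * scSech a z ≤ deriv (deriv F) z) {t : ℝ} (ht0 : 0 ≤ t) (ht : t ≤ scLen π) (p : ℕ) :
    (c * Real.exp (-(3 * a ^ 2 * scLen π))) ^ p ≤ scEx F π t (fun z => scD 2 F π t z ^ p) := by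
  have hw : ∀ z, (c * Real.exp (-(3 * a ^ 2 * (scLen π - t)))) ^ p * scSech a z ^ p ≤ scD 2 F π t z ^ p := by
    intro z
    rw [← mul_pow]
    exact pow_le_pow_left₀ (by have := scSech_pos a z; positivity) (scb_w_ge h hπ hc hF ht z) p
  have h1 := sc_Pt_mono h.scBI ((scSech_pow_Bd 0 a p).scE.const_mul _)
    (((sc_D_Bd h.scBI 1 0 π t).pow p).scE) hw π 0 t 0
  rw [sc_Pt_const_mul] at h1
  have h2 := scb_Pt_sech_pow_ge h hπ p ht0 0
  have e0 : scSech a 0 = 1 := by simp [scSech]
  rw [e0, one_pow, mul_one, sub_zero] at h2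
  have h3 := mul_le_mul_of_nonneg_left h2
    (by positivity : 0 ≤ (c * Real.exp (-(3 * a ^ 2 * (scLen π - t)))) ^ p)
  have e : (c * Real.exp (-(3 * a ^ 2 * scLen π))) ^ p
      = (c * Real.exp (-(3 * a ^ 2 * (scLen π - t)))) ^ p * Real.exp (-(3 * p * a ^ 2 * t)) := by
    rw [mul_pow, mul_pow, ← Real.exp_nat_mul, ← Real.exp_nat_mul, mul_assoc (c ^ p), ← Real.exp_add]
    congr 2
    ring
  rw [e]
  exact h3.trans h1

/-- first derivative of the terminal datum -/
theorem sc_logcosh_deriv1 {a : ℝ} (ha : a ≠ 0) :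
    deriv (fun z => a⁻¹ * Real.log (Real.cosh (a * z))) = fun z => Real.tanh (a * z) := by
  funext z
  have h1 : HasDerivAt (fun z : ℝ => a * z) a z := by simpa using (hasDerivAt_id z).const_mul a
  have h2 := (Real.hasDerivAt_cosh (a * z)).comp z h1
  have h3 := (h2.log (Real.cosh_pos _).ne').const_mul a⁻¹
  refine (h3.congr_deriv ?_).deriv
  simp [Real.tanh_eq_sinh_div_cosh]
  field_simp

/-! equation lemmas of this file, cited once (rule 6) -/
theorem scb_eqns_cite : True := by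
  have := @scSech.eq_1
  have := @scGap.eq_1
  have := @ScLe.eq_1
  trivial

end Claimed.Agent.R286
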