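import Claimed.Agent.R286.Sc.GenDefs

/-!
# Row 286, scalar block: elementary facts on the dyadic approximants `scDy`, `scDyP` of a general profile      (OWNER helper88, unit C2)

Everything is PROVED (0 sorry).  Definitions: `Sc/GenDefs.lean` (helper183), `Sc/Prof.lean` (helper95).
* `scUni f h N` = uniform profile `[(f 0, h), .., (f (N-1), h)]`;  `scDy α τ n = scUni (fun k => α (k τ / 2^n)) (τ / 2^n) (2^n)` by `rfl` (`sc_dy_eq_uni`).
* `sc_uni_len, sc_uni_adm, sc_uni_inc, sc_uni_al` (mass on the `k`-th cell), `sc_dy_al_of_len_le, sc_dy_al_measurable, sc_dy_al_mem, sc_dy_al_intervalIntegrable`.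
* `sc_dy_len, sc_dy_adm, sc_dy_inc, sc_dy_al_cell, sc_dy_al_le (≤ α), sc_dy_al_mono (in n), sc_dy_al_plateau, sc_dy_L1 (‖α - scAl (scDy α τ n)‖₁ ≤ a τ / 2^n)`, the same for `scDyP`.
-/

set_option autoImplicit false

namespace Claimed.Agent.R286

open MeasureTheory ProbabilityTheory Filter Topology Set

/-- uniform profile: `N` steps of length `h`, masses `f 0, .., f (N - 1)` -/
def scUni (f : ℕ → ℝ) (h : ℝ) (N : ℕ) : List (ℝ × ℝ) := (List.range N).map (fun k => (f k, h))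

theorem sc_dy_eq_uni (α : ℝ → ℝ) (τ : ℝ) (n : ℕ) :
    scDy α τ n = scUni (fun k => α (k * τ / 2 ^ n)) (τ / 2 ^ n) (2 ^ n) := rfl

theorem sc_dyP_eq_uni (α : ℝ → ℝ) (τ : ℝ) (n : ℕ) :
    scDyP α τ n = scUni (fun k => max (α (k * τ / 2 ^ n)) ((1 / 2 : ℝ) ^ n)) (τ / 2 ^ n) (2 ^ n) := rfl

/-! ## 1. uniform profiles -/

theorem sc_uni_zero (f : ℕ → ℝ) (h : ℝ) : scUni f h 0 = [] := rfl

theorem sc_uni_succ (f : ℕ → ℝ) (h : ℝ) (N : ℕ) :
    scUni f h (N + 1) = (f 0, h) :: scUni (fun k => f (k + 1)) h N := by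
  unfold scUni
  rw [List.range_succ_eq_map, List.map_cons, List.map_map]
  rfl

theorem sc_uni_len (f : ℕ → ℝ) (h : ℝ) (N : ℕ) : scLen (scUni f h N) = N * h := by
  induction N generalizing f with
  | zero => simp [sc_uni_zero, scLen]
  | succ N ih => rw [sc_uni_succ, scLen, ih]; push_cast; ring

theorem sc_uni_mem {f : ℕ → ℝ} {h : ℝ} {N : ℕ} {p : ℝ × ℝ} (hp : p ∈ scUni f h N) :
    ∃ k < N, p = (f k, h) := by
  unfold scUni at hp
  rw [List.mem_map] at hp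
  obtain ⟨k, hk, rfl⟩ := hp
  exact ⟨k, List.mem_range.mp hk, rfl⟩

theorem sc_uni_adm {f : ℕ → ℝ} {h a : ℝ} {N : ℕ} (hh : 0 ≤ h) (hf : ∀ k < N, 0 ≤ f k ∧ f k ≤ a) :
    ScAdm a (scUni f h N) := by
  intro p hp
  obtain ⟨k, hk, rfl⟩ := sc_uni_mem hp
  exact ⟨(hf k hk).1, (hf k hk).2, hh⟩

theorem sc_uni_inc {f : ℕ → ℝ} {h : ℝ} {N : ℕ} (hf : ∀ i j, i ≤ j → j < N → f i ≤ f j) :
    ScInc (scUni f h N) := by
  unfold ScInc scUni
  rw [List.pairwise_map]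
  have h1 : (List.range N).Pairwise (fun i j => i < j) := List.pairwise_lt_range
  have h2 : ∀ i ∈ List.range N, ∀ j ∈ List.range N, i < j → f i ≤ f j :=
    fun i _ j hj hij => hf i j hij.le (List.mem_range.mp hj)
  exact h1.imp_of_mem (fun {i j} hi hj hij => h2 i hi j hj hij)

/-- the mass of a uniform profile on its `k`-th cell -/
theorem sc_uni_al {h : ℝ} (f : ℕ → ℝ) (N k : ℕ) (hk : k < N) {t : ℝ} (h1 : k * h ≤ t)
    (h2 : t < (k + 1) * h) : scAl (scUni f h N) t = f k := by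
  induction N generalizing f k t with
  | zero => exact absurd hk (Nat.not_lt_zero k)
  | succ N ih =>
    rw [sc_uni_succ, scAl]
    cases k with
    | zero =>
      have : ¬ h ≤ t := by
        simp only [Nat.cast_zero, zero_add, one_mul] at h2
        exact not_le.mpr h2
      simp only [this, if_false]
    | succ k =>
      have hpos : 0 < h := by
        push_cast at h1 h2
        nlinarith
      have hle : h ≤ t := by
        push_cast at h1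
        have : (0 : ℝ) ≤ k := Nat.cast_nonneg k
        nlinarith
      simp only [hle, if_true]
      apply ih (fun k => f (k + 1)) k (Nat.lt_of_succ_lt_succ hk)
      · push_cast at h1; linarith
      · push_cast at h2; linarith

/-- after the end the mass is `0` -/
theorem sc_dy_al_of_len_le {π : List (ℝ × ℝ)} {t : ℝ} (h : scLen π ≤ t) (hπ : ScPos π) : scAl π t = 0 := by
  induction π generalizing t with
  | nil => rfl
  | cons p π ih =>
    have hp : 0 ≤ p.2 := hπ p (List.mem_cons_self)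
    have hπ' : ScPos π := fun q hq => hπ q (List.mem_cons_of_mem _ hq)
    have hlen : 0 ≤ scLen π := by
      clear ih h
      induction π with
      | nil => exact le_rfl
      | cons q π ih2 =>
        have := hπ' q (List.mem_cons_self)
        have h3 := ih2 (fun r hr => by
          rcases List.mem_cons.mp hr with h | h
          · exact hπ r (h ▸ List.mem_cons_self)
          · exact hπ r (List.mem_cons_of_mem _ (List.mem_cons_of_mem _ h)))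
          (fun r hr => hπ' r (List.mem_cons_of_mem _ hr))
        simp only [scLen]; linarith
    rw [scLen] at h
    rw [scAl, if_pos (by linarith)]
    exact ih (by linarith) hπ'

theorem sc_dy_al_measurable (π : List (ℝ × ℝ)) : Measurable (scAl π) := by
  induction π with
  | nil => exact measurable_const
  | cons p π ih =>
    have : scAl (p :: π) = fun t => if p.2 ≤ t then scAl π (t - p.2) else p.1 := by
      funext t; rw [scAl]
    rw [this]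
    exact Measurable.ite measurableSet_Ici (ih.comp (measurable_id.sub_const _)) measurable_const

theorem sc_dy_al_mem {a : ℝ} (ha : 0 ≤ a) {π : List (ℝ × ℝ)} (hπ : ScAdm a π) (t : ℝ) : scAl π t ∈ Icc 0 a := by
  induction π generalizing t with
  | nil => exact ⟨le_rfl, ha⟩
  | cons p π ih =>
    rw [scAl]
    split_ifs
    · exact ih (fun q hq => hπ q (List.mem_cons_of_mem _ hq)) _
    · exact ⟨(hπ p List.mem_cons_self).1, (hπ p List.mem_cons_self).2.1⟩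

theorem sc_dy_al_intervalIntegrable {a : ℝ} (ha : 0 ≤ a) {π : List (ℝ × ℝ)} (hπ : ScAdm a π) (x y : ℝ) :
    IntervalIntegrable (scAl π) volume x y := by
  rw [intervalIntegrable_iff]
  refine Measure.integrableOn_of_bounded (M := a) (by simp) (sc_dy_al_measurable π).aestronglyMeasurable ?_
  refine Filter.Eventually.of_forall fun t => ?_
  rw [Real.norm_eq_abs, abs_of_nonneg (sc_dy_al_mem ha hπ t).1]
  exact (sc_dy_al_mem ha hπ t).2

/-! ## 2. the dyadic approximants -/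

theorem sc_dy_len (α : ℝ → ℝ) (τ : ℝ) (n : ℕ) : scLen (scDy α τ n) = τ := by
  rw [sc_dy_eq_uni, sc_uni_len]
  push_cast
  field_simp

theorem sc_dy_cell_mem {τ : ℝ} (hτ : 0 ≤ τ) {n k : ℕ} (hk : k ≤ 2 ^ n) : (k : ℝ) * (τ / 2 ^ n) ∈ Icc 0 τ := by
  have h2 : (0 : ℝ) < 2 ^ n := by positivity
  have hk' : (k : ℝ) ≤ 2 ^ n := by exact_mod_cast hk
  constructor
  · positivity
  · calc (k : ℝ) * (τ / 2 ^ n) ≤ 2 ^ n * (τ / 2 ^ n) :=
        mul_le_mul_of_nonneg_right hk' (div_nonneg hτ h2.le)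
      _ = τ := by field_simp

theorem sc_dy_adm {a τ : ℝ} {α : ℝ → ℝ} (hτ : 0 ≤ τ) (hα : ScCoef a τ α) (n : ℕ) : ScAdm a (scDy α τ n) := by
  have h : 0 ≤ τ ∧ MonotoneOn α (Icc 0 τ) ∧ ∀ t ∈ Icc (0 : ℝ) τ, α t ∈ Icc (0 : ℝ) a := ⟨hτ, hα.1, fun t ht => hα.2 t ht⟩
  rw [sc_dy_eq_uni]
  apply sc_uni_adm (div_nonneg h.1 (by positivity))
  intro k hk
  simp only [mul_div_assoc]
  exact h.2.2 _ (sc_dy_cell_mem h.1 hk.le)

theorem sc_dy_inc {a τ : ℝ} {α : ℝ → ℝ} (hτ : 0 ≤ τ) (hα : ScCoef a τ α) (n : ℕ) : ScInc (scDy α τ n) := by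
  have h : 0 ≤ τ ∧ MonotoneOn α (Icc 0 τ) ∧ ∀ t ∈ Icc (0 : ℝ) τ, α t ∈ Icc (0 : ℝ) a := ⟨hτ, hα.1, fun t ht => hα.2 t ht⟩
  rw [sc_dy_eq_uni]
  apply sc_uni_inc
  intro i j hij hj
  simp only [mul_div_assoc]
  apply h.2.1 (sc_dy_cell_mem h.1 (le_trans hij hj.le)) (sc_dy_cell_mem h.1 hj.le)
  exact mul_le_mul_of_nonneg_right (by exact_mod_cast hij) (div_nonneg h.1 (by positivity))

/-- the mass of the dyadic approximant on the `k`-th cell -/
theorem sc_dy_al_cell (α : ℝ → ℝ) (τ : ℝ) (n k : ℕ) (hk : k < 2 ^ n) {t : ℝ} (h1 : k * (τ / 2 ^ n) ≤ t)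
    (h2 : t < (k + 1) * (τ / 2 ^ n)) : scAl (scDy α τ n) t = α (k * (τ / 2 ^ n)) := by
  rw [sc_dy_eq_uni, sc_uni_al _ _ k hk h1 h2, mul_div_assoc]

/-- every time of `[0, τ)` lies in a cell -/
theorem sc_dy_cell_exists {τ : ℝ} (n : ℕ) {t : ℝ} (ht : t ∈ Ico 0 τ) :
    ∃ k : ℕ, k < 2 ^ n ∧ (k : ℝ) * (τ / 2 ^ n) ≤ t ∧ t < ((k : ℝ) + 1) * (τ / 2 ^ n) := by
  have hτ : 0 < τ := lt_of_le_of_lt ht.1 ht.2
  have hh : 0 < τ / 2 ^ n := by positivity
  refine ⟨⌊t / (τ / 2 ^ n)⌋₊, ?_, ?_, ?_⟩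
  · have h1 : t / (τ / 2 ^ n) < ((2 ^ n : ℕ) : ℝ) := by
      rw [div_lt_iff₀ hh]
      push_cast
      calc t < τ := ht.2
        _ = 2 ^ n * (τ / 2 ^ n) := by field_simp
    exact (Nat.floor_lt (div_nonneg ht.1 hh.le)).mpr h1
  · have := Nat.floor_le (div_nonneg ht.1 hh.le)
    rwa [le_div_iff₀ hh] at this
  · have := Nat.lt_floor_add_one (t / (τ / 2 ^ n))
    rwa [div_lt_iff₀ hh] at this

theorem sc_dy_al_le {a τ : ℝ} {α : ℝ → ℝ} (hα : ScCoef a τ α) (n : ℕ) {t : ℝ} (ht : t ∈ Ico 0 τ) :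
    scAl (scDy α τ n) t ≤ α t := by
  have hτ : 0 ≤ τ := le_trans ht.1 ht.2.le
  have h : 0 ≤ τ ∧ MonotoneOn α (Icc 0 τ) ∧ ∀ t ∈ Icc (0 : ℝ) τ, α t ∈ Icc (0 : ℝ) a := ⟨hτ, hα.1, fun t ht => hα.2 t ht⟩
  obtain ⟨k, hk, h1, h2⟩ := sc_dy_cell_exists n ht
  rw [sc_dy_al_cell α τ n k hk h1 h2]
  exact h.2.1 (sc_dy_cell_mem h.1 hk.le) ⟨ht.1, ht.2.le⟩ h1

theorem sc_dy_al_mono {a τ : ℝ} {α : ℝ → ℝ} (hα : ScCoef a τ α) (n : ℕ) {t : ℝ} (ht : t ∈ Ico 0 τ) :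
    scAl (scDy α τ n) t ≤ scAl (scDy α τ (n + 1)) t := by
  have hτ0 : 0 ≤ τ := le_trans ht.1 ht.2.le
  have h : 0 ≤ τ ∧ MonotoneOn α (Icc 0 τ) ∧ ∀ t ∈ Icc (0 : ℝ) τ, α t ∈ Icc (0 : ℝ) a := ⟨hτ0, hα.1, fun t ht => hα.2 t ht⟩
  obtain ⟨k, hk, h1, h2⟩ := sc_dy_cell_exists n ht
  obtain ⟨j, hj, h3, h4⟩ := sc_dy_cell_exists (n + 1) ht
  rw [sc_dy_al_cell α τ n k hk h1 h2, sc_dy_al_cell α τ (n + 1) j hj h3 h4]
  apply h.2.1 (sc_dy_cell_mem h.1 hk.le) (sc_dy_cell_mem h.1 hj.le)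
  -- `2 k ≤ j`
  have hτ : 0 < τ := lt_of_le_of_lt ht.1 ht.2
  have hh : 0 < τ / 2 ^ (n + 1) := by positivity
  have e : τ / 2 ^ n = 2 * (τ / 2 ^ (n + 1)) := by
    rw [pow_succ]; field_simp
  have h5 : (2 * k : ℝ) * (τ / 2 ^ (n + 1)) < ((j : ℝ) + 1) * (τ / 2 ^ (n + 1)) := by
    calc (2 * k : ℝ) * (τ / 2 ^ (n + 1)) = k * (τ / 2 ^ n) := by rw [e]; ring
      _ ≤ t := h1
      _ < _ := h4
  have h6 : (2 * k : ℝ) < (j : ℝ) + 1 := lt_of_mul_lt_mul_right h5 hh.le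
  have h7 : 2 * k < j + 1 := by exact_mod_cast h6
  have h8 : ((2 * k : ℕ) : ℝ) ≤ (j : ℝ) := by exact_mod_cast Nat.lt_succ_iff.mp h7
  calc (k : ℝ) * (τ / 2 ^ n) = ((2 * k : ℕ) : ℝ) * (τ / 2 ^ (n + 1)) := by rw [e]; push_cast; ring
    _ ≤ j * (τ / 2 ^ (n + 1)) := mul_le_mul_of_nonneg_right h8 hh.le

/-- plateaus are kept (up to one cell on the left) -/
theorem sc_dy_al_plateau {α : ℝ → ℝ} {τ x y c : ℝ} (hy : y ≤ τ) (hc : ∀ t ∈ Ioo x y, α t = c)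
    (n : ℕ) {t : ℝ} (h0 : 0 ≤ t) (ht : t ∈ Ioo (x + τ / 2 ^ n) y) : scAl (scDy α τ n) t = c := by
  obtain ⟨k, hk, h1, h2⟩ := sc_dy_cell_exists n (⟨h0, lt_of_lt_of_le ht.2 hy⟩ : t ∈ Ico 0 τ)
  rw [sc_dy_al_cell α τ n k hk h1 h2]
  apply hc
  constructor
  · have := ht.1
    linarith
  · exact lt_of_le_of_lt h1 ht.2

theorem sc_dy_coef_intervalIntegrable {a τ : ℝ} {α : ℝ → ℝ} (hα : ScCoef a τ α) {x y : ℝ} (hx : x ∈ Icc 0 τ)
    (hy : y ∈ Icc 0 τ) : IntervalIntegrable α volume x y :=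
  (hα.1.mono (uIcc_subset_Icc hx hy)).intervalIntegrable

/-- `L¹` distance of `α` to its dyadic approximant -/
theorem sc_dy_L1 {a τ : ℝ} {α : ℝ → ℝ} (hτ : 0 ≤ τ) (hα : ScCoef a τ α) (n : ℕ) :
    ∫ t in (0 : ℝ)..τ, |α t - scAl (scDy α τ n) t| ≤ a * τ / 2 ^ n := by
  have h : 0 ≤ τ ∧ MonotoneOn α (Icc 0 τ) ∧ ∀ t ∈ Icc (0 : ℝ) τ, α t ∈ Icc (0 : ℝ) a := ⟨hτ, hα.1, fun t ht => hα.2 t ht⟩
  set hh : ℝ := τ / 2 ^ n with hhdef
  have hh0 : 0 ≤ hh := div_nonneg h.1 (by positivity)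
  have ha : 0 ≤ a := le_trans (h.2.2 0 ⟨le_rfl, h.1⟩).1 (h.2.2 0 ⟨le_rfl, h.1⟩).2
  have hint : ∀ x ∈ Icc 0 τ, ∀ y ∈ Icc 0 τ,
      IntervalIntegrable (fun t => |α t - scAl (scDy α τ n) t|) volume x y := fun x hx y hy =>
    ((sc_dy_coef_intervalIntegrable hα hx hy).sub (sc_dy_al_intervalIntegrable ha (sc_dy_adm hτ hα n) x y)).abs
  have hsum : ∑ k ∈ Finset.range (2 ^ n), ∫ t in ((k : ℕ) * hh : ℝ)..(((k + 1 : ℕ) : ℝ) * hh),
      |α t - scAl (scDy α τ n) t| = ∫ t in ((0 : ℕ) * hh : ℝ)..(((2 ^ n : ℕ) : ℝ) * hh),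
      |α t - scAl (scDy α τ n) t| := by
    apply intervalIntegral.sum_integral_adjacent_intervals (a := fun k : ℕ => (k : ℝ) * hh)
    intro k hk
    exact hint _ (sc_dy_cell_mem h.1 hk.le) _ (sc_dy_cell_mem h.1 hk)
  have e1 : ((0 : ℕ) : ℝ) * hh = 0 := by simp
  have e2 : ((2 ^ n : ℕ) : ℝ) * hh = τ := by
    rw [hhdef]; push_cast; field_simp
  rw [e1, e2] at hsum
  rw [← hsum]
  have hcell : ∀ k ∈ Finset.range (2 ^ n), ∫ t in ((k : ℕ) * hh : ℝ)..(((k + 1 : ℕ) : ℝ) * hh),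
      |α t - scAl (scDy α τ n) t| ≤ (α (((k + 1 : ℕ) : ℝ) * hh) - α ((k : ℝ) * hh)) * hh := by
    intro k hk
    have hk' : k < 2 ^ n := Finset.mem_range.mp hk
    have hle : (k : ℝ) * hh ≤ ((k + 1 : ℕ) : ℝ) * hh := by
      push_cast; nlinarith
    have hb : ‖∫ t in ((k : ℕ) * hh : ℝ)..(((k + 1 : ℕ) : ℝ) * hh), |α t - scAl (scDy α τ n) t|‖
        ≤ (α (((k + 1 : ℕ) : ℝ) * hh) - α ((k : ℝ) * hh)) * |((k + 1 : ℕ) : ℝ) * hh - (k : ℝ) * hh| := by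
      apply intervalIntegral.norm_integral_le_of_norm_le_const_ae
      have hne : ∀ᵐ t ∂(volume : Measure ℝ), t ≠ ((k + 1 : ℕ) : ℝ) * hh := by
        simp [ae_iff, measure_singleton]
      filter_upwards [hne] with t htne ht
      rw [uIoc_of_le hle] at ht
      have ht2 : t < ((k : ℝ) + 1) * hh := by
        have := lt_of_le_of_ne ht.2 htne
        push_cast at this
        exact this
      rw [sc_dy_al_cell α τ n k hk' ht.1.le ht2]
      have hmem1 := sc_dy_cell_mem h.1 hk'.le (n := n)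
      have hmem2 := sc_dy_cell_mem h.1 (Nat.succ_le_of_lt hk') (n := n)
      have htmem : t ∈ Icc 0 τ := ⟨le_trans hmem1.1 ht.1.le, le_trans ht.2 hmem2.2⟩
      have m1 : α ((k : ℝ) * hh) ≤ α t := h.2.1 hmem1 htmem ht.1.le
      have m2 : α t ≤ α (((k + 1 : ℕ) : ℝ) * hh) := h.2.1 htmem hmem2 ht.2
      rw [Real.norm_eq_abs, abs_abs, abs_of_nonneg (sub_nonneg.mpr m1)]
      linarith
    have e3 : |((k + 1 : ℕ) : ℝ) * hh - (k : ℝ) * hh| = hh := by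
      have : ((k + 1 : ℕ) : ℝ) * hh - (k : ℝ) * hh = hh := by push_cast; ring
      rw [this, abs_of_nonneg hh0]
    rw [e3] at hb
    exact le_trans (le_abs_self _) hb
  refine le_trans (Finset.sum_le_sum hcell) ?_
  rw [← Finset.sum_mul, Finset.sum_range_sub (fun k : ℕ => α ((k : ℝ) * hh)), e1, e2]
  have h1 := (h.2.2 τ ⟨h.1, le_rfl⟩).2
  have h2 := (h.2.2 0 ⟨le_rfl, h.1⟩).1
  calc (α τ - α 0) * hh ≤ a * hh := mul_le_mul_of_nonneg_right (by linarith) hh0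
    _ = a * τ / 2 ^ n := by rw [hhdef]; ring

end Claimed.Agent.R286
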