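/-
R286 / BOX-C / LIMIT KIT (owner helper80).  Mathlib only, no sorry.  Vocabulary free.
 (A) sck_taylor2_abs, sck_landau_h, sck_landau           Landau inequality (FS (2.9), note F01 R6)
 (B) sckE, sckA, sckE_small, sckE_eq, sck_tower_diff      two derivative towers close at order 0 are close at every order
     sck_tower_limit                                      abstract R7(a): limit tower, uniform in a parameter
     sck_limit_abs_le, sck_unif_limit_continuousOn
 (C) sck_gronwall_back, sck_gronwall_fwd                  Gronwall without measurability of m(t) = sup_x |f_k(t,x)| (R4)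
 (D) sck_convexOn_of_tendsto, sck_convexOn_sub_sq, sck_convex_limit, sck_strictConvexOn_of_sub_sq      (R9)
-/
import Mathlib

namespace Claimed.Agent.R286

open Filter Topology Set MeasureTheory


/-- second order Taylor bound, upper side -/
theorem sck_taylor2_abs {f f' f'' : ℝ → ℝ} {M h : ℝ} (hh : 0 ≤ h)
    (h1 : ∀ x, HasDerivAt f (f' x) x) (h2 : ∀ x, HasDerivAt f' (f'' x) x)
    (hM : ∀ x, |f'' x| ≤ M) (x : ℝ) :
    |f (x + h) - f x - h * f' x| ≤ M * h ^ 2 / 2 := by
  have hlip : ∀ s : ℝ, 0 ≤ s → |f' (x + s) - f' x| ≤ M * s := by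
    intro s hs
    have := Convex.norm_image_sub_le_of_norm_hasDerivWithin_le (f := f') (f' := f'') (C := M)
      (s := Set.univ) (x := x) (y := x + s)
      (fun y _ => (h2 y).hasDerivWithinAt) (fun y _ => by simpa using hM y) convex_univ
      (mem_univ _) (mem_univ _)
    simpa [abs_of_nonneg hs] using this
  have hd1 : ∀ s : ℝ, HasDerivAt (fun s => f (x + s) - s * f' x - M * s ^ 2 / 2)
      (f' (x + s) - f' x - M * s) s := by
    intro s
    have a1 : HasDerivAt (fun s => f (x + s)) (f' (x + s)) s := by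
      simpa using (h1 (x + s)).comp_const_add x s
    have a2 : HasDerivAt (fun s : ℝ => s * f' x) (f' x) s := by
      simpa using (hasDerivAt_id s).mul_const (f' x)
    have a3 : HasDerivAt (fun s : ℝ => M * s ^ 2 / 2) (M * s) s := by
      have := ((hasDerivAt_pow 2 s).const_mul M).div_const 2
      have e : M * s = M * (((2:ℕ):ℝ) * s ^ (2 - 1)) / 2 := by
        norm_num
        ring
      rw [e]
      exact this
    exact (a1.sub a2).sub a3
  have hd2 : ∀ s : ℝ, HasDerivAt (fun s => f (x + s) - s * f' x + M * s ^ 2 / 2)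
      (f' (x + s) - f' x + M * s) s := by
    intro s
    have a1 : HasDerivAt (fun s => f (x + s)) (f' (x + s)) s := by
      simpa using (h1 (x + s)).comp_const_add x s
    have a2 : HasDerivAt (fun s : ℝ => s * f' x) (f' x) s := by
      simpa using (hasDerivAt_id s).mul_const (f' x)
    have a3 : HasDerivAt (fun s : ℝ => M * s ^ 2 / 2) (M * s) s := by
      have := ((hasDerivAt_pow 2 s).const_mul M).div_const 2
      have e : M * s = M * (((2:ℕ):ℝ) * s ^ (2 - 1)) / 2 := by
        norm_num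
        ring
      rw [e]
      exact this
    exact (a1.sub a2).add a3
  have hanti : AntitoneOn (fun s => f (x + s) - s * f' x - M * s ^ 2 / 2) (Ici 0) := by
    apply antitoneOn_of_deriv_nonpos (convex_Ici 0)
    · exact fun s _ => (hd1 s).continuousAt.continuousWithinAt
    · exact fun s _ => (hd1 s).differentiableAt.differentiableWithinAt
    · intro s hs
      rw [interior_Ici] at hs
      rw [(hd1 s).deriv]
      have := (abs_le.1 (hlip s (le_of_lt hs))).2
      linarith
  have hmono : MonotoneOn (fun s => f (x + s) - s * f' x + M * s ^ 2 / 2) (Ici 0) := by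
    apply monotoneOn_of_deriv_nonneg (convex_Ici 0)
    · exact fun s _ => (hd2 s).continuousAt.continuousWithinAt
    · exact fun s _ => (hd2 s).differentiableAt.differentiableWithinAt
    · intro s hs
      rw [interior_Ici] at hs
      rw [(hd2 s).deriv]
      have := (abs_le.1 (hlip s (le_of_lt hs))).1
      linarith
  have e1 := hanti (mem_Ici.2 le_rfl) (mem_Ici.2 hh) hh
  have e2 := hmono (mem_Ici.2 le_rfl) (mem_Ici.2 hh) hh
  simp only [add_zero, zero_mul, sub_zero] at e1 e2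
  rw [abs_le]
  constructor <;> nlinarith

/-- (A) Landau inequality, `h`-form (FS (2.9)). -/
theorem sck_landau_h {f f' f'' : ℝ → ℝ} {ε M h : ℝ} (hh : 0 < h)
    (h1 : ∀ x, HasDerivAt f (f' x) x) (h2 : ∀ x, HasDerivAt f' (f'' x) x)
    (hf : ∀ x, |f x| ≤ ε) (hM : ∀ x, |f'' x| ≤ M) (x : ℝ) :
    |f' x| ≤ 2 * ε / h + h * M / 2 := by
  have t := sck_taylor2_abs hh.le h1 h2 hM x
  have a1 := hf (x + h)
  have a2 := hf x
  have key : h * |f' x| ≤ 2 * ε + M * h ^ 2 / 2 := by
    rw [← abs_of_pos hh, ← abs_mul, abs_of_pos hh]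
    rw [abs_le] at t a1 a2 ⊢
    constructor <;> linarith [t.1, t.2, a1.1, a1.2, a2.1, a2.2]
  have : |f' x| ≤ (2 * ε + M * h ^ 2 / 2) / h := by
    rw [le_div_iff₀ hh]; linarith
  calc |f' x| ≤ (2 * ε + M * h ^ 2 / 2) / h := this
    _ = 2 * ε / h + h * M / 2 := by field_simp

/-- (A) Landau inequality, optimised. -/
theorem sck_landau {f f' f'' : ℝ → ℝ} {ε M : ℝ}
    (h1 : ∀ x, HasDerivAt f (f' x) x) (h2 : ∀ x, HasDerivAt f' (f'' x) x)
    (hf : ∀ x, |f x| ≤ ε) (hM : ∀ x, |f'' x| ≤ M) (x : ℝ) :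
    |f' x| ≤ 2 * Real.sqrt (ε * M) := by
  have hε : 0 ≤ ε := le_trans (abs_nonneg _) (hf x)
  have hM0 : 0 ≤ M := le_trans (abs_nonneg _) (hM x)
  rcases hε.eq_or_lt with hε0 | hεp
  · -- f = 0
    have hz : f = fun _ => 0 := by
      funext y; have := hf y; rw [← hε0] at this; exact abs_nonpos_iff.1 this
    have : f' x = 0 := by
      have h := h1 x
      rw [hz] at h
      exact h.unique (hasDerivAt_const x 0)
    rw [this]; simp
  rcases hM0.eq_or_lt with hM1 | hMp
  · have : |f' x| ≤ 0 := by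
      apply le_of_forall_pos_le_add
      intro δ hδ
      have := sck_landau_h (h := 2 * ε / δ) (by positivity) h1 h2 hf hM x
      rw [← hM1] at this
      have e : 2 * ε / (2 * ε / δ) = δ := by field_simp
      rw [e] at this
      linarith
    exact le_trans this (by positivity)
  · have hs : 0 < Real.sqrt (ε * M) := Real.sqrt_pos.2 (by positivity)
    have hsq : Real.sqrt (ε * M) ^ 2 = ε * M := Real.sq_sqrt (by positivity)
    have := sck_landau_h (h := 2 * ε / Real.sqrt (ε * M)) (by positivity) h1 h2 hf hM x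
    have e1 : 2 * ε / (2 * ε / Real.sqrt (ε * M)) = Real.sqrt (ε * M) := by field_simp
    have e2 : 2 * ε / Real.sqrt (ε * M) * M / 2 = Real.sqrt (ε * M) := by
      rw [div_mul_eq_mul_div, div_div, div_eq_iff (by positivity)]
      nlinarith
    rw [e1, e2] at this
    linarith



/-- error ladder of the iterated Landau inequality -/
noncomputable def sckE (C : ℕ → ℝ) (ε : ℝ) : ℕ → ℝ
  | 0 => ε
  | k + 1 => 2 * Real.sqrt (sckE C ε k * (2 * C (k + 2)))

theorem sckE_continuous (C : ℕ → ℝ) (k : ℕ) : Continuous (fun ε => sckE C ε k) := by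
  induction k with
  | zero => exact continuous_id
  | succ k ih =>
    simp only [sckE]
    exact continuous_const.mul (Real.continuous_sqrt.comp (ih.mul continuous_const))

theorem sckE_zero (C : ℕ → ℝ) (k : ℕ) : sckE C 0 k = 0 := by
  induction k with
  | zero => rfl
  | succ k ih => simp [sckE, ih]

theorem sckE_small (C : ℕ → ℝ) (k : ℕ) {δ : ℝ} (hδ : 0 < δ) :
    ∃ η > 0, ∀ ε, |ε| ≤ η → sckE C ε k ≤ δ := by
  have h := (sckE_continuous C k).tendsto 0
  rw [sckE_zero] at h
  rw [Metric.tendsto_nhds_nhds] at h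
  obtain ⟨η, hη, H⟩ := h δ hδ
  refine ⟨η / 2, by positivity, fun ε hε => ?_⟩
  have := H (x := ε) (by simp only [dist_zero_right, Real.norm_eq_abs]; linarith)
  simp only [dist_zero_right, Real.norm_eq_abs] at this
  exact le_trans (le_abs_self _) this.le

/-- explicit rate: `sckE C ε k = a_k ε^(1/2^k)` -/
noncomputable def sckA (C : ℕ → ℝ) : ℕ → ℝ
  | 0 => 1
  | k + 1 => 2 * Real.sqrt (sckA C k * (2 * C (k + 2)))

theorem sckA_nonneg (C : ℕ → ℝ) (k : ℕ) : 0 ≤ sckA C k := by
  cases k with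
  | zero => simp [sckA]
  | succ k => simp only [sckA]; positivity

theorem sckE_eq (C : ℕ → ℝ) {ε : ℝ} (hε : 0 ≤ ε) (k : ℕ) :
    sckE C ε k = sckA C k * ε ^ ((1 / 2 : ℝ) ^ k) := by
  induction k with
  | zero => simp [sckE, sckA]
  | succ k ih =>
    simp only [sckE, sckA, ih]
    have e : sckA C k * ε ^ ((1 / 2 : ℝ) ^ k) * (2 * C (k + 2))
        = ε ^ ((1 / 2 : ℝ) ^ k) * (sckA C k * (2 * C (k + 2))) := by ring
    rw [e, Real.sqrt_mul (by positivity)]
    have e2 : Real.sqrt (ε ^ ((1 / 2 : ℝ) ^ k)) = ε ^ ((1 / 2 : ℝ) ^ (k + 1)) := by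
      rw [Real.sqrt_eq_rpow, ← Real.rpow_mul hε, pow_succ]
    rw [e2]; ring

/-- (B) two derivative towers with the same bounds, close at order `0`, are close at every order. -/
theorem sck_tower_diff {F G : ℕ → ℝ → ℝ} {C : ℕ → ℝ} {ε : ℝ}
    (hF : ∀ k x, HasDerivAt (F k) (F (k + 1) x) x) (hG : ∀ k x, HasDerivAt (G k) (G (k + 1) x) x)
    (bF : ∀ k x, 2 ≤ k → |F k x| ≤ C k) (bG : ∀ k x, 2 ≤ k → |G k x| ≤ C k)
    (h0 : ∀ x, |F 0 x - G 0 x| ≤ ε) : ∀ k x, |F k x - G k x| ≤ sckE C ε k := by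
  intro k
  induction k with
  | zero => exact h0
  | succ k ih =>
    intro x
    have := sck_landau (f := fun x => F k x - G k x) (f' := fun x => F (k + 1) x - G (k + 1) x)
      (f'' := fun x => F (k + 2) x - G (k + 2) x) (ε := sckE C ε k) (M := 2 * C (k + 2))
      (fun x => (hF k x).sub (hG k x)) (fun x => (hF (k + 1) x).sub (hG (k + 1) x)) ih
      (fun x => by
        have a := bF (k + 2) x (by omega)
        have b := bG (k + 2) x (by omega)
        rw [abs_le] at a b ⊢
        constructor <;> linarith [a.1, a.2, b.1, b.2]) x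
    simpa [sckE] using this

/-- (B) abstract limit theorem for derivative towers, uniform in a parameter `t : τ`
(FS Lemma 2.1 / note F01 R7(a)). -/
theorem sck_tower_limit {τ : Type*} {F : ℕ → ℕ → τ → ℝ → ℝ} {C : ℕ → ℝ}
    (hd : ∀ n k t x, HasDerivAt (F n k t) (F n (k + 1) t x) x)
    (hb : ∀ n k t x, 2 ≤ k → |F n k t x| ≤ C k)
    (hc : ∀ ε > 0, ∃ N, ∀ n ≥ N, ∀ m ≥ N, ∀ t x, |F n 0 t x - F m 0 t x| ≤ ε) :
    ∃ G : ℕ → τ → ℝ → ℝ,
      (∀ k, ∀ ε > 0, ∃ N, ∀ n ≥ N, ∀ t x, |F n k t x - G k t x| ≤ ε) ∧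
      (∀ k t x, Tendsto (fun n => F n k t x) atTop (𝓝 (G k t x))) ∧
      (∀ k t x, HasDerivAt (G k t) (G (k + 1) t x) x) := by
  -- uniform Cauchy at each order
  have hC : ∀ k, ∀ δ > 0, ∃ N, ∀ n ≥ N, ∀ m ≥ N, ∀ t x, |F n k t x - F m k t x| ≤ δ := by
    intro k δ hδ
    obtain ⟨η, hη, H⟩ := sckE_small C k hδ
    obtain ⟨N, hN⟩ := hc η hη
    refine ⟨N, fun n hn m hm t x => ?_⟩
    have := sck_tower_diff (F := fun k => F n k t) (G := fun k => F m k t) (C := C) (ε := η)
      (fun k x => hd n k t x) (fun k x => hd m k t x) (fun k x hk => hb n k t x hk)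
      (fun k x hk => hb m k t x hk) (fun x => hN n hn m hm t x) k x
    exact le_trans this (H η (by rw [abs_of_pos hη]))
  have hcs : ∀ k t x, CauchySeq (fun n => F n k t x) := by
    intro k t x
    rw [Metric.cauchySeq_iff']
    intro δ hδ
    obtain ⟨N, hN⟩ := hC k (δ / 2) (by positivity)
    refine ⟨N, fun n hn => ?_⟩
    rw [Real.dist_eq]
    have := hN n hn N le_rfl t x
    linarith
  choose G hG using fun k t x => cauchySeq_tendsto_of_complete (hcs k t x)
  have hU : ∀ k, ∀ ε > 0, ∃ N, ∀ n ≥ N, ∀ t x, |F n k t x - G k t x| ≤ ε := by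
    intro k ε hε
    obtain ⟨N, hN⟩ := hC k ε hε
    refine ⟨N, fun n hn t x => ?_⟩
    have ht : Tendsto (fun m => |F n k t x - F m k t x|) atTop (𝓝 |F n k t x - G k t x|) :=
      (tendsto_const_nhds.sub (hG k t x)).abs
    exact le_of_tendsto ht (eventually_atTop.2 ⟨N, fun m hm => hN n hn m hm t x⟩)
  refine ⟨G, hU, hG, fun k t x => ?_⟩
  have hu : TendstoUniformly (fun n => F n (k + 1) t) (G (k + 1) t) atTop := by
    rw [Metric.tendstoUniformly_iff]
    intro ε hε
    obtain ⟨N, hN⟩ := hU (k + 1) (ε / 2) (by positivity)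
    refine eventually_atTop.2 ⟨N, fun n hn y => ?_⟩
    rw [Real.dist_eq, abs_sub_comm]
    have := hN n hn t y
    linarith
  exact hasDerivAt_of_tendstoUniformly hu (Eventually.of_forall fun n y => hd n k t y)
    (fun y => hG k t y) x

/-- closed pointwise bounds pass to the limit -/
theorem sck_limit_abs_le {u : ℕ → ℝ} {g c : ℝ} (h : Tendsto u atTop (𝓝 g))
    (hb : ∀ᶠ n in atTop, |u n| ≤ c) : |g| ≤ c :=
  le_of_tendsto h.abs hb

/-- uniform limits of continuous functions (on a set) are continuous, `ε`-form -/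
theorem sck_unif_limit_continuousOn {X : Type*} [TopologicalSpace X] {f : ℕ → X → ℝ} {g : X → ℝ}
    {s : Set X} (hc : ∀ n, ContinuousOn (f n) s)
    (hu : ∀ ε > 0, ∃ N, ∀ n ≥ N, ∀ x ∈ s, |f n x - g x| ≤ ε) : ContinuousOn g s := by
  have : TendstoUniformlyOn f g atTop s := by
    rw [Metric.tendstoUniformlyOn_iff]
    intro ε hε
    obtain ⟨N, hN⟩ := hu (ε / 2) (by positivity)
    refine eventually_atTop.2 ⟨N, fun n hn y hy => ?_⟩
    rw [Real.dist_eq, abs_sub_comm]
    have := hN n hn y hy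
    linarith
  exact this.continuousOn (Eventually.of_forall hc).frequently



/-- one Bielecki step -/
theorem sck_gronwall_step {a b c0 κ ρ X : ℝ} {m : ℝ → ℝ} (hκ : 0 ≤ κ) (hρ : 0 ≤ ρ)
    (hc0 : 0 ≤ c0) (hX : 0 ≤ X)
    (h : ∀ t ∈ Icc a b, ∀ μ : ℝ → ℝ, Continuous μ → (∀ r ∈ Icc t b, m r ≤ μ r) →
      m t ≤ c0 + ∫ r in t..b, (κ * μ r + ρ))
    (hm : ∀ t ∈ Icc a b, m t ≤ X * Real.exp (2 * κ * (b - t))) :
    ∀ t ∈ Icc a b, m t ≤ (c0 + ρ * (b - a) + X / 2) * Real.exp (2 * κ * (b - t)) := by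
  intro t ht
  have hμc : Continuous (fun r : ℝ => X * Real.exp (2 * κ * (b - r))) := by fun_prop
  have h1 := h t ht _ hμc (fun r hr => hm r ⟨le_trans ht.1 hr.1, hr.2⟩)
  have hder : ∀ r : ℝ, HasDerivAt (fun r => -(X / 2) * Real.exp (2 * κ * (b - r)) + ρ * r)
      (κ * (X * Real.exp (2 * κ * (b - r))) + ρ) r := by
    intro r
    have i1 : HasDerivAt (fun r : ℝ => 2 * κ * (b - r)) (-(2 * κ)) r := by
      have := ((hasDerivAt_id r).const_sub b).const_mul (2 * κ)
      simpa using this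
    have i2 := (i1.exp.const_mul (-(X / 2))).add ((hasDerivAt_id' r).const_mul ρ)
    exact i2.congr_deriv (by ring)
  have hint : ∫ r in t..b, (κ * (X * Real.exp (2 * κ * (b - r))) + ρ)
      = (-(X / 2) * Real.exp (2 * κ * (b - b)) + ρ * b)
        - (-(X / 2) * Real.exp (2 * κ * (b - t)) + ρ * t) := by
    apply intervalIntegral.integral_eq_sub_of_hasDerivAt (fun r _ => hder r)
    apply Continuous.intervalIntegrable
    fun_prop
  rw [hint] at h1
  simp only [sub_self, mul_zero, Real.exp_zero, mul_one] at h1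
  have hE : 1 ≤ Real.exp (2 * κ * (b - t)) := by
    apply Real.one_le_exp
    have := ht.2
    have : 0 ≤ b - t := by linarith
    positivity
  have hK : 0 ≤ c0 + ρ * (b - a) := by
    have : 0 ≤ b - a := by linarith [ht.1, ht.2]
    positivity
  have h2 : ρ * b - ρ * t ≤ ρ * (b - a) := by nlinarith [ht.1]
  nlinarith

/-- (C) backward Gronwall lemma WITHOUT any measurability of `m` (think of
`m t = sup_x |f_k (t,x)|`): the Duhamel estimate is assumed for every continuous majorant. -/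
theorem sck_gronwall_back {a b c0 κ ρ B : ℝ} {m : ℝ → ℝ} (hκ : 0 ≤ κ) (hρ : 0 ≤ ρ)
    (hc0 : 0 ≤ c0) (hB : ∀ t ∈ Icc a b, m t ≤ B)
    (h : ∀ t ∈ Icc a b, ∀ μ : ℝ → ℝ, Continuous μ → (∀ r ∈ Icc t b, m r ≤ μ r) →
      m t ≤ c0 + ∫ r in t..b, (κ * μ r + ρ)) :
    ∀ t ∈ Icc a b, m t ≤ 2 * (c0 + ρ * (b - a)) * Real.exp (2 * κ * (b - t)) := by
  intro t ht
  have hK : 0 ≤ c0 + ρ * (b - a) := by
    have : 0 ≤ b - a := by linarith [ht.1, ht.2]
    positivity
  have hn : ∀ n : ℕ, ∀ t ∈ Icc a b,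
      m t ≤ (2 * (c0 + ρ * (b - a)) + max B 0 / 2 ^ n) * Real.exp (2 * κ * (b - t)) := by
    intro n
    induction n with
    | zero =>
      intro t ht
      have hE : 1 ≤ Real.exp (2 * κ * (b - t)) := by
        apply Real.one_le_exp
        have : 0 ≤ b - t := by linarith [ht.2]
        positivity
      have h1 := hB t ht
      have h2 : B ≤ max B 0 := le_max_left _ _
      have h3 : 0 ≤ max B 0 := le_max_right _ _
      simp only [pow_zero, div_one]
      nlinarith
    | succ n ih =>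
      intro t ht
      have := sck_gronwall_step hκ hρ hc0
        (X := 2 * (c0 + ρ * (b - a)) + max B 0 / 2 ^ n) (by positivity) h ih t ht
      convert this using 2
      rw [pow_succ]
      field_simp
      ring
  have hlim : Tendsto (fun n : ℕ => (2 * (c0 + ρ * (b - a)) + max B 0 / 2 ^ n)
      * Real.exp (2 * κ * (b - t))) atTop
      (𝓝 ((2 * (c0 + ρ * (b - a)) + 0) * Real.exp (2 * κ * (b - t)))) := by
    apply Tendsto.mul_const
    apply Tendsto.const_add
    have : Tendsto (fun n : ℕ => max B 0 * (1 / 2 : ℝ) ^ n) atTop (𝓝 (max B 0 * 0)) :=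
      (tendsto_pow_atTop_nhds_zero_of_lt_one (by norm_num) (by norm_num)).const_mul _
    simp only [mul_zero] at this
    refine this.congr fun n => ?_
    rw [one_div, inv_pow, div_eq_mul_inv]
  rw [add_zero] at hlim
  exact ge_of_tendsto' hlim (fun n => hn n t ht)

/-- forward version of `sck_gronwall_back` -/
theorem sck_gronwall_fwd {a b c0 κ ρ B : ℝ} {m : ℝ → ℝ} (hκ : 0 ≤ κ) (hρ : 0 ≤ ρ)
    (hc0 : 0 ≤ c0) (hB : ∀ t ∈ Icc a b, m t ≤ B)
    (h : ∀ t ∈ Icc a b, ∀ μ : ℝ → ℝ, Continuous μ → (∀ r ∈ Icc a t, m r ≤ μ r) →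
      m t ≤ c0 + ∫ r in a..t, (κ * μ r + ρ)) :
    ∀ t ∈ Icc a b, m t ≤ 2 * (c0 + ρ * (b - a)) * Real.exp (2 * κ * (t - a)) := by
  intro t ht
  have key := sck_gronwall_back (a := a) (b := b) (m := fun s => m (a + b - s)) hκ hρ hc0
    (B := B) (fun s hs => hB _ ⟨by linarith [hs.2], by linarith [hs.1]⟩)
    (by
      intro s hs μ hμ hle
      have := h (a + b - s) ⟨by linarith [hs.2], by linarith [hs.1]⟩ (fun r => μ (a + b - r))
        (by fun_prop) (fun r hr => by
          have := hle (a + b - r) ⟨by linarith [hr.2], by linarith [hr.1]⟩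
          simpa using this)
      refine le_trans this (le_of_eq ?_)
      congr 1
      have := intervalIntegral.integral_comp_sub_left (a := a) (b := a + b - s)
        (fun r => κ * μ r + ρ) (a + b)
      rw [this]
      congr 1 <;> ring)
    (a + b - t) ⟨by linarith [ht.2], by linarith [ht.1]⟩
  simp only [sub_sub_cancel] at key
  convert key using 3
  ring

/-- (D1) pointwise limits of convex functions are convex -/
theorem sck_convexOn_of_tendsto {s : Set ℝ} {f : ℕ → ℝ → ℝ} {g : ℝ → ℝ} (hs : Convex ℝ s)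
    (hf : ∀ᶠ n in atTop, ConvexOn ℝ s (f n))
    (hl : ∀ x ∈ s, Tendsto (fun n => f n x) atTop (𝓝 (g x))) : ConvexOn ℝ s g := by
  refine ⟨hs, fun x hx y hy p q hp hq hpq => ?_⟩
  have h1 := hl _ (hs hx hy hp hq hpq)
  have h2 : Tendsto (fun n => p • f n x + q • f n y) atTop (𝓝 (p • g x + q • g y)) :=
    ((hl x hx).const_smul p).add ((hl y hy).const_smul q)
  exact le_of_tendsto_of_tendsto h1 h2 (hf.mono fun n hn => hn.2 hx hy hp hq hpq)

/-- (D2) `g'' ≥ κ` on `[a,b]` makes `g - κ t²/2` convex there -/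
theorem sck_convexOn_sub_sq {g g1 g2 : ℝ → ℝ} {a b κ : ℝ}
    (h1 : ∀ t ∈ Icc a b, HasDerivAt g (g1 t) t) (h2 : ∀ t ∈ Icc a b, HasDerivAt g1 (g2 t) t)
    (hκ : ∀ t ∈ Icc a b, κ ≤ g2 t) : ConvexOn ℝ (Icc a b) (fun t => g t - κ / 2 * t ^ 2) := by
  have d1 : ∀ t ∈ Icc a b, HasDerivAt (fun t => g t - κ / 2 * t ^ 2) (g1 t - κ * t) t := by
    intro t ht
    have := (h1 t ht).sub ((hasDerivAt_pow 2 t).const_mul (κ / 2))
    exact this.congr_deriv (by norm_num; ring)
  have d2 : ∀ t ∈ Icc a b, HasDerivAt (fun t => g1 t - κ * t) (g2 t - κ) t := by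
    intro t ht
    have := (h2 t ht).sub ((hasDerivAt_id' t).const_mul κ)
    exact this.congr_deriv (by ring)
  apply MonotoneOn.convexOn_of_deriv (convex_Icc a b)
  · exact fun t ht => (d1 t ht).continuousAt.continuousWithinAt
  · exact fun t ht => (d1 t (interior_subset ht)).differentiableAt.differentiableWithinAt
  · have hm : MonotoneOn (fun t => g1 t - κ * t) (Icc a b) := by
      apply monotoneOn_of_deriv_nonneg (convex_Icc a b)
      · exact fun t ht => (d2 t ht).continuousAt.continuousWithinAt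
      · exact fun t ht => (d2 t (interior_subset ht)).differentiableAt.differentiableWithinAt
      · intro t ht
        rw [(d2 t (interior_subset ht)).deriv]
        linarith [hκ t (interior_subset ht)]
    intro x hx y hy hxy
    rw [(d1 x (interior_subset hx)).deriv, (d1 y (interior_subset hy)).deriv]
    exact hm (interior_subset hx) (interior_subset hy) hxy

/-- (D3) note F01, R9 in abstract form -/
theorem sck_convex_limit {g g1 g2 : ℕ → ℝ → ℝ} {G : ℝ → ℝ} {a b κ : ℝ}
    (h1 : ∀ᶠ n in atTop, ∀ t ∈ Icc a b, HasDerivAt (g n) (g1 n t) t)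
    (h2 : ∀ᶠ n in atTop, ∀ t ∈ Icc a b, HasDerivAt (g1 n) (g2 n t) t)
    (hκ : ∀ᶠ n in atTop, ∀ t ∈ Icc a b, κ ≤ g2 n t)
    (hl : ∀ t ∈ Icc a b, Tendsto (fun n => g n t) atTop (𝓝 (G t))) :
    ConvexOn ℝ (Icc a b) (fun t => G t - κ / 2 * t ^ 2) := by
  apply sck_convexOn_of_tendsto (f := fun n t => g n t - κ / 2 * t ^ 2) (convex_Icc a b)
  · filter_upwards [h1, h2, hκ] with n a1 a2 a3
    exact sck_convexOn_sub_sq a1 a2 a3
  · exact fun t ht => (hl t ht).sub_const _

/-- (D4) -/
theorem sck_strictConvexOn_of_sub_sq {G : ℝ → ℝ} {s : Set ℝ} {κ : ℝ} (hκ : 0 < κ)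
    (h : ConvexOn ℝ s (fun t => G t - κ / 2 * t ^ 2)) : StrictConvexOn ℝ s G := by
  refine ⟨h.1, fun x hx y hy hxy p q hp hq hpq => ?_⟩
  have h1 := h.2 hx hy hp.le hq.le hpq
  simp only [smul_eq_mul] at h1 ⊢
  have hq' : q = 1 - p := by linarith
  subst hq'
  have h2 : 0 < p * (1 - p) * (x - y) ^ 2 := by
    have : 0 < (x - y) ^ 2 := by
      have : x - y ≠ 0 := sub_ne_zero.2 hxy
      positivity
    positivity
  nlinarith

end Claimed.Agent.R286
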