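import Claimed.Agent.R286.Sc.Prof

/-!
# Row 286, scalar block, layer S3.5-S3.7: bounds that do NOT depend on the total variance (`tau`-free bounds)

Owner: helper92 (typed + proved).   Plan: `origin/helper95:notes/R286/B03_helper95.md`, S3.5-S3.7 (trap T-A).

For a profile with NONDECREASING masses in `[0, a]` all space derivatives of the continuation and of the transition
operators are bounded by constants which depend only on `a`, on the order and on the terminal datum: neither on the number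
of steps nor on their lengths.
* `ScN n M φ` : `φ` is `n` times differentiable, `φ, φ', .., φ^(n)` are bounded by `M`, `φ^(n)` continuous.
* `sc_tau_grad` : the GRAD formula (Abel summation in the mass), by list recursion: `scTauS` is the sum over the inner jumps.
* `sc_tau_P` : `∃ K = K(a, n, A)`, `ScN n (K M) (scP F π φ)` for all admissible nondecreasing `π`, `ScN n A F'`, `ScN n M φ`.
* `sc_tau_V`, `sc_tau_D`, `sc_tau_Pt` : the same for `deriv (scV F π)`, `scD (k + 1) F π t`, `scPt F π s t φ`.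
-/

set_option autoImplicit false

namespace Claimed.Agent.R286

open MeasureTheory ProbabilityTheory Filter Topology Set

/-- `φ, φ', .., φ^(n)` exist and are bounded by `M`; the last one is continuous -/
def ScN : ℕ → ℝ → (ℝ → ℝ) → Prop
  | 0, M, φ => Continuous φ ∧ ∀ z, |φ z| ≤ M
  | n + 1, M, φ => (∀ z, |φ z| ≤ M) ∧ Differentiable ℝ φ ∧ ScN n M (deriv φ)

theorem ScN.bd {n : ℕ} {M : ℝ} {φ : ℝ → ℝ} (h : ScN n M φ) (z : ℝ) : |φ z| ≤ M := by
  cases n with
  | zero => exact h.2 z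
  | succ n => exact h.1 z

theorem ScN.nonneg {n : ℕ} {M : ℝ} {φ : ℝ → ℝ} (h : ScN n M φ) : 0 ≤ M := (abs_nonneg _).trans (h.bd 0)

theorem ScN.continuous {n : ℕ} {M : ℝ} {φ : ℝ → ℝ} (h : ScN n M φ) : Continuous φ := by
  cases n with
  | zero => exact h.1
  | succ n => exact h.2.1.continuous

theorem ScN.der {n : ℕ} {M : ℝ} {φ : ℝ → ℝ} (h : ScN (n + 1) M φ) : ScN n M (deriv φ) := h.2.2

theorem ScN.of_succ {n : ℕ} {M : ℝ} {φ : ℝ → ℝ} (h : ScN (n + 1) M φ) : ScN n M φ := by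
  induction n generalizing φ with
  | zero => exact ⟨h.2.1.continuous, h.1⟩
  | succ n ih => exact ⟨h.1, h.2.1, ih h.2.2⟩

theorem ScN.mono {m n : ℕ} (hmn : m ≤ n) {M : ℝ} {φ : ℝ → ℝ} (h : ScN n M φ) : ScN m M φ := by
  induction n, hmn using Nat.le_induction with
  | base => exact h
  | succ n _ ih => exact ih h.of_succ

theorem ScN.weaken {n : ℕ} {M M' : ℝ} (hM : M ≤ M') {φ : ℝ → ℝ} (h : ScN n M φ) : ScN n M' φ := by
  induction n generalizing φ with
  | zero => exact ⟨h.1, fun z => (h.2 z).trans hM⟩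
  | succ n ih => exact ⟨fun z => (h.1 z).trans hM, h.2.1, ih h.2.2⟩

theorem ScN.scB {n : ℕ} {M : ℝ} {φ : ℝ → ℝ} (h : ScN n M φ) : ScB n φ := by
  induction n generalizing φ with
  | zero => exact h.1
  | succ n ih => exact ⟨h.2.1, ⟨M, h.2.2.bd⟩, ih h.2.2⟩

theorem ScN.scBd {n : ℕ} {M : ℝ} {φ : ℝ → ℝ} (h : ScN n M φ) : ScBd n φ := ⟨⟨M, h.bd⟩, h.scB⟩

theorem ScN.scE {n : ℕ} {M : ℝ} {φ : ℝ → ℝ} (h : ScN n M φ) : ScE n φ := h.scBd.scE

theorem ScBd.scN {n : ℕ} {φ : ℝ → ℝ} (h : ScBd n φ) : ∃ M, ScN n M φ := by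
  induction n generalizing φ with
  | zero =>
    obtain ⟨C, hC⟩ := h.1
    exact ⟨C, h.2, hC⟩
  | succ n ih =>
    obtain ⟨C, hC⟩ := h.1
    obtain ⟨M, hM⟩ := ih h.deriv
    exact ⟨max C M, fun z => (hC z).trans (le_max_left _ _), h.2.1, hM.weaken (le_max_right _ _)⟩

theorem ScN.iter {n : ℕ} {M : ℝ} {φ : ℝ → ℝ} (h : ScN n M φ) {k : ℕ} (hk : k ≤ n) (z : ℝ) :
    |deriv^[k] φ z| ≤ M := by
  induction k generalizing n φ with
  | zero => exact h.bd z
  | succ k ih =>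
    obtain ⟨n, rfl⟩ : ∃ n', n = n' + 1 := ⟨n - 1, by omega⟩
    rw [Function.iterate_succ_apply]
    exact ih h.der (by omega)

theorem ScN.const (n : ℕ) (c : ℝ) : ScN n |c| (fun _ => c) := by
  induction n with
  | zero => exact ⟨continuous_const, fun _ => le_rfl⟩
  | succ n ih =>
    refine ⟨fun _ => le_rfl, differentiable_const c, ?_⟩
    have e : deriv (fun _ : ℝ => c) = fun _ => 0 := by ext z; simp
    rw [e]
    clear ih
    induction n with
    | zero => exact ⟨continuous_const, fun _ => by simp⟩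
    | succ n ih =>
      refine ⟨fun _ => by simp, differentiable_const 0, ?_⟩
      have e : deriv (fun _ : ℝ => (0 : ℝ)) = fun _ => 0 := by ext z; simp
      rw [e]
      exact ih

theorem ScN.add {n : ℕ} {M M' : ℝ} {φ ψ : ℝ → ℝ} (hφ : ScN n M φ) (hψ : ScN n M' ψ) :
    ScN n (M + M') (fun z => φ z + ψ z) := by
  induction n generalizing φ ψ with
  | zero => exact ⟨hφ.1.add hψ.1, fun z => (abs_add_le _ _).trans (add_le_add (hφ.2 z) (hψ.2 z))⟩
  | succ n ih =>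
    refine ⟨fun z => (abs_add_le _ _).trans (add_le_add (hφ.1 z) (hψ.1 z)), hφ.2.1.add hψ.2.1, ?_⟩
    have e : deriv (fun z => φ z + ψ z) = fun z => deriv φ z + deriv ψ z := by
      ext z; exact deriv_fun_add (hφ.2.1 z) (hψ.2.1 z)
    rw [e]
    exact ih hφ.2.2 hψ.2.2

theorem ScN.const_mul {n : ℕ} {M : ℝ} {φ : ℝ → ℝ} (c : ℝ) (hφ : ScN n M φ) :
    ScN n (|c| * M) (fun z => c * φ z) := by
  induction n generalizing φ with
  | zero =>
    exact ⟨continuous_const.mul hφ.1, fun z => by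
      rw [abs_mul]; exact mul_le_mul_of_nonneg_left (hφ.2 z) (abs_nonneg _)⟩
  | succ n ih =>
    refine ⟨fun z => by rw [abs_mul]; exact mul_le_mul_of_nonneg_left (hφ.1 z) (abs_nonneg _),
      hφ.2.1.const_mul c, ?_⟩
    have e : deriv (fun z => c * φ z) = fun z => c * deriv φ z := by
      ext z; exact deriv_const_mul c (hφ.2.1 z)
    rw [e]
    exact ih hφ.2.2

theorem ScN.neg {n : ℕ} {M : ℝ} {φ : ℝ → ℝ} (hφ : ScN n M φ) : ScN n M (fun z => - φ z) := by
  simpa using hφ.const_mul (-1)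

theorem ScN.sub {n : ℕ} {M M' : ℝ} {φ ψ : ℝ → ℝ} (hφ : ScN n M φ) (hψ : ScN n M' ψ) :
    ScN n (M + M') (fun z => φ z - ψ z) := by
  simpa [sub_eq_add_neg] using hφ.add hψ.neg

theorem ScN.mul {n : ℕ} {M M' : ℝ} {φ ψ : ℝ → ℝ} (hφ : ScN n M φ) (hψ : ScN n M' ψ) :
    ScN n (2 ^ n * (M * M')) (fun z => φ z * ψ z) := by
  have hM := hφ.nonneg
  have hM' := hψ.nonneg
  induction n generalizing φ ψ with
  | zero =>
    refine ⟨hφ.1.mul hψ.1, fun z => ?_⟩
    rw [abs_mul, pow_zero, one_mul]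
    exact mul_le_mul (hφ.2 z) (hψ.2 z) (abs_nonneg _) hM
  | succ n ih =>
    have h0 : 0 ≤ M * M' := mul_nonneg hM hM'
    refine ⟨fun z => ?_, hφ.2.1.mul hψ.2.1, ?_⟩
    · rw [abs_mul]
      calc |φ z| * |ψ z| ≤ M * M' := mul_le_mul (hφ.1 z) (hψ.1 z) (abs_nonneg _) hM
        _ = 1 * (M * M') := (one_mul _).symm
        _ ≤ 2 ^ (n + 1) * (M * M') := mul_le_mul_of_nonneg_right (one_le_pow₀ (by norm_num)) h0
    · have e : deriv (fun z => φ z * ψ z) = fun z => deriv φ z * ψ z + φ z * deriv ψ z := by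
        ext z; exact deriv_fun_mul (hφ.2.1 z) (hψ.2.1 z)
      rw [e]
      have := (ih hφ.2.2 hψ.of_succ).add (ih hφ.of_succ hψ.2.2)
      refine this.weaken (le_of_eq ?_)
      ring

/-! ## the transition operator of a list: elementary facts -/

theorem sc_tau_V1 {F : ℝ → ℝ} (hF : ScBI F) (π : List (ℝ × ℝ)) (n : ℕ) : ScB n (scV F π) := sc_V_BI hF π n

theorem sc_tau_P_Bd {n : ℕ} {F φ : ℝ → ℝ} (hF : ScBI F) (hφ : ScBd n φ) (π : List (ℝ × ℝ)) :
    ScBd n (scP F π φ) := by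
  induction π with
  | nil => exact hφ
  | cons p π ih => exact sc_tr_Bd (sc_V_BI hF π (n + 1)) ih p.1 p.2

theorem sc_tau_P_abs_le {F φ : ℝ → ℝ} (hF : ScBI F) (hφ : Continuous φ) {C : ℝ} (h : ∀ z, |φ z| ≤ C)
    (π : List (ℝ × ℝ)) : Continuous (scP F π φ) ∧ ∀ z, |scP F π φ z| ≤ C := by
  induction π with
  | nil => exact ⟨hφ, h⟩
  | cons p π ih =>
    have hb : ScBd 0 (scP F π φ) := ⟨⟨C, ih.2⟩, ih.1⟩
    exact ⟨(sc_tr_Bd (sc_V_BI hF π 1) hb p.1 p.2).2, fun z => sc_tr_abs_le (sc_V_BI hF π 1) ih.1 ih.2 p.1 p.2 z⟩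

theorem sc_tau_P_add {F φ ψ : ℝ → ℝ} (hF : ScBI F) (hφ : ScBd 0 φ) (hψ : ScBd 0 ψ) (π : List (ℝ × ℝ)) :
    scP F π (fun z => φ z + ψ z) = fun z => scP F π φ z + scP F π ψ z := by
  induction π with
  | nil => rfl
  | cons p π ih =>
    show scTr p.1 p.2 (scV F π) (scP F π fun z => φ z + ψ z) = _
    rw [ih, sc_tr_add (sc_V_BI hF π 1) (sc_tau_P_Bd hF hφ π).scE (sc_tau_P_Bd hF hψ π).scE]
    rfl

theorem sc_tau_P_const_mul (F φ : ℝ → ℝ) (c : ℝ) (π : List (ℝ × ℝ)) :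
    scP F π (fun z => c * φ z) = fun z => c * scP F π φ z := by
  induction π with
  | nil => rfl
  | cons p π ih =>
    show scTr p.1 p.2 (scV F π) (scP F π fun z => c * φ z) = _
    rw [ih, sc_tr_const_mul]
    rfl

/-! ## the GRAD formula -/

/-- the first mass -/
def scMf : List (ℝ × ℝ) → ℝ
  | [] => 0
  | p :: _ => p.1

/-- the last mass -/
def scMl : List (ℝ × ℝ) → ℝ
  | [] => 0
  | [p] => p.1
  | _ :: q :: π => scMl (q :: π)

/-- the covariance-type function at the start of `π` -/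
noncomputable def scTauG (F φ : ℝ → ℝ) (π : List (ℝ × ℝ)) (z : ℝ) : ℝ := scP F π φ z * deriv (scV F π) z

/-- the sum over the inner jumps of the mass -/
noncomputable def scTauS (F φ : ℝ → ℝ) : List (ℝ × ℝ) → ℝ → ℝ
  | [] => fun _ => 0
  | [_] => fun _ => 0
  | p :: q :: π => scTr p.1 p.2 (scV F (q :: π))
      (fun y => (q.1 - p.1) * scTauG F φ (q :: π) y + scTauS F φ (q :: π) y)

theorem sc_tau_G_Bd {n : ℕ} {F φ : ℝ → ℝ} (hF : ScBI F) (hφ : ScBd n φ) (π : List (ℝ × ℝ)) :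
    ScBd n (scTauG F φ π) :=
  (sc_tau_P_Bd hF hφ π).mul (sc_V_BI hF π (n + 1)).deriv_bd

theorem sc_tau_S_Bd {n : ℕ} {F φ : ℝ → ℝ} (hF : ScBI F) (hφ : ScBd n φ) (π : List (ℝ × ℝ)) :
    ScBd n (scTauS F φ π) := by
  induction π with
  | nil => exact ScBd.const n 0
  | cons p π ih =>
    cases π with
    | nil => exact ScBd.const n 0
    | cons q π =>
      exact sc_tr_Bd (sc_V_BI hF (q :: π) (n + 1)) (((sc_tau_G_Bd hF hφ (q :: π)).const_mul _).add ih) p.1 p.2

/-- **GRAD**: `∂ P φ = P φ' + m_last P[φ F'] - m_first (P φ) u - Σ_jumps Δm P_{0,j}[(P_{j,end} φ) u_j]` -/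
theorem sc_tau_grad {F φ : ℝ → ℝ} (hF : ScBI F) (hφ : ScBd 1 φ) (π : List (ℝ × ℝ)) :
    deriv (scP F π φ) = fun z => scP F π (deriv φ) z + scMl π * scP F π (fun y => φ y * deriv F y) z
      - scMf π * scTauG F φ π z - scTauS F φ π z := by
  have hF' : ScBd 0 (deriv F) := (hF 1).deriv_bd
  have hφ0 : ScBd 0 φ := hφ.of_succ
  induction π with
  | nil =>
    funext z
    simp [scP, scMl, scMf, scTauS]
  | cons p π ih =>
    have hV1 : ScB 1 (scV F π) := sc_V_BI hF π 1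
    have hψ : ScBd 1 (scP F π φ) := sc_tau_P_Bd hF hφ π
    have h1 : deriv (scP F (p :: π) φ) = _ := sc_tr_deriv_eq hV1 hψ.scE p.1 p.2
    rw [h1]
    have hu : deriv (scV F (p :: π)) = scTr p.1 p.2 (scV F π) (deriv (scV F π)) := sc_step_deriv hV1 p.1 p.2
    cases π with
    | nil =>
      funext z
      simp only [scP, scMl, scMf, scTauS, scTauG, scV] at hu ⊢
      rw [hu]
      ring
    | cons q π =>
      rw [ih]
      have a1 : ScE 0 (scP F (q :: π) (deriv φ)) := (sc_tau_P_Bd hF hφ.deriv (q :: π)).scE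
      have a2 : ScE 0 (scP F (q :: π) (fun y => φ y * deriv F y)) :=
        (sc_tau_P_Bd hF (hφ0.mul hF') (q :: π)).scE
      have a3 : ScE 0 (scTauG F φ (q :: π)) := (sc_tau_G_Bd hF hφ0 (q :: π)).scE
      have a4 : ScE 0 (scTauS F φ (q :: π)) := (sc_tau_S_Bd hF hφ0 (q :: π)).scE
      have e1 : scTr p.1 p.2 (scV F (q :: π)) (fun z => scP F (q :: π) (deriv φ) z
            + scMl (q :: π) * scP F (q :: π) (fun y => φ y * deriv F y) z
            - scMf (q :: π) * scTauG F φ (q :: π) z - scTauS F φ (q :: π) z)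
          = fun z => scTr p.1 p.2 (scV F (q :: π)) (scP F (q :: π) (deriv φ)) z
            + scMl (q :: π) * scTr p.1 p.2 (scV F (q :: π)) (scP F (q :: π) (fun y => φ y * deriv F y)) z
            - scMf (q :: π) * scTr p.1 p.2 (scV F (q :: π)) (scTauG F φ (q :: π)) z
            - scTr p.1 p.2 (scV F (q :: π)) (scTauS F φ (q :: π)) z := by
        rw [sc_tr_sub hV1 ((a1.add (a2.const_mul _)).sub (a3.const_mul _)) a4,
          sc_tr_sub hV1 (a1.add (a2.const_mul _)) (a3.const_mul _),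
          sc_tr_add hV1 a1 (a2.const_mul _), sc_tr_const_mul, sc_tr_const_mul]
      have e2 : scTauS F φ (p :: q :: π) = fun z => (q.1 - p.1) * scTr p.1 p.2 (scV F (q :: π)) (scTauG F φ (q :: π)) z
            + scTr p.1 p.2 (scV F (q :: π)) (scTauS F φ (q :: π)) z := by
        show scTr p.1 p.2 (scV F (q :: π)) (fun y => (q.1 - p.1) * scTauG F φ (q :: π) y + scTauS F φ (q :: π) y) = _
        rw [sc_tr_add hV1 (a3.const_mul _) a4, sc_tr_const_mul]
      rw [e1, e2]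
      funext z
      have e3 : scTauG F φ (p :: q :: π) z
          = scTr p.1 p.2 (scV F (q :: π)) (scP F (q :: π) φ) z * scTr p.1 p.2 (scV F (q :: π)) (deriv (scV F (q :: π))) z := by
        unfold scTauG
        rw [hu]
        rfl
      rw [e3]
      have e4 : (fun y => scP F (q :: π) φ y * deriv (scV F (q :: π)) y) = scTauG F φ (q :: π) := rfl
      rw [e4]
      simp only [scP, scMl, scMf]
      ring

/-! ## the masses -/

theorem sc_tau_Mf_nonneg {a : ℝ} {π : List (ℝ × ℝ)} (h : ScAdm a π) : 0 ≤ scMf π := by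
  cases π with
  | nil => exact le_rfl
  | cons p π => exact (h p (by simp)).1

theorem sc_tau_Ml_le {a : ℝ} (ha : 0 ≤ a) {π : List (ℝ × ℝ)} (h : ScAdm a π) : scMl π ≤ a := by
  induction π with
  | nil => exact ha
  | cons p π ih =>
    cases π with
    | nil => exact (h p (by simp)).2.1
    | cons q π => exact ih h.of_cons

theorem sc_tau_Mf_le_Ml {π : List (ℝ × ℝ)} (h : ScInc π) : scMf π ≤ scMl π := by
  induction π with
  | nil => exact le_rfl
  | cons p π ih =>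
    cases π with
    | nil => exact le_rfl
    | cons q π =>
      have h1 : p.1 ≤ q.1 := (List.pairwise_cons.1 h).1 q (by simp)
      exact h1.trans (ih h.of_cons)

theorem sc_tau_adm_sublist {a : ℝ} {π ρ : List (ℝ × ℝ)} (h : ScAdm a π) (hs : ρ.Sublist π) : ScAdm a ρ :=
  fun p hp => h p (hs.subset hp)

theorem sc_tau_inc_sublist {π ρ : List (ℝ × ℝ)} (h : ScInc π) (hs : ρ.Sublist π) : ScInc ρ :=
  List.Pairwise.sublist hs h

/-! ## the bound of the sum over the jumps -/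

theorem sc_tau_S_bound {n : ℕ} {a A' K2 B : ℝ} (_hK2 : 0 ≤ K2)
    (H : ∀ (F' : ℝ → ℝ) (ρ : List (ℝ × ℝ)) (ψ : ℝ → ℝ) (M : ℝ), ScBI F' → ScN n A' (deriv F') → ScAdm a ρ → ScInc ρ →
      ScN n M ψ → ScN n (K2 * M) (scP F' ρ ψ))
    {F φ : ℝ → ℝ} (hF : ScBI F) (hφ : ScBd 0 φ)
    (hV : ∀ π', ScAdm a π' → ScInc π' → ScN n A' (deriv (scV F π')))
    (hG : ∀ π', ScAdm a π' → ScInc π' → ScN n B (scTauG F φ π')) :
    ∀ π ρ : List (ℝ × ℝ), ScAdm a (ρ ++ π) → ScInc (ρ ++ π) →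
      ScN n (K2 * B * (scMl π - scMf π)) (scP (scV F π) ρ (scTauS F φ π)) := by
  have hB : 0 ≤ B := (hG [] (fun p hp => by simp at hp) List.Pairwise.nil).nonneg
  intro π
  induction π with
  | nil =>
    intro ρ h1 h2
    have := H (scV F []) ρ (fun _ => 0) |0| (sc_V_BI hF []) (hV [] (fun p hp => by simp at hp) List.Pairwise.nil)
      (sc_tau_adm_sublist h1 (List.sublist_append_left _ _)) (sc_tau_inc_sublist h2 (List.sublist_append_left _ _))
      (ScN.const n 0)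
    refine this.weaken (le_of_eq ?_)
    simp [scMl, scMf]
  | cons p π ih =>
    intro ρ h1 h2
    have h1s : ScAdm a (p :: π) := sc_tau_adm_sublist h1 (List.sublist_append_right _ _)
    have h2s : ScInc (p :: π) := sc_tau_inc_sublist h2 (List.sublist_append_right _ _)
    cases π with
    | nil =>
      have := H (scV F [p]) ρ (fun _ => 0) |0| (sc_V_BI hF [p]) (hV [p] h1s h2s)
        (sc_tau_adm_sublist h1 (List.sublist_append_left _ _)) (sc_tau_inc_sublist h2 (List.sublist_append_left _ _))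
        (ScN.const n 0)
      refine this.weaken (le_of_eq ?_)
      simp [scMl, scMf]
    | cons q π =>
      have hpre : (ρ ++ [p]).Sublist (ρ ++ p :: q :: π) := List.IsPrefix.sublist ⟨q :: π, by simp⟩
      have h1p : ScAdm a (ρ ++ [p]) := sc_tau_adm_sublist h1 hpre
      have h2p : ScInc (ρ ++ [p]) := sc_tau_inc_sublist h2 hpre
      have hpq : p.1 ≤ q.1 := (List.pairwise_cons.1 h2s).1 q (by simp)
      have hBI : ScBI (scV F (q :: π)) := sc_V_BI hF (q :: π)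
      have e0 : scP (scV F (p :: q :: π)) ρ (scTauS F φ (p :: q :: π))
          = scP (scV F (q :: π)) (ρ ++ [p])
              (fun y => (q.1 - p.1) * scTauG F φ (q :: π) y + scTauS F φ (q :: π) y) := by
        rw [sc_P_append]
        rfl
      have e1 : scP (scV F (q :: π)) (ρ ++ [p])
              (fun y => (q.1 - p.1) * scTauG F φ (q :: π) y + scTauS F φ (q :: π) y)
          = fun z => (q.1 - p.1) * scP (scV F (q :: π)) (ρ ++ [p]) (scTauG F φ (q :: π)) z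
              + scP (scV F (q :: π)) (ρ ++ [p]) (scTauS F φ (q :: π)) z := by
        rw [sc_tau_P_add hBI ((sc_tau_G_Bd hF hφ (q :: π)).const_mul _) (sc_tau_S_Bd hF hφ (q :: π)),
          sc_tau_P_const_mul]
      rw [e0, e1]
      have t1 := (H (scV F (q :: π)) (ρ ++ [p]) (scTauG F φ (q :: π)) B hBI (hV _ h1s.of_cons h2s.of_cons) h1p h2p
        (hG _ h1s.of_cons h2s.of_cons)).const_mul (q.1 - p.1)
      have t2 := ih (ρ ++ [p]) (by simpa using h1) (by simpa using h2)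
      refine (t1.add t2).weaken (le_of_eq ?_)
      rw [abs_of_nonneg (sub_nonneg.2 hpq)]
      simp only [scMl, scMf]
      ring

/-! ## the main theorem -/

/-- **tau-free bound of the transition operators** -/
theorem sc_tau_P {a : ℝ} (ha : 0 ≤ a) (n : ℕ) : ∀ A : ℝ, 0 ≤ A → ∃ K : ℝ, 1 ≤ K ∧
    ∀ (F : ℝ → ℝ) (π : List (ℝ × ℝ)) (φ : ℝ → ℝ) (M : ℝ), ScBI F → ScN n A (deriv F) → ScAdm a π → ScInc π →
      ScN n M φ → ScN n (K * M) (scP F π φ) := by
  induction n with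
  | zero =>
    intro A _
    refine ⟨1, le_rfl, fun F π φ M hF _ _ _ hφ => ?_⟩
    rw [one_mul]
    exact sc_tau_P_abs_le hF hφ.1 hφ.2 π
  | succ n ih =>
    intro A hA
    obtain ⟨K1, hK1, H1⟩ := ih A hA
    have hK10 : 0 ≤ K1 := zero_le_one.trans hK1
    obtain ⟨K2, hK2, H2⟩ := ih (K1 * A) (mul_nonneg hK10 hA)
    have hK20 : 0 ≤ K2 := zero_le_one.trans hK2
    set c2 : ℝ := K1 * (2 ^ n * A) with hc2
    set c3 : ℝ := 2 ^ n * (K1 * (K1 * A)) with hc3
    have hc2n : 0 ≤ c2 := by positivity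
    have hc3n : 0 ≤ c3 := by positivity
    refine ⟨1 + K1 + a * c2 + a * c3 + a * (K2 * c3), ?_, fun F π φ M hF hF' hπ hi hφ => ?_⟩
    · have : 0 ≤ a * c2 + a * c3 + a * (K2 * c3) := by positivity
      linarith
    have hM : 0 ≤ M := hφ.nonneg
    have hFn : ScN n A (deriv F) := hF'.of_succ
    have hV : ∀ π', ScAdm a π' → ScInc π' → ScN n (K1 * A) (deriv (scV F π')) := by
      intro π' h1 h2
      rw [sc_V_deriv hF]
      exact H1 F π' (deriv F) A hF hFn h1 h2 hFn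
    have hP : ∀ π', ScAdm a π' → ScInc π' → ScN n (K1 * M) (scP F π' φ) :=
      fun π' h1 h2 => H1 F π' φ M hF hFn h1 h2 hφ.of_succ
    have hG : ∀ π', ScAdm a π' → ScInc π' → ScN n (2 ^ n * (K1 * M * (K1 * A))) (scTauG F φ π') :=
      fun π' h1 h2 => (hP π' h1 h2).mul (hV π' h1 h2)
    have hb := sc_tau_P_abs_le hF hφ.continuous hφ.bd π
    have hBd : ScBd 1 (scP F π φ) := sc_tau_P_Bd hF (hφ.scBd.2.mono (by omega) |> fun h => ⟨hφ.scBd.1, h⟩) π
    have hK : (1 : ℝ) ≤ 1 + K1 + a * c2 + a * c3 + a * (K2 * c3) := by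
      have : 0 ≤ a * c2 + a * c3 + a * (K2 * c3) := by positivity
      linarith
    refine ⟨fun z => (hb.2 z).trans ?_, hBd.2.1, ?_⟩
    · calc M = 1 * M := (one_mul M).symm
        _ ≤ _ := mul_le_mul_of_nonneg_right hK hM
    rw [sc_tau_grad hF ⟨hφ.scBd.1, hφ.scBd.2.mono (by omega)⟩ π]
    have t1 : ScN n (K1 * M) (scP F π (deriv φ)) := H1 F π _ M hF hFn hπ hi hφ.der
    have t2 := (H1 F π _ _ hF hFn hπ hi (hφ.of_succ.mul hFn)).const_mul (scMl π)
    have t3 := (hG π hπ hi).const_mul (scMf π)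
    have t4 := sc_tau_S_bound hK20 H2 hF ⟨hφ.scBd.1, hφ.continuous⟩ hV hG π [] (by simpa using hπ) (by simpa using hi)
    have hf0 := sc_tau_Mf_nonneg hπ
    have hfl := sc_tau_Mf_le_Ml hi
    have hla := sc_tau_Ml_le ha hπ
    refine (((t1.add t2).sub t3).sub t4).weaken ?_
    rw [abs_of_nonneg (hf0.trans hfl), abs_of_nonneg hf0]
    have e : K1 * M + scMl π * (K1 * (2 ^ n * (M * A))) + scMf π * (2 ^ n * (K1 * M * (K1 * A)))
        + K2 * (2 ^ n * (K1 * M * (K1 * A))) * (scMl π - scMf π)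
        = M * (K1 + scMl π * c2 + scMf π * c3 + (scMl π - scMf π) * (K2 * c3)) := by
      rw [hc2, hc3]; ring
    rw [e, mul_comm _ M]
    refine mul_le_mul_of_nonneg_left ?_ hM
    have i1 : scMl π * c2 ≤ a * c2 := mul_le_mul_of_nonneg_right hla hc2n
    have i2 : scMf π * c3 ≤ a * c3 := mul_le_mul_of_nonneg_right (hfl.trans hla) hc3n
    have i3 : (scMl π - scMf π) * (K2 * c3) ≤ a * (K2 * c3) :=
      mul_le_mul_of_nonneg_right (by linarith) (by positivity)
    linarith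

/-- **tau-free bound of the continuation** -/
theorem sc_tau_V {a : ℝ} (ha : 0 ≤ a) (n : ℕ) {A : ℝ} (hA : 0 ≤ A) : ∃ C : ℝ, 0 ≤ C ∧
    ∀ (F : ℝ → ℝ) (π : List (ℝ × ℝ)), ScBI F → ScN n A (deriv F) → ScAdm a π → ScInc π →
      ScN n C (deriv (scV F π)) := by
  obtain ⟨K, hK, H⟩ := sc_tau_P ha n A hA
  refine ⟨K * A, mul_nonneg (zero_le_one.trans hK) hA, fun F π hF hF' hπ hi => ?_⟩
  rw [sc_V_deriv hF]
  exact H F π _ A hF hF' hπ hi hF'

/-- **tau-free bound of `∂_z^k V(t, ·)`, `1 ≤ k ≤ n + 1`** -/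
theorem sc_tau_D {a : ℝ} (ha : 0 ≤ a) (n : ℕ) {A : ℝ} (hA : 0 ≤ A) : ∃ C : ℝ, 0 ≤ C ∧
    ∀ (F : ℝ → ℝ) (π : List (ℝ × ℝ)), ScBI F → ScN n A (deriv F) → ScAdm a π → ScInc π →
      ∀ k ≤ n, ∀ t z, |scD (k + 1) F π t z| ≤ C := by
  obtain ⟨C, hC, H⟩ := sc_tau_V ha n hA
  refine ⟨C, hC, fun F π hF hF' hπ hi k hk t z => ?_⟩
  have := H F (scAfter π t) hF hF' (sc_after_adm hπ t) (sc_after_inc hi t)
  unfold scD
  rw [sc_Vt_after, Function.iterate_succ_apply]
  exact this.iter hk z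

/-- **tau-free bound of the transition operators `P_{s,t}`** -/
theorem sc_tau_Pt {a : ℝ} (ha : 0 ≤ a) (n : ℕ) {A : ℝ} (hA : 0 ≤ A) : ∃ K : ℝ, 1 ≤ K ∧
    ∀ (F : ℝ → ℝ) (π : List (ℝ × ℝ)) (φ : ℝ → ℝ) (M : ℝ), ScBI F → ScN n A (deriv F) → ScAdm a π → ScInc π →
      ScN n M φ → ∀ s t, ScN n (K * M) (scPt F π s t φ) := by
  obtain ⟨C, hC, HV⟩ := sc_tau_V ha n hA
  obtain ⟨K, hK, H⟩ := sc_tau_P ha n C hC
  refine ⟨K, hK, fun F π φ M hF hF' hπ hi hφ s t => ?_⟩
  rcases le_total t s with hts | hst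
  · rw [sc_Pt_of_le F π hts]
    refine hφ.weaken ?_
    calc M = 1 * M := (one_mul M).symm
      _ ≤ K * M := mul_le_mul_of_nonneg_right hK hφ.nonneg
  · rw [sc_Pt_eq_P hF hπ.pos hst]
    refine H _ _ φ M (sc_Vt_BI hF π t) ?_ (sc_upto_adm (sc_after_adm hπ s) (sub_nonneg.2 hst))
      (sc_upto_inc (sc_after_inc hi s) _) hφ
    rw [sc_Vt_after]
    exact HV F _ hF hF' (sc_after_adm hπ t) (sc_after_inc hi t)

/-- the terminal datum `a⁻¹ log cosh (a z)` -/
theorem sc_tau_logcosh (n : ℕ) (a : ℝ) : ∃ A : ℝ, 0 ≤ A ∧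
    ScN n A (deriv (fun z => a⁻¹ * Real.log (Real.cosh (a * z)))) := by
  obtain ⟨A, hA⟩ := ((sc_logcosh_B (n + 1) a).deriv_bd).scN
  exact ⟨A, hA.nonneg, hA⟩

end Claimed.Agent.R286
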