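import Claimed.Agent.R286.Sc.DynC
import Claimed.Agent.R286.Sc.Dy
import Claimed.Agent.R286.Sc.Tau
import Claimed.Agent.R286.Sc.LimKit
import Claimed.Agent.R286.Sc.Bound1

/-!
# Row 286, scalar block, layer S4 (part A): the continuation `V_α` of a GENERAL monotone profile

OWNER helper107 (co-architect of unit C2, head helper197; part B = the kernel `scPa` = `Sc/GenP.lean`, helper88).   Prefix `scg_`.
TEX[FS:lem:regularity]  (FS regularity.tex l.16-190) at POSITIVE temperature: bounded coefficient `α ≤ a`, smooth terminal datum `F ∈ ScBI`.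
TEXDROP[FS:lem:regularity, blow-up at t = 1, heat-kernel smoothing, fractional Gronwall]: the terminal datum is smooth, all bounds hold up to `t = τ`
(`sc_tau_D`, helper92).   TEXDROP[control representation]: replaced by the exact Duhamel identity `sc_duhamel_V` (helper95).
TEX[FS:lem:diffusion] (`q = E u²`, `q' = E w²`) lives in `Sc/GenP.lean` (helper88) + `Sc/Mom.lean` (helper197); TEX[FS:lem:constant-transfer] in `Sc/CurvStep.lean`, `Sc/Curv.lean`.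
Definitions: `Sc/GenDefs.lean` (`scDy, scDyP, ScCoef, scVa, scaD`).   Plan: `origin/helper95:notes/R286/B03_helper95.md` S4.1-S4.3, S4.5.

* sec. 1  STEP LEVEL, any two grids: `scg_step_ge` (one-sided), `scg_stab` (`|V' - V| ≤ ε + L²/2 ∫|α' - α|`), `scg_step_mono`, `scg_stab_D`, `scg_bounds`, `scg_N`.
* sec. 2  `ScApx a τ α π`: admissible nondecreasing step profiles of length `τ`, `→ α` in `L¹(0,τ)`;   `scg_dy_apx`, `scg_dyP_apx`, `scg_const_apx`.
* sec. 3  LIMITS: `scg_V_unif`, **`scg_D_unif`** (all `k`, uniform in `t ≥ 0`, `z`, ANY `ScApx`), `scg_D_tendsto`, `scg_aD_hasDerivAt`.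
* sec. 4  BOUNDS PASS: `scg_aD_bound` (tau-free), `scg_aN`, `scg_Va_BI`, parity, `scg_w_le`, `scg_w_ge`, `scg_Va_ad`.
* sec. 5  TIME: `scg_aD_lip`, `scg_aD_T` (class `ScT`), **`scg_pde`** (the differentiated Parisi PDE in integrated form).
* sec. 6  DEPENDENCE ON `α`: `scg_lip` (`L¹`-Lipschitz), `scg_mono`, `scg_D_cont`, `scg_congr`, `scg_step` (step profiles are consistent).
* sec. 7  RESTRICTION: `scg_restrict` (dynamic programming), `scg_shift`.
-/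

set_option autoImplicit false

namespace Claimed.Agent.R286

open MeasureTheory ProbabilityTheory Filter Topology Set

/-! ## 1. step level: two profiles on ANY two grids -/

theorem scg_BI_E {F : ℝ → ℝ} (hF : ScBI F) (n : ℕ) : ScE n F := (hF (n + 1)).scE.of_succ

theorem scg_al_int (π : List (ℝ × ℝ)) (x y : ℝ) : IntervalIntegrable (scAl π) volume x y := by
  obtain ⟨C, hC⟩ := sc_Al_bdd π
  refine ⟨?_, ?_⟩ <;>
  · refine Measure.integrableOn_of_bounded (M := C) (by simp) (sc_Al_measurable π).aestronglyMeasurable ?_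
    exact Filter.Eventually.of_forall fun r => by rw [Real.norm_eq_abs]; exact hC r

theorem scg_al_nonneg {a : ℝ} {π : List (ℝ × ℝ)} (h : ScAdm a π) (t : ℝ) : 0 ≤ scAl π t := by
  induction π generalizing t with
  | nil => simp [scAl]
  | cons p π ih =>
    simp only [scAl]
    split_ifs
    · exact ih h.of_cons _
    · exact (h p List.mem_cons_self).1

/-- TEX[FS:lem:regularity] (value stability, one-sided form; replaces the control representation).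
`V' - V = P[F' - F] + (1/2) ∫ P[(α' - α) u'² + α (u' - u)²] ≥ -ε - (L²/2) ∫ (α - α')⁺`   (`sc_duhamel_V`, positivity of `scPt`). -/
theorem scg_step_ge {F F' : ℝ → ℝ} (hF : ScBI F) (hF' : ScBI F') {L ε : ℝ} (hL' : ∀ z, |deriv F' z| ≤ L)
    (hε : ∀ z, F z - ε ≤ F' z) {a a' : ℝ} {π π' : List (ℝ × ℝ)} (h : ScAdm a π) (h' : ScAdm a' π')
    (hlen : scLen π' = scLen π) {t : ℝ} (h0 : 0 ≤ t) (ht : t ≤ scLen π) (z : ℝ) :
    -ε - L ^ 2 / 2 * ∫ r in t..scLen π, max (scAl π r - scAl π' r) 0 ≤ scVt F' π' t z - scVt F π t z := by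
  have hd := sc_duhamel_V hF hF' h.pos h'.pos h0 ht le_rfl hlen.ge z
  rw [sc_Vt_len F h.pos, sc_Vt_of_le F' h'.pos hlen.le] at hd
  rw [hd]
  have h1 : -ε ≤ scPt F π t (scLen π) (fun y => F' y - F y) z := by
    have := sc_Pt_mono hF (ScE.const 0 (-ε)) ((scg_BI_E hF' 0).sub (scg_BI_E hF 0))
      (fun y => by linarith [hε y]) π t (scLen π) z
    rwa [sc_Pt_const hF] at this
  have hA' : ScTP t (scLen π) (fun r _ => scAl π' r) := sc_Al_tp h'.pos t _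
  have hA : ScTP t (scLen π) (fun r _ => scAl π r) := sc_Al_tp h.pos t _
  have hu' : ScTP t (scLen π) (scD 1 F' π') :=
    ((sc_D_T hF' h'.pos 1 0).subset (Icc_subset_Icc h0 hlen.ge)).tp
  have hu : ScTP t (scLen π) (scD 1 F π) := ((sc_D_T hF h.pos 1 0).subset (Icc_subset_Icc h0 le_rfl)).tp
  have hG : ScTP t (scLen π) (fun r y => ((scAl π' r - scAl π r) * scD 1 F' π' r y ^ 2
          + scAl π r * (scD 1 F' π' r y - scD 1 F π r y) ^ 2) / 2) := by
    refine ((((hA'.sub hA).mul (hu'.pow 2)).add (hA.mul ((hu'.sub hu).pow 2))).const_mul (1 / 2)).congr ?_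
    intro r _
    funext y
    ring
  have hint := sc_dynkin_integrable hF h.pos h0 ht hG z
  have hmax : IntervalIntegrable (fun r => max (scAl π r - scAl π' r) 0) volume t (scLen π) :=
    ⟨((scg_al_int π _ _).sub (scg_al_int π' _ _)).1.pos_part, ((scg_al_int π _ _).sub (scg_al_int π' _ _)).2.pos_part⟩
  have h2 : ∫ r in t..scLen π, -(L ^ 2 / 2) * max (scAl π r - scAl π' r) 0 ≤
      ∫ r in t..scLen π, scPt F π t r (fun y => ((scAl π' r - scAl π r) * scD 1 F' π' r y ^ 2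
          + scAl π r * (scD 1 F' π' r y - scD 1 F π r y) ^ 2) / 2) z := by
    refine intervalIntegral.integral_mono_on ht (hmax.const_mul _) hint ?_
    intro r _
    have hE : ScE 0 (fun y => ((scAl π' r - scAl π r) * scD 1 F' π' r y ^ 2
          + scAl π r * (scD 1 F' π' r y - scD 1 F π r y) ^ 2) / 2) := by
      have e1 := sc_D_E hF' 1 0 π' r
      have e2 := sc_D_E hF 1 0 π r
      have := (((e1.pow 2).const_mul (scAl π' r - scAl π r)).add (((e1.sub e2).pow 2).const_mul (scAl π r))).const_mul (1 / 2)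
      convert this using 2
      ring
    have := sc_Pt_mono hF (ScE.const 0 (-(L ^ 2 / 2) * max (scAl π r - scAl π' r) 0)) hE (fun y => ?_) π t r z
    · rwa [sc_Pt_const hF] at this
    · have hu2 : scD 1 F' π' r y ^ 2 ≤ L ^ 2 := by
        have := sc_D1_le hF' hL' π' r y
        exact sq_le_sq' (by linarith [(abs_le.1 this).1]) (abs_le.1 this).2
      have ha0 := scg_al_nonneg h r
      have hm0 : 0 ≤ max (scAl π r - scAl π' r) 0 := le_max_right _ _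
      have hm1 : scAl π r - scAl π' r ≤ max (scAl π r - scAl π' r) 0 := le_max_left _ _
      have hs : 0 ≤ scAl π r * (scD 1 F' π' r y - scD 1 F π r y) ^ 2 := mul_nonneg ha0 (sq_nonneg _)
      have hq : 0 ≤ scD 1 F' π' r y ^ 2 := sq_nonneg _
      nlinarith [mul_le_mul_of_nonneg_left hu2 hm0, mul_le_mul_of_nonneg_right hm1 hq]
  rw [intervalIntegral.integral_const_mul] at h2
  linarith

theorem scg_abs_int (π π' : List (ℝ × ℝ)) (x y : ℝ) :
    IntervalIntegrable (fun r => |scAl π' r - scAl π r|) volume x y :=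
  ((scg_al_int π' x y).sub (scg_al_int π x y)).abs

theorem scg_max_le (π π' : List (ℝ × ℝ)) {x y : ℝ} (hxy : x ≤ y) :
    ∫ r in x..y, max (scAl π r - scAl π' r) 0 ≤ ∫ r in x..y, |scAl π' r - scAl π r| := by
  refine intervalIntegral.integral_mono_on hxy
    ⟨((scg_al_int π _ _).sub (scg_al_int π' _ _)).1.pos_part, ((scg_al_int π _ _).sub (scg_al_int π' _ _)).2.pos_part⟩
    (scg_abs_int π π' x y) ?_
  intro r _
  rw [abs_sub_comm]
  exact max_le (le_abs_self _) (abs_nonneg _)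

/-- TEX[FS:lem:regularity] (value stability): `‖V' - V‖_∞ ≤ ‖F' - F‖_∞ + (L²/2) ‖α' - α‖_{L¹(t,τ)}` -/
theorem scg_stab {F F' : ℝ → ℝ} (hF : ScBI F) (hF' : ScBI F') {L ε : ℝ} (hL : ∀ z, |deriv F z| ≤ L)
    (hL' : ∀ z, |deriv F' z| ≤ L) (hε : ∀ z, |F' z - F z| ≤ ε) {a a' : ℝ} {π π' : List (ℝ × ℝ)} (h : ScAdm a π)
    (h' : ScAdm a' π') (hlen : scLen π' = scLen π) {t : ℝ} (h0 : 0 ≤ t) (ht : t ≤ scLen π) (z : ℝ) :
    |scVt F' π' t z - scVt F π t z| ≤ ε + L ^ 2 / 2 * ∫ r in t..scLen π, |scAl π' r - scAl π r| := by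
  have h1 := scg_step_ge hF hF' hL' (ε := ε) (fun z => by linarith [(abs_le.1 (hε z)).1]) h h' hlen h0 ht z
  have h2 := scg_step_ge hF' hF hL (ε := ε) (fun z => by linarith [(abs_le.1 (hε z)).2]) h' h hlen.symm h0 (hlen ▸ ht) z
  rw [hlen] at h2
  have m1 := scg_max_le π π' ht
  have m2 := scg_max_le π' π ht
  have e : (fun r => |scAl π r - scAl π' r|) = fun r => |scAl π' r - scAl π r| := by
    funext r; exact abs_sub_comm _ _
  rw [e] at m2
  have hL2 : 0 ≤ L ^ 2 / 2 := by positivity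
  have n1 := mul_le_mul_of_nonneg_left m1 hL2
  have n2 := mul_le_mul_of_nonneg_left m2 hL2
  rw [abs_le]
  constructor <;> linarith

/-- the same with the distance on the whole interval, all `t ≥ 0` -/
theorem scg_stab' {F F' : ℝ → ℝ} (hF : ScBI F) (hF' : ScBI F') {L ε : ℝ} (hL : ∀ z, |deriv F z| ≤ L)
    (hL' : ∀ z, |deriv F' z| ≤ L) (hε : ∀ z, |F' z - F z| ≤ ε) {a a' : ℝ} {π π' : List (ℝ × ℝ)} (h : ScAdm a π)
    (h' : ScAdm a' π') (hlen : scLen π' = scLen π) {t : ℝ} (h0 : 0 ≤ t) (z : ℝ) :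
    |scVt F' π' t z - scVt F π t z| ≤ ε + L ^ 2 / 2 * ∫ r in (0 : ℝ)..scLen π, |scAl π' r - scAl π r| := by
  have hL2 : 0 ≤ L ^ 2 / 2 := by positivity
  have hlen0 := sc_len_nonneg h.pos
  rcases le_total t (scLen π) with ht | ht
  · refine (scg_stab hF hF' hL hL' hε h h' hlen h0 ht z).trans ?_
    have : ∫ r in t..scLen π, |scAl π' r - scAl π r| ≤ ∫ r in (0 : ℝ)..scLen π, |scAl π' r - scAl π r| := by
      refine intervalIntegral.integral_mono_interval h0 ht le_rfl ?_ (scg_abs_int π π' _ _)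
      exact Filter.Eventually.of_forall fun r => abs_nonneg _
    have := mul_le_mul_of_nonneg_left this hL2
    linarith
  · rw [sc_Vt_of_le F h.pos ht, sc_Vt_of_le F' h'.pos (hlen ▸ ht)]
    have : 0 ≤ ∫ r in (0 : ℝ)..scLen π, |scAl π' r - scAl π r| :=
      intervalIntegral.integral_nonneg hlen0 fun r _ => abs_nonneg _
    have := mul_nonneg hL2 this
    linarith [hε z]

/-- S4.1 on any two grids: monotone in the mass profile -/
theorem scg_step_mono {F : ℝ → ℝ} (hF : ScBI F) {a a' : ℝ} {π π' : List (ℝ × ℝ)} (h : ScAdm a π) (h' : ScAdm a' π')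
    (hlen : scLen π' = scLen π) (hle : ∀ r ∈ Ico 0 (scLen π), scAl π r ≤ scAl π' r) {t : ℝ} (h0 : 0 ≤ t) (z : ℝ) :
    scVt F π t z ≤ scVt F π' t z := by
  rcases le_total t (scLen π) with ht | ht
  · obtain ⟨L, hL⟩ := (hF 1).2.1
    have h1 := scg_step_ge hF hF hL (ε := 0) (fun z => by linarith) h h' hlen h0 ht z
    have h2 : ∫ r in t..scLen π, max (scAl π r - scAl π' r) 0 = 0 := by
      have : ∀ r ∈ Ico t (scLen π), max (scAl π r - scAl π' r) 0 = 0 := fun r hr =>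
        max_eq_right (by linarith [hle r ⟨h0.trans hr.1, hr.2⟩])
      rw [intervalIntegral.integral_of_le ht, ← integral_Ico_eq_integral_Ioc]
      rw [setIntegral_congr_fun measurableSet_Ico this]
      simp
    rw [h2] at h1
    linarith
  · rw [sc_Vt_of_le F h.pos ht, sc_Vt_of_le F h'.pos (hlen ▸ ht)]

/-- TEX[FS:lem:regularity] (Landau interpolation): closeness of the values + common bounds give closeness of all the derivatives -/
theorem scg_stab_D {F F' : ℝ → ℝ} (hF : ScBI F) (hF' : ScBI F') {π π' : List (ℝ × ℝ)} {t t' δ : ℝ} {C : ℕ → ℝ}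
    (hC : ∀ k z, 2 ≤ k → |scD k F π t z| ≤ C k) (hC' : ∀ k z, 2 ≤ k → |scD k F' π' t' z| ≤ C k)
    (h0 : ∀ z, |scVt F' π' t' z - scVt F π t z| ≤ δ) (k : ℕ) (z : ℝ) :
    |scD k F' π' t' z - scD k F π t z| ≤ sckE C δ k :=
  sck_tower_diff (F := fun k => scD k F' π' t') (G := fun k => scD k F π t) (fun k x => sc_D_hasDerivAt hF' k π' t' x)
    (fun k x => sc_D_hasDerivAt hF k π t x) hC' hC h0 k z

theorem scg_BI_N {F : ℝ → ℝ} (hF : ScBI F) (n : ℕ) : ∃ A : ℝ, 0 ≤ A ∧ ScN n A (deriv F) := by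
  obtain ⟨M, hM⟩ := ScBd.scN (n := n) (φ := deriv F) ⟨(hF (n + 1)).2.1, (hF (n + 1)).2.2⟩
  exact ⟨M, hM.nonneg, hM⟩

/-- TEX[FS:lem:regularity] (derivative bounds, uniform in the coefficient): one sequence of constants for all admissible nondecreasing
profiles, all lengths, all times (`sc_tau_D`) -/
theorem scg_bounds {a : ℝ} (ha : 0 ≤ a) {F : ℝ → ℝ} (hF : ScBI F) :
    ∃ C : ℕ → ℝ, (∀ k, 0 ≤ C k) ∧ ∀ π, ScAdm a π → ScInc π → ∀ k, 1 ≤ k → ∀ t z, |scD k F π t z| ≤ C k := by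
  have H : ∀ n : ℕ, ∃ C : ℝ, 0 ≤ C ∧ ∀ π, ScAdm a π → ScInc π → ∀ t z, |scD (n + 1) F π t z| ≤ C := by
    intro n
    obtain ⟨A, hA, hN⟩ := scg_BI_N hF n
    obtain ⟨C, hC, hb⟩ := sc_tau_D ha n hA
    exact ⟨C, hC, fun π hπ hi t z => hb F π hF hN hπ hi n le_rfl t z⟩
  choose C hC hb using H
  refine ⟨fun k => C (k - 1), fun k => hC _, fun π hπ hi k hk t z => ?_⟩
  obtain ⟨n, rfl⟩ : ∃ n, k = n + 1 := ⟨k - 1, by omega⟩
  exact hb n π hπ hi t z

/-- the same in the class `ScN` of `Sc/Tau.lean` (`sc_tau_V`, `sc_Vt_after`) -/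
theorem scg_N {a : ℝ} (ha : 0 ≤ a) {F : ℝ → ℝ} (hF : ScBI F) (n : ℕ) :
    ∃ C : ℝ, 0 ≤ C ∧ ∀ π, ScAdm a π → ScInc π → ∀ t, ScN n C (scD 1 F π t) := by
  obtain ⟨A, hA, hN⟩ := scg_BI_N hF n
  obtain ⟨C, hC, hb⟩ := sc_tau_V ha n hA
  refine ⟨C, hC, fun π hπ hi t => ?_⟩
  rw [sc_D_one, sc_Vt_after]
  exact hb F _ hF hN (sc_after_adm hπ t) (sc_after_inc hi t)

/-- bound of the nonlinearity -/
theorem scg_sq_bound {n : ℕ} {C : ℝ} {u : ℝ → ℝ} (h : ScN n C u) {k : ℕ} (hk : k ≤ n) (z : ℝ) :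
    |deriv^[k] (fun y => u y ^ 2 / 2) z| ≤ 2 ^ n * (C * C) := by
  have e : (fun y => u y ^ 2 / 2) = fun y => (1 / 2 : ℝ) * (u y * u y) := by funext y; ring
  rw [e, sc_iter_deriv_const_mul]
  have := (h.mul h).iter hk z
  have h0 := abs_nonneg (deriv^[k] (fun y => u y * u y) z)
  rw [abs_mul, abs_of_pos (by norm_num : (0:ℝ) < 1 / 2)]
  linarith

/-- S3.3 for nondecreasing profiles, tau-free: Lipschitz in the time (`sc_D_sub_eq_integral`, `scg_N`, `ScN.mul`, `ScN.iter`) -/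
theorem scg_step_lip {a : ℝ} (ha : 0 ≤ a) {F : ℝ → ℝ} (hF : ScBI F) (k : ℕ) :
    ∃ C : ℝ, 0 ≤ C ∧ ∀ π, ScAdm a π → ScInc π → ∀ t t', 0 ≤ t → 0 ≤ t' → ∀ z,
      |scD k F π t z - scD k F π t' z| ≤ C * |t - t'| := by
  obtain ⟨C, hC0, hC⟩ := scg_bounds ha hF
  obtain ⟨C1, hC1, hN⟩ := scg_N ha hF k
  have hK : 0 ≤ C (k + 2) / 2 + a * (2 ^ k * (C1 * C1)) := by have := hC0 (k + 2); positivity
  refine ⟨C (k + 2) / 2 + a * (2 ^ k * (C1 * C1)), hK, ?_⟩
  intro π hπ hi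
  -- on `[0, len]`
  have key : ∀ t t', 0 ≤ t → t ≤ t' → t' ≤ scLen π → ∀ z,
      |scD k F π t' z - scD k F π t z| ≤ (C (k + 2) / 2 + a * (2 ^ k * (C1 * C1))) * |t' - t| := by
    intro t t' h0 htt ht' z
    rw [sc_D_sub_eq_integral hF hπ.pos k h0 htt ht' z, ← Real.norm_eq_abs]
    refine intervalIntegral.norm_integral_le_of_norm_le_const ?_
    intro r _
    rw [Real.norm_eq_abs]
    have b1 := hC π hπ hi (k + 2) (by omega) r z
    have b2 := scg_sq_bound (hN π hπ hi r) le_rfl z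
    have b3 := sc_Al_mem ha hπ r
    have b4 : |scAl π r * deriv^[k] (fun y => scD 1 F π r y ^ 2 / 2) z| ≤ a * (2 ^ k * (C1 * C1)) := by
      rw [abs_mul, abs_of_nonneg b3.1]
      exact mul_le_mul b3.2 b2 (abs_nonneg _) ha
    calc |-(scD (k + 2) F π r z) / 2 - scAl π r * deriv^[k] (fun y => scD 1 F π r y ^ 2 / 2) z|
        ≤ |-(scD (k + 2) F π r z) / 2| + |scAl π r * deriv^[k] (fun y => scD 1 F π r y ^ 2 / 2) z| := abs_sub _ _
      _ ≤ _ := by
          have : |-(scD (k + 2) F π r z) / 2| = |scD (k + 2) F π r z| / 2 := by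
            rw [abs_div, abs_neg, abs_of_pos (by norm_num : (0:ℝ) < 2)]
          rw [this]; linarith
  have clamp : ∀ t, scD k F π t = scD k F π (min t (scLen π)) := by
    intro t
    rcases le_total t (scLen π) with h | h
    · rw [min_eq_left h]
    · rw [min_eq_right h, sc_D_of_le k F hπ.pos h, sc_D_of_le k F hπ.pos le_rfl]
  have hl0 := sc_len_nonneg hπ.pos
  have main : ∀ t t', 0 ≤ t → t ≤ t' → ∀ z,
      |scD k F π t' z - scD k F π t z| ≤ (C (k + 2) / 2 + a * (2 ^ k * (C1 * C1))) * |t' - t| := by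
    intro t t' h0 htt z
    rw [clamp t, clamp t']
    refine (key _ _ (le_min h0 hl0) (min_le_min_right _ htt) (min_le_right _ _) z).trans ?_
    refine mul_le_mul_of_nonneg_left ?_ hK
    rw [abs_of_nonneg (sub_nonneg.2 (min_le_min_right _ htt)), abs_of_nonneg (sub_nonneg.2 htt)]
    rcases le_total t (scLen π) with h | h <;> rcases le_total t' (scLen π) with h' | h' <;>
      simp [h, h'] <;> linarith
  intro t t' h0 h0' z
  rcases le_total t t' with h | h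
  · rw [abs_sub_comm, abs_sub_comm t]; exact main t t' h0 h z
  · exact main t' t h0' h z

/-! ## 2. approximating sequences -/

/-- `π n`: admissible nondecreasing step profiles of length `τ` which converge to `α` in `L¹(0,τ)` -/
structure ScApx (a τ : ℝ) (α : ℝ → ℝ) (π : ℕ → List (ℝ × ℝ)) : Prop where
  nonneg : 0 ≤ a
  adm : ∀ n, ScAdm a (π n)
  inc : ∀ n, ScInc (π n)
  len : ∀ n, scLen (π n) = τ
  int : IntervalIntegrable α volume 0 τ
  l1 : Tendsto (fun n => ∫ r in (0 : ℝ)..τ, |scAl (π n) r - α r|) atTop (𝓝 0)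

theorem ScCoef.nonneg {a τ : ℝ} {α : ℝ → ℝ} (hτ : 0 ≤ τ) (hα : ScCoef a τ α) : 0 ≤ a :=
  (hα.2 0 ⟨le_rfl, hτ⟩).1.trans (hα.2 0 ⟨le_rfl, hτ⟩).2

theorem ScCoef.weaken {a a' τ : ℝ} {α : ℝ → ℝ} (hα : ScCoef a τ α) (h : a ≤ a') : ScCoef a' τ α :=
  ⟨hα.1, fun t ht => ⟨(hα.2 t ht).1, (hα.2 t ht).2.trans h⟩⟩

theorem ScCoef.sub_interval {a τ τ' : ℝ} {α : ℝ → ℝ} (hα : ScCoef a τ α) (h : τ' ≤ τ) : ScCoef a τ' α :=
  ⟨hα.1.mono (Icc_subset_Icc_right h), fun t ht => hα.2 t ⟨ht.1, ht.2.trans h⟩⟩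

theorem ScApx.weaken {a a' τ : ℝ} {α : ℝ → ℝ} {π : ℕ → List (ℝ × ℝ)} (h : ScApx a τ α π) (haa : a ≤ a') : ScApx a' τ α π :=
  ⟨h.nonneg.trans haa, fun n p hp => ⟨(h.adm n p hp).1, (h.adm n p hp).2.1.trans haa, (h.adm n p hp).2.2⟩, h.inc, h.len,
    h.int, h.l1⟩

/-- the horizon of an approximating sequence is nonnegative -/
theorem ScApx.tau_nonneg {a τ : ℝ} {α : ℝ → ℝ} {π : ℕ → List (ℝ × ℝ)} (h : ScApx a τ α π) : 0 ≤ τ := by
  rw [← h.len 0]
  exact sc_len_nonneg (h.adm 0).pos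

/-- integrability of `|α_n - α|` on every subinterval of `[0, τ]` -/
theorem ScApx.int_abs {a τ : ℝ} {α : ℝ → ℝ} {π : ℕ → List (ℝ × ℝ)} (h : ScApx a τ α π) (n : ℕ) {s t : ℝ}
    (hs : 0 ≤ s) (hst : s ≤ t) (ht : t ≤ τ) :
    IntervalIntegrable (fun r => |scAl (π n) r - α r|) volume s t := by
  have h1 : IntervalIntegrable α volume s t := by
    refine h.int.mono_set ?_
    rw [uIcc_of_le hst, uIcc_of_le (hs.trans (hst.trans ht))]
    exact Icc_subset_Icc hs ht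
  exact ((sc_dy_al_intervalIntegrable h.nonneg (h.adm n) s t).sub h1).abs

/-- the dyadic approximants (`Sc/Dy.lean`) -/
theorem scg_dy_apx {a τ : ℝ} {α : ℝ → ℝ} (hτ : 0 ≤ τ) (hα : ScCoef a τ α) : ScApx a τ α (scDy α τ) := by
  refine ⟨hα.nonneg hτ, sc_dy_adm hτ hα, sc_dy_inc hτ hα, sc_dy_len α τ,
    sc_dy_coef_intervalIntegrable hα ⟨le_rfl, hτ⟩ ⟨hτ, le_rfl⟩, ?_⟩
  have hlim : Tendsto (fun n : ℕ => a * τ / 2 ^ n) atTop (𝓝 0) := by
    have h1 : Tendsto (fun n : ℕ => a * τ * (1 / 2 : ℝ) ^ n) atTop (𝓝 (a * τ * 0)) :=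
      (tendsto_pow_atTop_nhds_zero_of_lt_one (by norm_num) (by norm_num)).const_mul _
    rw [mul_zero] at h1
    refine h1.congr fun n => ?_
    rw [one_div, inv_pow, div_eq_mul_inv]
  refine squeeze_zero (fun n => intervalIntegral.integral_nonneg hτ fun r _ => abs_nonneg _) (fun n => ?_) hlim
  have := sc_dy_L1 hτ hα n
  simpa only [abs_sub_comm] using this


/-- the mass of `scDyP` on the `k`-th cell -/
theorem scg_dyP_al_cell (α : ℝ → ℝ) (τ : ℝ) (n k : ℕ) (hk : k < 2 ^ n) {t : ℝ} (h1 : k * (τ / 2 ^ n) ≤ t)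
    (h2 : t < (k + 1) * (τ / 2 ^ n)) : scAl (scDyP α τ n) t = max (α (k * (τ / 2 ^ n))) ((1 / 2 : ℝ) ^ n) := by
  rw [sc_dyP_eq_uni, sc_uni_al _ _ k hk h1 h2, mul_div_assoc]

theorem scg_dyP_adm {a τ : ℝ} {α : ℝ → ℝ} (hτ : 0 ≤ τ) (hα : ScCoef a τ α) (n : ℕ) :
    ScAdm (max a 1) (scDyP α τ n) := by
  rw [sc_dyP_eq_uni]
  refine sc_uni_adm (div_nonneg hτ (by positivity)) fun k hk => ?_
  simp only [mul_div_assoc]
  have h1 := hα.2 _ (sc_dy_cell_mem hτ hk.le)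
  refine ⟨h1.1.trans (le_max_left _ _), max_le_max h1.2 (pow_le_one₀ (by norm_num) (by norm_num))⟩

theorem scg_dyP_inc {a τ : ℝ} {α : ℝ → ℝ} (hτ : 0 ≤ τ) (hα : ScCoef a τ α) (n : ℕ) : ScInc (scDyP α τ n) := by
  rw [sc_dyP_eq_uni]
  refine sc_uni_inc fun i j hij hj => ?_
  simp only [mul_div_assoc]
  refine max_le_max_right _ (hα.1 (sc_dy_cell_mem hτ (le_trans hij hj.le)) (sc_dy_cell_mem hτ hj.le) ?_)
  exact mul_le_mul_of_nonneg_right (by exact_mod_cast hij) (div_nonneg hτ (by positivity))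

theorem scg_dyP_len (α : ℝ → ℝ) (τ : ℝ) (n : ℕ) : scLen (scDyP α τ n) = τ := by
  rw [sc_dyP_eq_uni, sc_uni_len]
  push_cast
  field_simp

/-- `scDyP` is within `2^-n` of `scDy` -/
theorem scg_dyP_al_sub {a τ : ℝ} {α : ℝ → ℝ} (hα : ScCoef a τ α) (n : ℕ) {t : ℝ} (ht : t ∈ Ico 0 τ) :
    |scAl (scDyP α τ n) t - scAl (scDy α τ n) t| ≤ (1 / 2 : ℝ) ^ n := by
  have hτ : 0 ≤ τ := ht.1.trans ht.2.le
  obtain ⟨k, hk, h1, h2⟩ := sc_dy_cell_exists n ht
  rw [sc_dy_al_cell α τ n k hk h1 h2, scg_dyP_al_cell α τ n k hk h1 h2]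
  have h3 := (hα.2 _ (sc_dy_cell_mem hτ hk.le (n := n))).1
  have h4 : (0 : ℝ) ≤ (1 / 2 : ℝ) ^ n := by positivity
  rw [abs_of_nonneg (sub_nonneg.2 (le_max_left _ _))]
  rcases le_total (α (k * (τ / 2 ^ n))) ((1 / 2 : ℝ) ^ n) with h | h
  · rw [max_eq_right h]; linarith
  · rw [max_eq_left h]; linarith

/-- the dyadic approximants with positive masses; NOTE the constant `max a 1` -/
theorem scg_dyP_apx {a τ : ℝ} {α : ℝ → ℝ} (hτ : 0 ≤ τ) (hα : ScCoef a τ α) : ScApx (max a 1) τ α (scDyP α τ) := by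
  have ha : 0 ≤ a := hα.nonneg hτ
  have ha1 : 0 ≤ max a 1 := ha.trans (le_max_left _ _)
  have hαi := sc_dy_coef_intervalIntegrable hα ⟨le_rfl, hτ⟩ ⟨hτ, le_rfl⟩
  refine ⟨ha1, scg_dyP_adm hτ hα, scg_dyP_inc hτ hα, scg_dyP_len α τ, hαi, ?_⟩
  have hlim : Tendsto (fun n : ℕ => (a * τ + τ) * (1 / 2 : ℝ) ^ n) atTop (𝓝 0) := by
    have h1 : Tendsto (fun n : ℕ => (a * τ + τ) * (1 / 2 : ℝ) ^ n) atTop (𝓝 ((a * τ + τ) * 0)) :=
      (tendsto_pow_atTop_nhds_zero_of_lt_one (by norm_num) (by norm_num)).const_mul _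
    rwa [mul_zero] at h1
  refine squeeze_zero (fun n => intervalIntegral.integral_nonneg hτ fun r _ => abs_nonneg _) (fun n => ?_) hlim
  have h1 := sc_dy_L1 hτ hα n
  have i1 : IntervalIntegrable (fun r => |scAl (scDyP α τ n) r - α r|) volume 0 τ :=
    ((sc_dy_al_intervalIntegrable ha1 (scg_dyP_adm hτ hα n) 0 τ).sub hαi).abs
  have i2 : IntervalIntegrable (fun r => |α r - scAl (scDy α τ n) r|) volume 0 τ :=
    (hαi.sub (sc_dy_al_intervalIntegrable ha (sc_dy_adm hτ hα n) 0 τ)).abs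
  have h2 : ∫ r in (0 : ℝ)..τ, |scAl (scDyP α τ n) r - α r|
      ≤ ∫ r in (0 : ℝ)..τ, (|α r - scAl (scDy α τ n) r| + (1 / 2 : ℝ) ^ n) := by
    refine intervalIntegral.integral_mono_on_of_le_Ioo hτ i1 (i2.add intervalIntegrable_const) fun r hr => ?_
    have h3 := scg_dyP_al_sub hα n (⟨hr.1.le, hr.2⟩ : r ∈ Ico 0 τ)
    have h4 := abs_sub_le (scAl (scDyP α τ n) r) (scAl (scDy α τ n) r) (α r)
    rw [abs_sub_comm (α r)]
    linarith
  rw [intervalIntegral.integral_add i2 intervalIntegrable_const, intervalIntegral.integral_const, sub_zero,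
    smul_eq_mul] at h2
  have e : a * τ / 2 ^ n = a * τ * (1 / 2 : ℝ) ^ n := by rw [one_div, inv_pow, div_eq_mul_inv]
  rw [e] at h1
  linarith

/-- a step profile approximates itself -/
theorem scg_const_apx {a τ : ℝ} (ha : 0 ≤ a) {α : ℝ → ℝ} {π : List (ℝ × ℝ)} (hπ : ScAdm a π) (hi : ScInc π) (hlen : scLen π = τ)
    (he : ∀ r ∈ Ico 0 τ, α r = scAl π r) : ScApx a τ α (fun _ => π) := by
  have hτ : 0 ≤ τ := hlen ▸ sc_len_nonneg hπ.pos
  refine ⟨ha, fun _ => hπ, fun _ => hi, fun _ => hlen, ?_, ?_⟩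
  · refine (sc_dy_al_intervalIntegrable ha hπ 0 τ).congr_uIoo ?_
    rw [uIoo_of_le hτ]
    exact fun r hr => (he r ⟨hr.1.le, hr.2⟩).symm
  · have e : ∫ r in (0 : ℝ)..τ, |scAl π r - α r| = 0 := by
      rw [intervalIntegral.integral_congr_Ioo_of_le hτ (g := fun _ => (0 : ℝ))]
      · simp
      · intro r hr
        simp only [he r ⟨hr.1.le, hr.2⟩, sub_self, abs_zero]
    simp only [e]
    exact tendsto_const_nhds

theorem ScApx.l1_sub_aux {a τ : ℝ} {α : ℝ → ℝ} {π : ℕ → List (ℝ × ℝ)} (h : ScApx a τ α π) {s t : ℝ} (hs : 0 ≤ s) (hst : s ≤ t)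
    (ht : t ≤ τ) : Tendsto (fun n => ∫ r in s..t, |scAl (π n) r - α r|) atTop (𝓝 0) := by
  refine squeeze_zero (fun n => intervalIntegral.integral_nonneg hst fun r _ => abs_nonneg _) (fun n => ?_) h.l1
  exact intervalIntegral.integral_mono_interval hs hst ht (Filter.Eventually.of_forall fun r => abs_nonneg _)
    (h.int_abs n le_rfl h.tau_nonneg le_rfl)

/-- restriction to `[0, s]` -/
theorem ScApx.upto {a τ : ℝ} {α : ℝ → ℝ} {π : ℕ → List (ℝ × ℝ)} (h : ScApx a τ α π) {s : ℝ} (hs : 0 ≤ s) (hsτ : s ≤ τ) :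
    ScApx a s α (fun n => scUpto (π n) s) := by
  refine ⟨h.nonneg, fun n => sc_upto_adm (h.adm n) hs, fun n => sc_upto_inc (h.inc n) s,
    fun n => sc_len_upto (h.adm n).pos hs (by rw [h.len n]; exact hsτ), ?_, ?_⟩
  · refine h.int.mono_set ?_
    rw [uIcc_of_le hs, uIcc_of_le (hs.trans hsτ)]
    exact Icc_subset_Icc le_rfl hsτ
  · refine (h.l1_sub_aux le_rfl hs hsτ).congr fun n => ?_
    refine intervalIntegral.integral_congr_Ioo_of_le hs fun r hr => ?_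
    simp only [sc_Al_upto (h.adm n).pos hr.1.le hr.2]

/-- restriction to `[s, τ]` -/
theorem ScApx.after {a τ : ℝ} {α : ℝ → ℝ} {π : ℕ → List (ℝ × ℝ)} (h : ScApx a τ α π) {s : ℝ} (hs : 0 ≤ s) (hsτ : s ≤ τ) :
    ScApx a (τ - s) (fun r => α (s + r)) (fun n => scAfter (π n) s) := by
  refine ⟨h.nonneg, fun n => sc_after_adm (h.adm n) s, fun n => sc_after_inc (h.inc n) s,
    fun n => by rw [sc_len_after (h.adm n).pos hs (by rw [h.len n]; exact hsτ), h.len n], ?_, ?_⟩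
  · have h1 : IntervalIntegrable α volume s τ := by
      refine h.int.mono_set ?_
      rw [uIcc_of_le hsτ, uIcc_of_le (hs.trans hsτ)]
      exact Icc_subset_Icc hs le_rfl
    have h2 := h1.comp_add_left s
    rwa [sub_self] at h2
  · refine (h.l1_sub_aux hs hsτ le_rfl).congr fun n => ?_
    have e := intervalIntegral.integral_comp_add_left (a := 0) (b := τ - s) (fun r => |scAl (π n) r - α r|) s
    rw [add_zero, add_sub_cancel] at e
    rw [← e]
    refine intervalIntegral.integral_congr_Ioo_of_le (sub_nonneg.2 hsτ) fun r hr => ?_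
    simp only [sc_Al_shift (h.adm n).pos hs hr.1.le]

theorem ScApx.l1_sub {a τ : ℝ} {α : ℝ → ℝ} {π : ℕ → List (ℝ × ℝ)} (h : ScApx a τ α π) {s t : ℝ} (hs : 0 ≤ s) (hst : s ≤ t)
    (ht : t ≤ τ) : Tendsto (fun n => ∫ r in s..t, |scAl (π n) r - α r|) atTop (𝓝 0) :=
  h.l1_sub_aux hs hst ht

/-- an approximating sequence is Cauchy in `L¹` -/
theorem ScApx.cauchy {a a' τ : ℝ} {α : ℝ → ℝ} {π π' : ℕ → List (ℝ × ℝ)} (h : ScApx a τ α π) (h' : ScApx a' τ α π')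
    (hτ : 0 ≤ τ) {ε : ℝ} (hε : 0 < ε) :
    ∃ N, ∀ n ≥ N, ∀ m ≥ N, ∫ r in (0 : ℝ)..τ, |scAl (π' m) r - scAl (π n) r| ≤ ε := by
  obtain ⟨N1, hN1⟩ := Metric.tendsto_atTop.1 h.l1 (ε / 2) (half_pos hε)
  obtain ⟨N2, hN2⟩ := Metric.tendsto_atTop.1 h'.l1 (ε / 2) (half_pos hε)
  refine ⟨max N1 N2, fun n hn m hm => ?_⟩
  have h1 := hN1 n ((le_max_left _ _).trans hn)
  have h2 := hN2 m ((le_max_right _ _).trans hm)
  rw [Real.dist_eq, sub_zero] at h1 h2
  have h1' := (le_abs_self _).trans_lt h1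
  have h2' := (le_abs_self _).trans_lt h2
  have i1 := h.int_abs n le_rfl hτ le_rfl
  have i2 := h'.int_abs m le_rfl hτ le_rfl
  have i3 : IntervalIntegrable (fun r => |scAl (π' m) r - scAl (π n) r|) volume 0 τ :=
    ((sc_dy_al_intervalIntegrable h'.nonneg (h'.adm m) 0 τ).sub
      (sc_dy_al_intervalIntegrable h.nonneg (h.adm n) 0 τ)).abs
  have h3 : ∫ r in (0 : ℝ)..τ, |scAl (π' m) r - scAl (π n) r|
      ≤ ∫ r in (0 : ℝ)..τ, (|scAl (π' m) r - α r| + |scAl (π n) r - α r|) := by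
    refine intervalIntegral.integral_mono_on hτ i3 (i2.add i1) fun r _ => ?_
    have := abs_sub_le (scAl (π' m) r) (α r) (scAl (π n) r)
    rwa [abs_sub_comm (α r)] at this
  rw [intervalIntegral.integral_add i2 i1] at h3
  linarith

/-- `∫ α_n g_n → ∫ α g` if `α_n → α` in `L¹`, `g_n → g` uniformly, `g` bounded and continuous -/
theorem ScApx.integral_tendsto {a τ : ℝ} {α : ℝ → ℝ} {π : ℕ → List (ℝ × ℝ)} (h : ScApx a τ α π) {s t : ℝ}
    (hs : 0 ≤ s) (hst : s ≤ t) (ht : t ≤ τ) {g : ℕ → ℝ → ℝ} {G : ℝ → ℝ} (hG : ContinuousOn G (Icc s t))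
    (hg : ∀ n, IntervalIntegrable (fun r => scAl (π n) r * g n r) volume s t)
    (hu : ∀ ε > 0, ∃ N, ∀ n ≥ N, ∀ r ∈ Icc s t, |g n r - G r| ≤ ε) :
    Tendsto (fun n => ∫ r in s..t, scAl (π n) r * g n r) atTop (𝓝 (∫ r in s..t, α r * G r)) := by
  obtain ⟨M, hM⟩ := isCompact_Icc.exists_bound_of_continuousOn hG
  have hM0 : 0 ≤ M := (norm_nonneg _).trans (hM s (left_mem_Icc.2 hst))
  have hαi : IntervalIntegrable α volume s t := by
    refine h.int.mono_set ?_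
    rw [uIcc_of_le hst, uIcc_of_le (hs.trans (hst.trans ht))]
    exact Icc_subset_Icc hs ht
  have hαG : IntervalIntegrable (fun r => α r * G r) volume s t :=
    hαi.mul_continuousOn (by rwa [uIcc_of_le hst])
  rw [Metric.tendsto_atTop]
  intro ε hε
  have hA0 : 0 ≤ a * (t - s) := mul_nonneg h.nonneg (sub_nonneg.2 hst)
  have hA : 0 < a * (t - s) + 1 := by linarith
  obtain ⟨N1, hN1⟩ := hu (ε / (2 * (a * (t - s) + 1))) (by positivity)
  obtain ⟨N2, hN2⟩ := Metric.tendsto_atTop.1 (h.l1_sub hs hst ht) (ε / (2 * (M + 1))) (by positivity)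
  refine ⟨max N1 N2, fun n hn => ?_⟩
  have h1 := hN1 n ((le_max_left _ _).trans hn)
  have h2 := hN2 n ((le_max_right _ _).trans hn)
  rw [Real.dist_eq, sub_zero] at h2
  have h2' := (le_abs_self _).trans_lt h2
  set ε1 : ℝ := ε / (2 * (a * (t - s) + 1)) with hε1
  have hε1' : 0 < ε1 := by positivity
  rw [Real.dist_eq, ← intervalIntegral.integral_sub (hg n) hαG, ← Real.norm_eq_abs]
  have hb : ‖∫ r in s..t, (scAl (π n) r * g n r - α r * G r)‖
      ≤ ∫ r in s..t, (a * ε1 + M * |scAl (π n) r - α r|) := by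
    refine intervalIntegral.norm_integral_le_of_norm_le hst (Filter.Eventually.of_forall fun r hr => ?_)
      (intervalIntegrable_const.add ((h.int_abs n hs hst ht).const_mul M))
    have hr' : r ∈ Icc s t := Ioc_subset_Icc_self hr
    have e : scAl (π n) r * g n r - α r * G r = scAl (π n) r * (g n r - G r) + (scAl (π n) r - α r) * G r := by ring
    have hal := sc_dy_al_mem h.nonneg (h.adm n) r
    have hG' := hM r hr'
    rw [Real.norm_eq_abs] at hG' ⊢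
    rw [e]
    refine (abs_add_le _ _).trans (add_le_add ?_ ?_)
    · rw [abs_mul, abs_of_nonneg hal.1]
      exact mul_le_mul hal.2 (h1 r hr') (abs_nonneg _) h.nonneg
    · rw [abs_mul, mul_comm]
      exact mul_le_mul_of_nonneg_right hG' (abs_nonneg _)
  rw [intervalIntegral.integral_add intervalIntegrable_const ((h.int_abs n hs hst ht).const_mul M),
    intervalIntegral.integral_const, intervalIntegral.integral_const_mul, smul_eq_mul] at hb
  have e1 : (t - s) * (a * ε1) ≤ ε / 2 := by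
    have : (t - s) * (a * ε1) = (a * (t - s)) / (a * (t - s) + 1) * (ε / 2) := by
      rw [hε1]; field_simp
    rw [this]
    have h3 : (a * (t - s)) / (a * (t - s) + 1) ≤ 1 := by
      rw [div_le_one hA]; linarith
    nlinarith
  have e2 : M * ∫ r in s..t, |scAl (π n) r - α r| < ε / 2 := by
    have h3 : M * ∫ r in s..t, |scAl (π n) r - α r| ≤ M * (ε / (2 * (M + 1))) :=
      mul_le_mul_of_nonneg_left h2'.le hM0
    have h4 : M * (ε / (2 * (M + 1))) = M / (M + 1) * (ε / 2) := by field_simp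
    have h5 : M / (M + 1) < 1 := by
      rw [div_lt_one (by linarith)]; linarith
    rw [h4] at h3
    nlinarith
  linarith

/-! ## 3. the limits -/

theorem scg_dy_pos (α : ℝ → ℝ) {τ : ℝ} (hτ : 0 ≤ τ) (n : ℕ) : ScPos (scDy α τ n) := by
  intro p hp
  rw [sc_dy_eq_uni] at hp
  obtain ⟨k, _, rfl⟩ := sc_uni_mem hp
  positivity

/-- two approximating sequences of the same coefficient give uniformly close values -/
theorem scg_apx_close {F : ℝ → ℝ} (hF : ScBI F) {a a' τ : ℝ} {α : ℝ → ℝ} (hτ : 0 ≤ τ) {π π' : ℕ → List (ℝ × ℝ)}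
    (h : ScApx a τ α π) (h' : ScApx a' τ α π') {ε : ℝ} (hε : 0 < ε) :
    ∃ N, ∀ n ≥ N, ∀ m ≥ N, ∀ t, 0 ≤ t → ∀ z, |scVt F (π' m) t z - scVt F (π n) t z| ≤ ε := by
  obtain ⟨L, hL⟩ := (hF 1).2.1
  have hK : 0 < L ^ 2 / 2 + 1 := by positivity
  obtain ⟨N, hN⟩ := h.cauchy h' hτ (div_pos hε hK)
  refine ⟨N, fun n hn m hm t ht z => ?_⟩
  have h1 := scg_stab' hF hF hL hL (ε := 0) (fun z => by simp) (h.adm n) (h'.adm m) (by rw [h.len, h'.len]) ht z
  rw [h.len n] at h1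
  have h2 := hN n hn m hm
  have h3 : 0 ≤ ∫ r in (0 : ℝ)..τ, |scAl (π' m) r - scAl (π n) r| :=
    intervalIntegral.integral_nonneg hτ fun _ _ => abs_nonneg _
  have h4 : L ^ 2 / 2 * ∫ r in (0 : ℝ)..τ, |scAl (π' m) r - scAl (π n) r| ≤ (L ^ 2 / 2 + 1) * (ε / (L ^ 2 / 2 + 1)) := by
    have : 0 ≤ L ^ 2 / 2 := by positivity
    nlinarith
  have h5 : (L ^ 2 / 2 + 1) * (ε / (L ^ 2 / 2 + 1)) = ε := by field_simp
  linarith

/-- a chain of derivatives computes the iterated derivative -/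
theorem scg_iter_eq {j : ℕ → ℝ → ℝ} (hj : ∀ k x, HasDerivAt (j k) (j (k + 1) x) x) (k : ℕ) : deriv^[k] (j 0) = j k := by
  induction k with
  | zero => rfl
  | succ k ih =>
    rw [Function.iterate_succ_apply', ih]
    exact funext fun x => (hj k x).deriv

/-- the tower of limits along the dyadic approximants -/
theorem scg_tower {F : ℝ → ℝ} (hF : ScBI F) {a τ : ℝ} {α : ℝ → ℝ} (hτ : 0 ≤ τ) (hα : ScCoef a τ α) :
    (∀ k, ∀ ε > 0, ∃ N, ∀ n ≥ N, ∀ t, 0 ≤ t → ∀ x, |scD k F (scDy α τ n) t x - scaD k F α τ t x| ≤ ε) ∧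
    (∀ k t, 0 ≤ t → ∀ x, HasDerivAt (scaD k F α τ t) (scaD (k + 1) F α τ t x) x) := by
  have ha : 0 ≤ a := hα.nonneg hτ
  obtain ⟨C, _, hC⟩ := scg_bounds ha hF
  have hdy := scg_dy_apx hτ hα
  obtain ⟨G, hG1, hG2, hG3⟩ := sck_tower_limit (τ := {t : ℝ // 0 ≤ t})
    (F := fun n k t x => scD k F (scDy α τ n) t.1 x) (C := C)
    (fun n k t x => sc_D_hasDerivAt hF k _ t.1 x)
    (fun n k t x hk => hC _ (hdy.adm n) (hdy.inc n) k (by omega) t.1 x)
    (fun ε hε => by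
      obtain ⟨N, hN⟩ := scg_apx_close hF hτ hdy hdy hε
      exact ⟨N, fun n hn m hm t x => hN m hm n hn t.1 t.2 x⟩)
  have e0 : ∀ t : {t : ℝ // 0 ≤ t}, scVa F α τ t.1 = G 0 t := fun t => by
    funext x
    exact (hG2 0 t x).limUnder_eq
  have ek : ∀ k (t : {t : ℝ // 0 ≤ t}), scaD k F α τ t.1 = G k t := fun k t => by
    unfold scaD
    rw [e0 t]
    exact scg_iter_eq (fun k x => hG3 k t x) k
  refine ⟨fun k ε hε => ?_, fun k t ht x => ?_⟩
  · obtain ⟨N, hN⟩ := hG1 k ε hε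
    exact ⟨N, fun n hn t ht x => by rw [ek k ⟨t, ht⟩]; exact hN n hn ⟨t, ht⟩ x⟩
  · rw [ek k ⟨t, ht⟩, ek (k + 1) ⟨t, ht⟩]
    exact hG3 k ⟨t, ht⟩ x

/-- **EXIT** uniform convergence of every derivative, for ANY approximation -/
theorem scg_D_unif_aux {F : ℝ → ℝ} (hF : ScBI F) {a a' τ : ℝ} {α : ℝ → ℝ} (hτ : 0 ≤ τ) (hα : ScCoef a τ α)
    {π : ℕ → List (ℝ × ℝ)} (hπ : ScApx a' τ α π) (k : ℕ) {ε : ℝ} (hε : 0 < ε) :
    ∃ N, ∀ n ≥ N, ∀ t, 0 ≤ t → ∀ z, |scD k F (π n) t z - scaD k F α τ t z| ≤ ε := by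
  have ha : 0 ≤ a := hα.nonneg hτ
  have hdy := (scg_dy_apx hτ hα).weaken (le_max_left a a')
  have hπ' := hπ.weaken (le_max_right a a')
  obtain ⟨C, _, hC⟩ := scg_bounds (le_max_of_le_left ha : 0 ≤ max a a') hF
  obtain ⟨η, hη, hs⟩ := sckE_small C k (half_pos hε)
  obtain ⟨N1, hN1⟩ := scg_apx_close hF hτ hdy hπ' hη
  obtain ⟨N2, hN2⟩ := (scg_tower hF hτ hα).1 k (ε / 2) (half_pos hε)
  refine ⟨N1, fun n hn t ht z => ?_⟩
  have h1 := scg_stab_D hF hF (π := scDy α τ (max N1 N2)) (π' := π n) (t := t) (t' := t) (δ := η) (C := C)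
    (fun k z hk => hC _ (hdy.adm _) (hdy.inc _) k (by omega) t z)
    (fun k z hk => hC _ (hπ'.adm _) (hπ'.inc _) k (by omega) t z)
    (fun z => hN1 _ (le_max_left _ _) n hn t ht z) k z
  have h2 := hs η (by rw [abs_of_pos hη])
  have h3 := hN2 _ (le_max_right N1 N2) t ht z
  calc |scD k F (π n) t z - scaD k F α τ t z|
      = |(scD k F (π n) t z - scD k F (scDy α τ (max N1 N2)) t z)
          + (scD k F (scDy α τ (max N1 N2)) t z - scaD k F α τ t z)| := by congr 1; ring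
    _ ≤ _ := abs_add_le _ _
    _ ≤ ε / 2 + ε / 2 := add_le_add (h1.trans h2) h3
    _ = ε := by ring

theorem scg_dy_al_mono' {a τ : ℝ} {α : ℝ → ℝ} (hα : ScCoef a τ α) {n m : ℕ} (hnm : n ≤ m) {t : ℝ} (ht : t ∈ Ico 0 τ) :
    scAl (scDy α τ n) t ≤ scAl (scDy α τ m) t := by
  induction m, hnm using Nat.le_induction with
  | base => exact le_rfl
  | succ m _ ih => exact ih.trans (sc_dy_al_mono hα m ht)

/-- after the horizon -/
theorem scg_Va_of_le (F : ℝ → ℝ) (α : ℝ → ℝ) {τ t : ℝ} (hτ : 0 ≤ τ) (ht : τ ≤ t) : scVa F α τ t = F := by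
  funext z
  unfold scVa
  have : (fun n : ℕ => scVt F (scDy α τ n) t z) = fun _ => F z := by
    funext n
    rw [sc_Vt_of_le F (scg_dy_pos α hτ n) (by rw [sc_dy_len]; exact ht)]
  rw [this]
  exact tendsto_const_nhds.limUnder_eq

/-- TEX[FS:lem:regularity] (existence of the solution for a general coefficient; independence of the approximation) -/
theorem scg_V_unif {F : ℝ → ℝ} (hF : ScBI F) {a a' τ : ℝ} {α : ℝ → ℝ} (hτ : 0 ≤ τ) (hα : ScCoef a τ α)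
    {π : ℕ → List (ℝ × ℝ)} (hπ : ScApx a' τ α π) {ε : ℝ} (hε : 0 < ε) :
    ∃ N, ∀ n ≥ N, ∀ t, 0 ≤ t → ∀ z, |scVt F (π n) t z - scVa F α τ t z| ≤ ε :=
  scg_D_unif_aux hF hτ hα hπ 0 hε

/-- rate along the dyadic approximants -/
theorem scg_V_rate {F : ℝ → ℝ} (hF : ScBI F) {L : ℝ} (hL : ∀ z, |deriv F z| ≤ L) {a τ : ℝ} {α : ℝ → ℝ} (hτ : 0 ≤ τ)
    (hα : ScCoef a τ α) (n : ℕ) {t : ℝ} (ht : 0 ≤ t) (z : ℝ) :
    |scVt F (scDy α τ n) t z - scVa F α τ t z| ≤ L ^ 2 / 2 * (a * τ / 2 ^ n) := by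
  have ha : 0 ≤ a := hα.nonneg hτ
  have hlim : Tendsto (fun m => scVt F (scDy α τ m) t z) atTop (𝓝 (scVa F α τ t z)) := by
    rw [Metric.tendsto_atTop]
    intro ε hε
    obtain ⟨N, hN⟩ := (scg_tower hF hτ hα).1 0 (ε / 2) (half_pos hε)
    exact ⟨N, fun m hm => by rw [Real.dist_eq]; exact (hN m hm t ht z).trans_lt (half_lt_self hε)⟩
  have hlim2 : Tendsto (fun m => |scVt F (scDy α τ n) t z - scVt F (scDy α τ m) t z|) atTop
      (𝓝 |scVt F (scDy α τ n) t z - scVa F α τ t z|) := (tendsto_const_nhds.sub hlim).abs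
  refine le_of_tendsto hlim2 ?_
  filter_upwards [eventually_ge_atTop n] with m hm
  have h1 := scg_stab' hF hF hL hL (ε := 0) (fun z => by simp) (sc_dy_adm hτ hα m) (sc_dy_adm hτ hα n)
    (by rw [sc_dy_len, sc_dy_len]) ht z
  rw [sc_dy_len, zero_add] at h1
  refine h1.trans (mul_le_mul_of_nonneg_left ?_ (by positivity))
  refine le_trans ?_ (sc_dy_L1 hτ hα n)
  refine intervalIntegral.integral_mono_on hτ ?_ ?_ ?_
  · exact ((sc_dy_al_intervalIntegrable ha (sc_dy_adm hτ hα n) 0 τ).sub (sc_dy_al_intervalIntegrable ha (sc_dy_adm hτ hα m) 0 τ)).abs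
  · exact ((sc_dy_coef_intervalIntegrable hα ⟨le_rfl, hτ⟩ ⟨hτ, le_rfl⟩).sub (sc_dy_al_intervalIntegrable ha (sc_dy_adm hτ hα n) 0 τ)).abs
  · intro r hr
    rcases hr.2.eq_or_lt with h2 | h2
    · rw [h2, sc_dy_al_of_len_le (by rw [sc_dy_len]) (scg_dy_pos α hτ n), sc_dy_al_of_len_le (by rw [sc_dy_len]) (scg_dy_pos α hτ m)]
      simp
    · have hr' : r ∈ Ico 0 τ := ⟨hr.1, h2⟩
      have i1 := scg_dy_al_mono' hα hm hr'
      have i2 := sc_dy_al_le hα m hr'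
      rw [abs_sub_comm, abs_of_nonneg (by linarith), abs_of_nonneg (by linarith)]
      linarith

/-- **EXIT** TEX[FS:lem:regularity] (`L¹`-stability of all the `x`-derivatives): uniform convergence of every derivative, for ANY approximation -/
theorem scg_D_unif {F : ℝ → ℝ} (hF : ScBI F) {a a' τ : ℝ} {α : ℝ → ℝ} (hτ : 0 ≤ τ) (hα : ScCoef a τ α)
    {π : ℕ → List (ℝ × ℝ)} (hπ : ScApx a' τ α π) (k : ℕ) {ε : ℝ} (hε : 0 < ε) :
    ∃ N, ∀ n ≥ N, ∀ t, 0 ≤ t → ∀ z, |scD k F (π n) t z - scaD k F α τ t z| ≤ ε :=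
  scg_D_unif_aux hF hτ hα hπ k hε

theorem scg_D_tendsto {F : ℝ → ℝ} (hF : ScBI F) {a a' τ : ℝ} {α : ℝ → ℝ} (hτ : 0 ≤ τ) (hα : ScCoef a τ α)
    {π : ℕ → List (ℝ × ℝ)} (hπ : ScApx a' τ α π) (k : ℕ) {t : ℝ} (ht : 0 ≤ t) (z : ℝ) :
    Tendsto (fun n => scD k F (π n) t z) atTop (𝓝 (scaD k F α τ t z)) := by
  rw [Metric.tendsto_atTop]
  intro ε hε
  obtain ⟨N, hN⟩ := scg_D_unif hF hτ hα hπ k (half_pos hε)
  exact ⟨N, fun n hn => by rw [Real.dist_eq]; exact (hN n hn t ht z).trans_lt (half_lt_self hε)⟩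

theorem scg_aD_zero (F : ℝ → ℝ) (α : ℝ → ℝ) (τ t : ℝ) : scaD 0 F α τ t = scVa F α τ t := rfl

theorem scg_aD_succ (k : ℕ) (F : ℝ → ℝ) (α : ℝ → ℝ) (τ t : ℝ) : deriv (scaD k F α τ t) = scaD (k + 1) F α τ t := by
  unfold scaD
  rw [Function.iterate_succ_apply']

/-- the limit is smooth in `z` -/
theorem scg_aD_hasDerivAt {F : ℝ → ℝ} (hF : ScBI F) {a τ : ℝ} {α : ℝ → ℝ} (hτ : 0 ≤ τ) (hα : ScCoef a τ α) (k : ℕ)
    {t : ℝ} (ht : 0 ≤ t) (z : ℝ) : HasDerivAt (scaD k F α τ t) (scaD (k + 1) F α τ t z) z :=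
  (scg_tower hF hτ hα).2 k t ht z

theorem scg_aD_of_le (k : ℕ) (F : ℝ → ℝ) (α : ℝ → ℝ) {τ t : ℝ} (hτ : 0 ≤ τ) (ht : τ ≤ t) :
    scaD k F α τ t = deriv^[k] F := by
  unfold scaD
  rw [scg_Va_of_le F α hτ ht]

/-! ## 4. the bounds pass to the limit -/

theorem scg_dy_tendsto {F : ℝ → ℝ} (hF : ScBI F) {a τ : ℝ} {α : ℝ → ℝ} (hτ : 0 ≤ τ) (hα : ScCoef a τ α) (k : ℕ) {t : ℝ}
    (ht : 0 ≤ t) (z : ℝ) : Tendsto (fun n => scD k F (scDy α τ n) t z) atTop (𝓝 (scaD k F α τ t z)) :=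
  scg_D_tendsto hF hτ hα (scg_dy_apx hτ hα) k ht z

theorem scg_N_of_tower {M : ℝ} (n : ℕ) : ∀ {j : ℕ → ℝ → ℝ}, (∀ k x, HasDerivAt (j k) (j (k + 1) x) x) →
    (∀ k ≤ n, ∀ z, |j k z| ≤ M) → ScN n M (j 0) := by
  induction n with
  | zero =>
    intro j hj hb
    exact ⟨continuous_iff_continuousAt.2 fun x => (hj 0 x).continuousAt, hb 0 le_rfl⟩
  | succ n ih =>
    intro j hj hb
    refine ⟨hb 0 (by omega), fun x => (hj 0 x).differentiableAt, ?_⟩
    have e : deriv (j 0) = j 1 := funext fun x => (hj 0 x).deriv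
    rw [e]
    exact ih (j := fun k => j (k + 1)) (fun k x => hj (k + 1) x) (fun k hk z => hb (k + 1) (by omega) z)

theorem scg_B_of_tower (n : ℕ) : ∀ {j : ℕ → ℝ → ℝ}, (∀ k x, HasDerivAt (j k) (j (k + 1) x) x) →
    (∀ k, 1 ≤ k → ∃ C : ℝ, ∀ z, |j k z| ≤ C) → ScB n (j 0) := by
  induction n with
  | zero =>
    intro j hj _
    exact continuous_iff_continuousAt.2 fun x => (hj 0 x).continuousAt
  | succ n ih =>
    intro j hj hb
    have e : deriv (j 0) = j 1 := funext fun x => (hj 0 x).deriv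
    refine ⟨fun x => (hj 0 x).differentiableAt, ?_, ?_⟩
    · rw [e]; exact hb 1 le_rfl
    · rw [e]
      exact ih (j := fun k => j (k + 1)) (fun k x => hj (k + 1) x) (fun k _ => hb (k + 1) (by omega))

/-- TEX[FS:lem:regularity] (derivative bounds): constants depending on `(a, F)` only: neither on `α` nor on `τ` -/
theorem scg_aD_bound {a : ℝ} (ha : 0 ≤ a) {F : ℝ → ℝ} (hF : ScBI F) :
    ∃ C : ℕ → ℝ, (∀ k, 0 ≤ C k) ∧ (∀ π, ScAdm a π → ScInc π → ∀ k, 1 ≤ k → ∀ t z, |scD k F π t z| ≤ C k) ∧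
      ∀ τ α, 0 ≤ τ → ScCoef a τ α → ∀ k, 1 ≤ k → ∀ t, 0 ≤ t → ∀ z, |scaD k F α τ t z| ≤ C k := by
  obtain ⟨C, hC0, hC⟩ := scg_bounds ha hF
  refine ⟨C, hC0, hC, fun τ α hτ hα k hk t ht z => ?_⟩
  exact sck_limit_abs_le (scg_dy_tendsto hF hτ hα k ht z)
    (Eventually.of_forall fun n => hC _ (sc_dy_adm hτ hα n) (sc_dy_inc hτ hα n) k hk t z)

/-- TEX[FS:lem:regularity] (`1`-Lipschitz) -/
theorem scg_u_le {F : ℝ → ℝ} (hF : ScBI F) {L : ℝ} (hL : ∀ z, |deriv F z| ≤ L) {a τ : ℝ} {α : ℝ → ℝ} (hτ : 0 ≤ τ)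
    (hα : ScCoef a τ α) {t : ℝ} (ht : 0 ≤ t) (z : ℝ) : |scaD 1 F α τ t z| ≤ L :=
  sck_limit_abs_le (scg_dy_tendsto hF hτ hα 1 ht z) (Eventually.of_forall fun n => sc_D1_le hF hL _ t z)

theorem scg_aN {a : ℝ} (ha : 0 ≤ a) {F : ℝ → ℝ} (hF : ScBI F) (n : ℕ) :
    ∃ C : ℝ, 0 ≤ C ∧ (∀ π, ScAdm a π → ScInc π → ∀ t, ScN n C (scD 1 F π t)) ∧
      ∀ τ α, 0 ≤ τ → ScCoef a τ α → ∀ t, 0 ≤ t → ScN n C (scaD 1 F α τ t) := by
  obtain ⟨C, hC0, hC⟩ := scg_N ha hF n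
  refine ⟨C, hC0, hC, fun τ α hτ hα t ht => ?_⟩
  refine scg_N_of_tower n (j := fun k => scaD (k + 1) F α τ t) (fun k x => scg_aD_hasDerivAt hF hτ hα (k + 1) ht x) ?_
  intro k hk z
  refine sck_limit_abs_le (scg_dy_tendsto hF hτ hα (k + 1) ht z) (Eventually.of_forall fun m => ?_)
  have h1 := (hC _ (sc_dy_adm hτ hα m) (sc_dy_inc hτ hα m) t).iter hk z
  have e : deriv^[k] (scD 1 F (scDy α τ m) t) = scD (k + 1) F (scDy α τ m) t := by
    unfold scD
    rfl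
  rwa [e] at h1

theorem scg_aD_bdd {F : ℝ → ℝ} (hF : ScBI F) {a τ : ℝ} {α : ℝ → ℝ} (hτ : 0 ≤ τ) (hα : ScCoef a τ α) {t : ℝ}
    (ht : 0 ≤ t) (k : ℕ) (hk : 1 ≤ k) : ∃ C : ℝ, ∀ z, |scaD k F α τ t z| ≤ C := by
  obtain ⟨C, _, _, hC⟩ := scg_aD_bound (hα.nonneg hτ) hF
  exact ⟨C k, fun z => hC τ α hτ hα k hk t ht z⟩

theorem scg_aD_B {F : ℝ → ℝ} (hF : ScBI F) {a τ : ℝ} {α : ℝ → ℝ} (hτ : 0 ≤ τ) (hα : ScCoef a τ α) (k n : ℕ) {t : ℝ}
    (ht : 0 ≤ t) : ScB n (scaD k F α τ t) :=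
  scg_B_of_tower n (j := fun i => scaD (i + k) F α τ t)
    (fun i x => by
      have := scg_aD_hasDerivAt hF hτ hα (i + k) ht x
      have e : i + 1 + k = i + k + 1 := by omega
      rw [e]; exact this)
    (fun i hi => scg_aD_bdd hF hτ hα ht (i + k) (by omega)) |> fun h => by simpa using h

theorem scg_Va_BI {F : ℝ → ℝ} (hF : ScBI F) {a τ : ℝ} {α : ℝ → ℝ} (hτ : 0 ≤ τ) (hα : ScCoef a τ α) {t : ℝ}
    (ht : 0 ≤ t) : ScBI (scVa F α τ t) := fun n => scg_aD_B hF hτ hα 0 n ht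

theorem scg_aD_Bd {F : ℝ → ℝ} (hF : ScBI F) {a τ : ℝ} {α : ℝ → ℝ} (hτ : 0 ≤ τ) (hα : ScCoef a τ α) (k n : ℕ) {t : ℝ}
    (ht : 0 ≤ t) : ScBd n (scaD (k + 1) F α τ t) :=
  ⟨scg_aD_bdd hF hτ hα ht (k + 1) (by omega), scg_aD_B hF hτ hα (k + 1) n ht⟩

theorem scg_aD_E {F : ℝ → ℝ} (hF : ScBI F) {a τ : ℝ} {α : ℝ → ℝ} (hτ : 0 ≤ τ) (hα : ScCoef a τ α) (k n : ℕ) {t : ℝ}
    (ht : 0 ≤ t) : ScE n (scaD k F α τ t) := (scg_aD_B hF hτ hα k (n + 1) ht).scE.of_succ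

/-- TEX[FS:lem:regularity] (even) -/
theorem scg_aD_parity {F : ℝ → ℝ} (hF : ScBI F) (he : ∀ z, F (-z) = F z) {a τ : ℝ} {α : ℝ → ℝ} (hτ : 0 ≤ τ)
    (hα : ScCoef a τ α) (k : ℕ) {t : ℝ} (ht : 0 ≤ t) (z : ℝ) :
    scaD k F α τ t (-z) = (-1) ^ k * scaD k F α τ t z := by
  have h1 := scg_dy_tendsto hF hτ hα k ht (-z)
  have h2 := (scg_dy_tendsto hF hτ hα k ht z).const_mul ((-1 : ℝ) ^ k)
  refine tendsto_nhds_unique h1 (h2.congr fun n => ?_)
  exact (sc_D_parity hF he k _ t z).symm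

/-- TEX[FS:lem:regularity] (convex) -/
theorem scg_w_nonneg {F : ℝ → ℝ} (hF : ScBI F) (h2 : ∀ z, 0 ≤ deriv (deriv F) z) {a τ : ℝ} {α : ℝ → ℝ} (hτ : 0 ≤ τ)
    (hα : ScCoef a τ α) {t : ℝ} (ht : 0 ≤ t) (z : ℝ) : 0 ≤ scaD 2 F α τ t z :=
  ge_of_tendsto (scg_dy_tendsto hF hτ hα 2 ht z)
    (Eventually.of_forall fun n => sc_D2_nonneg hF h2 (fun p hp => (sc_dy_adm hτ hα n p hp).1) t z)

/-- S3.1 for general `α`: `w ≤ a (1 - u²)` -/
theorem scg_w_le {a : ℝ} {F : ℝ → ℝ} (h : ScAd a F) {τ : ℝ} {α : ℝ → ℝ} (hτ : 0 ≤ τ) (hα : ScCoef a τ α) {t : ℝ}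
    (ht : 0 ≤ t) (z : ℝ) : scaD 2 F α τ t z ≤ a * (1 - scaD 1 F α τ t z ^ 2) :=
  le_of_tendsto_of_tendsto (scg_dy_tendsto h.B hτ hα 2 ht z)
    ((tendsto_const_nhds.sub ((scg_dy_tendsto h.B hτ hα 1 ht z).pow 2)).const_mul a)
    (Eventually.of_forall fun n => scad_w_le h (sc_dy_adm hτ hα n) t z)

/-- R4' for general `α` -/
theorem scg_w_ge {a : ℝ} {F : ℝ → ℝ} (h : ScAd a F) {c : ℝ} (hc : 0 ≤ c) (hFc : ∀ z, c * scSech a z ≤ deriv (deriv F) z)
    {τ : ℝ} {α : ℝ → ℝ} (hτ : 0 ≤ τ) (hα : ScCoef a τ α) {t : ℝ} (ht0 : 0 ≤ t) (ht : t ≤ τ) (z : ℝ) :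
    c * Real.exp (-(3 * a ^ 2 * (τ - t))) * scSech a z ≤ scaD 2 F α τ t z :=
  ge_of_tendsto (scg_dy_tendsto h.B hτ hα 2 ht0 z) (Eventually.of_forall fun n => by
    have := scb_w_ge h (sc_dy_adm hτ hα n) hc hFc (t := t) (by rw [sc_dy_len]; exact ht) z
    rwa [sc_dy_len] at this)

/-- the invariant class is kept -/
theorem scg_Va_ad {a : ℝ} {F : ℝ → ℝ} (h : ScAd a F) {c : ℝ} (hc : 0 < c) (hFc : ∀ z, c * scSech a z ≤ deriv (deriv F) z)
    {τ : ℝ} {α : ℝ → ℝ} (hτ : 0 ≤ τ) (hα : ScCoef a τ α) {t : ℝ} (ht : 0 ≤ t) : ScAd a (scVa F α τ t) := by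
  refine ⟨scg_Va_BI h.B hτ hα ht, fun z => ?_, fun z => scg_u_le h.B h.lip hτ hα ht z, fun z => ?_,
    fun z => scg_w_le h hτ hα ht z⟩
  · have := scg_aD_parity h.B h.even hτ hα 0 ht z
    rw [pow_zero, one_mul] at this
    exact this
  · rcases le_total t τ with h1 | h1
    · refine lt_of_lt_of_le ?_ (scg_w_ge h hc.le hFc hτ hα ht h1 z)
      exact mul_pos (mul_pos hc (Real.exp_pos _)) (scSech_pos a z)
    · rw [scg_Va_of_le F α hτ h1]
      exact h.pos z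

/-! ## 5. regularity in the time, the PDE      (proofs: helper90) -/

/-- S3.3 for general `α`, tau-free -/
theorem scg_aD_lip {a : ℝ} (ha : 0 ≤ a) {F : ℝ → ℝ} (hF : ScBI F) (k : ℕ) :
    ∃ C : ℝ, 0 ≤ C ∧ ∀ τ α, 0 ≤ τ → ScCoef a τ α → ∀ t t', 0 ≤ t → 0 ≤ t' → ∀ z,
      |scaD k F α τ t z - scaD k F α τ t' z| ≤ C * |t - t'| := by
  obtain ⟨C, hC0, hC⟩ := scg_step_lip ha hF k
  refine ⟨C, hC0, fun τ α hτ hα t t' ht ht' z => ?_⟩
  have hA := scg_dy_apx hτ hα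
  have h1 := scg_D_tendsto hF hτ hα hA k ht z
  have h2 := scg_D_tendsto hF hτ hα hA k ht' z
  exact le_of_tendsto' (h1.sub h2).abs fun n => hC _ (hA.adm n) (hA.inc n) t t' ht ht' z

/-- joint regularity: the class `ScT` -/
theorem scg_aD_T {F : ℝ → ℝ} (hF : ScBI F) {a τ : ℝ} {α : ℝ → ℝ} (hτ : 0 ≤ τ) (hα : ScCoef a τ α) (k n : ℕ) (T : ℝ) :
    ScT (Icc 0 T) n (scaD k F α τ) := by
  have ha : 0 ≤ a := hα.nonneg hτ
  have hcont : ∀ k, ContinuousOn (fun p : ℝ × ℝ => scaD k F α τ p.1 p.2) (Icc 0 T ×ˢ univ) := by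
    intro k
    obtain ⟨C, hC0, hC⟩ := scg_aD_lip ha hF k
    refine continuousOn_prod_of_continuousOn_lipschitzOnWith (fun p : ℝ × ℝ => scaD k F α τ p.1 p.2) C.toNNReal
      (fun r hr => ?_) (fun z _ => ?_)
    · exact (continuous_iff_continuousAt.2 fun z => (scg_aD_hasDerivAt hF hτ hα k hr.1 z).continuousAt).continuousOn
    · refine LipschitzOnWith.of_dist_le_mul fun r hr r' hr' => ?_
      rw [Real.dist_eq, Real.dist_eq, Real.coe_toNNReal _ hC0]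
      exact hC τ α hτ hα r r' hr.1 hr'.1 z
  have hgr : ∀ k, ScGU (Icc 0 T) (scaD k F α τ) := by
    intro k
    obtain ⟨C, hC0, hC⟩ := scg_aD_lip ha hF k
    obtain ⟨C0, c, h0⟩ := (scg_aD_E hF hτ hα k 0 le_rfl).growth
    refine ⟨|C0| + C * |T|, |c|, fun r hr z => ?_⟩
    have h1 := hC τ α hτ hα r 0 hr.1 le_rfl z
    have h2 := h0 z
    have h3 : |scaD k F α τ r z| ≤ |scaD k F α τ r z - scaD k F α τ 0 z| + |scaD k F α τ 0 z| := by
      have := abs_add_le (scaD k F α τ r z - scaD k F α τ 0 z) (scaD k F α τ 0 z)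
      simpa using this
    have h4 : Real.exp (c * |z|) ≤ Real.exp (|c| * |z|) :=
      Real.exp_le_exp.2 (mul_le_mul_of_nonneg_right (le_abs_self c) (abs_nonneg z))
    have h5 : 1 ≤ Real.exp (|c| * |z|) := Real.one_le_exp (by positivity)
    have h6 : |r - 0| ≤ |T| := by
      rw [sub_zero, abs_of_nonneg hr.1]
      exact hr.2.trans (le_abs_self T)
    have h7 : C0 * Real.exp (c * |z|) ≤ |C0| * Real.exp (|c| * |z|) :=
      (mul_le_mul_of_nonneg_right (le_abs_self C0) (Real.exp_pos _).le).trans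
        (mul_le_mul_of_nonneg_left h4 (abs_nonneg _))
    have h8 : C * |r - 0| ≤ C * |T| * Real.exp (|c| * |z|) := by
      have : C * |r - 0| ≤ C * |T| := mul_le_mul_of_nonneg_left h6 hC0
      have h9 : 0 ≤ C * |T| := by positivity
      nlinarith
    rw [add_mul]
    linarith
  induction n generalizing k with
  | zero => exact ⟨hcont k, hgr k⟩
  | succ n ih =>
    refine ⟨hcont k, hgr k, fun r hr z => (scg_aD_hasDerivAt hF hτ hα k hr.1 z).differentiableAt, ?_⟩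
    simp only [scg_aD_succ]
    exact ih (k + 1)

/-- the tower of the iterated derivatives of a function of the class `ScBI` -/
theorem scg_iter_hasDerivAt {φ : ℝ → ℝ} (h : ScBI φ) (j : ℕ) (z : ℝ) :
    HasDerivAt (deriv^[j] φ) (deriv^[j + 1] φ z) z := by
  have h1 := ((sc_D_hasDerivAt_aux_BI h j 1).1 z).hasDerivAt
  rwa [← Function.iterate_succ_apply' deriv j φ] at h1

/-- uniform convergence of the nonlinearity `∂_z^k (u² / 2)` -/
theorem scg_sq_unif {F : ℝ → ℝ} (hF : ScBI F) {a a' τ : ℝ} {α : ℝ → ℝ} (hτ : 0 ≤ τ) (hα : ScCoef a τ α)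
    {π : ℕ → List (ℝ × ℝ)} (hπ : ScApx a' τ α π) (k : ℕ) {ε : ℝ} (hε : 0 < ε) :
    ∃ N, ∀ n ≥ N, ∀ t, 0 ≤ t → ∀ z,
      |deriv^[k] (fun y => scD 1 F (π n) t y ^ 2 / 2) z - deriv^[k] (fun y => scaD 1 F α τ t y ^ 2 / 2) z| ≤ ε := by
  have hA0 : 0 ≤ max a a' := (hα.nonneg hτ).trans (le_max_left _ _)
  have hN := fun j => scg_aN hA0 hF j
  choose C hC0 hC1 hC2 using hN
  set D : ℕ → ℝ := fun j => |(1 / 2 : ℝ)| * (2 ^ j * (C j * C j)) with hD
  have hπ' := hπ.weaken (le_max_right a a')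
  have hα' := hα.weaken (le_max_left a a')
  have e : ∀ u : ℝ → ℝ, (fun y => u y ^ 2 / 2) = fun y => (1 / 2 : ℝ) * (u y * u y) := by
    intro u; funext y; ring
  have b1 : ∀ n t j z, |deriv^[j] (fun y => scD 1 F (π n) t y ^ 2 / 2) z| ≤ D j := by
    intro n t j z
    rw [e]
    have h1 := hC1 j _ (hπ'.adm n) (hπ'.inc n) t
    exact ((h1.mul h1).const_mul (1 / 2)).iter le_rfl z
  have b2 : ∀ t, 0 ≤ t → ∀ j z, |deriv^[j] (fun y => scaD 1 F α τ t y ^ 2 / 2) z| ≤ D j := by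
    intro t ht j z
    rw [e]
    have h1 := hC2 j τ α hτ hα' t ht
    exact ((h1.mul h1).const_mul (1 / 2)).iter le_rfl z
  have s1 : ∀ n t, ScBI (fun y => scD 1 F (π n) t y ^ 2 / 2) := fun n t m => by
    rw [e]
    exact (((sc_D_Bd hF 0 m (π n) t).mul (sc_D_Bd hF 0 m (π n) t)).const_mul _).2
  have s2 : ∀ t, 0 ≤ t → ScBI (fun y => scaD 1 F α τ t y ^ 2 / 2) := fun t ht m => by
    rw [e]
    exact (((scg_aD_Bd hF hτ hα 0 m ht).mul (scg_aD_Bd hF hτ hα 0 m ht)).const_mul _).2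
  obtain ⟨η, hη, hE⟩ := sckE_small D k hε
  have hC00 := hC0 0
  obtain ⟨N, hN⟩ := scg_D_unif hF hτ hα hπ 1 (ε := η / (C 0 + 1)) (by positivity)
  refine ⟨N, fun n hn t ht z => ?_⟩
  have h0 : ∀ x, |scD 1 F (π n) t x ^ 2 / 2 - scaD 1 F α τ t x ^ 2 / 2| ≤ η := by
    intro x
    have h1 := hN n hn t ht x
    have h2 := (hC1 0 _ (hπ'.adm n) (hπ'.inc n) t).bd x
    have h3 := (hC2 0 τ α hτ hα' t ht).bd x
    have e1 : scD 1 F (π n) t x ^ 2 / 2 - scaD 1 F α τ t x ^ 2 / 2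
        = (scD 1 F (π n) t x - scaD 1 F α τ t x) * ((scD 1 F (π n) t x + scaD 1 F α τ t x) / 2) := by ring
    rw [e1, abs_mul]
    have h4 : |(scD 1 F (π n) t x + scaD 1 F α τ t x) / 2| ≤ C 0 := by
      rw [abs_div, abs_of_pos (by norm_num : (0 : ℝ) < 2)]
      have := abs_add_le (scD 1 F (π n) t x) (scaD 1 F α τ t x)
      linarith
    calc _ ≤ η / (C 0 + 1) * C 0 := mul_le_mul h1 h4 (abs_nonneg _) (by positivity)
      _ ≤ η := by
        rw [div_mul_eq_mul_div, div_le_iff₀ (by positivity)]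
        nlinarith
  have := sck_tower_diff (F := fun j => deriv^[j] (fun y => scD 1 F (π n) t y ^ 2 / 2))
    (G := fun j => deriv^[j] (fun y => scaD 1 F α τ t y ^ 2 / 2)) (scg_iter_hasDerivAt (s1 n t))
    (scg_iter_hasDerivAt (s2 t ht)) (fun j x _ => b1 n t j x) (fun j x _ => b2 t ht j x) h0 k z
  exact this.trans (hE η (by rw [abs_of_pos hη]))

/-- uniform convergence on `[s, t]` gives the convergence of the integrals -/
theorem scg_integral_tendsto_unif {s t : ℝ} (hst : s ≤ t) {g : ℕ → ℝ → ℝ} {G : ℝ → ℝ}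
    (hg : ∀ n, IntervalIntegrable (g n) volume s t) (hG : IntervalIntegrable G volume s t)
    (hu : ∀ ε > 0, ∃ N, ∀ n ≥ N, ∀ r ∈ Icc s t, |g n r - G r| ≤ ε) :
    Tendsto (fun n => ∫ r in s..t, g n r) atTop (𝓝 (∫ r in s..t, G r)) := by
  rw [Metric.tendsto_atTop]
  intro ε hε
  have hpos : 0 < t - s + 1 := by linarith
  obtain ⟨N, hN⟩ := hu (ε / (2 * (t - s + 1))) (by positivity)
  refine ⟨N, fun n hn => ?_⟩
  rw [Real.dist_eq, ← intervalIntegral.integral_sub (hg n) hG, ← Real.norm_eq_abs]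
  have h1 := intervalIntegral.norm_integral_le_of_norm_le_const (a := s) (b := t)
    (f := fun r => g n r - G r) (C := ε / (2 * (t - s + 1))) (fun r hr => by
      rw [uIoc_of_le hst] at hr
      rw [Real.norm_eq_abs]
      exact hN n hn r ⟨hr.1.le, hr.2⟩)
  refine h1.trans_lt ?_
  rw [abs_of_nonneg (sub_nonneg.2 hst), div_mul_eq_mul_div, div_lt_iff₀ (by positivity)]
  nlinarith

/-- the nonlinearity `∂_z^k (u² / 2)` is of class `ScT` -/
theorem scg_sq_T {F : ℝ → ℝ} (hF : ScBI F) {a τ : ℝ} {α : ℝ → ℝ} (hτ : 0 ≤ τ) (hα : ScCoef a τ α) (k n : ℕ) (T : ℝ) :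
    ScT (Icc 0 T) n (fun r => deriv^[k] (fun y => scaD 1 F α τ r y ^ 2 / 2)) := by
  have h1 := ((scg_aD_T hF hτ hα 1 (n + k) T).pow 2).const_mul (1 / 2)
  exact ScT.iter_deriv k (h1.congr fun r _ z => by ring)

theorem scg_step_sq_T {F : ℝ → ℝ} (hF : ScBI F) {π : List (ℝ × ℝ)} (hπ : ScPos π) (k n : ℕ) :
    ScT (Icc 0 (scLen π)) n (fun r => deriv^[k] (fun y => scD 1 F π r y ^ 2 / 2)) := by
  have h1 := ((sc_D_T hF hπ 1 (n + k)).pow 2).const_mul (1 / 2)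
  exact ScT.iter_deriv k (h1.congr fun r _ z => by ring)

theorem scg_pde_integrable {F : ℝ → ℝ} (hF : ScBI F) {a τ : ℝ} {α : ℝ → ℝ} (hα : ScCoef a τ α) (k : ℕ) {t t' : ℝ}
    (h0 : 0 ≤ t) (htt : t ≤ t') (ht' : t' ≤ τ) (z : ℝ) :
    IntervalIntegrable
      (fun r => -(scaD (k + 2) F α τ r z) / 2 - α r * deriv^[k] (fun y => scaD 1 F α τ r y ^ 2 / 2) z) volume t t' := by
  have hτ : 0 ≤ τ := h0.trans (htt.trans ht')
  have hsub : uIcc t t' ⊆ Icc 0 τ := by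
    rw [uIcc_of_le htt]
    exact Icc_subset_Icc h0 ht'
  have c1 : ContinuousOn (fun r => -(scaD (k + 2) F α τ r z) / 2) (uIcc t t') :=
    (((scg_aD_T hF hτ hα (k + 2) 0 τ).continuousOn_time z).neg.div_const 2).mono hsub
  have c2 : ContinuousOn (fun r => deriv^[k] (fun y => scaD 1 F α τ r y ^ 2 / 2) z) (uIcc t t') :=
    ((scg_sq_T hF hτ hα k 0 τ).continuousOn_time z).mono hsub
  exact c1.intervalIntegrable.sub
    ((sc_dy_coef_intervalIntegrable hα ⟨h0, htt.trans ht'⟩ ⟨h0.trans htt, ht'⟩).mul_continuousOn c2)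

/-- **EXIT** TEX[FS:lem:regularity] (the differentiated equation holds a.e. in `t`): the Parisi PDE, differentiated `k` times, integrated in time -/
theorem scg_pde {F : ℝ → ℝ} (hF : ScBI F) {a τ : ℝ} {α : ℝ → ℝ} (hα : ScCoef a τ α) (k : ℕ) {t t' : ℝ} (h0 : 0 ≤ t)
    (htt : t ≤ t') (ht' : t' ≤ τ) (z : ℝ) :
    scaD k F α τ t' z - scaD k F α τ t z =
      ∫ r in t..t', (-(scaD (k + 2) F α τ r z) / 2 - α r * deriv^[k] (fun y => scaD 1 F α τ r y ^ 2 / 2) z) := by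
  have hτ : 0 ≤ τ := h0.trans (htt.trans ht')
  have ha : 0 ≤ a := hα.nonneg hτ
  have hA := scg_dy_apx hτ hα
  have hsub : uIcc t t' ⊆ Icc 0 τ := by
    rw [uIcc_of_le htt]
    exact Icc_subset_Icc h0 ht'
  have hsub' : Icc t t' ⊆ Icc 0 τ := Icc_subset_Icc h0 ht'
  -- the limit objects
  have c1 : ContinuousOn (fun r => -(scaD (k + 2) F α τ r z) / 2) (uIcc t t') :=
    (((scg_aD_T hF hτ hα (k + 2) 0 τ).continuousOn_time z).neg.div_const 2).mono hsub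
  have c2 : ContinuousOn (fun r => deriv^[k] (fun y => scaD 1 F α τ r y ^ 2 / 2) z) (Icc t t') :=
    ((scg_sq_T hF hτ hα k 0 τ).continuousOn_time z).mono hsub'
  have i2 : IntervalIntegrable (fun r => α r * deriv^[k] (fun y => scaD 1 F α τ r y ^ 2 / 2) z) volume t t' :=
    (sc_dy_coef_intervalIntegrable hα ⟨h0, htt.trans ht'⟩ ⟨h0.trans htt, ht'⟩).mul_continuousOn
      (by rwa [uIcc_of_le htt])
  -- the step objects
  have d1 : ∀ n, ContinuousOn (fun r => -(scD (k + 2) F (scDy α τ n) r z) / 2) (uIcc t t') := by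
    intro n
    have := (sc_D_T hF (hA.adm n).pos (k + 2) 0).continuousOn_time z
    rw [hA.len n] at this
    exact (this.neg.div_const 2).mono hsub
  have d2 : ∀ n, ContinuousOn (fun r => deriv^[k] (fun y => scD 1 F (scDy α τ n) r y ^ 2 / 2) z) (uIcc t t') := by
    intro n
    have := (scg_step_sq_T hF (hA.adm n).pos k 0).continuousOn_time z
    rw [hA.len n] at this
    exact this.mono hsub
  have j2 : ∀ n, IntervalIntegrable
      (fun r => scAl (scDy α τ n) r * deriv^[k] (fun y => scD 1 F (scDy α τ n) r y ^ 2 / 2) z) volume t t' :=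
    fun n => (sc_dy_al_intervalIntegrable ha (hA.adm n) t t').mul_continuousOn (d2 n)
  -- convergence
  have l1 : Tendsto (fun n => ∫ r in t..t', -(scD (k + 2) F (scDy α τ n) r z) / 2) atTop
      (𝓝 (∫ r in t..t', -(scaD (k + 2) F α τ r z) / 2)) := by
    refine scg_integral_tendsto_unif htt (fun n => (d1 n).intervalIntegrable) c1.intervalIntegrable
      fun ε hε => ?_
    obtain ⟨N, hN⟩ := scg_D_unif hF hτ hα hA (k + 2) hε
    refine ⟨N, fun n hn r hr => ?_⟩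
    have h1 := hN n hn r (h0.trans hr.1) z
    have e : -(scD (k + 2) F (scDy α τ n) r z) / 2 - -(scaD (k + 2) F α τ r z) / 2
        = -((scD (k + 2) F (scDy α τ n) r z - scaD (k + 2) F α τ r z) / 2) := by ring
    rw [e, abs_neg, abs_div, abs_of_pos (by norm_num : (0 : ℝ) < 2)]
    linarith [abs_nonneg (scD (k + 2) F (scDy α τ n) r z - scaD (k + 2) F α τ r z)]
  have l2 := hA.integral_tendsto h0 htt ht' c2 j2 (fun ε hε => by
    obtain ⟨N, hN⟩ := scg_sq_unif hF hτ hα hA k hε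
    exact ⟨N, fun n hn r hr => hN n hn r (h0.trans hr.1) z⟩)
  have l3 := (scg_D_tendsto hF hτ hα hA k (h0.trans htt) z).sub (scg_D_tendsto hF hτ hα hA k h0 z)
  have e : ∀ n, scD k F (scDy α τ n) t' z - scD k F (scDy α τ n) t z
      = (∫ r in t..t', -(scD (k + 2) F (scDy α τ n) r z) / 2)
        - ∫ r in t..t', scAl (scDy α τ n) r * deriv^[k] (fun y => scD 1 F (scDy α τ n) r y ^ 2 / 2) z := by
    intro n
    rw [sc_D_sub_eq_integral hF (hA.adm n).pos k h0 htt (by rw [hA.len n]; exact ht') z,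
      intervalIntegral.integral_sub (d1 n).intervalIntegrable (j2 n)]
  rw [intervalIntegral.integral_sub c1.intervalIntegrable i2]
  exact tendsto_nhds_unique (l3.congr e) (l1.sub l2)

/-- pointwise form at a continuity point of `α` -/
theorem scg_pde_hasDerivAt {F : ℝ → ℝ} (hF : ScBI F) {a τ : ℝ} {α : ℝ → ℝ} (hα : ScCoef a τ α) (k : ℕ) {r : ℝ}
    (hr : r ∈ Ioo 0 τ) (hc : ContinuousAt α r) (z : ℝ) :
    HasDerivAt (fun r => scaD k F α τ r z)
      (-(scaD (k + 2) F α τ r z) / 2 - α r * deriv^[k] (fun y => scaD 1 F α τ r y ^ 2 / 2) z) r := by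
  have hτ : 0 ≤ τ := (hr.1.trans hr.2).le
  set f : ℝ → ℝ := fun r => -(scaD (k + 2) F α τ r z) / 2 - α r * deriv^[k] (fun y => scaD 1 F α τ r y ^ 2 / 2) z
    with hf
  have hint : IntervalIntegrable f volume 0 τ := scg_pde_integrable hF hα k le_rfl hτ le_rfl z
  have hint' : IntervalIntegrable f volume 0 r := scg_pde_integrable hF hα k le_rfl hr.1.le hr.2.le z
  have hnhds : Icc 0 τ ∈ 𝓝 r := Icc_mem_nhds hr.1 hr.2
  have hcf : ContinuousAt f r := by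
    have c1 := ((scg_aD_T hF hτ hα (k + 2) 0 τ).continuousOn_time z).continuousAt hnhds
    have c2 := ((scg_sq_T hF hτ hα k 0 τ).continuousOn_time z).continuousAt hnhds
    exact (c1.neg.div_const 2).sub (hc.mul c2)
  have hmeas : StronglyMeasurableAtFilter f (𝓝 r) volume :=
    ⟨Ioc 0 τ, Ioc_mem_nhds hr.1 hr.2, hint.1.aestronglyMeasurable⟩
  have h1 := intervalIntegral.integral_hasDerivAt_right hint' hmeas hcf
  have h2 : (fun r' => scaD k F α τ r' z) =ᶠ[𝓝 r] fun u => scaD k F α τ 0 z + ∫ x in (0 : ℝ)..u, f x := by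
    filter_upwards [hnhds] with u hu
    have := scg_pde hF hα k le_rfl hu.1 hu.2 z
    linarith
  exact (h1.const_add _).congr_of_eventuallyEq h2

/-! ## 6. dependence on the coefficient and on the terminal datum      (proofs: helper90) -/

/-- `L¹` convergence of two approximating sequences gives the convergence of their `L¹` distance -/
theorem scg_dist_tendsto {a a' τ : ℝ} {α β : ℝ → ℝ} {π π' : ℕ → List (ℝ × ℝ)} (h : ScApx a τ α π)
    (h' : ScApx a' τ β π') {s t : ℝ} (hs : 0 ≤ s) (hst : s ≤ t) (ht : t ≤ τ) :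
    Tendsto (fun n => ∫ r in s..t, |scAl (π' n) r - scAl (π n) r|) atTop (𝓝 (∫ r in s..t, |β r - α r|)) := by
  have hsub : uIcc s t ⊆ uIcc 0 τ := by
    rw [uIcc_of_le hst, uIcc_of_le (hs.trans (hst.trans ht))]
    exact Icc_subset_Icc hs ht
  have iα : IntervalIntegrable α volume s t := h.int.mono_set hsub
  have iβ : IntervalIntegrable β volume s t := h'.int.mono_set hsub
  have i1 : ∀ n, IntervalIntegrable (scAl (π n)) volume s t :=
    fun n => sc_dy_al_intervalIntegrable h.nonneg (h.adm n) s t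
  have i2 : ∀ n, IntervalIntegrable (scAl (π' n)) volume s t :=
    fun n => sc_dy_al_intervalIntegrable h'.nonneg (h'.adm n) s t
  have l := (h.l1_sub hs hst ht).add (h'.l1_sub hs hst ht)
  rw [add_zero] at l
  rw [tendsto_iff_dist_tendsto_zero]
  refine squeeze_zero (fun _ => dist_nonneg) (fun n => ?_) l
  rw [Real.dist_eq, ← intervalIntegral.integral_sub ((i2 n).sub (i1 n)).abs (iβ.sub iα).abs,
    ← intervalIntegral.integral_add ((i1 n).sub iα).abs ((i2 n).sub iβ).abs]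
  refine (intervalIntegral.abs_integral_le_integral_abs hst).trans ?_
  refine intervalIntegral.integral_mono_on hst
    ((((i2 n).sub (i1 n)).abs.sub (iβ.sub iα).abs).abs) (((i1 n).sub iα).abs.add ((i2 n).sub iβ).abs) fun r _ => ?_
  have h1 := abs_abs_sub_abs_le (scAl (π' n) r - scAl (π n) r) (β r - α r)
  have h2 : scAl (π' n) r - scAl (π n) r - (β r - α r) = (scAl (π' n) r - β r) - (scAl (π n) r - α r) := by ring
  rw [h2] at h1
  have h3 := abs_sub (scAl (π' n) r - β r) (scAl (π n) r - α r)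
  linarith

/-- TEX[FS:lem:regularity] (value stability for general coefficients) = S4.2 -/
theorem scg_lip {F F' : ℝ → ℝ} (hF : ScBI F) (hF' : ScBI F') {L ε : ℝ} (hL : ∀ z, |deriv F z| ≤ L)
    (hL' : ∀ z, |deriv F' z| ≤ L) (hε : ∀ z, |F' z - F z| ≤ ε) {a τ : ℝ} {α β : ℝ → ℝ} (hα : ScCoef a τ α)
    (hβ : ScCoef a τ β) {t : ℝ} (h0 : 0 ≤ t) (ht : t ≤ τ) (z : ℝ) :
    |scVa F' β τ t z - scVa F α τ t z| ≤ ε + L ^ 2 / 2 * ∫ r in t..τ, |β r - α r| := by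
  have hτ : 0 ≤ τ := h0.trans ht
  have hA := scg_dy_apx hτ hα
  have hB := scg_dy_apx hτ hβ
  have l1 := (scg_D_tendsto hF' hτ hβ hB 0 h0 z).sub (scg_D_tendsto hF hτ hα hA 0 h0 z)
  have l2 := ((scg_dist_tendsto hA hB h0 ht le_rfl).const_mul (L ^ 2 / 2)).const_add ε
  refine le_of_tendsto_of_tendsto' l1.abs l2 fun n => ?_
  have := scg_stab hF hF' hL hL' hε (hA.adm n) (hB.adm n) ((hB.len n).trans (hA.len n).symm) h0
    (by rw [hA.len n]; exact ht) z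
  rw [hA.len n] at this
  exact this

/-- S4.1 for general coefficients -/
theorem scg_mono {F : ℝ → ℝ} (hF : ScBI F) {a τ : ℝ} {α β : ℝ → ℝ} (hτ : 0 ≤ τ) (hα : ScCoef a τ α) (hβ : ScCoef a τ β)
    (hle : ∀ r ∈ Ico 0 τ, α r ≤ β r) {t : ℝ} (h0 : 0 ≤ t) (z : ℝ) : scVa F α τ t z ≤ scVa F β τ t z := by
  have hA := scg_dy_apx hτ hα
  have hB := scg_dy_apx hτ hβ
  refine le_of_tendsto_of_tendsto' (scg_D_tendsto hF hτ hα hA 0 h0 z) (scg_D_tendsto hF hτ hβ hB 0 h0 z) fun n => ?_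
  refine scg_step_mono hF (hA.adm n) (hB.adm n) ((hB.len n).trans (hA.len n).symm) (fun r hr => ?_) h0 z
  rw [hA.len n] at hr
  obtain ⟨k, hk, h1, h2⟩ := sc_dy_cell_exists n hr
  rw [sc_dy_al_cell α τ n k hk h1 h2, sc_dy_al_cell β τ n k hk h1 h2]
  refine hle _ ⟨?_, lt_of_le_of_lt h1 hr.2⟩
  have : 0 ≤ τ / 2 ^ n := by positivity
  positivity

/-- TEX[FS:lem:regularity] (`L¹`-stability of all the derivatives), with the modulus `sckE` of `Sc/LimKit.lean` -/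
theorem scg_D_cont {a : ℝ} (ha : 0 ≤ a) {F : ℝ → ℝ} (hF : ScBI F) {L : ℝ} (hL : ∀ z, |deriv F z| ≤ L) :
    ∃ C : ℕ → ℝ, ∀ τ α β, 0 ≤ τ → ScCoef a τ α → ScCoef a τ β → ∀ k t, 0 ≤ t → ∀ z,
      |scaD k F β τ t z - scaD k F α τ t z| ≤ sckE C (L ^ 2 / 2 * ∫ r in (0 : ℝ)..τ, |β r - α r|) k := by
  obtain ⟨C, _, _, hC⟩ := scg_aD_bound ha hF
  refine ⟨C, fun τ α β hτ hα hβ k t ht z => ?_⟩
  refine sck_tower_diff (F := fun k => scaD k F β τ t) (G := fun k => scaD k F α τ t)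
    (fun k x => scg_aD_hasDerivAt hF hτ hβ k ht x) (fun k x => scg_aD_hasDerivAt hF hτ hα k ht x)
    (fun k x hk => hC τ β hτ hβ k (by omega) t ht x) (fun k x hk => hC τ α hτ hα k (by omega) t ht x)
    (fun x => ?_) k z
  have iα : IntervalIntegrable α volume 0 τ := sc_dy_coef_intervalIntegrable hα ⟨le_rfl, hτ⟩ ⟨hτ, le_rfl⟩
  have iβ : IntervalIntegrable β volume 0 τ := sc_dy_coef_intervalIntegrable hβ ⟨le_rfl, hτ⟩ ⟨hτ, le_rfl⟩
  have hi := (iβ.sub iα).abs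
  have hL2 : 0 ≤ L ^ 2 / 2 := by positivity
  rcases le_total t τ with htτ | htτ
  · have h1 := scg_lip hF hF (ε := 0) hL hL (fun z => by simp) hα hβ ht htτ x
    rw [zero_add] at h1
    refine h1.trans (mul_le_mul_of_nonneg_left ?_ hL2)
    refine intervalIntegral.integral_mono_interval ht htτ le_rfl (Eventually.of_forall fun r => abs_nonneg _) hi
  · show |scVa F β τ t x - scVa F α τ t x| ≤ _
    rw [scg_Va_of_le F β hτ htτ, scg_Va_of_le F α hτ htτ, sub_self, abs_zero]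
    exact mul_nonneg hL2 (intervalIntegral.integral_nonneg hτ fun r _ => abs_nonneg _)

/-- only the values on `[0, τ)` matter -/
theorem scg_congr (F : ℝ → ℝ) {τ : ℝ} (hτ : 0 < τ) {α β : ℝ → ℝ} (h : ∀ r ∈ Ico 0 τ, α r = β r) :
    scVa F α τ = scVa F β τ := by
  have e : ∀ n, scDy α τ n = scDy β τ n := by
    intro n
    unfold scDy
    refine List.map_congr_left fun k hk => ?_
    have hk' : k < 2 ^ n := List.mem_range.1 hk
    have h2 : (0 : ℝ) < 2 ^ n := by positivity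
    have hk'' : (k : ℝ) < 2 ^ n := by exact_mod_cast hk'
    rw [h (k * τ / 2 ^ n) ⟨by positivity, by rw [div_lt_iff₀ h2]; nlinarith⟩]
  funext t z
  unfold scVa
  simp only [e]

/-- only the a.e. class matters -/
theorem scg_congr_ae {F : ℝ → ℝ} (hF : ScBI F) {a τ : ℝ} {α β : ℝ → ℝ} (hτ : 0 ≤ τ) (hα : ScCoef a τ α)
    (hβ : ScCoef a τ β) (h : ∀ᵐ r, r ∈ Ioc 0 τ → α r = β r) {t : ℝ} (ht : 0 ≤ t) : scVa F α τ t = scVa F β τ t := by
  rcases le_total t τ with htτ | htτ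
  · obtain ⟨L, hL⟩ := (hF 1).2.1
    funext z
    have h1 := scg_lip hF hF (ε := 0) hL hL (fun z => by simp) hα hβ ht htτ z
    have h2 : ∫ r in t..τ, |β r - α r| = 0 := by
      rw [intervalIntegral.integral_of_le htτ]
      refine integral_eq_zero_of_ae ?_
      rw [Filter.EventuallyEq, ae_restrict_iff' measurableSet_Ioc]
      filter_upwards [h] with r hr hrI
      rw [hr ⟨lt_of_le_of_lt ht hrI.1, hrI.2⟩]
      simp
    rw [h2, mul_zero, add_zero] at h1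
    have := abs_nonpos_iff.1 h1
    linarith
  · rw [scg_Va_of_le F β hτ htτ, scg_Va_of_le F α hτ htτ]

/-- step profiles are consistent -/
theorem scg_step {F : ℝ → ℝ} (hF : ScBI F) {a τ : ℝ} {α : ℝ → ℝ} (hα : ScCoef a τ α) {π : List (ℝ × ℝ)}
    (hπ : ScAdm a π) (hi : ScInc π) (hlen : scLen π = τ) (he : ∀ r ∈ Ico 0 τ, α r = scAl π r) {t : ℝ} (ht : 0 ≤ t) :
    scVa F α τ t = scVt F π t := by
  have hτ : 0 ≤ τ := hlen ▸ sc_len_nonneg hπ.pos
  have hA := scg_const_apx (hα.nonneg hτ) hπ hi hlen he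
  funext z
  have h1 := scg_D_tendsto hF hτ hα hA 0 ht z
  exact (tendsto_nhds_unique h1 tendsto_const_nhds)

theorem scg_step_D {F : ℝ → ℝ} (hF : ScBI F) {a τ : ℝ} {α : ℝ → ℝ} (hα : ScCoef a τ α) {π : List (ℝ × ℝ)}
    (hπ : ScAdm a π) (hi : ScInc π) (hlen : scLen π = τ) (he : ∀ r ∈ Ico 0 τ, α r = scAl π r) (k : ℕ) {t : ℝ}
    (ht : 0 ≤ t) : scaD k F α τ t = scD k F π t := by
  unfold scaD scD
  rw [scg_step hF hα hπ hi hlen he ht]

/-! ## 7. restriction of the time interval -/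

/-- pointwise convergence of the values along any approximation -/
theorem scg_restrict_tendsto {F : ℝ → ℝ} (hF : ScBI F) {a a' τ : ℝ} {α : ℝ → ℝ} (hτ : 0 ≤ τ) (hα : ScCoef a τ α)
    {π : ℕ → List (ℝ × ℝ)} (hπ : ScApx a' τ α π) {t : ℝ} (ht : 0 ≤ t) (z : ℝ) :
    Tendsto (fun n => scVt F (π n) t z) atTop (𝓝 (scVa F α τ t z)) :=
  scg_D_tendsto hF hτ hα hπ 0 ht z

/-- dynamic programming: the continuation at the time `s` is the terminal datum on `[0, s]` -/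
theorem scg_restrict {F : ℝ → ℝ} (hF : ScBI F) {a τ : ℝ} {α : ℝ → ℝ} (hα : ScCoef a τ α) {s t : ℝ} (ht : 0 ≤ t)
    (hts : t ≤ s) (hs : s ≤ τ) : scVa (scVa F α τ s) α s t = scVa F α τ t := by
  have hs0 : 0 ≤ s := ht.trans hts
  have hτ : 0 ≤ τ := hs0.trans hs
  have hπ : ScApx a τ α (scDy α τ) := scg_dy_apx hτ hα
  have hG : ScBI (scVa F α τ s) := scg_Va_BI hF hτ hα hs0
  funext z
  have l1 : Tendsto (fun n => scVt (scVa F α τ s) (scUpto (scDy α τ n) s) t z) atTop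
      (𝓝 (scVa (scVa F α τ s) α s t z)) :=
    scg_restrict_tendsto hG hs0 (hα.sub_interval hs) (hπ.upto hs0 hs) ht z
  have l2 : Tendsto (fun n => scVt F (scDy α τ n) t z) atTop (𝓝 (scVa F α τ t z)) :=
    scg_restrict_tendsto hF hτ hα hπ ht z
  have l3 : Tendsto (fun n => scVt (scVa F α τ s) (scUpto (scDy α τ n) s) t z - scVt F (scDy α τ n) t z) atTop
      (𝓝 0) := by
    rw [Metric.tendsto_atTop]
    intro ε hε
    obtain ⟨N, hN⟩ := scg_V_unif hF hτ hα hπ (half_pos hε)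
    refine ⟨N, fun n hn => ?_⟩
    rw [Real.dist_eq, sub_zero]
    have hpos : ScPos (scDy α τ n) := (hπ.adm n).pos
    rw [← sc_Vt_upto hF hpos ht hts, sc_Vt_after, sc_Vt_after (scVt F (scDy α τ n) s)]
    have hadm : ScAdm a (scAfter (scUpto (scDy α τ n) s) t) := sc_after_adm (sc_upto_adm (hπ.adm n) hs0) t
    refine lt_of_le_of_lt (sc_V_contract hG (sc_Vt_BI hF _ s) (ε := ε / 2) (fun y => ?_)
      (fun p hp => (hadm p hp).1) z) (half_lt_self hε)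
    rw [abs_sub_comm]
    exact hN n hn s hs0 y
  have l4 := l3.add l2
  simp only [sub_add_cancel, zero_add] at l4
  exact tendsto_nhds_unique l1 l4

/-- time shift -/
theorem scg_shift {F : ℝ → ℝ} (hF : ScBI F) {a τ : ℝ} {α : ℝ → ℝ} (hα : ScCoef a τ α) {s t : ℝ} (hs : 0 ≤ s)
    (hsτ : s ≤ τ) (ht : 0 ≤ t) : scVa F (fun r => α (s + r)) (τ - s) t = scVa F α τ (s + t) := by
  have hτ : 0 ≤ τ := hs.trans hsτ
  have hπ : ScApx a τ α (scDy α τ) := scg_dy_apx hτ hα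
  have hα' : ScCoef a (τ - s) (fun r => α (s + r)) := by
    refine ⟨fun x hx y hy hxy => hα.1 ⟨by linarith [hx.1], by linarith [hx.2]⟩ ⟨by linarith [hy.1], by linarith [hy.2]⟩
      (by linarith), fun r hr => hα.2 _ ⟨by linarith [hr.1], by linarith [hr.2]⟩⟩
  funext z
  have l1 : Tendsto (fun n => scVt F (scAfter (scDy α τ n) s) t z) atTop
      (𝓝 (scVa F (fun r => α (s + r)) (τ - s) t z)) :=
    scg_restrict_tendsto hF (sub_nonneg.2 hsτ) hα' (hπ.after hs hsτ) ht z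
  have l2 : Tendsto (fun n => scVt F (scDy α τ n) (s + t) z) atTop (𝓝 (scVa F α τ (s + t) z)) :=
    scg_restrict_tendsto hF hτ hα hπ (add_nonneg hs ht) z
  have e : (fun n => scVt F (scAfter (scDy α τ n) s) t z) = fun n => scVt F (scDy α τ n) (s + t) z := by
    funext n
    rw [sc_Vt_shift F (hπ.adm n).pos hs ht]
  rw [e] at l1
  exact tendsto_nhds_unique l1 l2

end Claimed.Agent.R286
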