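import Claimed.Agent.R286.Sc.DynC
import Claimed.Agent.R286.Sc.GenDefs
import Claimed.Agent.R286.Sc.Tau

/-!
# Row 286, scalar block, layer S5 (part 1): moment curves of polynomial observables, STEP profiles

OWNER helper197 (ADV helper68); proofs: helper81 (A, B), helper202 (moments), helper197.  0 own sorry.  Plan: `origin/helper197:notes/R286/F01_helper197.md` (R8) = `origin/helper95:notes/R286/B03_helper95.md` S5.
TEX[FS:lem:diffusion], TEX[PE:prof:scalar-derivatives] (identities), step form.   General profiles: `Sc/MomG.lean`.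

A polynomial `p : MvPolynomial ℕ ℝ` in the jet variables `X k ↔ v_{k+1} = ∂_z^{k+1} V` gives the observable
`scmObs p F π r y = p(u, w, v₃, ..)(r, y)` and the moment curve `scmM p F π t = E p(..)(t, Z_t)`.
ONE theorem replaces every Ito computation of FS Sec. 2, PE Lemma 5.3, LL 03:
      `M_p(t) - M_p(s) = ∫_s^t (M_{Q p}(r) + α(r) M_{R p}(r)) dr`          (`scm_moment`; general profiles `scm_moment_gen`)
with  `D X_k = X_{k+1}` (derivation),  `Q p = (D² p - D₂ p)/2`, `D₂ X_k = X_{k+2}` (derivation),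
      `R` = derivation with `R X_k = X_0 X_{k+1} - D^{k+1}(X_0²)/2`.
-/

set_option autoImplicit false

namespace Claimed.Agent.R286

open MeasureTheory ProbabilityTheory Filter Topology Set

/-! ## A. the algebra of jet polynomials -/

/-- total `z`-derivative -/
noncomputable def scmD : Derivation ℝ (MvPolynomial ℕ ℝ) (MvPolynomial ℕ ℝ) :=
  MvPolynomial.mkDerivation ℝ (fun k => MvPolynomial.X (k + 1))

noncomputable def scmD2 : Derivation ℝ (MvPolynomial ℕ ℝ) (MvPolynomial ℕ ℝ) :=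
  MvPolynomial.mkDerivation ℝ (fun k => MvPolynomial.X (k + 2))

/-- the diffusion part of the generator on observables -/
noncomputable def scmQ (p : MvPolynomial ℕ ℝ) : MvPolynomial ℕ ℝ :=
  MvPolynomial.C (1 / 2) * (scmD (scmD p) - scmD2 p)

/-- the mass part of the generator on observables -/
noncomputable def scmR : Derivation ℝ (MvPolynomial ℕ ℝ) (MvPolynomial ℕ ℝ) :=
  MvPolynomial.mkDerivation ℝ (fun k =>
    MvPolynomial.X 0 * MvPolynomial.X (k + 1) - MvPolynomial.C (1 / 2) * (⇑scmD)^[k + 1] (MvPolynomial.X 0 ^ 2))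

theorem scm_half : (MvPolynomial.C (1 / 2) : MvPolynomial ℕ ℝ) * 2 = 1 := by
  rw [← map_ofNat (MvPolynomial.C (σ := ℕ) (R := ℝ)) 2, ← MvPolynomial.C_mul]
  norm_num

theorem scmD_X (k : ℕ) : scmD (MvPolynomial.X k) = MvPolynomial.X (k + 1) := by
  simp [scmD, MvPolynomial.mkDerivation_X]

theorem scmD2_X (k : ℕ) : scmD2 (MvPolynomial.X k) = MvPolynomial.X (k + 2) := by
  simp [scmD2, MvPolynomial.mkDerivation_X]

theorem scmR_X (k : ℕ) : scmR (MvPolynomial.X k) =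
    MvPolynomial.X 0 * MvPolynomial.X (k + 1) - MvPolynomial.C (1 / 2) * (⇑scmD)^[k + 1] (MvPolynomial.X 0 ^ 2) := by
  simp [scmR, MvPolynomial.mkDerivation_X]

theorem scmD_sq0 : scmD (MvPolynomial.X 0 ^ 2) = 2 * MvPolynomial.X 0 * MvPolynomial.X 1 := by
  rw [sq, Derivation.leibniz, scmD_X]; simp only [smul_eq_mul]; ring

theorem scmD_sq0_2 : scmD (scmD (MvPolynomial.X 0 ^ 2)) = 2 * MvPolynomial.X 1 ^ 2 + 2 * MvPolynomial.X 0 * MvPolynomial.X 2 := by
  rw [scmD_sq0]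
  have : (2 * MvPolynomial.X 0 * MvPolynomial.X 1 : MvPolynomial ℕ ℝ) = MvPolynomial.X 0 * MvPolynomial.X 1 + MvPolynomial.X 0 * MvPolynomial.X 1 := by ring
  rw [this]
  simp only [map_add, Derivation.leibniz, scmD_X, smul_eq_mul]; ring

theorem scmD_sq0_3 : scmD (scmD (scmD (MvPolynomial.X 0 ^ 2))) =
    6 * MvPolynomial.X 1 * MvPolynomial.X 2 + 2 * MvPolynomial.X 0 * MvPolynomial.X 3 := by
  rw [scmD_sq0_2]
  have : (2 * MvPolynomial.X 1 ^ 2 + 2 * MvPolynomial.X 0 * MvPolynomial.X 2 : MvPolynomial ℕ ℝ)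
      = MvPolynomial.X 1 * MvPolynomial.X 1 + MvPolynomial.X 1 * MvPolynomial.X 1
        + (MvPolynomial.X 0 * MvPolynomial.X 2 + MvPolynomial.X 0 * MvPolynomial.X 2) := by ring
  rw [this]
  simp only [map_add, Derivation.leibniz, scmD_X, smul_eq_mul]; ring

theorem scmD_sq0_4 : scmD (scmD (scmD (scmD (MvPolynomial.X 0 ^ 2)))) =
    6 * MvPolynomial.X 2 ^ 2 + 8 * MvPolynomial.X 1 * MvPolynomial.X 3 + 2 * MvPolynomial.X 0 * MvPolynomial.X 4 := by
  rw [scmD_sq0_3]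
  have : (6 * MvPolynomial.X 1 * MvPolynomial.X 2 + 2 * MvPolynomial.X 0 * MvPolynomial.X 3 : MvPolynomial ℕ ℝ)
      = (MvPolynomial.X 1 * MvPolynomial.X 2 + MvPolynomial.X 1 * MvPolynomial.X 2 + MvPolynomial.X 1 * MvPolynomial.X 2)
        + (MvPolynomial.X 1 * MvPolynomial.X 2 + MvPolynomial.X 1 * MvPolynomial.X 2 + MvPolynomial.X 1 * MvPolynomial.X 2)
        + (MvPolynomial.X 0 * MvPolynomial.X 3 + MvPolynomial.X 0 * MvPolynomial.X 3) := by ring
  rw [this]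
  simp only [map_add, Derivation.leibniz, scmD_X, smul_eq_mul]; ring

theorem scmQ_C (c : ℝ) : scmQ (MvPolynomial.C c) = 0 := by
  simp [scmQ, MvPolynomial.derivation_C]

theorem scmQ_X (k : ℕ) : scmQ (MvPolynomial.X k) = 0 := by
  simp [scmQ, scmD_X, scmD2_X]

theorem scmQ_add (p q : MvPolynomial ℕ ℝ) : scmQ (p + q) = scmQ p + scmQ q := by
  simp only [scmQ, map_add]; ring

theorem scmQ_mul (p q : MvPolynomial ℕ ℝ) : scmQ (p * q) = p * scmQ q + q * scmQ p + scmD p * scmD q := by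
  simp only [scmQ, Derivation.leibniz, map_add, smul_eq_mul]
  linear_combination (scmD p * scmD q) * scm_half

theorem scmR_X0 : scmR (MvPolynomial.X 0) = 0 := by
  rw [scmR_X]
  simp only [Function.iterate_succ, Function.iterate_zero, Function.comp, id]
  rw [scmD_sq0]
  linear_combination (-(MvPolynomial.X 0 * MvPolynomial.X 1 : MvPolynomial ℕ ℝ)) * scm_half

theorem scmR_X1 : scmR (MvPolynomial.X 1) = -(MvPolynomial.X 1 ^ 2) := by
  rw [scmR_X]
  simp only [Function.iterate_succ, Function.iterate_zero, Function.comp, id]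
  rw [scmD_sq0_2]
  linear_combination (-(MvPolynomial.X 1 ^ 2 + MvPolynomial.X 0 * MvPolynomial.X 2 : MvPolynomial ℕ ℝ)) * scm_half

theorem scmR_X2 : scmR (MvPolynomial.X 2) = -(MvPolynomial.C 3 * MvPolynomial.X 1 * MvPolynomial.X 2) := by
  rw [scmR_X]
  simp only [Function.iterate_succ, Function.iterate_zero, Function.comp, id]
  rw [scmD_sq0_3, map_ofNat]
  linear_combination (-(3 * MvPolynomial.X 1 * MvPolynomial.X 2 + MvPolynomial.X 0 * MvPolynomial.X 3 : MvPolynomial ℕ ℝ)) * scm_half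

theorem scmR_X3 : scmR (MvPolynomial.X 3) =
    -(MvPolynomial.C 4 * MvPolynomial.X 1 * MvPolynomial.X 3 + MvPolynomial.C 3 * MvPolynomial.X 2 ^ 2) := by
  rw [scmR_X]
  simp only [Function.iterate_succ, Function.iterate_zero, Function.comp, id]
  rw [scmD_sq0_4, map_ofNat, map_ofNat]
  linear_combination (-(3 * MvPolynomial.X 2 ^ 2 + 4 * MvPolynomial.X 1 * MvPolynomial.X 3 + MvPolynomial.X 0 * MvPolynomial.X 4 : MvPolynomial ℕ ℝ)) * scm_half

/-- `u²` -/
theorem scm_alg_u2 : scmQ (MvPolynomial.X 0 ^ 2) = MvPolynomial.X 1 ^ 2 ∧ scmR (MvPolynomial.X 0 ^ 2) = 0 := by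
  constructor
  · rw [sq, scmQ_mul, scmQ_X, scmD_X]; ring
  · rw [sq, Derivation.leibniz, scmR_X0]; simp

/-- `w²` -/
theorem scm_alg_w2 : scmQ (MvPolynomial.X 1 ^ 2) = MvPolynomial.X 2 ^ 2 ∧
    scmR (MvPolynomial.X 1 ^ 2) = -(MvPolynomial.C 2 * MvPolynomial.X 1 ^ 3) := by
  constructor
  · rw [sq, scmQ_mul, scmQ_X, scmD_X]; ring
  · rw [sq, Derivation.leibniz, scmR_X1, map_ofNat]; simp only [smul_eq_mul]; ring

/-- `w³` -/
theorem scm_alg_w3 : scmQ (MvPolynomial.X 1 ^ 3) = MvPolynomial.C 3 * (MvPolynomial.X 1 * MvPolynomial.X 2 ^ 2) ∧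
    scmR (MvPolynomial.X 1 ^ 3) = -(MvPolynomial.C 3 * MvPolynomial.X 1 ^ 4) := by
  have e : (MvPolynomial.X 1 ^ 3 : MvPolynomial ℕ ℝ) = MvPolynomial.X 1 * (MvPolynomial.X 1 * MvPolynomial.X 1) := by ring
  constructor
  · rw [e, scmQ_mul, scmQ_mul, scmQ_X, Derivation.leibniz, scmD_X, map_ofNat]; simp only [smul_eq_mul]; ring
  · rw [e, Derivation.leibniz, Derivation.leibniz, scmR_X1, map_ofNat]; simp only [smul_eq_mul]; ring

/-- `v₃²` -/
theorem scm_alg_v32 : scmQ (MvPolynomial.X 2 ^ 2) = MvPolynomial.X 3 ^ 2 ∧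
    scmR (MvPolynomial.X 2 ^ 2) = -(MvPolynomial.C 6 * (MvPolynomial.X 1 * MvPolynomial.X 2 ^ 2)) := by
  constructor
  · rw [sq, scmQ_mul, scmQ_X, scmD_X]; ring
  · rw [sq, Derivation.leibniz, scmR_X2, map_ofNat, map_ofNat]; simp only [smul_eq_mul]; ring

/-! ## B. observables of a step profile -/

/-- the observable `p(u, w, v₃, ..)(r, y)` -/
noncomputable def scmObs (p : MvPolynomial ℕ ℝ) (F : ℝ → ℝ) (π : List (ℝ × ℝ)) (r y : ℝ) : ℝ :=
  MvPolynomial.eval (fun k => scD (k + 1) F π r y) p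

/-- the moment curve `E p(..)(t, Z_t)` -/
noncomputable def scmM (p : MvPolynomial ℕ ℝ) (F : ℝ → ℝ) (π : List (ℝ × ℝ)) (t : ℝ) : ℝ :=
  scEx F π t (scmObs p F π t)

theorem scm_obs_C (c : ℝ) (F : ℝ → ℝ) (π : List (ℝ × ℝ)) : scmObs (MvPolynomial.C c) F π = fun _ _ => c := by
  funext r y; simp [scmObs]

theorem scm_obs_X (k : ℕ) (F : ℝ → ℝ) (π : List (ℝ × ℝ)) : scmObs (MvPolynomial.X k) F π = scD (k + 1) F π := by
  funext r y; simp [scmObs]

theorem scm_obs_add (p q : MvPolynomial ℕ ℝ) (F : ℝ → ℝ) (π : List (ℝ × ℝ)) :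
    scmObs (p + q) F π = fun r y => scmObs p F π r y + scmObs q F π r y := by
  funext r y; simp [scmObs]

theorem scm_obs_sub (p q : MvPolynomial ℕ ℝ) (F : ℝ → ℝ) (π : List (ℝ × ℝ)) :
    scmObs (p - q) F π = fun r y => scmObs p F π r y - scmObs q F π r y := by
  funext r y; simp [scmObs]

theorem scm_obs_neg (p : MvPolynomial ℕ ℝ) (F : ℝ → ℝ) (π : List (ℝ × ℝ)) :
    scmObs (-p) F π = fun r y => - scmObs p F π r y := by
  funext r y; simp [scmObs]

theorem scm_obs_mul (p q : MvPolynomial ℕ ℝ) (F : ℝ → ℝ) (π : List (ℝ × ℝ)) :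
    scmObs (p * q) F π = fun r y => scmObs p F π r y * scmObs q F π r y := by
  funext r y; simp [scmObs]

theorem scm_obs_pow (p : MvPolynomial ℕ ℝ) (n : ℕ) (F : ℝ → ℝ) (π : List (ℝ × ℝ)) :
    scmObs (p ^ n) F π = fun r y => scmObs p F π r y ^ n := by
  funext r y; simp [scmObs]

theorem scm_obs_Bd {F : ℝ → ℝ} (hF : ScBI F) (p : MvPolynomial ℕ ℝ) (π : List (ℝ × ℝ)) (r : ℝ) (n : ℕ) :
    ScBd n (scmObs p F π r) := by
  induction p using MvPolynomial.induction_on with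
  | C c => rw [scm_obs_C]; exact ScBd.const n c
  | add p q hp hq => rw [scm_obs_add]; exact hp.add hq
  | mul_X p k hp => rw [scm_obs_mul, scm_obs_X]; exact hp.mul (sc_D_Bd hF k n π r)

theorem scm_obs_hasDerivAt {F : ℝ → ℝ} (hF : ScBI F) (p : MvPolynomial ℕ ℝ) (π : List (ℝ × ℝ)) (r y : ℝ) :
    HasDerivAt (scmObs p F π r) (scmObs (scmD p) F π r y) y := by
  induction p using MvPolynomial.induction_on with
  | C c =>
    rw [scm_obs_C, MvPolynomial.derivation_C]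
    have : scmObs 0 F π r y = 0 := by simp [scmObs]
    rw [this]
    exact hasDerivAt_const y c
  | add p q hp hq =>
    rw [scm_obs_add, map_add, scm_obs_add]
    exact hp.add hq
  | mul_X p k hp =>
    rw [scm_obs_mul, Derivation.leibniz, scmD_X, scm_obs_add]
    simp only [smul_eq_mul]
    rw [scm_obs_mul, scm_obs_mul, scm_obs_X, scm_obs_X]
    have h2 := sc_D_hasDerivAt hF (k + 1) π r y
    refine (hp.fun_mul h2).congr_deriv ?_
    ring

theorem scm_obs_deriv {F : ℝ → ℝ} (hF : ScBI F) (p : MvPolynomial ℕ ℝ) (π : List (ℝ × ℝ)) (r : ℝ) :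
    deriv (scmObs p F π r) = scmObs (scmD p) F π r :=
  funext fun y => (scm_obs_hasDerivAt hF p π r y).deriv

theorem scm_obs_iter_deriv {F : ℝ → ℝ} (hF : ScBI F) (p : MvPolynomial ℕ ℝ) (π : List (ℝ × ℝ)) (r : ℝ) (k : ℕ) :
    deriv^[k] (scmObs p F π r) = scmObs ((⇑scmD)^[k] p) F π r := by
  induction k generalizing p with
  | zero => rfl
  | succ k ih =>
    rw [Function.iterate_succ_apply, scm_obs_deriv hF, ih, Function.iterate_succ_apply]

theorem scm_obs_T {F : ℝ → ℝ} (hF : ScBI F) {π : List (ℝ × ℝ)} (hπ : ScPos π) (p : MvPolynomial ℕ ℝ) (n : ℕ) :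
    ScT (Icc 0 (scLen π)) n (scmObs p F π) := by
  induction p using MvPolynomial.induction_on with
  | C c => rw [scm_obs_C]; exact (ScE.const n c).scT _
  | add p q hp hq => rw [scm_obs_add]; exact hp.add hq
  | mul_X p k hp => rw [scm_obs_mul, scm_obs_X]; exact hp.mul (sc_D_T hF hπ (k + 1) n)

/-- the generator of `v_{k+1}` (`sc_dyn_D`) is `α` times the observable `R X_k` -/
theorem scm_src {F : ℝ → ℝ} (hF : ScBI F) (π : List (ℝ × ℝ)) (k : ℕ) (r y : ℝ) :
    scD 1 F π r y * scD (k + 1 + 1) F π r y - deriv^[k + 1] (fun x => scD 1 F π r x ^ 2 / 2) y =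
      scmObs (scmR (MvPolynomial.X k)) F π r y := by
  have e : scmObs (MvPolynomial.C (1 / 2) * (⇑scmD)^[k + 1] (MvPolynomial.X 0 ^ 2)) F π r =
      deriv^[k + 1] (fun x => scD 1 F π r x ^ 2 / 2) := by
    have e1 : (MvPolynomial.C (1 / 2) * (⇑scmD)^[k + 1] (MvPolynomial.X 0 ^ 2) : MvPolynomial ℕ ℝ) =
        (⇑scmD)^[k + 1] (MvPolynomial.C (1 / 2) * MvPolynomial.X 0 ^ 2) := by
      generalize (MvPolynomial.X 0 ^ 2 : MvPolynomial ℕ ℝ) = q
      induction (k + 1) generalizing q with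
      | zero => rfl
      | succ j ih =>
        rw [Function.iterate_succ_apply, Function.iterate_succ_apply, ih, Derivation.leibniz,
          MvPolynomial.derivation_C]
        simp
    rw [e1, ← scm_obs_iter_deriv hF, scm_obs_mul, scm_obs_pow, scm_obs_X, scm_obs_C]
    congr 1
    funext x
    ring
  rw [scmR_X, scm_obs_sub]
  simp only [e]
  rw [scm_obs_mul, scm_obs_X, scm_obs_X]

/-- **the generator on observables** (induction on `p`: `MvPolynomial.induction_on`, `ScDyn.add/mul`, `sc_dyn_const`, `sc_dyn_D`) -/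
theorem scm_dyn {F : ℝ → ℝ} (hF : ScBI F) {π : List (ℝ × ℝ)} (hπ : ScPos π) {s t : ℝ} (hs : 0 ≤ s)
    (ht : t ≤ scLen π) (p : MvPolynomial ℕ ℝ) :
    ScDyn F π s t (scmObs p F π) (fun r y => scmObs (scmQ p) F π r y + scAl π r * scmObs (scmR p) F π r y) := by
  induction p using MvPolynomial.induction_on with
  | C c =>
    rw [scm_obs_C, scmQ_C, MvPolynomial.derivation_C]
    have : scmObs 0 F π = fun _ _ => 0 := by funext r y; simp [scmObs]
    rw [this]
    simpa using sc_dyn_const F π s t c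
  | add p q hp hq =>
    rw [scm_obs_add, scmQ_add, map_add, scm_obs_add, scm_obs_add]
    refine (hp.add hq).congr_gen (fun r _ => ?_)
    funext y; ring
  | mul_X p k hp =>
    have hX : ScDyn F π s t (scmObs (MvPolynomial.X k) F π)
        (fun r y => scAl π r * scmObs (scmR (MvPolynomial.X k)) F π r y) := by
      rw [scm_obs_X]
      refine (sc_dyn_D hF hπ hs ht (k + 1)).congr_gen (fun r _ => ?_)
      funext y
      rw [scm_src hF]
    rw [scm_obs_mul, scmQ_mul, scmQ_X, Derivation.leibniz]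
    refine (hp.mul hX).congr_gen (fun r _ => ?_)
    funext y
    simp only [smul_eq_mul]
    rw [scm_obs_deriv hF, scm_obs_deriv hF, scm_obs_add, scm_obs_add, scm_obs_add, scm_obs_mul, scm_obs_mul,
      scm_obs_mul, scm_obs_mul, scm_obs_mul]
    have : scmObs 0 F π r y = 0 := by simp [scmObs]
    simp only [this]
    ring

theorem scm_M_cont {F : ℝ → ℝ} (hF : ScBI F) {π : List (ℝ × ℝ)} (hπ : ScPos π) (p : MvPolynomial ℕ ℝ) :
    ContinuousOn (scmM p F π) (Icc 0 (scLen π)) := by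
  exact sc_dynkin_continuousOn hF hπ le_rfl (scm_obs_T hF hπ p 0) 0

/-- the Dynkin integrand of an observable, split -/
theorem scm_moment_split {F : ℝ → ℝ} (hF : ScBI F) (π : List (ℝ × ℝ)) (p : MvPolynomial ℕ ℝ) (s r z : ℝ) :
    scPt F π s r (fun y => scmObs (scmQ p) F π r y + scAl π r * scmObs (scmR p) F π r y) z =
      scPt F π s r (scmObs (scmQ p) F π r) z + scAl π r * scPt F π s r (scmObs (scmR p) F π r) z := by
  rw [sc_Pt_add hF (scm_obs_Bd hF (scmQ p) π r 0).scE (((scm_obs_Bd hF (scmR p) π r 0).scE).const_mul (scAl π r)),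
    sc_Pt_const_mul]

/-- conditional form -/
theorem scm_moment_cond {F : ℝ → ℝ} (hF : ScBI F) {π : List (ℝ × ℝ)} (hπ : ScPos π) (p : MvPolynomial ℕ ℝ) {s t : ℝ}
    (hs : 0 ≤ s) (hst : s ≤ t) (ht : t ≤ scLen π) (z : ℝ) :
    scPt F π s t (scmObs p F π t) z - scmObs p F π s z =
      ∫ r in s..t, (scPt F π s r (scmObs (scmQ p) F π r) z + scAl π r * scPt F π s r (scmObs (scmR p) F π r) z) := by
  rw [sc_dynkin hF hπ hs hst ht (scm_dyn hF hπ hs ht p) z]
  refine intervalIntegral.integral_congr fun r _ => ?_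
  exact scm_moment_split hF π p s r z

theorem scm_M_zero (F : ℝ → ℝ) (π : List (ℝ × ℝ)) (p : MvPolynomial ℕ ℝ) : scmM p F π 0 = scmObs p F π 0 0 := by
  unfold scmM scEx
  rw [sc_Pt_self]

theorem scm_moment_int {F : ℝ → ℝ} (hF : ScBI F) {π : List (ℝ × ℝ)} (hπ : ScPos π) (p : MvPolynomial ℕ ℝ) {s t : ℝ}
    (hs : 0 ≤ s) (hst : s ≤ t) (ht : t ≤ scLen π) :
    IntervalIntegrable (fun r => scmM (scmQ p) F π r + scAl π r * scmM (scmR p) F π r) volume s t := by
  have h0t : (0:ℝ) ≤ t := hs.trans hst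
  have i1 := sc_dynkin_int hF hπ le_rfl h0t ht (scm_dyn hF hπ le_rfl ht p) 0
  have i2 : IntervalIntegrable (fun r => scmM (scmQ p) F π r + scAl π r * scmM (scmR p) F π r) volume 0 t := by
    refine i1.congr fun r _ => ?_
    exact scm_moment_split hF π p 0 r 0
  exact i2.mono_set (by rw [uIcc_of_le hst, uIcc_of_le h0t]; exact Icc_subset_Icc hs le_rfl)

/-- **R8, step form.**  TEX[FS:lem:diffusion] -/
theorem scm_moment {F : ℝ → ℝ} (hF : ScBI F) {π : List (ℝ × ℝ)} (hπ : ScPos π) (p : MvPolynomial ℕ ℝ) {s t : ℝ}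
    (hs : 0 ≤ s) (hst : s ≤ t) (ht : t ≤ scLen π) :
    scmM p F π t - scmM p F π s = ∫ r in s..t, (scmM (scmQ p) F π r + scAl π r * scmM (scmR p) F π r) := by
  have h0t : (0:ℝ) ≤ t := hs.trans hst
  have d1 := scm_dyn hF hπ le_rfl ht p
  have d2 := scm_dyn hF hπ le_rfl (hst.trans ht) p
  have e1 := sc_dynkin hF hπ le_rfl h0t ht d1 0
  have e2 := sc_dynkin hF hπ le_rfl hs (hst.trans ht) d2 0
  have i1 := sc_dynkin_int hF hπ le_rfl h0t ht d1 0
  have i2 := sc_dynkin_int hF hπ le_rfl hs (hst.trans ht) d2 0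
  have e3 := intervalIntegral.integral_interval_sub_left i1 i2
  have e4 : scmM p F π t - scmM p F π s
      = ∫ r in s..t, scPt F π 0 r (fun y => scmObs (scmQ p) F π r y + scAl π r * scmObs (scmR p) F π r y) 0 := by
    rw [← e3, ← e1, ← e2]
    unfold scmM scEx
    ring
  rw [e4]
  refine intervalIntegral.integral_congr fun r _ => ?_
  exact scm_moment_split hF π p 0 r 0

/-- the named curves of `Sc/GenDefs.lean` -/
theorem scm_Gam_eq (F : ℝ → ℝ) (π : List (ℝ × ℝ)) : scGam F π = scmM (MvPolynomial.X 0 ^ 2) F π := by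
  funext t; unfold scGam scmM; congr 1; funext z; simp [scmObs]

theorem scm_M2_eq (F : ℝ → ℝ) (π : List (ℝ × ℝ)) : scM2 F π = scmM (MvPolynomial.X 1 ^ 2) F π := by
  funext t; unfold scM2 scmM; congr 1; funext z; simp [scmObs]

theorem scm_M3_eq (F : ℝ → ℝ) (π : List (ℝ × ℝ)) : scM3 F π = scmM (MvPolynomial.X 1 ^ 3) F π := by
  funext t; unfold scM3 scmM; congr 1; funext z; simp [scmObs]

theorem scm_M4_eq (F : ℝ → ℝ) (π : List (ℝ × ℝ)) : scM4 F π = scmM (MvPolynomial.X 1 ^ 4) F π := by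
  funext t; unfold scM4 scmM; congr 1; funext z; simp [scmObs]

theorem scm_N3_eq (F : ℝ → ℝ) (π : List (ℝ × ℝ)) : scN3 F π = scmM (MvPolynomial.X 2 ^ 2) F π := by
  funext t; unfold scN3 scmM; congr 1; funext z; simp [scmObs]

theorem scm_N4_eq (F : ℝ → ℝ) (π : List (ℝ × ℝ)) : scN4 F π = scmM (MvPolynomial.X 3 ^ 2) F π := by
  funext t; unfold scN4 scmM; congr 1; funext z; simp [scmObs]

theorem scm_M13_eq (F : ℝ → ℝ) (π : List (ℝ × ℝ)) :
    scM13 F π = scmM (MvPolynomial.X 1 * MvPolynomial.X 2 ^ 2) F π := by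
  funext t; unfold scM13 scmM; congr 1; funext z; simp [scmObs]

/-- linearity of the moment in the polynomial -/
theorem scm_M_add {F : ℝ → ℝ} (hF : ScBI F) (π : List (ℝ × ℝ)) (p q : MvPolynomial ℕ ℝ) (t : ℝ) :
    scmM (p + q) F π t = scmM p F π t + scmM q F π t := by
  have e : scmObs (p + q) F π t = fun y => scmObs p F π t y + scmObs q F π t y := by
    funext y; simp [scmObs]
  unfold scmM scEx
  rw [e, sc_Pt_add hF (scm_obs_Bd hF p π t 0).scE (scm_obs_Bd hF q π t 0).scE]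

theorem scm_M_C_mul (F : ℝ → ℝ) (π : List (ℝ × ℝ)) (c : ℝ) (p : MvPolynomial ℕ ℝ) (t : ℝ) :
    scmM (MvPolynomial.C c * p) F π t = c * scmM p F π t := by
  have e : scmObs (MvPolynomial.C c * p) F π t = fun y => c * scmObs p F π t y := by
    funext y; simp [scmObs]
  unfold scmM scEx
  rw [e, sc_Pt_const_mul]

theorem scm_M_neg (F : ℝ → ℝ) (π : List (ℝ × ℝ)) (p : MvPolynomial ℕ ℝ) (t : ℝ) :
    scmM (-p) F π t = - scmM p F π t := by
  have e : -p = MvPolynomial.C (-1) * p := by simp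
  rw [e, scm_M_C_mul]; ring

theorem scm_M_zero_poly {F : ℝ → ℝ} (hF : ScBI F) (π : List (ℝ × ℝ)) (t : ℝ) : scmM 0 F π t = 0 := by
  have e : scmObs 0 F π t = fun _ => (0:ℝ) := by
    funext y; simp [scmObs]
  unfold scmM scEx
  rw [e, sc_Pt_const hF]

/-- `Γ' = E w²` -/
theorem scm_Gam {F : ℝ → ℝ} (hF : ScBI F) {π : List (ℝ × ℝ)} (hπ : ScPos π) {s t : ℝ} (hs : 0 ≤ s) (hst : s ≤ t)
    (ht : t ≤ scLen π) : scGam F π t - scGam F π s = ∫ r in s..t, scM2 F π r := by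
  rw [scm_Gam_eq, scm_M2_eq, scm_moment hF hπ _ hs hst ht, scm_alg_u2.1, scm_alg_u2.2]
  refine intervalIntegral.integral_congr fun r _ => ?_
  show scmM (MvPolynomial.X 1 ^ 2) F π r + scAl π r * scmM 0 F π r = _
  rw [scm_M_zero_poly hF]; ring

/-- `(E w²)' = E v₃² - 2 α E w³` -/
theorem scm_M2 {F : ℝ → ℝ} (hF : ScBI F) {π : List (ℝ × ℝ)} (hπ : ScPos π) {s t : ℝ} (hs : 0 ≤ s) (hst : s ≤ t)
    (ht : t ≤ scLen π) : scM2 F π t - scM2 F π s = ∫ r in s..t, (scN3 F π r - 2 * scAl π r * scM3 F π r) := by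
  rw [scm_M2_eq, scm_N3_eq, scm_M3_eq, scm_moment hF hπ _ hs hst ht, scm_alg_w2.1, scm_alg_w2.2]
  refine intervalIntegral.integral_congr fun r _ => ?_
  show scmM (MvPolynomial.X 2 ^ 2) F π r + scAl π r * scmM (-(MvPolynomial.C 2 * MvPolynomial.X 1 ^ 3)) F π r = _
  rw [scm_M_neg, scm_M_C_mul]; ring

/-- `(E v₃²)' = E v₄² - 6 α E w v₃²` -/
theorem scm_N3 {F : ℝ → ℝ} (hF : ScBI F) {π : List (ℝ × ℝ)} (hπ : ScPos π) {s t : ℝ} (hs : 0 ≤ s) (hst : s ≤ t)
    (ht : t ≤ scLen π) : scN3 F π t - scN3 F π s = ∫ r in s..t, (scN4 F π r - 6 * scAl π r * scM13 F π r) := by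
  rw [scm_N3_eq, scm_N4_eq, scm_M13_eq, scm_moment hF hπ _ hs hst ht, scm_alg_v32.1, scm_alg_v32.2]
  refine intervalIntegral.integral_congr fun r _ => ?_
  show scmM (MvPolynomial.X 3 ^ 2) F π r
    + scAl π r * scmM (-(MvPolynomial.C 6 * (MvPolynomial.X 1 * MvPolynomial.X 2 ^ 2))) F π r = _
  rw [scm_M_neg, scm_M_C_mul]; ring

/-- `(E w³)' = 3 E w v₃² - 3 α E w⁴` -/
theorem scm_M3 {F : ℝ → ℝ} (hF : ScBI F) {π : List (ℝ × ℝ)} (hπ : ScPos π) {s t : ℝ} (hs : 0 ≤ s) (hst : s ≤ t)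
    (ht : t ≤ scLen π) : scM3 F π t - scM3 F π s = ∫ r in s..t, (3 * scM13 F π r - 3 * scAl π r * scM4 F π r) := by
  rw [scm_M3_eq, scm_M4_eq, scm_M13_eq, scm_moment hF hπ _ hs hst ht, scm_alg_w3.1, scm_alg_w3.2]
  refine intervalIntegral.integral_congr fun r _ => ?_
  show scmM (MvPolynomial.C 3 * (MvPolynomial.X 1 * MvPolynomial.X 2 ^ 2)) F π r
    + scAl π r * scmM (-(MvPolynomial.C 3 * MvPolynomial.X 1 ^ 4)) F π r = _
  rw [scm_M_neg, scm_M_C_mul, scm_M_C_mul]; ring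

theorem scmQ_C_mul (c : ℝ) (p : MvPolynomial ℕ ℝ) : scmQ (MvPolynomial.C c * p) = MvPolynomial.C c * scmQ p := by
  rw [scmQ_mul, scmQ_C, MvPolynomial.derivation_C]; ring

theorem scmR_C_mul (c : ℝ) (p : MvPolynomial ℕ ℝ) : scmR (MvPolynomial.C c * p) = MvPolynomial.C c * scmR p := by
  rw [Derivation.leibniz, MvPolynomial.derivation_C]; simp

/-- **second derivative of `E w²` on a plateau** `α = c` (several steps allowed):
`(E w²)'' = E[v₄² - 12 c w v₃² + 6 c² w⁴]`.   TEX[FS:lem:constant-transfer] (step form) -/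
theorem scm_plateau {F : ℝ → ℝ} (hF : ScBI F) {π : List (ℝ × ℝ)} (hπ : ScPos π) {p q c : ℝ} (hp : 0 ≤ p)
    (hq : q ≤ scLen π) (hc : ∀ r ∈ Ioo p q, scAl π r = c) {s t : ℝ} (hs : p ≤ s) (hst : s ≤ t) (ht : t ≤ q) :
    (scN3 F π t - 2 * c * scM3 F π t) - (scN3 F π s - 2 * c * scM3 F π s) =
      ∫ r in s..t, (scN4 F π r - 12 * c * scM13 F π r + 6 * c ^ 2 * scM4 F π r) := by
  have hP : ∀ r, scmM (MvPolynomial.X 2 ^ 2 + MvPolynomial.C (-(2 * c)) * MvPolynomial.X 1 ^ 3) F π r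
      = scN3 F π r - 2 * c * scM3 F π r := by
    intro r
    rw [scm_M_add hF, scm_M_C_mul, scm_N3_eq, scm_M3_eq]; ring
  have hm := scm_moment hF hπ (MvPolynomial.X 2 ^ 2 + MvPolynomial.C (-(2 * c)) * MvPolynomial.X 1 ^ 3)
    (hp.trans hs) hst (ht.trans hq)
  rw [hP, hP] at hm
  rw [hm]
  have hne : ∀ᵐ x ∂(volume : Measure ℝ), x ≠ t := by simp [ae_iff, measure_singleton]
  refine intervalIntegral.integral_congr_ae ?_
  filter_upwards [hne] with r hr hr'
  rw [uIoc_of_le hst] at hr'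
  have hal : scAl π r = c := hc r ⟨lt_of_le_of_lt hs hr'.1, lt_of_lt_of_le (lt_of_le_of_ne hr'.2 hr) ht⟩
  rw [hal, scmQ_add, scmQ_C_mul, map_add, scmR_C_mul, scm_alg_v32.1, scm_alg_v32.2, scm_alg_w3.1, scm_alg_w3.2,
    scm_M_add hF, scm_M_add hF]
  simp only [scm_M_C_mul, scm_M_neg]
  rw [scm_N4_eq, scm_M13_eq, scm_M4_eq]
  ring

end Claimed.Agent.R286
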