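import Claimed.Agent.R286.Sc.Dyn

/-!
# Row 286, scalar block, layer S2 (part 3): the CALCULUS of `ScDyn`, rules, exact Duhamel identities

CONTRACT FILE (head: helper95, ADV: helper36); definitions in `Sc/Prof.lean`; `sc_dynkin` and the first `ScTP` lemmas are PROVED in `Sc/Dyn.lean` (helper92).
`ScDyn F π s t φ G` means: `φ ∈ ScT [s,t] 2`, `G` piecewise `ScT 0`, and `(∂_r + ∂_zz/2 + α(r) u(r,·) ∂_z) φ = G` off finitely many times.
How to use: build `ScDyn` by the calculus (`add`, `mul`, `sq`, `comp`, `change`, base cases `sc_dyn_D k`, `sc_dyn_P`, `sc_dyn_space`,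
`sc_dyn_time`), then apply `sc_dynkin`.   Section F lists the standard consequences.
OWNERS (02:58Z): D + E = helper85;   E' (calculus of `ScDyn`) = helper92;   F (rules, Duhamel) = free (claim286 `Sc/DynC.lean#F`).
-/

set_option autoImplicit false

namespace Claimed.Agent.R286

open MeasureTheory ProbabilityTheory Filter Topology Set

/-! ## D. the class `ScTP` (piecewise in time) -/

theorem ScT.tp {s t : ℝ} {G : ℝ → ℝ → ℝ} (h : ScT (Icc s t) 0 G) : ScTP s t G := ScTP.of_T h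

theorem ScTP.congr {s t : ℝ} {G G' : ℝ → ℝ → ℝ} (h : ScTP s t G) (he : ∀ r ∈ Ioo s t, G' r = G r) : ScTP s t G' := by
  obtain ⟨S, hS, hG⟩ := h
  refine ⟨S, hS, fun a b ha hab hb hd => ?_⟩
  obtain ⟨G'', h1, h2⟩ := hG a b ha hab hb hd
  exact ⟨G'', h1, fun r hr => (he r ⟨lt_of_le_of_lt ha hr.1, lt_of_lt_of_le hr.2 hb⟩).trans (h2 r hr)⟩

theorem ScTP.sub_interval {s t s' t' : ℝ} {G : ℝ → ℝ → ℝ} (h : ScTP s t G) (hs : s ≤ s') (ht : t' ≤ t) :
    ScTP s' t' G := ScTP.subset hs ht h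

theorem ScTP.union {a b c : ℝ} {G : ℝ → ℝ → ℝ} (h1 : ScTP a b G) (h2 : ScTP b c G) : ScTP a c G := by
  obtain ⟨S1, hS1, hG1⟩ := h1
  obtain ⟨S2, hS2, hG2⟩ := h2
  refine ⟨insert b (S1 ∪ S2), (hS1.union hS2).insert b, fun a' b' ha hab hb hd => ?_⟩
  have hd1 : Disjoint (Ioo a' b') S1 :=
    hd.mono_right (subset_union_left.trans (subset_insert _ _))
  have hd2 : Disjoint (Ioo a' b') S2 :=
    hd.mono_right (subset_union_right.trans (subset_insert _ _))
  have hb0 : b ∉ Ioo a' b' := fun hx => Set.disjoint_left.1 hd hx (mem_insert _ _)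
  by_cases h : b' ≤ b
  · exact hG1 a' b' ha hab h hd1
  · have : b ≤ a' := by
      by_contra h'
      exact hb0 ⟨not_le.1 h', not_le.1 h⟩
    exact hG2 a' b' this hab hb hd2

theorem ScTP.map₁ {s t : ℝ} {G : ℝ → ℝ → ℝ} (hG : ScTP s t G) (op : (ℝ → ℝ) → ℝ → ℝ)
    (hop : ∀ (I : Set ℝ) (G' : ℝ → ℝ → ℝ), ScT I 0 G' → ScT I 0 (fun r => op (G' r))) :
    ScTP s t (fun r => op (G r)) := by
  obtain ⟨S1, hS1, hG1⟩ := hG
  refine ⟨S1, hS1, fun a b ha hab hb hd => ?_⟩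
  obtain ⟨G', g1, g2⟩ := hG1 a b ha hab hb hd
  exact ⟨_, hop _ G' g1, fun r hr => by simp only [g2 r hr]⟩

theorem ScTP.pow {s t : ℝ} {G : ℝ → ℝ → ℝ} (hG : ScTP s t G) (k : ℕ) : ScTP s t (fun r y => G r y ^ k) := by
  exact hG.map₁ (fun f y => f y ^ k) fun _ _ h1 => h1.pow k

theorem sc_al_const (π : List (ℝ × ℝ)) {a b : ℝ} (hd : Disjoint (Ioo a b) (scGrid π)) {r r' : ℝ}
    (hr : r ∈ Ioo a b) (hr' : r' ∈ Ioo a b) : scAl π r = scAl π r' := by
  induction π generalizing a b r r' with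
  | nil => rfl
  | cons p π ih =>
    have hp : p.2 ∉ Ioo a b := fun hx => Set.disjoint_left.1 hd hx
      (by simp only [scGrid]; exact Or.inr ⟨0, sc_grid_zero π, by simp⟩)
    by_cases h : b ≤ p.2
    · simp only [scAl, if_neg (not_le.2 (lt_of_lt_of_le hr.2 h)), if_neg (not_le.2 (lt_of_lt_of_le hr'.2 h))]
    · have hpa : p.2 ≤ a := by
        by_contra h'
        exact hp ⟨not_le.1 h', not_le.1 h⟩
      simp only [scAl, if_pos (hpa.trans hr.1.le), if_pos (hpa.trans hr'.1.le)]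
      refine ih (a := a - p.2) (b := b - p.2) ?_ ⟨by linarith [hr.1], by linarith [hr.2]⟩
        ⟨by linarith [hr'.1], by linarith [hr'.2]⟩
      rw [Set.disjoint_left] at hd ⊢
      intro x hx hxg
      refine hd (a := p.2 + x) ⟨by linarith [hx.1], by linarith [hx.2]⟩ ?_
      simp only [scGrid]
      exact Or.inr ⟨x, hxg, rfl⟩

/-- the mass is piecewise constant -/
theorem sc_Al_tp {π : List (ℝ × ℝ)} (h : ScPos π) (s t : ℝ) : ScTP s t (fun r _ => scAl π r) := by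
  refine ⟨scGrid π, sc_grid_finite π, fun a b _ hab _ hd => ?_⟩
  refine ⟨fun _ _ => scAl π ((a + b) / 2), (ScE.const 0 _).scT _, fun r hr => ?_⟩
  funext _
  exact sc_al_const π hd hr ⟨by linarith [hr.1, hr.2], by linarith [hr.1, hr.2]⟩

theorem ScTP.al_mul {s t : ℝ} {G : ℝ → ℝ → ℝ} (hG : ScTP s t G) {π : List (ℝ × ℝ)} (h : ScPos π) :
    ScTP s t (fun r y => scAl π r * G r y) := (sc_Al_tp h s t).mul hG

theorem ScTP.intervalIntegrable {s t : ℝ} {G : ℝ → ℝ → ℝ} (hG : ScTP s t G) (hst : s ≤ t) (y : ℝ) :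
    IntervalIntegrable (fun r => G r y) volume s t := by
  obtain ⟨S, hS, hG⟩ := hG
  have key : s ≤ s → t ≤ t → IntervalIntegrable (fun r => G r y) volume s t := by
    refine sc_piecewise_induction hS
      (P := fun a b => s ≤ a → b ≤ t → IntervalIntegrable (fun r => G r y) volume a b) ?_ ?_ hst
    · intro a b hab hd ha hb
      obtain ⟨G', h1, h2⟩ := hG a b ha hab hb hd
      have h3 : IntervalIntegrable (fun r => G' r y) volume a b := by
        refine ContinuousOn.intervalIntegrable ?_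
        rw [uIcc_of_le hab]
        exact h1.cont_time y
      refine h3.congr_uIoo ?_
      intro r hr
      rw [uIoo_of_le hab] at hr
      simp only [h2 r hr]
    · intro a b c hab hbc h1 h2 ha hc
      exact (h1 ha (hbc.trans hc)).trans (h2 (ha.trans hab) hc)
  exact key le_rfl le_rfl

theorem sc_integral_congr_Ioo {a b : ℝ} (hab : a ≤ b) {f g : ℝ → ℝ} (h : ∀ r ∈ Ioo a b, f r = g r) :
    ∫ r in a..b, f r = ∫ r in a..b, g r := by
  rw [intervalIntegral.integral_of_le hab, intervalIntegral.integral_of_le hab, integral_Ioc_eq_integral_Ioo,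
    integral_Ioc_eq_integral_Ioo]
  exact setIntegral_congr_fun measurableSet_Ioo h

theorem ScTP.integral_E {s t : ℝ} {G : ℝ → ℝ → ℝ} (hG : ScTP s t G) (hst : s ≤ t) :
    ScE 0 (fun y => ∫ r in s..t, G r y) := by
  have hG0 := hG
  obtain ⟨S, hS, hG⟩ := hG
  have key : s ≤ s → t ≤ t → ScE 0 (fun y => ∫ r in s..t, G r y) := by
    refine sc_piecewise_induction hS
      (P := fun a b => s ≤ a → b ≤ t → ScE 0 (fun y => ∫ r in a..b, G r y)) ?_ ?_ hst
    · intro a b hab hd ha hb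
      obtain ⟨G', h1, h2⟩ := hG a b ha hab hb hd
      have e : (fun y => ∫ r in a..b, G r y) = fun y => ∫ r in a..b, G' r y := by
        funext y
        exact sc_integral_congr_Ioo hab fun r hr => by rw [h2 r hr]
      rw [e]
      exact sc_tint_E hab h1
    · intro a b c hab hbc h1 h2 ha hc
      have e : (fun y => ∫ r in a..c, G r y) = fun y => (∫ r in a..b, G r y) + ∫ r in b..c, G r y := by
        funext y
        exact (intervalIntegral.integral_add_adjacent_intervals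
          ((hG0.sub_interval ha (hbc.trans hc)).intervalIntegrable hab y)
          ((hG0.sub_interval (ha.trans hab) hc).intervalIntegrable hbc y)).symm
      rw [e]
      exact (h1 ha (hbc.trans hc)).add (h2 (ha.trans hab) hc)
  exact key le_rfl le_rfl

/-- a fixed transition operator applied to a family -/
theorem sc_Pt_T_fixed {n : ℕ} {F : ℝ → ℝ} (hF : ScBI F) (π : List (ℝ × ℝ)) (s t : ℝ) {I : Set ℝ} {φ : ℝ → ℝ → ℝ}
    (hφ : ScT I n φ) : ScT I n (fun r => scPt F π s t (φ r)) := by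
  induction π generalizing s t φ with
  | nil => exact hφ
  | cons p π ih =>
    have hV : ScB (n + 1) (scV F π) := sc_V_BI hF π (n + 1)
    by_cases hp : p.2 ≤ s
    · simp only [sc_Pt_cons_ge F p π hp]
      exact ih _ _ hφ
    · by_cases ht : t ≤ p.2
      · simp only [sc_Pt_cons_in F p π hp ht]
        exact sc_tr_T_frozen (sc_step_BI (sc_V_BI hF π) _ _ (n + 1)) _ _ hφ
      · simp only [sc_Pt_cons_out F p π hp (not_le.1 ht).le]
        exact sc_tr_T_frozen hV _ _ (ih _ _ hφ)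

theorem sc_Pt_tp_fixed {F : ℝ → ℝ} (hF : ScBI F) (π : List (ℝ × ℝ)) (s t : ℝ) {a b : ℝ} {G : ℝ → ℝ → ℝ}
    (hG : ScTP a b G) : ScTP a b (fun r => scPt F π s t (G r)) := by
  exact hG.map₁ (fun f => scPt F π s t f) fun _ _ h1 => sc_Pt_T_fixed hF π s t h1

/-- the moving transition operator applied to a family -/
theorem sc_Pt_tp {F : ℝ → ℝ} (hF : ScBI F) {π : List (ℝ × ℝ)} (h : ScPos π) {s a b : ℝ} (hs : 0 ≤ s) (hsa : s ≤ a)
    {G : ℝ → ℝ → ℝ} (hG : ScTP a b G) : ScTP a b (fun r => scPt F π s r (G r)) := by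
  obtain ⟨S1, hS1, hG1⟩ := hG
  refine ⟨S1, hS1, fun a' b' ha hab hb hd => ?_⟩
  obtain ⟨G', g1, g2⟩ := hG1 a' b' ha hab hb hd
  exact ⟨_, sc_pt_T hF π (hsa.trans ha) g1, fun r hr => by simp only [g2 r hr]⟩

/-! ## E. Fubini, the Dynkin formula -/

/-- (restored by helper48: used by `Sc/Bound`, `Sc/Gen`, `Sc/GenP`, `Sc/CurvStep`) -/
theorem sc_dynkin_integrable {F : ℝ → ℝ} (hF : ScBI F) {π : List (ℝ × ℝ)} (h : ScPos π) {s t : ℝ} (h0 : 0 ≤ s)
    (hst : s ≤ t) {G : ℝ → ℝ → ℝ} (hG : ScTP s t G) (z : ℝ) :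
    IntervalIntegrable (fun r => scPt F π s r (G r) z) volume s t :=
  (sc_Pt_tp hF h h0 le_rfl hG).intervalIntegrable hst z

theorem sc_heat_integral {a b : ℝ} (hab : a ≤ b) {ψ : ℝ → ℝ → ℝ} (hψ : ScT (Icc a b) 0 ψ) (s z : ℝ) :
    scHeat s (fun y => ∫ r in a..b, ψ r y) z = ∫ r in a..b, scHeat s (ψ r) z := sc_heat_tint hab hψ s z

theorem sc_tr_integral {F : ℝ → ℝ} (hF : ScB 1 F) {a b : ℝ} (hab : a ≤ b) {ψ : ℝ → ℝ → ℝ} (hψ : ScT (Icc a b) 0 ψ)
    (m s z : ℝ) : scTr m s F (fun y => ∫ r in a..b, ψ r y) z = ∫ r in a..b, scTr m s F (ψ r) z :=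
  sc_tr_tint hab hψ hF m s z

theorem sc_pt_tint {F : ℝ → ℝ} (hF : ScBI F) (π : List (ℝ × ℝ)) (s t : ℝ) {a b : ℝ} (hab : a ≤ b)
    {H : ℝ → ℝ → ℝ} (hH : ScT (Icc a b) 0 H) :
    scPt F π s t (fun y => ∫ r in a..b, H r y) = fun z => ∫ r in a..b, scPt F π s t (H r) z := by
  induction π generalizing s t H with
  | nil => rfl
  | cons p π ih =>
    by_cases hp : p.2 ≤ s
    · simp only [sc_Pt_cons_ge F p π hp]
      exact ih _ _ hH
    · by_cases ht : t ≤ p.2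
      · simp only [sc_Pt_cons_in F p π hp ht]
        funext z
        exact sc_tr_tint hab hH (sc_step_BI (sc_V_BI hF π) _ _ 1) _ _ z
      · simp only [sc_Pt_cons_out F p π hp (not_le.1 ht).le]
        rw [ih _ _ hH]
        funext z
        exact sc_tr_tint hab (sc_Pt_T_fixed hF π _ _ hH) (sc_V_BI hF π 1) _ _ z

theorem sc_Pt_integral {F : ℝ → ℝ} (hF : ScBI F) (π : List (ℝ × ℝ)) (s t : ℝ) {a b : ℝ} (hab : a ≤ b)
    {G : ℝ → ℝ → ℝ} (hG : ScTP a b G) (z : ℝ) :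
    scPt F π s t (fun y => ∫ r in a..b, G r y) z = ∫ r in a..b, scPt F π s t (G r) z := by
  have hG0 := hG
  have hP0 := sc_Pt_tp_fixed hF π s t hG
  obtain ⟨S, hS, hG⟩ := hG
  have key : a ≤ a → b ≤ b →
      scPt F π s t (fun y => ∫ r in a..b, G r y) = fun z => ∫ r in a..b, scPt F π s t (G r) z := by
    refine sc_piecewise_induction hS
      (P := fun a' b' => a ≤ a' → b' ≤ b →
        scPt F π s t (fun y => ∫ r in a'..b', G r y) = fun z => ∫ r in a'..b', scPt F π s t (G r) z) ?_ ?_ hab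
    · intro a' b' hab' hd ha hb
      obtain ⟨G', h1, h2⟩ := hG a' b' ha hab' hb hd
      have e : (fun y => ∫ r in a'..b', G r y) = fun y => ∫ r in a'..b', G' r y := by
        funext y
        exact sc_integral_congr_Ioo hab' fun r hr => by rw [h2 r hr]
      rw [e, sc_pt_tint hF π s t hab' h1]
      funext z
      exact sc_integral_congr_Ioo hab' fun r hr => by rw [h2 r hr]
    · intro a' b' c' hab' hbc' h1 h2 ha hc
      have e : (fun y => ∫ r in a'..c', G r y) = fun y => (∫ r in a'..b', G r y) + ∫ r in b'..c', G r y := by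
        funext y
        exact (intervalIntegral.integral_add_adjacent_intervals
          ((hG0.sub_interval ha (hbc'.trans hc)).intervalIntegrable hab' y)
          ((hG0.sub_interval (ha.trans hab') hc).intervalIntegrable hbc' y)).symm
      rw [e, sc_Pt_add hF ((hG0.sub_interval ha (hbc'.trans hc)).integral_E hab')
        ((hG0.sub_interval (ha.trans hab') hc).integral_E hbc'), h1 ha (hbc'.trans hc), h2 (ha.trans hab') hc]
      funext z
      exact intervalIntegral.integral_add_adjacent_intervals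
          ((hP0.sub_interval ha (hbc'.trans hc)).intervalIntegrable hab' z)
          ((hP0.sub_interval (ha.trans hab') hc).intervalIntegrable hbc' z)
  exact congrFun (key le_rfl le_rfl) z

theorem sc_dynkin_continuousOn {F : ℝ → ℝ} (hF : ScBI F) {π : List (ℝ × ℝ)} (h : ScPos π) {s t : ℝ} (h0 : 0 ≤ s)
    {φ : ℝ → ℝ → ℝ} (hφ : ScT (Icc s t) 0 φ) (z : ℝ) :
    ContinuousOn (fun r => scPt F π s r (φ r) z) (Icc s t) := by
  exact (sc_pt_T hF π le_rfl hφ).cont_time z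

/-- differential form, when the generator has no jump -/
theorem sc_dynkin_hasDerivAt {F : ℝ → ℝ} (hF : ScBI F) {π : List (ℝ × ℝ)} (h : ScPos π) {s t : ℝ} (h0 : 0 ≤ s)
    (ht : t ≤ scLen π) {φ G : ℝ → ℝ → ℝ} (hφ : ScDyn F π s t φ G) (hG : ScT (Icc s t) 0 G) (z : ℝ) {r : ℝ}
    (hr : r ∈ Ioo s t) : HasDerivAt (fun r => scPt F π s r (φ r) z) (scPt F π s r (G r) z) r := by
  have hsub : ∀ r' ∈ Icc s t, ScDyn F π s r' φ G := fun r' hr' =>
    ⟨hφ.reg.subset (Icc_subset_Icc le_rfl hr'.2), hφ.gen.sub_interval le_rfl hr'.2, by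
      obtain ⟨S, hS, hd⟩ := hφ.der
      exact ⟨S, hS, fun x hx => hd x ⟨hx.1, hx.2.trans_le hr'.2⟩⟩⟩
  have hc : ContinuousOn (fun r => scPt F π s r (G r) z) (Icc s t) := (sc_pt_T hF π le_rfl hG).cont_time z
  have h1 : HasDerivAt (fun r' => ∫ x in s..r', scPt F π s x (G x) z) (scPt F π s r (G r) z) r := by
    refine intervalIntegral.integral_hasDerivAt_right ?_ ?_ (hc.continuousAt (Icc_mem_nhds hr.1 hr.2))
    · refine ContinuousOn.intervalIntegrable ?_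
      rw [uIcc_of_le hr.1.le]
      exact hc.mono (Icc_subset_Icc le_rfl hr.2.le)
    · exact (hc.mono Ioo_subset_Icc_self).stronglyMeasurableAtFilter isOpen_Ioo r hr
  have h2 : HasDerivAt (fun r' => φ s z + ∫ x in s..r', scPt F π s x (G x) z) (scPt F π s r (G r) z) r :=
    h1.const_add _
  refine h2.congr_of_eventuallyEq ?_
  filter_upwards [Icc_mem_nhds hr.1 hr.2] with r' hr'
  rw [← sc_dynkin hF h h0 hr'.1 (hr'.2.trans ht) (hsub r' hr') z]
  ring

/-- started from `Z_0 = 0` -/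
theorem sc_Ex_dynkin {F : ℝ → ℝ} (hF : ScBI F) {π : List (ℝ × ℝ)} (h : ScPos π) {t : ℝ} (h0 : 0 ≤ t)
    (ht : t ≤ scLen π) {φ G : ℝ → ℝ → ℝ} (hφ : ScDyn F π 0 t φ G) :
    scEx F π t (φ t) - φ 0 0 = ∫ r in (0 : ℝ)..t, scEx F π r (G r) :=
  sc_dynkin hF h le_rfl h0 ht hφ 0

/-! ## E'. the calculus of `ScDyn` -/

theorem ScDyn.congr_gen {F : ℝ → ℝ} {π : List (ℝ × ℝ)} {s t : ℝ} {φ G G' : ℝ → ℝ → ℝ} (h : ScDyn F π s t φ G)
    (he : ∀ r ∈ Ioo s t, G' r = G r) : ScDyn F π s t φ G' := by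
  refine ⟨h.reg, h.gen.congr he, ?_⟩
  obtain ⟨S, hS, hd⟩ := h.der
  refine ⟨S, hS, fun r hr hrS y => ?_⟩
  rw [he r hr]
  exact hd r hr hrS y

theorem ScDyn.sub_interval {F : ℝ → ℝ} {π : List (ℝ × ℝ)} {s t s' t' : ℝ} {φ G : ℝ → ℝ → ℝ} (h : ScDyn F π s t φ G)
    (hs : s ≤ s') (ht : t' ≤ t) : ScDyn F π s' t' φ G := by
  refine ⟨h.reg.subset (Icc_subset_Icc hs ht), h.gen.sub_interval hs ht, ?_⟩
  obtain ⟨S, hS, hd⟩ := h.der
  exact ⟨S, hS, fun r hr hrS y => hd r (Ioo_subset_Ioo hs ht hr) hrS y⟩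

/-- first and second space derivatives of a slice -/
theorem ScDyn.slice {F : ℝ → ℝ} {π : List (ℝ × ℝ)} {s t : ℝ} {φ G : ℝ → ℝ → ℝ} (h : ScDyn F π s t φ G) {r : ℝ}
    (hr : r ∈ Icc s t) (y : ℝ) :
    HasDerivAt (φ r) (deriv (φ r) y) y ∧ HasDerivAt (deriv (φ r)) (deriv (deriv (φ r)) y) y := by
  have E : ScE 2 (φ r) := h.reg.scE hr
  exact ⟨(E.differentiable y).hasDerivAt, (E.deriv.differentiable y).hasDerivAt⟩

theorem ScDyn.add {F : ℝ → ℝ} {π : List (ℝ × ℝ)} {s t : ℝ} {φ G ψ H : ℝ → ℝ → ℝ} (h1 : ScDyn F π s t φ G)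
    (h2 : ScDyn F π s t ψ H) : ScDyn F π s t (fun r y => φ r y + ψ r y) (fun r y => G r y + H r y) := by
  refine ⟨h1.reg.add h2.reg, h1.gen.add h2.gen, ?_⟩
  obtain ⟨S1, hS1, hd1⟩ := h1.der
  obtain ⟨S2, hS2, hd2⟩ := h2.der
  refine ⟨S1 ∪ S2, hS1.union hS2, fun r hr hrS y => ?_⟩
  have hr' : r ∈ Icc s t := Ioo_subset_Icc_self hr
  have e1 : deriv (fun y => φ r y + ψ r y) = fun y => deriv (φ r) y + deriv (ψ r) y := by
    funext y; exact ((h1.slice hr' y).1.add (h2.slice hr' y).1).deriv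
  have e2 : deriv (deriv (fun y => φ r y + ψ r y)) y = deriv (deriv (φ r)) y + deriv (deriv (ψ r)) y := by
    rw [e1]; exact ((h1.slice hr' y).2.add (h2.slice hr' y).2).deriv
  have := (hd1 r hr (fun h => hrS (Or.inl h)) y).add (hd2 r hr (fun h => hrS (Or.inr h)) y)
  refine this.congr_deriv ?_
  rw [e2, e1]
  ring

theorem ScDyn.cmul0 {F : ℝ → ℝ} {π : List (ℝ × ℝ)} {s t : ℝ} {φ G : ℝ → ℝ → ℝ} (c : ℝ)
    (h1 : ScDyn F π s t φ G) : ScDyn F π s t (fun r y => c * φ r y) (fun r y => c * G r y) := by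
  refine ⟨h1.reg.const_mul c, h1.gen.const_mul c, ?_⟩
  obtain ⟨S1, hS1, hd1⟩ := h1.der
  refine ⟨S1, hS1, fun r hr hrS y => ?_⟩
  have hr' : r ∈ Icc s t := Ioo_subset_Icc_self hr
  have e1 : deriv (fun y => c * φ r y) = fun y => c * deriv (φ r) y := by
    funext y; exact ((h1.slice hr' y).1.const_mul c).deriv
  have e2 : deriv (deriv (fun y => c * φ r y)) y = c * deriv (deriv (φ r)) y := by
    rw [e1]; exact ((h1.slice hr' y).2.const_mul c).deriv
  have := (hd1 r hr hrS y).const_mul c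
  refine this.congr_deriv ?_
  rw [e2, e1]
  ring

theorem ScDyn.neg0 {F : ℝ → ℝ} {π : List (ℝ × ℝ)} {s t : ℝ} {φ G : ℝ → ℝ → ℝ} (h1 : ScDyn F π s t φ G) :
    ScDyn F π s t (fun r y => - φ r y) (fun r y => - G r y) := by
  have := h1.cmul0 (-1)
  simpa only [neg_mul, one_mul] using this

theorem ScDyn.sub {F : ℝ → ℝ} {π : List (ℝ × ℝ)} {s t : ℝ} {φ G ψ H : ℝ → ℝ → ℝ} (h1 : ScDyn F π s t φ G)
    (h2 : ScDyn F π s t ψ H) : ScDyn F π s t (fun r y => φ r y - ψ r y) (fun r y => G r y - H r y) := by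
  have := h1.add h2.neg0
  simpa only [← sub_eq_add_neg] using this

theorem ScDyn.neg {F : ℝ → ℝ} {π : List (ℝ × ℝ)} {s t : ℝ} {φ G : ℝ → ℝ → ℝ} (h1 : ScDyn F π s t φ G) :
    ScDyn F π s t (fun r y => - φ r y) (fun r y => - G r y) := by
  exact h1.neg0

theorem ScDyn.const_mul {F : ℝ → ℝ} {π : List (ℝ × ℝ)} {s t : ℝ} {φ G : ℝ → ℝ → ℝ} (c : ℝ)
    (h1 : ScDyn F π s t φ G) : ScDyn F π s t (fun r y => c * φ r y) (fun r y => c * G r y) := by
  exact h1.cmul0 c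

/-- product rule (carre du champ) -/
theorem ScDyn.mul {F : ℝ → ℝ} {π : List (ℝ × ℝ)} {s t : ℝ} {φ G ψ H : ℝ → ℝ → ℝ} (h1 : ScDyn F π s t φ G)
    (h2 : ScDyn F π s t ψ H) :
    ScDyn F π s t (fun r y => φ r y * ψ r y)
      (fun r y => φ r y * H r y + ψ r y * G r y + deriv (φ r) y * deriv (ψ r) y) := by
  have t1 : ScTP s t φ := (h1.reg.mono (by omega : 0 ≤ 2)).tp
  have t2 : ScTP s t ψ := (h2.reg.mono (by omega : 0 ≤ 2)).tp
  have d1 : ScTP s t (fun r => deriv (φ r)) := (h1.reg.2.2.2.of_succ).tp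
  have d2 : ScTP s t (fun r => deriv (ψ r)) := (h2.reg.2.2.2.of_succ).tp
  refine ⟨h1.reg.mul h2.reg, ((t1.mul h2.gen).add (t2.mul h1.gen)).add (d1.mul d2), ?_⟩
  obtain ⟨S1, hS1, hd1⟩ := h1.der
  obtain ⟨S2, hS2, hd2⟩ := h2.der
  refine ⟨S1 ∪ S2, hS1.union hS2, fun r hr hrS y => ?_⟩
  have hr' : r ∈ Icc s t := Ioo_subset_Icc_self hr
  have e1 : deriv (fun y => φ r y * ψ r y) = fun y => deriv (φ r) y * ψ r y + φ r y * deriv (ψ r) y := by
    funext y; exact ((h1.slice hr' y).1.mul (h2.slice hr' y).1).deriv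
  have e2 : deriv (deriv (fun y => φ r y * ψ r y)) y
      = (deriv (deriv (φ r)) y * ψ r y + deriv (φ r) y * deriv (ψ r) y)
        + (deriv (φ r) y * deriv (ψ r) y + φ r y * deriv (deriv (ψ r)) y) := by
    rw [e1]
    exact (((h1.slice hr' y).2.mul (h2.slice hr' y).1).add ((h1.slice hr' y).1.mul (h2.slice hr' y).2)).deriv
  have := (hd1 r hr (fun h => hrS (Or.inl h)) y).mul (hd2 r hr (fun h => hrS (Or.inr h)) y)
  refine this.congr_deriv ?_
  rw [e2, e1]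
  ring

theorem ScDyn.sq {F : ℝ → ℝ} {π : List (ℝ × ℝ)} {s t : ℝ} {φ G : ℝ → ℝ → ℝ} (h1 : ScDyn F π s t φ G) :
    ScDyn F π s t (fun r y => φ r y ^ 2) (fun r y => 2 * φ r y * G r y + deriv (φ r) y ^ 2) := by
  have := h1.mul h1
  have e1 : (fun r y => φ r y ^ 2) = fun r y => φ r y * φ r y := by
    funext r y; ring
  have e2 : (fun r y => 2 * φ r y * G r y + deriv (φ r) y ^ 2)
      = fun r y => φ r y * G r y + φ r y * G r y + deriv (φ r) y * deriv (φ r) y := by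
    funext r y; ring
  rw [e1, e2]
  exact this

/-- chain rule; the regularity of the composite function is a hypothesis -/
theorem ScDyn.comp {F : ℝ → ℝ} {π : List (ℝ × ℝ)} {s t : ℝ} {φ G : ℝ → ℝ → ℝ} (h1 : ScDyn F π s t φ G)
    {Φ Φ' Φ'' : ℝ → ℝ} (hΦ : ∀ r ∈ Icc s t, ∀ y, HasDerivAt Φ (Φ' (φ r y)) (φ r y))
    (hΦ' : ∀ r ∈ Icc s t, ∀ y, HasDerivAt Φ' (Φ'' (φ r y)) (φ r y))
    (hreg : ScT (Icc s t) 2 (fun r y => Φ (φ r y)))
    (hgen : ScTP s t (fun r y => Φ' (φ r y) * G r y + Φ'' (φ r y) * deriv (φ r) y ^ 2 / 2)) :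
    ScDyn F π s t (fun r y => Φ (φ r y)) (fun r y => Φ' (φ r y) * G r y + Φ'' (φ r y) * deriv (φ r) y ^ 2 / 2) := by
  refine ⟨hreg, hgen, ?_⟩
  obtain ⟨S1, hS1, hd1⟩ := h1.der
  refine ⟨S1, hS1, fun r hr hrS y => ?_⟩
  have hr' : r ∈ Icc s t := Ioo_subset_Icc_self hr
  have e1 : deriv (fun y => Φ (φ r y)) = fun y => Φ' (φ r y) * deriv (φ r) y := by
    funext y; exact ((hΦ r hr' y).comp y (h1.slice hr' y).1).deriv
  have e2 : deriv (deriv (fun y => Φ (φ r y))) y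
      = Φ'' (φ r y) * deriv (φ r) y * deriv (φ r) y + Φ' (φ r y) * deriv (deriv (φ r)) y := by
    rw [e1]
    exact (((hΦ' r hr' y).comp y (h1.slice hr' y).1).mul (h1.slice hr' y).2).deriv
  have := (hΦ r hr' y).comp r (hd1 r hr hrS y)
  refine this.congr_deriv ?_
  rw [e2, e1]
  ring

theorem sc_dyn_const (F : ℝ → ℝ) (π : List (ℝ × ℝ)) (s t c : ℝ) : ScDyn F π s t (fun _ _ => c) (fun _ _ => 0) := by
  refine ⟨(ScE.const 2 c).scT _, ScT.tp ((ScE.const 0 0).scT _), ∅, finite_empty, fun r _ _ y => ?_⟩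
  have := hasDerivAt_const r c
  simpa using this

/-- the derivatives of `V` on a sub-interval -/
theorem sc_dyn_space_DT {F : ℝ → ℝ} (hF : ScBI F) {π : List (ℝ × ℝ)} (h : ScPos π) {s t : ℝ} (h0 : 0 ≤ s)
    (ht : t ≤ scLen π) (k n : ℕ) : ScT (Icc s t) n (scD k F π) :=
  (sc_D_T hF h k n).subset (Icc_subset_Icc h0 ht)

/-- a function of the space variable alone -/
theorem sc_dyn_space {F : ℝ → ℝ} (hF : ScBI F) {π : List (ℝ × ℝ)} (h : ScPos π) {s t : ℝ} (h0 : 0 ≤ s)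
    (ht : t ≤ scLen π) {f : ℝ → ℝ} (hf : ScE 2 f) :
    ScDyn F π s t (fun _ => f) (fun r y => deriv (deriv f) y / 2 + scAl π r * scD 1 F π r y * deriv f y) := by
  refine ⟨hf.scT _, ?_, ∅, finite_empty, fun r _ _ y => ?_⟩
  · have h1 : ScTP s t (fun _ y => (1 / 2 : ℝ) * deriv (deriv f) y) :=
      ScT.tp ((hf.deriv.deriv.scT _).const_mul (1 / 2))
    have h2 : ScTP s t (fun r y => scAl π r * (scD 1 F π r y * deriv f y)) :=
      (ScT.tp ((sc_dyn_space_DT hF h h0 ht 1 0).mul (hf.deriv.of_succ.scT _))).al_mul h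
    refine (h1.add h2).congr fun r _ => ?_
    funext y
    ring
  · have e : deriv (deriv f) y / 2 + scAl π r * scD 1 F π r y * deriv f y - deriv (deriv f) y / 2 -
        scAl π r * scD 1 F π r y * deriv f y = 0 := by ring
    simp only [e]
    exact hasDerivAt_const r (f y)

/-- a function of the time alone (continuous, piecewise `C¹`) -/
theorem sc_dyn_time (F : ℝ → ℝ) (π : List (ℝ × ℝ)) {s t : ℝ} {a a' : ℝ → ℝ} (hc : ContinuousOn a (Icc s t))
    (ha' : ScTP s t (fun r _ => a' r))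
    (hd : ∃ S : Set ℝ, S.Finite ∧ ∀ r ∈ Ioo s t, r ∉ S → HasDerivAt a (a' r) r) :
    ScDyn F π s t (fun r _ => a r) (fun r _ => a' r) := by
  obtain ⟨S, hS, hd⟩ := hd
  have hb : ∃ C, ∀ r ∈ Icc s t, |a r| ≤ C := by
    obtain ⟨C, hC⟩ := isCompact_Icc.exists_bound_of_continuousOn hc
    exact ⟨C, fun r hr => by simpa using hC r hr⟩
  refine ⟨ScT.of_time hc hb 2, ha', S, hS, fun r hr hrS y => ?_⟩
  have := hd r hr hrS
  simpa using this

/-- **generator on the derivatives of `V`**: `(∂_t + L) ∂^k V = α (u ∂^{k+1} V - ∂^k (u²/2))` -/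
theorem sc_dyn_D {F : ℝ → ℝ} (hF : ScBI F) {π : List (ℝ × ℝ)} (h : ScPos π) {s t : ℝ} (h0 : 0 ≤ s)
    (ht : t ≤ scLen π) (k : ℕ) :
    ScDyn F π s t (scD k F π)
      (fun r y => scAl π r * (scD 1 F π r y * scD (k + 1) F π r y - deriv^[k] (fun x => scD 1 F π r x ^ 2 / 2) y)) := by
  refine ⟨sc_dyn_space_DT hF h h0 ht k 2, ?_, scGrid π, sc_grid_finite π, fun r hr hrS y => ?_⟩
  · refine ScTP.al_mul (ScT.tp ?_) h
    refine ((sc_dyn_space_DT hF h h0 ht 1 0).mul (sc_dyn_space_DT hF h h0 ht (k + 1) 0)).sub ?_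
    have h1 : ScT (Icc s t) (0 + k) (fun r x => scD 1 F π r x ^ 2 / 2) := by
      refine (((sc_dyn_space_DT hF h h0 ht 1 (0 + k)).pow 2).const_mul (1 / 2)).congr fun r _ z => ?_
      ring
    exact h1.iter_deriv k
  · have := sc_D_pde hF h k (lt_of_le_of_lt h0 hr.1) (lt_of_lt_of_le hr.2 ht) hrS y
    convert this using 1
    rw [sc_D_succ, sc_D_succ]
    ring

theorem sc_dyn_D0 {F : ℝ → ℝ} (hF : ScBI F) {π : List (ℝ × ℝ)} (h : ScPos π) {s t : ℝ} (h0 : 0 ≤ s)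
    (ht : t ≤ scLen π) : ScDyn F π s t (scVt F π) (fun r y => scAl π r * (scD 1 F π r y ^ 2 / 2)) := by
  refine (sc_dyn_D hF h h0 ht 0).congr_gen fun r _ => ?_
  funext y
  simp only [Function.iterate_zero, id_eq, zero_add]
  ring

/-- the first four derivatives of `u² / 2` -/
theorem sc_dyn_D1_sq1 {F : ℝ → ℝ} (hF : ScBI F) (π : List (ℝ × ℝ)) (r : ℝ) :
    deriv (fun x => scD 1 F π r x ^ 2 / 2) = fun x => scD 1 F π r x * scD 2 F π r x := by
  funext y
  have h1 := sc_D_hasDerivAt hF 1 π r y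
  have := (h1.fun_pow 2).div_const 2
  rw [this.deriv]
  simp only [Nat.cast_ofNat, Nat.add_one_sub_one, pow_one]
  ring

theorem sc_dyn_D2_sq2 {F : ℝ → ℝ} (hF : ScBI F) (π : List (ℝ × ℝ)) (r : ℝ) :
    deriv (fun x => scD 1 F π r x * scD 2 F π r x) =
      fun x => scD 2 F π r x ^ 2 + scD 1 F π r x * scD 3 F π r x := by
  funext y
  have h1 := sc_D_hasDerivAt hF 1 π r y
  have h2 := sc_D_hasDerivAt hF 2 π r y
  rw [(h1.fun_mul h2).deriv]
  ring

theorem sc_dyn_D3_sq3 {F : ℝ → ℝ} (hF : ScBI F) (π : List (ℝ × ℝ)) (r : ℝ) :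
    deriv (fun x => scD 2 F π r x ^ 2 + scD 1 F π r x * scD 3 F π r x) =
      fun x => 3 * scD 2 F π r x * scD 3 F π r x + scD 1 F π r x * scD 4 F π r x := by
  funext y
  have h1 := sc_D_hasDerivAt hF 1 π r y
  have h2 := sc_D_hasDerivAt hF 2 π r y
  have h3 := sc_D_hasDerivAt hF 3 π r y
  rw [((h2.fun_pow 2).fun_add (h1.fun_mul h3)).deriv]
  simp only [Nat.cast_ofNat, Nat.add_one_sub_one, pow_one]
  ring

theorem sc_dyn_D4_sq4 {F : ℝ → ℝ} (hF : ScBI F) (π : List (ℝ × ℝ)) (r : ℝ) :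
    deriv (fun x => 3 * scD 2 F π r x * scD 3 F π r x + scD 1 F π r x * scD 4 F π r x) =
      fun x => 4 * scD 2 F π r x * scD 4 F π r x + 3 * scD 3 F π r x ^ 2 + scD 1 F π r x * scD 5 F π r x := by
  funext y
  have h1 := sc_D_hasDerivAt hF 1 π r y
  have h2 := sc_D_hasDerivAt hF 2 π r y
  have h3 := sc_D_hasDerivAt hF 3 π r y
  have h4 := sc_D_hasDerivAt hF 4 π r y
  rw [(((h2.const_mul 3).fun_mul h3).fun_add (h1.fun_mul h4)).deriv]
  ring

theorem sc_dyn_D1 {F : ℝ → ℝ} (hF : ScBI F) {π : List (ℝ × ℝ)} (h : ScPos π) {s t : ℝ} (h0 : 0 ≤ s)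
    (ht : t ≤ scLen π) : ScDyn F π s t (scD 1 F π) (fun _ _ => 0) := by
  refine (sc_dyn_D hF h h0 ht 1).congr_gen fun r _ => ?_
  funext y
  simp only [Function.iterate_succ, Function.iterate_zero, Function.comp_apply, id_eq, sc_dyn_D1_sq1 hF]
  ring

theorem sc_dyn_D2 {F : ℝ → ℝ} (hF : ScBI F) {π : List (ℝ × ℝ)} (h : ScPos π) {s t : ℝ} (h0 : 0 ≤ s)
    (ht : t ≤ scLen π) : ScDyn F π s t (scD 2 F π) (fun r y => - (scAl π r * scD 2 F π r y ^ 2)) := by
  refine (sc_dyn_D hF h h0 ht 2).congr_gen fun r _ => ?_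
  funext y
  simp only [Function.iterate_succ, Function.iterate_zero, Function.comp_apply, id_eq, sc_dyn_D1_sq1 hF,
    sc_dyn_D2_sq2 hF]
  ring

theorem sc_dyn_D3 {F : ℝ → ℝ} (hF : ScBI F) {π : List (ℝ × ℝ)} (h : ScPos π) {s t : ℝ} (h0 : 0 ≤ s)
    (ht : t ≤ scLen π) :
    ScDyn F π s t (scD 3 F π) (fun r y => - (scAl π r * (3 * scD 2 F π r y * scD 3 F π r y))) := by
  refine (sc_dyn_D hF h h0 ht 3).congr_gen fun r _ => ?_
  funext y
  simp only [Function.iterate_succ, Function.iterate_zero, Function.comp_apply, id_eq, sc_dyn_D1_sq1 hF,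
    sc_dyn_D2_sq2 hF, sc_dyn_D3_sq3 hF]
  ring

theorem sc_dyn_D4 {F : ℝ → ℝ} (hF : ScBI F) {π : List (ℝ × ℝ)} (h : ScPos π) {s t : ℝ} (h0 : 0 ≤ s)
    (ht : t ≤ scLen π) :
    ScDyn F π s t (scD 4 F π)
      (fun r y => - (scAl π r * (4 * scD 2 F π r y * scD 4 F π r y + 3 * scD 3 F π r y ^ 2))) := by
  refine (sc_dyn_D hF h h0 ht 4).congr_gen fun r _ => ?_
  funext y
  simp only [Function.iterate_succ, Function.iterate_zero, Function.comp_apply, id_eq, sc_dyn_D1_sq1 hF,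
    sc_dyn_D2_sq2 hF, sc_dyn_D3_sq3 hF, sc_dyn_D4_sq4 hF]
  ring

/-- the backward transition is harmonic -/
theorem sc_dyn_P {F ψ : ℝ → ℝ} (hF : ScBI F) (hψ : ScE 2 ψ) {π : List (ℝ × ℝ)} (h : ScPos π) {s t : ℝ} (h0 : 0 ≤ s)
    (ht : t ≤ scLen π) : ScDyn F π s t (fun r => scPt F π r t ψ) (fun _ _ => 0) := by
  refine ⟨(sc_Pt_T hF hψ h t).subset (Icc_subset_Icc h0 le_rfl), ScT.tp ((ScE.const 0 0).scT _), scGrid π,
    sc_grid_finite π, fun r hr hrS y => ?_⟩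
  have := sc_Pt_backward hF hψ h (lt_of_le_of_lt h0 hr.1) hr.2 ht hrS y
  convert this using 1
  ring

/-- **change of the profile / of the terminal datum**: a test function of `(F', π')` is a test function of `(F, π)` -/
theorem ScDyn.change {F F' : ℝ → ℝ} (hF : ScBI F) (hF' : ScBI F') {π π' : List (ℝ × ℝ)} (h : ScPos π) (h' : ScPos π')
    {s t : ℝ} (h0 : 0 ≤ s) (ht : t ≤ scLen π) (ht' : t ≤ scLen π') {φ G : ℝ → ℝ → ℝ} (hφ : ScDyn F' π' s t φ G) :
    ScDyn F π s t φ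
      (fun r y => G r y + (scAl π r * scD 1 F π r y - scAl π' r * scD 1 F' π' r y) * deriv (φ r) y) := by
  obtain ⟨S, hS, hd⟩ := hφ.der
  refine ⟨hφ.reg, ?_, S, hS, fun r hr hrS y => ?_⟩
  · refine hφ.gen.add (ScTP.mul (ScTP.sub ?_ ?_) (ScT.tp hφ.reg.2.2.2.of_succ))
    · exact (ScT.tp (sc_dyn_space_DT hF h h0 ht 1 0)).al_mul h
    · exact (ScT.tp (sc_dyn_space_DT hF' h' h0 ht' 1 0)).al_mul h'
  · have := hd r hr hrS y
    convert this using 1
    ring

/-! ## F. standard consequences -/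

theorem sc_rule_V {F : ℝ → ℝ} (hF : ScBI F) {π : List (ℝ × ℝ)} (h : ScPos π) {s t : ℝ} (h0 : 0 ≤ s) (hst : s ≤ t)
    (ht : t ≤ scLen π) (z : ℝ) :
    scPt F π s t (scVt F π t) z - scVt F π s z =
      ∫ r in s..t, scAl π r / 2 * scPt F π s r (fun y => scD 1 F π r y ^ 2) z := by
  rw [sc_dynkin hF h h0 hst ht (sc_dyn_D0 hF h h0 ht) z]
  refine intervalIntegral.integral_congr fun r _ => ?_
  have e : (fun y => scAl π r * (scD 1 F π r y ^ 2 / 2)) = fun y => scAl π r / 2 * scD 1 F π r y ^ 2 := by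
    funext y; ring
  show scPt F π s r (fun y => scAl π r * (scD 1 F π r y ^ 2 / 2)) z = _
  rw [e, sc_Pt_const_mul]

theorem sc_rule_D1_sq {F : ℝ → ℝ} (hF : ScBI F) {π : List (ℝ × ℝ)} (h : ScPos π) {s t : ℝ} (h0 : 0 ≤ s)
    (hst : s ≤ t) (ht : t ≤ scLen π) (z : ℝ) :
    scPt F π s t (fun y => scD 1 F π t y ^ 2) z - scD 1 F π s z ^ 2 =
      ∫ r in s..t, scPt F π s r (fun y => scD 2 F π r y ^ 2) z := by
  rw [sc_dynkin hF h h0 hst ht (sc_dyn_D1 hF h h0 ht).sq z]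
  refine intervalIntegral.integral_congr fun r _ => ?_
  have e : (fun y => 2 * scD 1 F π r y * 0 + deriv (scD 1 F π r) y ^ 2) = fun y => scD 2 F π r y ^ 2 := by
    funext y; rw [sc_D_succ]; ring
  show scPt F π s r (fun y => 2 * scD 1 F π r y * 0 + deriv (scD 1 F π r) y ^ 2) z = _
  rw [e]

theorem sc_rule_D2 {F : ℝ → ℝ} (hF : ScBI F) {π : List (ℝ × ℝ)} (h : ScPos π) {s t : ℝ} (h0 : 0 ≤ s) (hst : s ≤ t)
    (ht : t ≤ scLen π) (z : ℝ) :
    scPt F π s t (scD 2 F π t) z - scD 2 F π s z =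
      - ∫ r in s..t, scAl π r * scPt F π s r (fun y => scD 2 F π r y ^ 2) z := by
  rw [sc_dynkin hF h h0 hst ht (sc_dyn_D2 hF h h0 ht) z, ← intervalIntegral.integral_neg]
  refine intervalIntegral.integral_congr fun r _ => ?_
  have e : (fun y => - (scAl π r * scD 2 F π r y ^ 2)) = fun y => (- scAl π r) * scD 2 F π r y ^ 2 := by
    funext y; ring
  show scPt F π s r (fun y => - (scAl π r * scD 2 F π r y ^ 2)) z = _
  rw [e, sc_Pt_const_mul]
  ring

theorem sc_rule_D2_sq {F : ℝ → ℝ} (hF : ScBI F) {π : List (ℝ × ℝ)} (h : ScPos π) {s t : ℝ} (h0 : 0 ≤ s)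
    (hst : s ≤ t) (ht : t ≤ scLen π) (z : ℝ) :
    scPt F π s t (fun y => scD 2 F π t y ^ 2) z - scD 2 F π s z ^ 2 =
      ∫ r in s..t, (scPt F π s r (fun y => scD 3 F π r y ^ 2) z
        - 2 * scAl π r * scPt F π s r (fun y => scD 2 F π r y ^ 3) z) := by
  rw [sc_dynkin hF h h0 hst ht (sc_dyn_D2 hF h h0 ht).sq z]
  refine intervalIntegral.integral_congr fun r _ => ?_
  have e : (fun y => 2 * scD 2 F π r y * (- (scAl π r * scD 2 F π r y ^ 2)) + deriv (scD 2 F π r) y ^ 2)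
      = fun y => scD 3 F π r y ^ 2 - (2 * scAl π r) * scD 2 F π r y ^ 3 := by
    funext y; rw [sc_D_succ]; ring
  show scPt F π s r (fun y => 2 * scD 2 F π r y * (- (scAl π r * scD 2 F π r y ^ 2))
    + deriv (scD 2 F π r) y ^ 2) z = _
  rw [e, sc_Pt_sub hF ((sc_D_E hF 3 0 π r).pow 2) (((sc_D_E hF 2 0 π r).pow 3).const_mul (2 * scAl π r)),
    sc_Pt_const_mul]

theorem sc_rule_D3 {F : ℝ → ℝ} (hF : ScBI F) {π : List (ℝ × ℝ)} (h : ScPos π) {s t : ℝ} (h0 : 0 ≤ s) (hst : s ≤ t)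
    (ht : t ≤ scLen π) (z : ℝ) :
    scPt F π s t (scD 3 F π t) z - scD 3 F π s z =
      - ∫ r in s..t, 3 * scAl π r * scPt F π s r (fun y => scD 2 F π r y * scD 3 F π r y) z := by
  rw [sc_dynkin hF h h0 hst ht (sc_dyn_D3 hF h h0 ht) z, ← intervalIntegral.integral_neg]
  refine intervalIntegral.integral_congr fun r _ => ?_
  have e : (fun y => - (scAl π r * (3 * scD 2 F π r y * scD 3 F π r y)))
      = fun y => (- (3 * scAl π r)) * (scD 2 F π r y * scD 3 F π r y) := by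
    funext y; ring
  show scPt F π s r (fun y => - (scAl π r * (3 * scD 2 F π r y * scD 3 F π r y))) z = _
  rw [e, sc_Pt_const_mul]
  ring

theorem sc_rule_D4 {F : ℝ → ℝ} (hF : ScBI F) {π : List (ℝ × ℝ)} (h : ScPos π) {s t : ℝ} (h0 : 0 ≤ s) (hst : s ≤ t)
    (ht : t ≤ scLen π) (z : ℝ) :
    scPt F π s t (scD 4 F π t) z - scD 4 F π s z =
      - ∫ r in s..t, scAl π r *
          scPt F π s r (fun y => 4 * scD 2 F π r y * scD 4 F π r y + 3 * scD 3 F π r y ^ 2) z := by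
  rw [sc_dynkin hF h h0 hst ht (sc_dyn_D4 hF h h0 ht) z, ← intervalIntegral.integral_neg]
  refine intervalIntegral.integral_congr fun r _ => ?_
  have e : (fun y => - (scAl π r * (4 * scD 2 F π r y * scD 4 F π r y + 3 * scD 3 F π r y ^ 2)))
      = fun y => (- scAl π r) * (4 * scD 2 F π r y * scD 4 F π r y + 3 * scD 3 F π r y ^ 2) := by
    funext y; ring
  show scPt F π s r (fun y => - (scAl π r * (4 * scD 2 F π r y * scD 4 F π r y + 3 * scD 3 F π r y ^ 2))) z = _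
  rw [e, sc_Pt_const_mul]
  ring

theorem sc_rule_sq {F : ℝ → ℝ} (hF : ScBI F) {π : List (ℝ × ℝ)} (h : ScPos π) {s t : ℝ} (h0 : 0 ≤ s) (hst : s ≤ t)
    (ht : t ≤ scLen π) (z : ℝ) :
    scPt F π s t (fun y => y ^ 2) z - z ^ 2 =
      ∫ r in s..t, (1 + 2 * scAl π r * scPt F π s r (fun y => y * scD 1 F π r y) z) := by
  have hf : ScE 2 (fun y : ℝ => y ^ 2) := (ScE.id 2).pow 2
  have hd := sc_dynkin hF h h0 hst ht (sc_dyn_space hF h h0 ht hf) z
  have d1 : deriv (fun y : ℝ => y ^ 2) = fun y => 2 * y := by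
    funext y; simp
  have d2 : deriv (deriv (fun y : ℝ => y ^ 2)) = fun _ => 2 := by
    rw [d1]; funext y
    simp
  refine hd.trans (intervalIntegral.integral_congr fun r _ => ?_)
  have e : (fun y => deriv (deriv (fun y : ℝ => y ^ 2)) y / 2 + scAl π r * scD 1 F π r y * deriv (fun y : ℝ => y ^ 2) y)
      = fun y => 1 + (2 * scAl π r) * (y * scD 1 F π r y) := by
    funext y; rw [d2, d1]; ring
  show scPt F π s r (fun y => deriv (deriv (fun y : ℝ => y ^ 2)) y / 2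
    + scAl π r * scD 1 F π r y * deriv (fun y : ℝ => y ^ 2) y) z = _
  rw [e, sc_Pt_add hF (ScE.const 0 1) (((ScE.id 0).mul (sc_D_E hF 1 0 π r)).const_mul (2 * scAl π r)),
    sc_Pt_const hF, sc_Pt_const_mul]

/-- **exact Duhamel identity for two profiles and two terminal data** (kernel of `(F, π)`):
`(V' - V)(s) = P_{s,t}[(V' - V)(t)] + (1/2) ∫ P_{s,r}[(α' - α) u'² + α (u' - u)²] dr` -/
theorem sc_duhamel_V {F F' : ℝ → ℝ} (hF : ScBI F) (hF' : ScBI F') {π π' : List (ℝ × ℝ)} (h : ScPos π) (h' : ScPos π')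
    {s t : ℝ} (h0 : 0 ≤ s) (hst : s ≤ t) (ht : t ≤ scLen π) (ht' : t ≤ scLen π') (z : ℝ) :
    scVt F' π' s z - scVt F π s z =
      scPt F π s t (fun y => scVt F' π' t y - scVt F π t y) z
      + ∫ r in s..t, scPt F π s r (fun y => ((scAl π' r - scAl π r) * scD 1 F' π' r y ^ 2
          + scAl π r * (scD 1 F' π' r y - scD 1 F π r y) ^ 2) / 2) z := by
  have h1 := ScDyn.change hF hF' h h' h0 ht ht' (sc_dyn_D0 hF' h' h0 ht')
  have h2 := h1.sub (sc_dyn_D0 hF h h0 ht)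
  have hd := sc_dynkin hF h h0 hst ht h2 z
  have hi : (∫ r in s..t, scPt F π s r (fun y => scAl π' r * (scD 1 F' π' r y ^ 2 / 2)
        + (scAl π r * scD 1 F π r y - scAl π' r * scD 1 F' π' r y) * deriv (scVt F' π' r) y
        - scAl π r * (scD 1 F π r y ^ 2 / 2)) z)
      = - ∫ r in s..t, scPt F π s r (fun y => ((scAl π' r - scAl π r) * scD 1 F' π' r y ^ 2
          + scAl π r * (scD 1 F' π' r y - scD 1 F π r y) ^ 2) / 2) z := by
    rw [← intervalIntegral.integral_neg]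
    refine intervalIntegral.integral_congr fun r _ => ?_
    have e : (fun y => scAl π' r * (scD 1 F' π' r y ^ 2 / 2)
        + (scAl π r * scD 1 F π r y - scAl π' r * scD 1 F' π' r y) * deriv (scVt F' π' r) y
        - scAl π r * (scD 1 F π r y ^ 2 / 2))
        = fun y => (-1) * (((scAl π' r - scAl π r) * scD 1 F' π' r y ^ 2
          + scAl π r * (scD 1 F' π' r y - scD 1 F π r y) ^ 2) / 2) := by
      funext y; rw [← sc_D_one]; ring
    show scPt F π s r (fun y => scAl π' r * (scD 1 F' π' r y ^ 2 / 2)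
        + (scAl π r * scD 1 F π r y - scAl π' r * scD 1 F' π' r y) * deriv (scVt F' π' r) y
        - scAl π r * (scD 1 F π r y ^ 2 / 2)) z = _
    rw [e, sc_Pt_const_mul]
    ring
  have hd' : scPt F π s t (fun y => scVt F' π' t y - scVt F π t y) z - (scVt F' π' s z - scVt F π s z)
      = - ∫ r in s..t, scPt F π s r (fun y => ((scAl π' r - scAl π r) * scD 1 F' π' r y ^ 2
          + scAl π r * (scD 1 F' π' r y - scD 1 F π r y) ^ 2) / 2) z := hd.trans hi
  linarith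

/-- exact Duhamel identity for the transition operators -/
theorem sc_duhamel_P {F F' ψ : ℝ → ℝ} (hF : ScBI F) (hF' : ScBI F') (hψ : ScE 2 ψ) {π π' : List (ℝ × ℝ)}
    (h : ScPos π) (h' : ScPos π') {s t : ℝ} (h0 : 0 ≤ s) (hst : s ≤ t) (ht : t ≤ scLen π) (ht' : t ≤ scLen π')
    (z : ℝ) :
    scPt F π s t ψ z - scPt F' π' s t ψ z =
      ∫ r in s..t, scPt F π s r (fun y => (scAl π r * scD 1 F π r y - scAl π' r * scD 1 F' π' r y)
          * deriv (scPt F' π' r t ψ) y) z := by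
  have h1 := ScDyn.change hF hF' h h' h0 ht ht' (sc_dyn_P hF' hψ h' h0 ht')
  have hd := sc_dynkin hF h h0 hst ht h1 z
  have hd' : scPt F π s t (scPt F' π' t t ψ) z - scPt F' π' s t ψ z
      = ∫ r in s..t, scPt F π s r (fun y => 0 + (scAl π r * scD 1 F π r y - scAl π' r * scD 1 F' π' r y)
          * deriv (scPt F' π' r t ψ) y) z := hd
  rw [sc_Pt_self] at hd'
  rw [hd']
  refine intervalIntegral.integral_congr fun r _ => ?_
  have e : (fun y => 0 + (scAl π r * scD 1 F π r y - scAl π' r * scD 1 F' π' r y) * deriv (scPt F' π' r t ψ) y)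
      = fun y => (scAl π r * scD 1 F π r y - scAl π' r * scD 1 F' π' r y) * deriv (scPt F' π' r t ψ) y := by
    funext y; ring
  show scPt F π s r (fun y => 0 + (scAl π r * scD 1 F π r y - scAl π' r * scD 1 F' π' r y)
    * deriv (scPt F' π' r t ψ) y) z = _
  rw [e]

end Claimed.Agent.R286
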