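import Claimed.Agent.R286.Sc.GenDefs
import Claimed.Agent.R286.Sc.LimKit
import Claimed.Agent.R286.Sc.DynC
import Claimed.Agent.R286.Sc.Bound1

/-!
# Row 286, scalar block, unit C2, layer S3: a-priori bounds for step profiles, uniform in the partition

CONTRACT FILE (head: helper197, ADV: helper68).  Plan: `origin/helper197:notes/R286/F01_helper197.md` (R1, R4, R4', R15) =
`origin/helper95:notes/R286/B03_helper95.md` S3.1-S3.4.  Names of `Sc/Step.lean`, `Sc/Prof.lean` (helper95), `Sc/GenDefs.lean` (helper183).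
TEX[FS:lem:regularity] (bounds part), TEX[PE:prof:scalar-derivatives] (bounds part).

METHOD (no Ito, no sup-norm Gronwall).  Everything is the Dynkin formula + positivity of the kernel `scPt`:
* `scb_super / scb_sub`: a super / sub solution of `(∂_r + L_r) φ = G` is compared with its terminal value;
* `scb_fk`: if `2 φ G ≥ -κ φ² - ρ` then `φ(s,z)² ≤ e^{κ (t-s)} (P_{s,t}[φ(t)²](z) + ρ (t-s))`
   (apply `scb_sub` to `e^{κ (r-s)} φ² + ρ e^{κ (t-s)} (r - s)`; `(∂+L) φ² = 2 φ G + φ_z² `).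
All constants depend on `(a, τ, F)` only, never on the partition.
-/

set_option autoImplicit false

namespace Claimed.Agent.R286

open MeasureTheory ProbabilityTheory Filter Topology Set

/-! ## A. the invariant class of continuations -/

/-- the class of continuations which is invariant under Cole-Hopf steps of mass `m ∈ [0, a]` -/
structure ScCont (a : ℝ) (F : ℝ → ℝ) : Prop where
  smooth : ScBI F
  even : ∀ z, F (-z) = F z
  d1 : ∀ z, |deriv F z| ≤ 1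
  d2_pos : ∀ z, 0 < deriv (deriv F) z
  d2_le : ∀ z, deriv (deriv F) z ≤ a * (1 - deriv F z ^ 2)

/-- smooth, bounded, all derivatives bounded -/
def ScBdI (φ : ℝ → ℝ) : Prop := ∀ n, ScBd n φ

/-- `ScCont` is the class `ScAd` of `Sc/Bound1.lean` (helper90) -/
theorem ScCont.ad {a : ℝ} {F : ℝ → ℝ} (h : ScCont a F) : ScAd a F := ⟨h.smooth, h.even, h.d1, h.d2_pos, h.d2_le⟩

theorem ScAd.cont {a : ℝ} {F : ℝ → ℝ} (h : ScAd a F) : ScCont a F := ⟨h.B, h.even, h.lip, h.pos, h.hess⟩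

theorem scb_LC_deriv {a : ℝ} (ha : a ≠ 0) : deriv (scLC a) = fun z => Real.tanh (a * z) :=
  sc_logcosh_deriv1 ha

theorem scb_LC_deriv2 {a : ℝ} (ha : a ≠ 0) :
    deriv (deriv (scLC a)) = fun z => a * (1 - Real.tanh (a * z) ^ 2) :=
  funext fun z => sc_logcosh_deriv2 ha z

theorem scb_LC_cont {a : ℝ} (ha : 0 < a) : ScCont a (scLC a) := (ScAd.logcosh ha).cont

/-- one step.  `new (w + a u²) = Tr F'' + m Tr F'² + (a - m) (Tr F')² ≤ Tr (F'' + a F'²) ≤ a`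
(`sc_step_deriv`, `sc_step_deriv2`, `sc_tr_sq_le`, `sc_tr_mono`, `sc_step_strict_convex`, `sc_step_even`, `sc_step_BI`). -/
theorem ScCont.step {a : ℝ} {F : ℝ → ℝ} (h : ScCont a F) {m : ℝ} (hm : 0 ≤ m) (hma : m ≤ a) (s : ℝ) :
    ScCont a (scStep m s F) := (h.ad.step hm hma s).cont

theorem ScCont.scV {a : ℝ} {F : ℝ → ℝ} (h : ScCont a F) {π : List (ℝ × ℝ)} (hπ : ScAdm a π) :
    ScCont a (scV F π) := by
  induction π with
  | nil => exact h
  | cons p π ih =>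
    have hp := hπ p (by simp)
    exact (ih (fun q hq => hπ q (by simp [hq]))).step hp.1 hp.2.1 p.2

theorem ScCont.scVt {a : ℝ} {F : ℝ → ℝ} (h : ScCont a F) {π : List (ℝ × ℝ)} (hπ : ScAdm a π) (t : ℝ) :
    ScCont a (scVt F π t) := by
  rw [sc_Vt_after]
  exact h.scV (sc_after_adm hπ t)

/-- S3.1 -/
theorem scb_u_le {a : ℝ} {F : ℝ → ℝ} (h : ScCont a F) {π : List (ℝ × ℝ)} (hπ : ScAdm a π) (t z : ℝ) :
    |scD 1 F π t z| ≤ 1 := (h.scVt hπ t).d1 z

theorem scb_w_pos {a : ℝ} {F : ℝ → ℝ} (h : ScCont a F) {π : List (ℝ × ℝ)} (hπ : ScAdm a π) (t z : ℝ) :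
    0 < scD 2 F π t z := (h.scVt hπ t).d2_pos z

theorem scb_w_le {a : ℝ} {F : ℝ → ℝ} (h : ScCont a F) {π : List (ℝ × ℝ)} (hπ : ScAdm a π) (t z : ℝ) :
    scD 2 F π t z ≤ a * (1 - scD 1 F π t z ^ 2) := (h.scVt hπ t).d2_le z

theorem ScCont.a_pos {a : ℝ} {F : ℝ → ℝ} (h : ScCont a F) : 0 < a := by
  have h1 := h.d2_pos 0
  have h2 := h.d2_le 0
  have h3 : 1 - deriv F 0 ^ 2 ≤ 1 := by nlinarith [sq_nonneg (deriv F 0)]
  by_contra hn
  push Not at hn
  have h4 : 0 ≤ 1 - deriv F 0 ^ 2 := by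
    have := h.d1 0
    rw [abs_le] at this
    nlinarith [this.1, this.2]
  nlinarith

theorem scb_w_le_a {a : ℝ} {F : ℝ → ℝ} (h : ScCont a F) {π : List (ℝ × ℝ)} (hπ : ScAdm a π) (t z : ℝ) :
    scD 2 F π t z ≤ a := by
  have h1 := scb_w_le h hπ t z
  have h2 := h.a_pos
  nlinarith [sq_nonneg (scD 1 F π t z)]

theorem scb_D_odd_zero {a : ℝ} {F : ℝ → ℝ} (h : ScCont a F) (π : List (ℝ × ℝ)) (k : ℕ) (t : ℝ) :
    scD (2 * k + 1) F π t 0 = 0 := by
  have := sc_D_parity h.smooth h.even (2 * k + 1) π t 0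
  simp only [neg_zero, pow_succ, pow_mul] at this
  norm_num at this
  linarith

/-- each `∂_z^k V(t, ·)`, `k ≥ 1`, is smooth and bounded with all its derivatives -/
theorem scb_D_BdI {F : ℝ → ℝ} (h : ScBI F) (π : List (ℝ × ℝ)) (k : ℕ) (t : ℝ) : ScBdI (scD (k + 1) F π t) :=
  fun n => sc_D_Bd h k n π t

theorem scb_Pt_BdI {F : ℝ → ℝ} (hF : ScBI F) (π : List (ℝ × ℝ)) (s t : ℝ) {φ : ℝ → ℝ} (hφ : ScBdI φ) :
    ScBdI (scPt F π s t φ) := fun n => sc_Pt_Bd hF (hφ n) π s t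

theorem ScBdI.add {φ ψ : ℝ → ℝ} (hφ : ScBdI φ) (hψ : ScBdI ψ) : ScBdI (fun z => φ z + ψ z) :=
  fun n => (hφ n).add (hψ n)

theorem ScBdI.sub {φ ψ : ℝ → ℝ} (hφ : ScBdI φ) (hψ : ScBdI ψ) : ScBdI (fun z => φ z - ψ z) :=
  fun n => (hφ n).sub (hψ n)

theorem ScBdI.mul {φ ψ : ℝ → ℝ} (hφ : ScBdI φ) (hψ : ScBdI ψ) : ScBdI (fun z => φ z * ψ z) :=
  fun n => (hφ n).mul (hψ n)

theorem ScBdI.const_mul {φ : ℝ → ℝ} (c : ℝ) (hφ : ScBdI φ) : ScBdI (fun z => c * φ z) :=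
  fun n => (hφ n).const_mul c

theorem ScBdI.pow {φ : ℝ → ℝ} (hφ : ScBdI φ) (k : ℕ) : ScBdI (fun z => φ z ^ k) :=
  fun n => (hφ n).pow k

theorem ScBdI.const (c : ℝ) : ScBdI (fun _ => c) := fun n => ScBd.const n c

theorem ScBdI.deriv {φ : ℝ → ℝ} (hφ : ScBdI φ) : ScBdI (deriv φ) := fun n => (hφ (n + 1)).deriv

theorem ScBdI.scE {φ : ℝ → ℝ} (hφ : ScBdI φ) (n : ℕ) : ScE n φ := (hφ n).scE

/-! ## B. comparison tools      (proofs: helper215) -/

/-- THE formula (`sc_dynkin` of helper95, `Sc/Dyn.lean`) -/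
theorem scb_dynkin {F : ℝ → ℝ} (hF : ScBI F) {π : List (ℝ × ℝ)} (hπ : ScPos π) {s t : ℝ} (hs : 0 ≤ s) (hst : s ≤ t)
    (ht : t ≤ scLen π) {φ G : ℝ → ℝ → ℝ} (h : ScDyn F π s t φ G) (z : ℝ) :
    scPt F π s t (φ t) z - φ s z = ∫ r in s..t, scPt F π s r (G r) z :=
  sc_dynkin hF hπ hs hst ht h z

/-- integrability of the Dynkin integrand -/
theorem scb_dynkin_int {F : ℝ → ℝ} (hF : ScBI F) {π : List (ℝ × ℝ)} (hπ : ScPos π) {s t : ℝ} (hs : 0 ≤ s)
    (hst : s ≤ t) (_ht : t ≤ scLen π) {φ G : ℝ → ℝ → ℝ} (h : ScDyn F π s t φ G) (z : ℝ) :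
    IntervalIntegrable (fun r => scPt F π s r (G r) z) volume s t :=
  sc_dynkin_int hF hπ hs hst _ht h z

/-- off a finite set of times a piecewise family is of class `ScE 0` -/
theorem scb_tp_scE {s t : ℝ} {G : ℝ → ℝ → ℝ} (h : ScTP s t G) :
    ∃ S : Set ℝ, S.Finite ∧ ∀ r ∈ Ioo s t, r ∉ S → ScE 0 (G r) := by
  obtain ⟨S, hS, h⟩ := h
  refine ⟨S, hS, fun r hr hrS => ?_⟩
  have hopen : IsOpen (Sᶜ ∩ Ioo s t) := hS.isClosed.isOpen_compl.inter isOpen_Ioo
  obtain ⟨ε, hε, hball⟩ := Metric.isOpen_iff.1 hopen r ⟨hrS, hr⟩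
  have hsub : Icc (r - ε / 2) (r + ε / 2) ⊆ Sᶜ ∩ Ioo s t := by
    intro x hx
    refine hball ?_
    rw [Metric.mem_ball, Real.dist_eq, abs_lt]
    constructor <;> [linarith [hx.1]; linarith [hx.2]]
  have ha : s ≤ r - ε / 2 := (hsub (left_mem_Icc.2 (by linarith))).2.1.le
  have hb : r + ε / 2 ≤ t := (hsub (right_mem_Icc.2 (by linarith))).2.2.le
  have hd : Disjoint (Ioo (r - ε / 2) (r + ε / 2)) S := by
    rw [Set.disjoint_left]
    intro x hx hxS
    exact (hsub (Ioo_subset_Icc_self hx)).1 hxS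
  obtain ⟨G', hG', he⟩ := h (r - ε / 2) (r + ε / 2) ha (by linarith) hb hd
  rw [he r ⟨by linarith, by linarith⟩]
  exact hG'.scE ⟨by linarith, by linarith⟩

/-- a property which holds on `(s, t)` off a finite set holds a.e. on `(s, t]` -/
theorem scb_ae_Ioo {s t : ℝ} {S : Set ℝ} (hS : S.Finite) {p : ℝ → Prop} (h : ∀ r ∈ Ioo s t, r ∉ S → p r) :
    ∀ᵐ r ∂(volume : Measure ℝ), r ∈ Ioc s t → p r := by
  filter_upwards [(hS.union (finite_singleton t)).countable.ae_notMem volume] with r hr hrI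
  exact h r ⟨hrI.1, lt_of_le_of_ne hrI.2 fun e => hr (Or.inr e)⟩ fun hrS => hr (Or.inl hrS)

/-- supersolution: `(∂+L) φ ≤ 0` gives `P_{s,t} φ(t) ≤ φ(s)` -/
theorem scb_super {F : ℝ → ℝ} (hF : ScBI F) {π : List (ℝ × ℝ)} (hπ : ScPos π) {s t : ℝ} (hs : 0 ≤ s) (hst : s ≤ t)
    (ht : t ≤ scLen π) {φ G : ℝ → ℝ → ℝ} (h : ScDyn F π s t φ G) (hG : ∀ r ∈ Ioo s t, ∀ y, G r y ≤ 0) (z : ℝ) :
    scPt F π s t (φ t) z ≤ φ s z := by
  have hd := scb_dynkin hF hπ hs hst ht h z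
  obtain ⟨S, hS, hE⟩ := scb_tp_scE h.gen
  have hle : ∫ r in s..t, scPt F π s r (G r) z ≤ 0 := by
    rw [intervalIntegral.integral_of_le hst]
    refine integral_nonpos_of_ae ?_
    rw [Filter.EventuallyLE, ae_restrict_iff' measurableSet_Ioc]
    refine scb_ae_Ioo hS fun r hr hrS => ?_
    have h1 := sc_Pt_mono hF (hE r hr hrS) (ScE.const 0 0) (hG r hr) π s r z
    rwa [sc_Pt_const hF π s r 0] at h1
  linarith

/-- subsolution -/
theorem scb_sub {F : ℝ → ℝ} (hF : ScBI F) {π : List (ℝ × ℝ)} (hπ : ScPos π) {s t : ℝ} (hs : 0 ≤ s) (hst : s ≤ t)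
    (ht : t ≤ scLen π) {φ G : ℝ → ℝ → ℝ} (h : ScDyn F π s t φ G) (hG : ∀ r ∈ Ioo s t, ∀ y, 0 ≤ G r y) (z : ℝ) :
    φ s z ≤ scPt F π s t (φ t) z := by
  have hd := scb_dynkin hF hπ hs hst ht h z
  obtain ⟨S, hS, hE⟩ := scb_tp_scE h.gen
  have hle : 0 ≤ ∫ r in s..t, scPt F π s r (G r) z := by
    rw [intervalIntegral.integral_of_le hst]
    refine integral_nonneg_of_ae ?_
    rw [Filter.EventuallyLE, ae_restrict_iff' measurableSet_Ioc]
    exact scb_ae_Ioo hS fun r hr hrS => sc_Pt_nonneg hF (hE r hr hrS) (hG r hr) π s r z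
  linarith

/-- Duhamel bound -/
theorem scb_duhamel {F : ℝ → ℝ} (hF : ScBI F) {π : List (ℝ × ℝ)} (hπ : ScPos π) {s t : ℝ} (hs : 0 ≤ s) (hst : s ≤ t)
    (ht : t ≤ scLen π) {φ G : ℝ → ℝ → ℝ} (h : ScDyn F π s t φ G) {g : ℝ → ℝ} (hg : IntervalIntegrable g volume s t)
    (hG : ∀ r ∈ Ioo s t, ∀ y, |G r y| ≤ g r) (z : ℝ) :
    |scPt F π s t (φ t) z - φ s z| ≤ ∫ r in s..t, g r := by
  rw [scb_dynkin hF hπ hs hst ht h z]
  obtain ⟨S, hS, hE⟩ := scb_tp_scE h.gen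
  rw [← Real.norm_eq_abs]
  refine intervalIntegral.norm_integral_le_of_norm_le hst ?_ hg
  refine scb_ae_Ioo hS fun r hr hrS => ?_
  rw [Real.norm_eq_abs]
  exact sc_Pt_abs_le hF (hE r hr hrS).continuous (hG r hr) π s r z

/-- **Feynman-Kac type bound without Feynman-Kac** -/
theorem scb_fk {F : ℝ → ℝ} (hF : ScBI F) {π : List (ℝ × ℝ)} (hπ : ScPos π) {s t : ℝ} (hs : 0 ≤ s) (hst : s ≤ t)
    (ht : t ≤ scLen π) {φ G : ℝ → ℝ → ℝ} (h : ScDyn F π s t φ G) {κ ρ : ℝ} (hκ : 0 ≤ κ) (hρ : 0 ≤ ρ)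
    (hG : ∀ r ∈ Ioo s t, ∀ y, -κ * φ r y ^ 2 - ρ ≤ 2 * φ r y * G r y) (z : ℝ) :
    φ s z ^ 2 ≤ Real.exp (κ * (t - s)) * (scPt F π s t (fun y => φ t y ^ 2) z + ρ * (t - s)) := by
  -- the two functions of the time alone
  have hT1 : ScDyn F π s t (fun r _ => Real.exp (κ * (r - s))) (fun r _ => κ * Real.exp (κ * (r - s))) := by
    refine sc_dyn_time F π (a := fun r => Real.exp (κ * (r - s))) (a' := fun r => κ * Real.exp (κ * (r - s)))
      (Continuous.continuousOn (by fun_prop)) ?_ ⟨∅, finite_empty, fun r _ _ => ?_⟩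
    · refine ScT.tp (ScT.of_time (Continuous.continuousOn (by fun_prop)) ?_ 0)
      exact (isCompact_Icc.exists_bound_of_continuousOn (f := fun r => κ * Real.exp (κ * (r - s)))
        (Continuous.continuousOn (by fun_prop))).imp fun C hC r hr => by
          simpa [Real.norm_eq_abs] using hC r hr
    · have h1 : HasDerivAt (fun r : ℝ => κ * (r - s)) κ r := by
        simpa using ((hasDerivAt_id r).sub_const s).const_mul κ
      have h2 := h1.exp
      rwa [mul_comm] at h2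
  have hT2 : ScDyn F π s t (fun r _ => ρ * Real.exp (κ * (t - s)) * (r - s))
      (fun _ _ => ρ * Real.exp (κ * (t - s))) := by
    refine sc_dyn_time F π (a := fun r => ρ * Real.exp (κ * (t - s)) * (r - s))
      (a' := fun _ => ρ * Real.exp (κ * (t - s)))
      (Continuous.continuousOn (by fun_prop)) ?_ ⟨∅, finite_empty, fun r _ _ => ?_⟩
    · exact ScT.tp ((ScE.const 0 _).scT _)
    · simpa using ((hasDerivAt_id r).sub_const s).const_mul (ρ * Real.exp (κ * (t - s)))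
  have hD := (hT1.mul h.sq).add hT2
  have hsub := scb_sub hF hπ hs hst ht hD (fun r hr y => ?_) z
  · -- evaluation of the two ends
    have hEt : ScE 0 (fun y => φ t y ^ 2) := ((h.reg.scE (right_mem_Icc.2 hst)).mono (Nat.zero_le 2)).pow 2
    have e1 : scPt F π s t (fun y => Real.exp (κ * (t - s)) * φ t y ^ 2 + ρ * Real.exp (κ * (t - s)) * (t - s)) z
        = Real.exp (κ * (t - s)) * scPt F π s t (fun y => φ t y ^ 2) z + ρ * Real.exp (κ * (t - s)) * (t - s) := by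
      rw [sc_Pt_add hF (hEt.const_mul _) (ScE.const 0 _), sc_Pt_const_mul, sc_Pt_const hF]
    simp only [sub_self, mul_zero, Real.exp_zero, one_mul, add_zero] at hsub
    rw [e1] at hsub
    linarith
  · -- the generator is nonnegative
    have h1 := hG r hr y
    have hE1 : 0 < Real.exp (κ * (r - s)) := Real.exp_pos _
    have hE2 : Real.exp (κ * (r - s)) ≤ Real.exp (κ * (t - s)) :=
      Real.exp_le_exp.2 (mul_le_mul_of_nonneg_left (by linarith [hr.2]) hκ)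
    have hd0 : deriv (fun _ : ℝ => Real.exp (κ * (r - s))) y = 0 := by simp
    simp only [hd0, zero_mul, add_zero]
    have h2 : 0 ≤ Real.exp (κ * (r - s)) * (2 * φ r y * G r y + κ * φ r y ^ 2 + ρ) :=
      mul_nonneg hE1.le (by linarith)
    have h3 : 0 ≤ Real.exp (κ * (r - s)) * deriv (φ r) y ^ 2 := mul_nonneg hE1.le (sq_nonneg _)
    have h4 : 0 ≤ ρ * (Real.exp (κ * (t - s)) - Real.exp (κ * (r - s))) := mul_nonneg hρ (by linarith)
    nlinarith

/-! ## C. derivatives of every order, uniformly in the partition      (proofs: helper215) -/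

/-- the source term of `v_k = ∂_z^k V`:  `(∂_r + L_r) v_k = -(α(r)/2) (∂_z^k (u²) - 2 u v_{k+1})` -/
noncomputable def scSrc (k : ℕ) (F : ℝ → ℝ) (π : List (ℝ × ℝ)) (r y : ℝ) : ℝ :=
  -(scAl π r / 2) * (deriv^[k] (fun x => scD 1 F π r x ^ 2) y - 2 * scD 1 F π r y * scD (k + 1) F π r y)

/-- (`sc_dyn_D` of `Sc/Dyn.lean`) -/
theorem scb_dyn_D {F : ℝ → ℝ} (hF : ScBI F) {π : List (ℝ × ℝ)} (hπ : ScPos π) {s t : ℝ} (hs : 0 ≤ s) (_hst : s ≤ t)
    (ht : t ≤ scLen π) (k : ℕ) : ScDyn F π s t (fun r => scD k F π r) (scSrc k F π) := by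
  refine (sc_dyn_D hF hπ hs ht k).congr_gen fun r _ => ?_
  funext y
  unfold scSrc
  have e : (fun x => scD 1 F π r x ^ 2 / 2) = fun x => (1 / 2) * scD 1 F π r x ^ 2 := by
    funext x; ring
  rw [e, sc_iter_deriv_const_mul]
  ring

/-- the recursive class is contained in `C^n` -/
theorem scb_E_contDiff {n : ℕ} : ∀ {f : ℝ → ℝ}, ScE n f → ContDiff ℝ n f := by
  induction n with
  | zero => intro f h; exact contDiff_zero.2 h.1
  | succ n ih =>
    intro f h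
    have e : ((n + 1 : ℕ) : WithTop ℕ∞) = (n : WithTop ℕ∞) + 1 := by norm_cast
    rw [e, contDiff_succ_iff_deriv]
    exact ⟨h.differentiable, by simp, ih h.deriv⟩

theorem scb_D_iter (F : ℝ → ℝ) (π : List (ℝ × ℝ)) (r : ℝ) (i j : ℕ) :
    deriv^[i] (scD j F π r) = scD (i + j) F π r := by
  unfold scD
  rw [Function.iterate_add_apply]

/-- Leibniz (`iteratedDeriv_mul`): `∂^k (u²) = Σ_{i ≤ k} C(k,i) v_{i+1} v_{k-i+1}` -/
theorem scb_leibniz {F : ℝ → ℝ} (hF : ScBI F) (π : List (ℝ × ℝ)) (k : ℕ) (r y : ℝ) :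
    deriv^[k] (fun x => scD 1 F π r x ^ 2) y =
      ∑ i ∈ Finset.range (k + 1), (k.choose i : ℝ) * scD (i + 1) F π r y * scD (k - i + 1) F π r y := by
  have hc : ContDiff ℝ k (scD 1 F π r) := scb_E_contDiff (sc_D_E hF 1 k π r)
  have e : (fun x => scD 1 F π r x ^ 2) = scD 1 F π r * scD 1 F π r := by
    funext x; simp [pow_two]
  rw [e, ← iteratedDeriv_eq_iterate, iteratedDeriv_mul hc.contDiffAt hc.contDiffAt]
  refine Finset.sum_congr rfl fun i _ => ?_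
  rw [iteratedDeriv_eq_iterate, iteratedDeriv_eq_iterate, scb_D_iter, scb_D_iter]

/-- for `k ≥ 3` the source is `-α (k w v_k + (1/2) Σ_{i=2}^{k-2} C(k,i) v_{i+1} v_{k-i+1})` -/
theorem scb_src_eq {F : ℝ → ℝ} (hF : ScBI F) (π : List (ℝ × ℝ)) {k : ℕ} (hk : 3 ≤ k) (r y : ℝ) :
    scSrc k F π r y = -(scAl π r) * (k * scD 2 F π r y * scD k F π r y
      + (∑ i ∈ Finset.Icc 2 (k - 2), (k.choose i : ℝ) * scD (i + 1) F π r y * scD (k - i + 1) F π r y) / 2) := by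
  obtain ⟨m, rfl⟩ : ∃ m, k = m + 3 := ⟨k - 3, by omega⟩
  unfold scSrc
  rw [scb_leibniz hF]
  have hI : Finset.Icc 2 (m + 3 - 2) = Finset.Ico 2 (m + 2) := by
    ext i; simp only [Finset.mem_Icc, Finset.mem_Ico]; omega
  rw [hI, Finset.sum_Ico_eq_sum_range, Finset.sum_range_succ, Finset.sum_range_succ, Finset.sum_range_succ',
    Finset.sum_range_succ']
  have e1 : m + 2 - 2 = m := by omega
  have e2 : m + 3 - (m + 3) + 1 = 1 := by omega
  have e3 : m + 3 - (m + 2) + 1 = 2 := by omega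
  have e4 : m + 3 - 0 + 1 = m + 3 + 1 := by omega
  have e5 : m + 3 - (0 + 1) + 1 = m + 3 := by omega
  have c1 : ((m + 3).choose (m + 3) : ℝ) = 1 := by simp
  have c2 : ((m + 3).choose (m + 2) : ℝ) = (m + 3 : ℕ) := by
    rw [show m + 3 = (m + 2) + 1 from rfl, Nat.choose_succ_self_right]
  have c3 : ((m + 3).choose 0 : ℝ) = 1 := by simp
  have c4 : ((m + 3).choose (0 + 1) : ℝ) = (m + 3 : ℕ) := by simp
  rw [e1, e2, e3, e4, e5, c1, c2, c3, c4]
  have hs : ∑ i ∈ Finset.range m, ((m + 3).choose (i + 1 + 1) : ℝ) * scD (i + 1 + 1 + 1) F π r y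
        * scD (m + 3 - (i + 1 + 1) + 1) F π r y
      = ∑ i ∈ Finset.range m, ((m + 3).choose (2 + i) : ℝ) * scD (2 + i + 1) F π r y
        * scD (m + 3 - (2 + i) + 1) F π r y := by
    refine Finset.sum_congr rfl fun i _ => ?_
    rw [show i + 1 + 1 = 2 + i by omega]
  rw [hs]
  simp only [zero_add]
  ring

theorem scb_src_two {F : ℝ → ℝ} (hF : ScBI F) (π : List (ℝ × ℝ)) (r y : ℝ) :
    scSrc 2 F π r y = -(scAl π r) * scD 2 F π r y ^ 2 := by
  unfold scSrc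
  rw [scb_leibniz hF]
  simp only [Finset.sum_range_succ, Finset.sum_range_zero]
  norm_num [Nat.choose]
  ring

theorem scb_src_one {F : ℝ → ℝ} (hF : ScBI F) (π : List (ℝ × ℝ)) (r y : ℝ) : scSrc 1 F π r y = 0 := by
  unfold scSrc
  rw [scb_leibniz hF]
  have e : ∑ i ∈ Finset.range (1 + 1), ((1 : ℕ).choose i : ℝ) * scD (i + 1) F π r y * scD (1 - i + 1) F π r y
      = 2 * scD 1 F π r y * scD (1 + 1) F π r y := by
    simp only [Finset.sum_range_succ, Finset.sum_range_zero]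
    norm_num [Nat.choose]
    ring
  rw [e]
  ring

/-- **S3.2**: `sup |∂_z^k V| ≤ C_k(a, τ, F)` for all admissible profiles of length `≤ τ`.
Strong induction on `k`; `k = 1, 2`: section A; `k ≥ 3`: `scb_fk` on `[t, scLen π]` with `φ = v_k`, `κ = 2 k a² + 1`,
`ρ = (a Q)² / 4`, `Q` = bound of the middle sum. -/
theorem scb_D_bound {a : ℝ} {F : ℝ → ℝ} (hF : ScCont a F) (τ : ℝ) (k : ℕ) (hk : 1 ≤ k) :
    ∃ C : ℝ, ∀ π, ScAdm a π → scLen π ≤ τ → ∀ t, 0 ≤ t → ∀ z, |scD k F π t z| ≤ C := by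
  induction k using Nat.strong_induction_on with
  | _ k ih =>
  rcases Nat.lt_or_ge k 3 with h3 | h3
  · interval_cases k
    · exact ⟨1, fun π hπ _ t _ z => scb_u_le hF hπ t z⟩
    · exact ⟨a, fun π hπ _ t _ z => by
        rw [abs_of_pos (scb_w_pos hF hπ t z)]; exact scb_w_le_a hF hπ t z⟩
  · have ha := hF.a_pos
    have ih' : ∀ m, ∃ C : ℝ, m < k → 1 ≤ m → ∀ π, ScAdm a π → scLen π ≤ τ → ∀ t, 0 ≤ t → ∀ z,
        |scD m F π t z| ≤ C := by
      intro m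
      by_cases hm : m < k ∧ 1 ≤ m
      · obtain ⟨C, hC⟩ := ih m hm.1 hm.2
        exact ⟨C, fun _ _ => hC⟩
      · exact ⟨0, fun h1 h2 => absurd ⟨h1, h2⟩ hm⟩
    choose C hC using ih'
    obtain ⟨CF, hCF⟩ : ∃ CF, ∀ z, |deriv^[k] F z| ≤ CF := by
      obtain ⟨j, rfl⟩ : ∃ j, k = j + 1 := ⟨k - 1, by omega⟩
      exact (sc_D_Bd hF.smooth j 0 [] 0).1
    have hCF0 : 0 ≤ CF := (abs_nonneg _).trans (hCF 0)
    set Q : ℝ := ∑ i ∈ Finset.Icc 2 (k - 2), (k.choose i : ℝ) * C (i + 1) * C (k - i + 1) with hQ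
    set κ : ℝ := 2 * k * a ^ 2 + 1 with hκ
    set ρ : ℝ := (a * Q) ^ 2 / 4 with hρ
    have hκ0 : 0 ≤ κ := by positivity
    have hρ0 : 0 ≤ ρ := by positivity
    refine ⟨Real.sqrt (Real.exp (κ * τ) * (CF ^ 2 + ρ * τ)) + CF, fun π hπ hlen t ht0 z => ?_⟩
    have hsq0 := Real.sqrt_nonneg (Real.exp (κ * τ) * (CF ^ 2 + ρ * τ))
    rcases le_total (scLen π) t with htl | htl
    · rw [sc_D_of_le k F hπ.pos htl]
      linarith [hCF z]
    have hmid : ∀ r, 0 ≤ r → ∀ y, |∑ i ∈ Finset.Icc 2 (k - 2),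
        (k.choose i : ℝ) * scD (i + 1) F π r y * scD (k - i + 1) F π r y| ≤ Q := by
      intro r hr y
      refine (Finset.abs_sum_le_sum_abs _ _).trans (Finset.sum_le_sum fun i hi => ?_)
      rw [Finset.mem_Icc] at hi
      have h1 := hC (i + 1) (by omega) (by omega) π hπ hlen r hr y
      have h2 := hC (k - i + 1) (by omega) (by omega) π hπ hlen r hr y
      rw [abs_mul, abs_mul, abs_of_nonneg (Nat.cast_nonneg _), mul_assoc, mul_assoc]
      exact mul_le_mul_of_nonneg_left (mul_le_mul h1 h2 (abs_nonneg _) ((abs_nonneg _).trans h1))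
        (Nat.cast_nonneg _)
    have hfk := scb_fk hF.smooth hπ.pos ht0 htl le_rfl (scb_dyn_D hF.smooth hπ.pos ht0 htl le_rfl k) hκ0 hρ0
      (fun r hr y => ?_) z
    · have hend : scPt F π t (scLen π) (fun y => scD k F π (scLen π) y ^ 2) z ≤ CF ^ 2 := by
        refine (le_abs_self _).trans (sc_Pt_abs_le hF.smooth ((sc_D_E hF.smooth k 0 π _).pow 2).continuous
          (fun y => ?_) π _ _ z)
        rw [sc_D_of_le k F hπ.pos le_rfl, abs_pow]
        exact pow_le_pow_left₀ (abs_nonneg _) (hCF y) 2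
      have hd : scLen π - t ≤ τ := by linarith
      have hd0 : 0 ≤ scLen π - t := by linarith
      have hτ0 : 0 ≤ τ := hd0.trans hd
      have h1 : Real.exp (κ * (scLen π - t)) ≤ Real.exp (κ * τ) :=
        Real.exp_le_exp.2 (mul_le_mul_of_nonneg_left hd hκ0)
      have h2 : scPt F π t (scLen π) (fun y => scD k F π (scLen π) y ^ 2) z + ρ * (scLen π - t)
          ≤ CF ^ 2 + ρ * τ := add_le_add hend (mul_le_mul_of_nonneg_left hd hρ0)
      have h3 : scD k F π t z ^ 2 ≤ Real.exp (κ * τ) * (CF ^ 2 + ρ * τ) :=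
        hfk.trans ((mul_le_mul_of_nonneg_left h2 (Real.exp_pos _).le).trans
          (mul_le_mul_of_nonneg_right h1 (by positivity)))
      linarith [Real.abs_le_sqrt h3]
    · have hr0 : 0 ≤ r := ht0.trans hr.1.le
      have hα := sc_Al_mem ha.le hπ r
      have hw0 := scb_w_pos hF hπ r y
      have hw1 := scb_w_le_a hF hπ r y
      have hM := hmid r hr0 y
      rw [scb_src_eq hF.smooth π h3]
      set v := scD k F π r y
      set M := ∑ i ∈ Finset.Icc 2 (k - 2), (k.choose i : ℝ) * scD (i + 1) F π r y * scD (k - i + 1) F π r y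
      set α := scAl π r
      set w := scD 2 F π r y
      have h1 : α * w ≤ a * a := mul_le_mul hα.2 hw1 hw0.le ha.le
      have h2 : α * w * (k * v ^ 2) ≤ a * a * (k * v ^ 2) := mul_le_mul_of_nonneg_right h1 (by positivity)
      have h3' : |α * M| ≤ a * Q := by
        rw [abs_mul, abs_of_nonneg hα.1]
        exact mul_le_mul hα.2 hM (abs_nonneg _) ha.le
      have h4 : (α * M) ^ 2 ≤ (a * Q) ^ 2 := sq_le_sq' (by linarith [(abs_le.1 h3').1]) (abs_le.1 h3').2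
      have h5 : α * M * v ≤ v ^ 2 + (α * M) ^ 2 / 4 := by nlinarith [sq_nonneg (v - α * M / 2)]
      have e : 2 * v * (-α * (k * w * v + M / 2)) = -(2 * (α * w * (k * v ^ 2))) - α * M * v := by ring
      rw [e, hκ, hρ]
      nlinarith

/-- the constants as one function -/
theorem scb_D_bounds {a : ℝ} {F : ℝ → ℝ} (hF : ScCont a F) (τ : ℝ) :
    ∃ C : ℕ → ℝ, (∀ k, 0 ≤ C k) ∧
      ∀ k, 1 ≤ k → ∀ π, ScAdm a π → scLen π ≤ τ → ∀ t, 0 ≤ t → ∀ z, |scD k F π t z| ≤ C k := by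
  have h : ∀ k, ∃ C : ℝ, 1 ≤ k → ∀ π, ScAdm a π → scLen π ≤ τ → ∀ t, 0 ≤ t → ∀ z, |scD k F π t z| ≤ C := by
    intro k
    by_cases hk : 1 ≤ k
    · obtain ⟨C, hC⟩ := scb_D_bound hF τ k hk
      exact ⟨C, fun _ => hC⟩
    · exact ⟨0, fun h => absurd h hk⟩
  choose C hC using h
  exact ⟨fun k => max (C k) 0, fun k => le_max_right _ _, fun k hk π hπ hl t ht z =>
    (hC k hk π hπ hl t ht z).trans (le_max_left _ _)⟩

/-- **S3.3**: Lipschitz in time, uniformly in the partition (`k = 0` included: `|V_t| ≤ a / 2`);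
`sc_D_sub_eq_integral` + `scb_leibniz` + `scb_D_bounds` -/
theorem scb_D_lip {a : ℝ} {F : ℝ → ℝ} (hF : ScCont a F) (τ : ℝ) (k : ℕ) :
    ∃ C : ℝ, 0 ≤ C ∧ ∀ π, ScAdm a π → scLen π ≤ τ → ∀ t t', 0 ≤ t → 0 ≤ t' → ∀ z,
      |scD k F π t z - scD k F π t' z| ≤ C * |t - t'| := by
  obtain ⟨C, hC0, hC⟩ := scb_D_bounds hF τ
  have ha := hF.a_pos
  set Sg : ℝ := ∑ i ∈ Finset.range (k + 1), (k.choose i : ℝ) * C (i + 1) * C (k - i + 1) with hSg
  have hSg0 : 0 ≤ Sg := Finset.sum_nonneg fun i _ => mul_nonneg (mul_nonneg (Nat.cast_nonneg _) (hC0 _)) (hC0 _)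
  set K : ℝ := C (k + 2) / 2 + a * (Sg / 2) with hK
  have hK0 : 0 ≤ K := by
    have := hC0 (k + 2)
    positivity
  have key : ∀ π, ScAdm a π → scLen π ≤ τ → ∀ t t', 0 ≤ t → t ≤ t' → t' ≤ scLen π → ∀ z,
      |scD k F π t' z - scD k F π t z| ≤ K * (t' - t) := by
    intro π hπ hl t t' h0 htt ht' z
    rw [sc_D_sub_eq_integral hF.smooth hπ.pos k h0 htt ht' z, ← Real.norm_eq_abs]
    refine (intervalIntegral.norm_integral_le_of_norm_le_const (C := K) fun r hr => ?_).trans ?_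
    · rw [uIoc_of_le htt] at hr
      have hr0 : 0 ≤ r := h0.trans hr.1.le
      have hα := sc_Al_mem ha.le hπ r
      have e : (fun x => scD 1 F π r x ^ 2 / 2) = fun x => (1 / 2) * scD 1 F π r x ^ 2 := by
        funext x; ring
      rw [e, sc_iter_deriv_const_mul]
      beta_reduce
      rw [scb_leibniz hF.smooth, Real.norm_eq_abs]
      have h1 := hC (k + 2) (by omega) π hπ hl r hr0 z
      have h2 : |∑ i ∈ Finset.range (k + 1), (k.choose i : ℝ) * scD (i + 1) F π r z * scD (k - i + 1) F π r z|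
          ≤ Sg := by
        refine (Finset.abs_sum_le_sum_abs _ _).trans (Finset.sum_le_sum fun i _ => ?_)
        have g1 := hC (i + 1) (by omega) π hπ hl r hr0 z
        have g2 := hC (k - i + 1) (by omega) π hπ hl r hr0 z
        rw [abs_mul, abs_mul, abs_of_nonneg (Nat.cast_nonneg _), mul_assoc, mul_assoc]
        exact mul_le_mul_of_nonneg_left (mul_le_mul g1 g2 (abs_nonneg _) (hC0 _)) (Nat.cast_nonneg _)
      set M := ∑ i ∈ Finset.range (k + 1), (k.choose i : ℝ) * scD (i + 1) F π r z * scD (k - i + 1) F π r z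
      have h3 : |scAl π r * (1 / 2 * M)| ≤ a * (Sg / 2) := by
        rw [abs_mul, abs_of_nonneg hα.1, abs_mul, abs_of_nonneg (by norm_num : (0 : ℝ) ≤ 1 / 2)]
        refine mul_le_mul hα.2 (by linarith) (by positivity) ha.le
      have h4 : |-(scD (k + 2) F π r z) / 2| ≤ C (k + 2) / 2 := by
        rw [abs_div, abs_neg, abs_of_pos (by norm_num : (0 : ℝ) < 2)]
        linarith
      exact (abs_sub _ _).trans (add_le_add h4 h3)
    · rw [abs_of_nonneg (sub_nonneg.2 htt)]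
  refine ⟨K, hK0, fun π hπ hl t t' h0 h0' z => ?_⟩
  have hlen := sc_len_nonneg hπ.pos
  have hcl : ∀ x, scD k F π x = scD k F π (min x (scLen π)) := by
    intro x
    rcases le_total x (scLen π) with h | h
    · rw [min_eq_left h]
    · rw [min_eq_right h, sc_D_of_le k F hπ.pos h, sc_D_of_le k F hπ.pos le_rfl]
  have main : ∀ x x', 0 ≤ x → x ≤ x' → |scD k F π x' z - scD k F π x z| ≤ K * (x' - x) := by
    intro x x' hx hxx
    rw [hcl x, hcl x']
    refine (key π hπ hl _ _ (le_min hx hlen) (min_le_min_right _ hxx) (min_le_right _ _) z).trans ?_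
    refine mul_le_mul_of_nonneg_left ?_ hK0
    rcases le_total x (scLen π) with h | h <;> rcases le_total x' (scLen π) with h' | h'
    · rw [min_eq_left h, min_eq_left h']
    · rw [min_eq_left h, min_eq_right h']; linarith
    · rw [min_eq_right h, min_eq_left h']; linarith
    · rw [min_eq_right h, min_eq_right h']; linarith
  rcases le_total t t' with h | h
  · rw [abs_sub_comm, abs_sub_comm t t', abs_of_nonneg (sub_nonneg.2 h)]
    exact main t t' h0 h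
  · rw [abs_of_nonneg (sub_nonneg.2 h)]
    exact main t' t h0' h

/-! ## D. strict lower bounds, uniform in the partition -/

/-- `χ = sech² (a z)` -/
noncomputable def scChi (a z : ℝ) : ℝ := 1 - Real.tanh (a * z) ^ 2

theorem scb_chi_pos (a z : ℝ) : 0 < scChi a z := scSech_pos a z

theorem scb_chi_le_one (a z : ℝ) : scChi a z ≤ 1 := by
  unfold scChi
  nlinarith [sq_nonneg (Real.tanh (a * z))]

theorem scb_chi_zero (a : ℝ) : scChi a 0 = 1 := by
  simp [scChi]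

theorem scb_chi_BdI (a : ℝ) (p : ℕ) : ScBdI (fun z => scChi a z ^ p) := fun n => scSech_pow_Bd n a p

/-- `(χ^p)' = -2 p a tanh χ^p` -/
theorem scb_chi_pow_deriv (a : ℝ) (p : ℕ) (z : ℝ) :
    deriv (fun z => scChi a z ^ p) z = -2 * p * a * Real.tanh (a * z) * scChi a z ^ p :=
  (scSech_pow_hasDerivAt a p z).deriv

/-- `(χ^p)'' ≥ -2 p a² χ^p` -/
theorem scb_chi_pow_deriv2 (a : ℝ) (p : ℕ) (z : ℝ) :
    -2 * p * a ^ 2 * scChi a z ^ p ≤ deriv (deriv (fun z => scChi a z ^ p)) z := by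
  have e := congrFun (scSech_pow_deriv2 a p) z
  have hχ : 0 < scSech a z ^ p := pow_pos (scSech_pos a z) p
  have h0 : 0 ≤ a ^ 2 * ((2 * p + 4 * (p : ℝ) ^ 2) * Real.tanh (a * z) ^ 2) * scSech a z ^ p := by positivity
  show -2 * p * a ^ 2 * scSech a z ^ p ≤ deriv (deriv (fun z => scSech a z ^ p)) z
  rw [e]
  nlinarith

/-- **R15**: `P_{s,t}[χ^p](z) ≥ e^{-3 p a² (t-s)} χ(z)^p`   (`scb_sub` with `φ(r) = e^{-3 p a² (t - r)} χ^p`) -/
theorem scb_chi_lower {a : ℝ} {F : ℝ → ℝ} (hF : ScCont a F) {π : List (ℝ × ℝ)} (hπ : ScAdm a π) {s t : ℝ}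
    (hs : 0 ≤ s) (hst : s ≤ t) (ht : t ≤ scLen π) (p : ℕ) (z : ℝ) :
    Real.exp (-3 * p * a ^ 2 * (t - s)) * scChi a z ^ p ≤ scPt F π s t (fun y => scChi a y ^ p) z := by
  have := scb_Pt_sech_pow_ge hF.ad hπ p hst z
  have e : -3 * (p : ℝ) * a ^ 2 * (t - s) = -(3 * p * a ^ 2 * (t - s)) := by ring
  rw [e]
  exact this

/-- **R4'**: `w(t, z) ≥ c e^{-3 a² (len - t)} χ(z)` if `F'' ≥ c χ`
(`scb_super` with `φ = w - c e^{-3 a² (len - r)} χ`, `(∂+L) w = -α w² ≤ 0`) -/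
theorem scb_w_lower {a : ℝ} {F : ℝ → ℝ} (hF : ScCont a F) {c : ℝ} (hc : 0 ≤ c)
    (hFc : ∀ z, c * scChi a z ≤ deriv (deriv F) z) {π : List (ℝ × ℝ)} (hπ : ScAdm a π) {t : ℝ} (ht0 : 0 ≤ t)
    (ht : t ≤ scLen π) (z : ℝ) :
    c * Real.exp (-3 * a ^ 2 * (scLen π - t)) * scChi a z ≤ scD 2 F π t z := by
  have := scb_w_ge hF.ad hπ hc hFc ht z
  have e : -3 * a ^ 2 * (scLen π - t) = -(3 * a ^ 2 * (scLen π - t)) := by ring
  rw [e]
  exact this

/-- uniform positivity of the moments of `w` (used for `Γ' > 0`, `E w³ > 0`, `E w⁴ ≥ m`) -/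
theorem scb_Ew_lower {a : ℝ} {F : ℝ → ℝ} (hF : ScCont a F) {c : ℝ} (hc : 0 ≤ c)
    (hFc : ∀ z, c * scChi a z ≤ deriv (deriv F) z) {π : List (ℝ × ℝ)} (hπ : ScAdm a π) {t : ℝ} (ht0 : 0 ≤ t)
    (ht : t ≤ scLen π) (p : ℕ) :
    (c * Real.exp (-3 * a ^ 2 * scLen π)) ^ p ≤ scEx F π t (fun z => scD 2 F π t z ^ p) := by
  have := scb_Ex_w_pow_ge hF.ad hπ hc hFc ht0 ht p
  have e : -3 * a ^ 2 * scLen π = -(3 * a ^ 2 * scLen π) := by ring
  rw [e]
  exact this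

/-- `1 - Γ(len) ≥ e^{-3 a² len}` for the terminal datum `scLC a` -/
theorem scb_Gam_end {a : ℝ} (ha : 0 < a) {π : List (ℝ × ℝ)} (hπ : ScAdm a π) :
    scGam (scLC a) π (scLen π) ≤ 1 - Real.exp (-3 * a ^ 2 * scLen π) := by
  have hF : ScAd a (scLC a) := ScAd.logcosh ha
  have hu : scD 1 (scLC a) π (scLen π) = fun z => Real.tanh (a * z) := by
    rw [sc_D_of_le 1 _ hπ.pos le_rfl]
    exact scb_LC_deriv ha.ne'
  have e1 : (fun z => scD 1 (scLC a) π (scLen π) z ^ 2) = fun z => (fun _ : ℝ => (1 : ℝ)) z - scSech a z ^ 1 := by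
    funext z
    rw [hu]
    simp only [scSech, pow_one]
    ring
  have h2 := scb_Pt_sech_pow_ge hF hπ 1 (sc_len_nonneg hπ.pos) 0
  have e0 : scSech a 0 = 1 := by simp [scSech]
  rw [e0, one_pow, mul_one, sub_zero] at h2
  unfold scGam scEx
  rw [e1, sc_Pt_sub hF.scBI (ScE.const 0 1) (scSech_pow_Bd 0 a 1).scE, sc_Pt_const hF.scBI]
  have e : -3 * a ^ 2 * scLen π = -(3 * ((1 : ℕ) : ℝ) * a ^ 2 * scLen π) := by push_cast; ring
  rw [e]
  linarith

/-! ## E. gradient bound for the backward transition      (proofs: helper215) -/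

/-- (`sc_dyn_P` of `Sc/DynC.lean`) the backward transition is harmonic -/
theorem scb_dyn_P {F : ℝ → ℝ} (hF : ScBI F) {π : List (ℝ × ℝ)} (hπ : ScPos π) {s t : ℝ} (hs : 0 ≤ s) (_hst : s ≤ t)
    (ht : t ≤ scLen π) {ψ : ℝ → ℝ} (hψ : ScBdI ψ) :
    ScDyn F π s t (fun r => scPt F π r t ψ) (fun _ _ => 0) :=
  sc_dyn_P hF (hψ.scE 2) hπ hs ht

/-- its `z`-derivative `p` solves `(∂+L) p = -α w p`   (`sc_deriv_comm` on each piece) -/
theorem scb_dyn_dP {F : ℝ → ℝ} (hF : ScBI F) {π : List (ℝ × ℝ)} (hπ : ScPos π) {s t : ℝ} (hs : 0 ≤ s) (_hst : s ≤ t)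
    (ht : t ≤ scLen π) {ψ : ℝ → ℝ} (hψ : ScBdI ψ) :
    ScDyn F π s t (fun r => deriv (scPt F π r t ψ))
      (fun r y => -(scAl π r) * scD 2 F π r y * deriv (scPt F π r t ψ) y) := by
  have hsub : Icc s t ⊆ Icc 0 t := Icc_subset_Icc_left hs
  have hsub' : Icc s t ⊆ Icc 0 (scLen π) := Icc_subset_Icc hs ht
  have hP : ∀ n, ScT (Icc s t) n (fun r => scPt F π r t ψ) := fun n => (sc_Pt_T hF (hψ.scE n) hπ t).subset hsub
  have hp : ∀ n, ScT (Icc s t) n (fun r => deriv (scPt F π r t ψ)) := fun n => (hP (n + 1)).2.2.2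
  have hpp : ∀ n, ScT (Icc s t) n (fun r => deriv (deriv (scPt F π r t ψ))) := fun n => (hp (n + 1)).2.2.2
  have hD : ∀ k n, ScT (Icc s t) n (scD k F π) := fun k n => (sc_D_T hF hπ k n).subset hsub'
  refine ⟨hp 2, ?_, scGrid π, sc_grid_finite π, fun r hr hrg y => ?_⟩
  · have h1 : ScTP s t (fun r y => scD 2 F π r y * deriv (scPt F π r t ψ) y) := ScT.tp ((hD 2 0).mul (hp 0))
    refine ((h1.al_mul hπ).neg).congr fun r _ => ?_
    funext y
    ring
  · have hopen : IsOpen ((scGrid π)ᶜ ∩ Ioo s t) := (sc_grid_finite π).isClosed.isOpen_compl.inter isOpen_Ioo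
    obtain ⟨ε, hε, hball⟩ := Metric.isOpen_iff.1 hopen r ⟨hrg, hr⟩
    have hsubI : Icc (r - ε / 2) (r + ε / 2) ⊆ (scGrid π)ᶜ ∩ Ioo s t := by
      intro x hx
      refine hball ?_
      rw [Metric.mem_ball, Real.dist_eq, abs_lt]
      constructor <;> [linarith [hx.1]; linarith [hx.2]]
    have hsubJ : Icc (r - ε / 2) (r + ε / 2) ⊆ Icc s t := fun x hx => Ioo_subset_Icc_self (hsubI hx).2
    have hd : Disjoint (Ioo (r - ε / 2) (r + ε / 2)) (scGrid π) := by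
      rw [Set.disjoint_left]
      intro x hx hxS
      exact (hsubI (Ioo_subset_Icc_self hx)).1 hxS
    have hrI : r ∈ Ioo (r - ε / 2) (r + ε / 2) := ⟨by linarith, by linarith⟩
    set m := scAl π r with hm
    have hχ : ScT (Icc (r - ε / 2) (r + ε / 2)) 1 (fun ρ y => -(deriv (deriv (scPt F π ρ t ψ)) y / 2
        + m * scD 1 F π ρ y * deriv (scPt F π ρ t ψ) y)) := by
      have h1 := ((((hpp 1).const_mul (1 / 2)).add (((hD 1 1).mul (hp 1)).const_mul m)).neg).subset hsubJ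
      refine h1.congr fun ρ _ y => ?_
      ring
    have hcomm := sc_deriv_comm ((hP 1).subset hsubJ) hχ (fun ρ hρ y => by
      have hρ' := hsubI (Ioo_subset_Icc_self hρ)
      have h1 := sc_Pt_backward hF (hψ.scE 2) hπ (lt_of_le_of_lt hs hρ'.2.1) hρ'.2.2 ht hρ'.1 y
      rwa [sc_al_const π hd hρ hrI] at h1) hrI y
    refine hcomm.congr_deriv ?_
    have hE : ScE 3 (scPt F π r t ψ) := sc_Pt_E hF (hψ.scE 3) π r t
    have d1 : HasDerivAt (deriv (scPt F π r t ψ)) (deriv (deriv (scPt F π r t ψ)) y) y :=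
      (hE.deriv.differentiable y).hasDerivAt
    have d2 : HasDerivAt (deriv (deriv (scPt F π r t ψ))) (deriv (deriv (deriv (scPt F π r t ψ))) y) y :=
      (hE.deriv.deriv.differentiable y).hasDerivAt
    have d3 : HasDerivAt (scD 1 F π r) (scD 2 F π r y) y := sc_D_hasDerivAt hF 1 π r y
    have d4 := (((d2.div_const 2).add ((d3.const_mul m).mul d1)).neg).deriv
    refine Eq.trans ?_ (d4.trans ?_)
    · rfl
    · ring

/-- **gradient bound** `|∂_z P_{s,t} ψ| ≤ e^{a² (t-s)} sup |ψ'|`   (`scb_fk` with `κ = 2 a²`, `ρ = 0`) -/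
theorem scb_grad {a : ℝ} {F : ℝ → ℝ} (hF : ScCont a F) {π : List (ℝ × ℝ)} (hπ : ScAdm a π) {s t : ℝ} (hs : 0 ≤ s)
    (hst : s ≤ t) (ht : t ≤ scLen π) {ψ : ℝ → ℝ} (hψ : ScBdI ψ) {L : ℝ} (hL : ∀ z, |deriv ψ z| ≤ L) (z : ℝ) :
    |deriv (scPt F π s t ψ) z| ≤ Real.exp (a ^ 2 * (t - s)) * L := by
  have ha := hF.a_pos
  have hL0 : 0 ≤ L := (abs_nonneg _).trans (hL 0)
  have hfk := scb_fk hF.smooth hπ.pos hs hst ht (scb_dyn_dP hF.smooth hπ.pos hs hst ht hψ)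
    (κ := 2 * a ^ 2) (ρ := 0) (by positivity) le_rfl (fun r _ y => ?_) z
  · have hend : scPt F π s t (fun y => deriv (scPt F π t t ψ) y ^ 2) z ≤ L ^ 2 := by
      rw [sc_Pt_self]
      refine (le_abs_self _).trans (sc_Pt_abs_le hF.smooth ((hψ.deriv.scE 0).pow 2).continuous
        (fun y => ?_) π _ _ z)
      rw [abs_pow]
      exact pow_le_pow_left₀ (abs_nonneg _) (hL y) 2
    have h1 : deriv (scPt F π s t ψ) z ^ 2 ≤ (Real.exp (a ^ 2 * (t - s)) * L) ^ 2 := by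
      refine hfk.trans ?_
      rw [mul_pow, ← Real.exp_nat_mul]
      have e : ((2 : ℕ) : ℝ) * (a ^ 2 * (t - s)) = 2 * a ^ 2 * (t - s) := by push_cast; ring
      rw [e, zero_mul, add_zero]
      exact mul_le_mul_of_nonneg_left hend (Real.exp_pos _).le
    exact abs_le_of_sq_le_sq h1 (by positivity)
  · have hα := sc_Al_mem ha.le hπ r
    have hw0 := scb_w_pos hF hπ r y
    have hw1 := scb_w_le_a hF hπ r y
    have h1 : scAl π r * scD 2 F π r y ≤ a * a := mul_le_mul hα.2 hw1 hw0.le ha.le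
    have h2 := mul_le_mul_of_nonneg_right h1 (sq_nonneg (deriv (scPt F π r t ψ) y))
    nlinarith

end Claimed.Agent.R286
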