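import Claimed.Agent.R286.Sc.DynC
import Claimed.Agent.R286.Sc.Tau
import Claimed.Agent.R286.Sc.Dy
import Claimed.Agent.R286.Sc.LimKit

/-!
# Row 286, scalar block, layer S4.4-S4.5 (part B): the transition kernel of a GENERAL monotone profile

OWNER helper88 (types + proves).   Definitions: `Sc/GenDefs.lean` (`scDy`, `ScCoef`, `scVa`, `scaD`, `scPa`, `scaEx`), `Sc/Prof.lean`.
Part A (the continuation `scVa`, `scaD`) = `Sc/Gen.lean` (helper107).
TEX[FS:lem:diffusion] (law stability, Ito-free)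

1. STEP LEVEL, two admissible nondecreasing profiles of the same length, grids may differ, `scDst π π' s t = ∫_s^t |α - α'|`:
   `sgp_V_stab` (`|V - V'| ≤ A²/2 dist`), `sgp_u_stab` (Landau), `sgp_P_stab` (Duhamel + tau-free gradient bound).
2. LIMITS along `scDy` for bounded `C²` tests.
-/

set_option autoImplicit false

namespace Claimed.Agent.R286

open MeasureTheory ProbabilityTheory Filter Topology Set

/-- `L¹` distance of the masses of two profiles on `[s, t]` -/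
noncomputable def scDst (π π' : List (ℝ × ℝ)) (s t : ℝ) : ℝ := ∫ r in s..t, |scAl π r - scAl π' r|

theorem sgp_dst_int {a : ℝ} (ha : 0 ≤ a) {π π' : List (ℝ × ℝ)} (hπ : ScAdm a π) (hπ' : ScAdm a π') (s t : ℝ) :
    IntervalIntegrable (fun r => |scAl π r - scAl π' r|) volume s t :=
  ((sc_dy_al_intervalIntegrable ha hπ s t).sub (sc_dy_al_intervalIntegrable ha hπ' s t)).abs

theorem sgp_dst_comm (π π' : List (ℝ × ℝ)) (s t : ℝ) : scDst π π' s t = scDst π' π s t := by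
  unfold scDst
  congr 1
  funext r
  exact abs_sub_comm _ _

theorem sgp_dst_nonneg (π π' : List (ℝ × ℝ)) {s t : ℝ} (hst : s ≤ t) : 0 ≤ scDst π π' s t :=
  intervalIntegral.integral_nonneg hst fun _ _ => abs_nonneg _

theorem sgp_dst_mono {a : ℝ} (ha : 0 ≤ a) {π π' : List (ℝ × ℝ)} (hπ : ScAdm a π) (hπ' : ScAdm a π')
    {s t s' t' : ℝ} (h1 : s' ≤ s) (h2 : s ≤ t) (h3 : t ≤ t') : scDst π π' s t ≤ scDst π π' s' t' := by
  unfold scDst
  apply intervalIntegral.integral_mono_interval h1 h2 h3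
  · exact Filter.Eventually.of_forall fun _ => abs_nonneg _
  · exact sgp_dst_int ha hπ hπ' s' t'

/-! ## 1. step level stability -/

theorem sgp_D_tp {F : ℝ → ℝ} (hF : ScBI F) {π : List (ℝ × ℝ)} (h : ScPos π) (k : ℕ) {s t : ℝ} (hs : 0 ≤ s)
    (ht : t ≤ scLen π) : ScTP s t (scD k F π) :=
  ((sc_D_T hF h k 0).subset (Icc_subset_Icc hs ht)).tp

/-- one sided bound from the exact Duhamel identity -/
theorem sgp_V_lower {F : ℝ → ℝ} (hF : ScBI F) {A : ℝ} (hA : ∀ z, |deriv F z| ≤ A) {a : ℝ} (ha : 0 ≤ a)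
    {π π' : List (ℝ × ℝ)} (hπ : ScAdm a π) (hπ' : ScAdm a π') (hlen : scLen π' = scLen π) {s : ℝ} (hs : 0 ≤ s)
    (hs' : s ≤ scLen π) (z : ℝ) :
    -(A ^ 2 / 2 * scDst π π' s (scLen π)) ≤ scVt F π' s z - scVt F π s z := by
  have hD := sc_duhamel_V hF hF hπ.pos hπ'.pos hs hs' le_rfl hlen.ge z
  rw [sc_Vt_len F hπ.pos, sc_Vt_of_le F hπ'.pos hlen.le] at hD
  have h0 : (fun y => F y - F y) = fun _ => (0 : ℝ) := by funext y; ring
  rw [h0, sc_Pt_const hF, zero_add] at hD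
  rw [hD]
  set τ := scLen π with hτ
  -- regularity of the integrand
  have hu : ScTP s τ (scD 1 F π) := sgp_D_tp hF hπ.pos 1 hs le_rfl
  have hu' : ScTP s τ (scD 1 F π') := sgp_D_tp hF hπ'.pos 1 hs hlen.ge
  have hal : ScTP s τ (fun r _ => scAl π r) := sc_Al_tp hπ.pos s τ
  have hal' : ScTP s τ (fun r _ => scAl π' r) := sc_Al_tp hπ'.pos s τ
  have hG : ScTP s τ (fun r y => ((scAl π' r - scAl π r) * scD 1 F π' r y ^ 2
      + scAl π r * (scD 1 F π' r y - scD 1 F π r y) ^ 2) / 2) := by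
    refine ((((hal'.sub hal).mul (hu'.pow 2)).add (hal.mul ((hu'.sub hu).pow 2))).const_mul (1 / 2)).congr ?_
    intro r _
    funext y
    ring
  have hint := (sc_Pt_tp hF hπ.pos hs le_rfl hG).intervalIntegrable hs' z
  have hint2 : IntervalIntegrable (fun r => -(A ^ 2 / 2) * |scAl π r - scAl π' r|) volume s τ :=
    (sgp_dst_int ha hπ hπ' s τ).const_mul _
  have hmono := intervalIntegral.integral_mono_on hs' hint2 hint (fun r _ => by
    have hE : ScE 0 (fun y => ((scAl π' r - scAl π r) * scD 1 F π' r y ^ 2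
        + scAl π r * (scD 1 F π' r y - scD 1 F π r y) ^ 2) / 2) := by
      have h1 := ((((sc_D_E hF 1 0 π' r).pow 2).const_mul (scAl π' r - scAl π r)).add
        ((((sc_D_E hF 1 0 π' r).sub (sc_D_E hF 1 0 π r)).pow 2).const_mul (scAl π r))).const_mul (1 / 2)
      have h2 : (fun y => ((scAl π' r - scAl π r) * scD 1 F π' r y ^ 2
        + scAl π r * (scD 1 F π' r y - scD 1 F π r y) ^ 2) / 2) = fun y => 1 / 2 *
        ((scAl π' r - scAl π r) * scD 1 F π' r y ^ 2 + scAl π r * (scD 1 F π' r y - scD 1 F π r y) ^ 2) := by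
        funext y; ring
      rw [h2]; exact h1
    have hle := sc_Pt_mono hF (ScE.const 0 (-(A ^ 2 / 2) * |scAl π r - scAl π' r|)) hE (fun y => by
      have hu2 : scD 1 F π' r y ^ 2 ≤ A ^ 2 := by
        have := sc_D1_le hF hA π' r y
        calc scD 1 F π' r y ^ 2 = |scD 1 F π' r y| ^ 2 := (sq_abs _).symm
          _ ≤ A ^ 2 := pow_le_pow_left₀ (abs_nonneg _) this 2
      have hα : 0 ≤ scAl π r := (sc_Al_mem ha hπ r).1
      have h3 : -|scAl π r - scAl π' r| ≤ scAl π' r - scAl π r := by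
        have := neg_abs_le (scAl π' r - scAl π r)
        rwa [abs_sub_comm] at this
      have h4 : 0 ≤ scAl π r * (scD 1 F π' r y - scD 1 F π r y) ^ 2 := mul_nonneg hα (sq_nonneg _)
      have h5 : -|scAl π r - scAl π' r| * A ^ 2 ≤ (scAl π' r - scAl π r) * scD 1 F π' r y ^ 2 := by
        have h6 : -|scAl π r - scAl π' r| * A ^ 2 ≤ -|scAl π r - scAl π' r| * scD 1 F π' r y ^ 2 := by
          have := mul_le_mul_of_nonneg_left hu2 (abs_nonneg (scAl π r - scAl π' r))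
          linarith
        exact h6.trans (mul_le_mul_of_nonneg_right h3 (sq_nonneg _))
      linarith) π s r z
    rwa [sc_Pt_const hF] at hle)
  rw [intervalIntegral.integral_const_mul] at hmono
  unfold scDst
  linarith

/-- **S4.2** for two profiles of the same length (the grids may differ) -/
theorem sgp_V_stab {F : ℝ → ℝ} (hF : ScBI F) {A : ℝ} (hA : ∀ z, |deriv F z| ≤ A) {a : ℝ} (ha : 0 ≤ a)
    {π π' : List (ℝ × ℝ)} (hπ : ScAdm a π) (hπ' : ScAdm a π') (hlen : scLen π' = scLen π) {s : ℝ} (hs : 0 ≤ s)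
    (hs' : s ≤ scLen π) (z : ℝ) :
    |scVt F π' s z - scVt F π s z| ≤ A ^ 2 / 2 * scDst π π' s (scLen π) := by
  have h1 := sgp_V_lower hF hA ha hπ hπ' hlen hs hs' z
  have h2 := sgp_V_lower hF hA ha hπ' hπ hlen.symm hs (hlen ▸ hs') z
  rw [hlen, sgp_dst_comm] at h2
  rw [abs_le]
  constructor <;> linarith

/-- the tau-free bounds of `Sc/Tau.lean` as one function of the order -/
theorem sgp_bounds {F : ℝ → ℝ} (hF : ScBI F) {a : ℝ} (ha : 0 ≤ a) :
    ∃ C : ℕ → ℝ, (∀ k, 0 ≤ C k) ∧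
      ∀ π, ScAdm a π → ScInc π → ∀ k, 1 ≤ k → ∀ t z, |scD k F π t z| ≤ C k := by
  have h : ∀ k : ℕ, ∃ c : ℝ, 0 ≤ c ∧ ∀ π, ScAdm a π → ScInc π → ∀ t z, |scD (k + 1) F π t z| ≤ c := by
    intro k
    obtain ⟨A, hA⟩ := ((hF (k + 1)).deriv_bd).scN
    obtain ⟨c, hc, H⟩ := sc_tau_D ha k hA.nonneg
    exact ⟨c, hc, fun π h1 h2 t z => H F π hF hA h1 h2 k le_rfl t z⟩
  choose c hc H using h
  refine ⟨fun k => c (k - 1), fun k => hc _, fun π h1 h2 k hk t z => ?_⟩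
  obtain ⟨j, rfl⟩ : ∃ j, k = j + 1 := ⟨k - 1, by omega⟩
  simpa using H j π h1 h2 t z

/-- **stability of all the space derivatives** (Landau ladder `sckE` of `Sc/LimKit.lean`) -/
theorem sgp_D_stab {F : ℝ → ℝ} (hF : ScBI F) {A : ℝ} (hA : ∀ z, |deriv F z| ≤ A) {a : ℝ} (ha : 0 ≤ a)
    {C : ℕ → ℝ} (hC : ∀ π, ScAdm a π → ScInc π → ∀ k, 1 ≤ k → ∀ t z, |scD k F π t z| ≤ C k)
    {π π' : List (ℝ × ℝ)} (hπ : ScAdm a π) (hπ' : ScAdm a π') (hi : ScInc π) (hi' : ScInc π')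
    (hlen : scLen π' = scLen π) {s : ℝ} (hs : 0 ≤ s) (hs' : s ≤ scLen π) (k : ℕ) (z : ℝ) :
    |scD k F π' s z - scD k F π s z| ≤ sckE C (A ^ 2 / 2 * scDst π π' 0 (scLen π)) k := by
  apply sck_tower_diff (F := fun k => scD k F π' s) (G := fun k => scD k F π s) (C := C)
    (fun k x => sc_D_hasDerivAt hF k π' s x) (fun k x => sc_D_hasDerivAt hF k π s x)
    (fun k x hk => hC π' hπ' hi' k (by omega) s x) (fun k x hk => hC π hπ hi k (by omega) s x)
  intro x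
  refine (sgp_V_stab hF hA ha hπ hπ' hlen hs hs' x).trans ?_
  exact mul_le_mul_of_nonneg_left (sgp_dst_mono ha hπ hπ' hs hs' le_rfl) (by positivity)

/-- **S4.4, law stability** for bounded `C²` tests: exact Duhamel identity + tau-free gradient bound -/
theorem sgp_P_stab {F : ℝ → ℝ} (hF : ScBI F) {A : ℝ} (hA : ∀ z, |deriv F z| ≤ A) {a : ℝ} (ha : 0 ≤ a)
    {C : ℕ → ℝ} (hC : ∀ π, ScAdm a π → ScInc π → ∀ k, 1 ≤ k → ∀ t z, |scD k F π t z| ≤ C k) :
    ∃ K : ℝ, 1 ≤ K ∧ ∀ (π π' : List (ℝ × ℝ)), ScAdm a π → ScAdm a π' → ScInc π → ScInc π' →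
      scLen π' = scLen π → ∀ (ψ : ℝ → ℝ) (M : ℝ), ScN 2 M ψ → ∀ s t, 0 ≤ s → s ≤ t → t ≤ scLen π → ∀ z,
      |scPt F π s t ψ z - scPt F π' s t ψ z| ≤
        K * M * (A * scDst π π' s t + a * sckE C (A ^ 2 / 2 * scDst π π' 0 (scLen π)) 1 * (t - s)) := by
  obtain ⟨A1, hA1⟩ := ((hF 2).deriv_bd).scN
  obtain ⟨K, hK, H⟩ := sc_tau_Pt ha 1 hA1.nonneg
  refine ⟨K, hK, fun π π' hπ hπ' hi hi' hlen ψ M hψ s t hs hst ht z => ?_⟩
  have hM : 0 ≤ M := hψ.nonneg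
  have hA0 : 0 ≤ A := (abs_nonneg _).trans (hA 0)
  rw [sc_duhamel_P hF hF hψ.scE hπ.pos hπ'.pos hs hst ht (hlen ▸ ht) z]
  set ε1 := sckE C (A ^ 2 / 2 * scDst π π' 0 (scLen π)) 1 with hε1
  have hbound : IntervalIntegrable (fun r => K * M * (A * |scAl π r - scAl π' r| + a * ε1)) volume s t :=
    (((sgp_dst_int ha hπ hπ' s t).const_mul A).add intervalIntegrable_const).const_mul _
  have hle := intervalIntegral.norm_integral_le_of_norm_le hst (f := fun r => scPt F π s r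
      (fun y => (scAl π r * scD 1 F π r y - scAl π' r * scD 1 F π' r y) * deriv (scPt F π' r t ψ) y) z)
      (g := fun r => K * M * (A * |scAl π r - scAl π' r| + a * ε1))
      (Filter.Eventually.of_forall fun r hr => by
    have hr0 : 0 ≤ r := hs.trans hr.1.le
    have hrl : r ≤ scLen π := hr.2.trans ht
    have hN : ScN 1 (K * M) (scPt F π' r t ψ) := H F π' ψ M hF hA1 hπ' hi' hψ.of_succ r t
    have hcont : Continuous (fun y => (scAl π r * scD 1 F π r y - scAl π' r * scD 1 F π' r y)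
        * deriv (scPt F π' r t ψ) y) :=
      (((sc_D_E hF 1 0 π r).continuous.const_smul (scAl π r)).sub
        ((sc_D_E hF 1 0 π' r).continuous.const_smul (scAl π' r))).mul hN.der.continuous
    rw [Real.norm_eq_abs]
    apply sc_Pt_abs_le hF hcont
    intro y
    have h1 : |deriv (scPt F π' r t ψ) y| ≤ K * M := hN.der.bd y
    have h2 : |scD 1 F π r y| ≤ A := sc_D1_le hF hA π r y
    have h3 : |scD 1 F π' r y - scD 1 F π r y| ≤ ε1 := sgp_D_stab hF hA ha hC hπ hπ' hi hi' hlen hr0 hrl 1 y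
    have h4 := sc_Al_mem ha hπ' r
    have h5 : |scAl π r * scD 1 F π r y - scAl π' r * scD 1 F π' r y|
        ≤ A * |scAl π r - scAl π' r| + a * ε1 := by
      have e : scAl π r * scD 1 F π r y - scAl π' r * scD 1 F π' r y
          = (scAl π r - scAl π' r) * scD 1 F π r y - scAl π' r * (scD 1 F π' r y - scD 1 F π r y) := by ring
      rw [e]
      refine (abs_sub _ _).trans ?_
      rw [abs_mul, abs_mul, abs_of_nonneg h4.1]
      have i1 : |scAl π r - scAl π' r| * |scD 1 F π r y| ≤ |scAl π r - scAl π' r| * A :=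
        mul_le_mul_of_nonneg_left h2 (abs_nonneg _)
      have i2 : scAl π' r * |scD 1 F π' r y - scD 1 F π r y| ≤ a * ε1 :=
        mul_le_mul h4.2 h3 (abs_nonneg _) ha
      linarith
    rw [abs_mul]
    calc |scAl π r * scD 1 F π r y - scAl π' r * scD 1 F π' r y| * |deriv (scPt F π' r t ψ) y|
        ≤ (A * |scAl π r - scAl π' r| + a * ε1) * (K * M) :=
          mul_le_mul h5 h1 (abs_nonneg _) ((abs_nonneg _).trans h5)
      _ = K * M * (A * |scAl π r - scAl π' r| + a * ε1) := by ring) hbound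
  rw [Real.norm_eq_abs] at hle
  refine hle.trans (le_of_eq ?_)
  rw [intervalIntegral.integral_const_mul, intervalIntegral.integral_add
    ((sgp_dst_int ha hπ hπ' s t).const_mul A) intervalIntegrable_const,
    intervalIntegral.integral_const_mul, intervalIntegral.integral_const]
  unfold scDst
  simp only [smul_eq_mul]
  ring

/-! ## 2. approximation of a general profile; limits for bounded `C²` tests -/

/-- admissible approximant: masses in `[0, a]`, nondecreasing, total length `τ` -/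
structure SgpApx (a τ : ℝ) (π : List (ℝ × ℝ)) : Prop where
  adm : ScAdm a π
  inc : ScInc π
  len : scLen π = τ

/-- `L¹` distance of a step profile to a coefficient on `[0, τ]` -/
noncomputable def scDa (π : List (ℝ × ℝ)) (α : ℝ → ℝ) (τ : ℝ) : ℝ := ∫ r in (0 : ℝ)..τ, |α r - scAl π r|

theorem sc_dy_apx {a τ : ℝ} {α : ℝ → ℝ} (hτ : 0 ≤ τ) (hα : ScCoef a τ α) (n : ℕ) : SgpApx a τ (scDy α τ n) :=
  ⟨sc_dy_adm hτ hα n, sc_dy_inc hτ hα n, sc_dy_len α τ n⟩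

theorem ScCoef.a_nonneg {a τ : ℝ} {α : ℝ → ℝ} (hτ : 0 ≤ τ) (hα : ScCoef a τ α) : 0 ≤ a :=
  (hα.2 0 ⟨le_rfl, hτ⟩).1.trans (hα.2 0 ⟨le_rfl, hτ⟩).2

theorem sgp_da_int {a τ : ℝ} {α : ℝ → ℝ} (hτ : 0 ≤ τ) (hα : ScCoef a τ α) {π : List (ℝ × ℝ)} (hπ : ScAdm a π) :
    IntervalIntegrable (fun r => |α r - scAl π r|) volume 0 τ :=
  ((sc_dy_coef_intervalIntegrable hα ⟨le_rfl, hτ⟩ ⟨hτ, le_rfl⟩).sub
    (sc_dy_al_intervalIntegrable (hα.a_nonneg hτ) hπ 0 τ)).abs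

theorem sgp_da_nonneg (π : List (ℝ × ℝ)) (α : ℝ → ℝ) {τ : ℝ} (hτ : 0 ≤ τ) : 0 ≤ scDa π α τ :=
  intervalIntegral.integral_nonneg hτ fun _ _ => abs_nonneg _

theorem sgp_da_dy {a τ : ℝ} {α : ℝ → ℝ} (hτ : 0 ≤ τ) (hα : ScCoef a τ α) (n : ℕ) :
    scDa (scDy α τ n) α τ ≤ a * τ / 2 ^ n := sc_dy_L1 hτ hα n

theorem sgp_da_dy_tendsto {a τ : ℝ} {α : ℝ → ℝ} (hτ : 0 ≤ τ) (hα : ScCoef a τ α) :
    Tendsto (fun n => scDa (scDy α τ n) α τ) atTop (𝓝 0) := by
  have h1 : Tendsto (fun n : ℕ => a * τ / 2 ^ n) atTop (𝓝 0) := by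
    have := (tendsto_pow_atTop_nhds_zero_of_lt_one (r := (1 / 2 : ℝ)) (by norm_num) (by norm_num)).const_mul (a * τ)
    simp only [mul_zero] at this
    refine this.congr fun n => ?_
    rw [one_div, inv_pow, div_eq_mul_inv]
  exact squeeze_zero (fun n => sgp_da_nonneg _ _ hτ) (fun n => sgp_da_dy hτ hα n) h1

theorem sgp_dst_le_da {a τ : ℝ} {α : ℝ → ℝ} (hτ : 0 ≤ τ) (hα : ScCoef a τ α) {π π' : List (ℝ × ℝ)}
    (hπ : ScAdm a π) (hπ' : ScAdm a π') : scDst π π' 0 τ ≤ scDa π α τ + scDa π' α τ := by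
  unfold scDst scDa
  rw [← intervalIntegral.integral_add (sgp_da_int hτ hα hπ) (sgp_da_int hτ hα hπ')]
  apply intervalIntegral.integral_mono_on hτ (sgp_dst_int (hα.a_nonneg hτ) hπ hπ' 0 τ)
    ((sgp_da_int hτ hα hπ).add (sgp_da_int hτ hα hπ'))
  intro r _
  have : scAl π r - scAl π' r = -(α r - scAl π r) + (α r - scAl π' r) := by ring
  rw [this]
  refine (abs_add_le _ _).trans ?_
  rw [abs_neg]

/-- distance of an approximant of `α` to another coefficient -/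
theorem sgp_da_triangle {a τ : ℝ} {α α' : ℝ → ℝ} (hτ : 0 ≤ τ) (hα : ScCoef a τ α) (hα' : ScCoef a τ α')
    {π : List (ℝ × ℝ)} (hπ : ScAdm a π) : scDa π α' τ ≤ scDa π α τ + ∫ r in (0 : ℝ)..τ, |α' r - α r| := by
  have hi : IntervalIntegrable (fun r => |α' r - α r|) volume 0 τ :=
    ((sc_dy_coef_intervalIntegrable hα' ⟨le_rfl, hτ⟩ ⟨hτ, le_rfl⟩).sub
      (sc_dy_coef_intervalIntegrable hα ⟨le_rfl, hτ⟩ ⟨hτ, le_rfl⟩)).abs
  unfold scDa
  rw [← intervalIntegral.integral_add (sgp_da_int hτ hα hπ) hi]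
  apply intervalIntegral.integral_mono_on hτ (sgp_da_int hτ hα' hπ) ((sgp_da_int hτ hα hπ).add hi)
  intro r _
  have : α' r - scAl π r = (α r - scAl π r) + (α' r - α r) := by ring
  rw [this]
  exact abs_add_le _ _

theorem sgp_sckE_one_nonneg (C : ℕ → ℝ) (x : ℝ) : 0 ≤ sckE C x 1 := by
  simp only [sckE]; positivity

/-- uniform modulus of continuity of the kernels in the `L¹` distance of the profiles -/
theorem sgp_P_mod {F : ℝ → ℝ} (hF : ScBI F) {a τ : ℝ} (ha : 0 ≤ a) (hτ : 0 ≤ τ) (M : ℝ) {ε : ℝ} (hε : 0 < ε) :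
    ∃ δ > 0, ∀ π π', SgpApx a τ π → SgpApx a τ π' → scDst π π' 0 τ ≤ δ → ∀ ψ, ScN 2 M ψ →
      ∀ s t, 0 ≤ s → s ≤ t → t ≤ τ → ∀ z, |scPt F π s t ψ z - scPt F π' s t ψ z| ≤ ε := by
  obtain ⟨A, hA⟩ := (hF 1).2.1
  have hA0 : 0 ≤ A := (abs_nonneg _).trans (hA 0)
  obtain ⟨C, -, hC⟩ := sgp_bounds hF ha
  obtain ⟨K, hK, H⟩ := sgp_P_stab hF hA ha hC
  have hK0 : 0 < K := lt_of_lt_of_le one_pos hK
  set ε1 : ℝ := ε / (2 * K * (|M| + 1)) with hε1
  have hε1p : 0 < ε1 := by positivity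
  obtain ⟨η, hη, Hη⟩ := sckE_small C 1 (δ := ε1 / (a * τ + 1)) (by positivity)
  refine ⟨min (ε1 / (A + 1)) (η / (A ^ 2 / 2 + 1)), by positivity, ?_⟩
  intro π π' hπ hπ' hd ψ hψ s t hs hst ht z
  have hM : 0 ≤ M := hψ.nonneg
  have hlen : scLen π' = scLen π := by rw [hπ.len, hπ'.len]
  have hb := H π π' hπ.adm hπ'.adm hπ.inc hπ'.inc hlen ψ M hψ s t hs hst (hπ.len ▸ ht) z
  rw [hπ.len] at hb
  set d := scDst π π' 0 τ with hdd
  have hd0 : 0 ≤ d := sgp_dst_nonneg π π' hτ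
  have h1 : scDst π π' s t ≤ d := sgp_dst_mono ha hπ.adm hπ'.adm hs hst ht
  have h2 : A * scDst π π' s t ≤ ε1 := by
    have h3 : d ≤ ε1 / (A + 1) := hd.trans (min_le_left _ _)
    rw [le_div_iff₀ (by positivity)] at h3
    have h4 : A * scDst π π' s t ≤ A * d := mul_le_mul_of_nonneg_left h1 hA0
    nlinarith
  have h5 : sckE C (A ^ 2 / 2 * d) 1 ≤ ε1 / (a * τ + 1) := by
    apply Hη
    have h3 : d ≤ η / (A ^ 2 / 2 + 1) := hd.trans (min_le_right _ _)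
    rw [le_div_iff₀ (by positivity)] at h3
    rw [abs_of_nonneg (by positivity)]
    nlinarith
  have h6 : a * sckE C (A ^ 2 / 2 * d) 1 * (t - s) ≤ ε1 := by
    have h7 : 0 ≤ sckE C (A ^ 2 / 2 * d) 1 := sgp_sckE_one_nonneg _ _
    have h8 : t - s ≤ τ := by linarith
    have h9 : a * sckE C (A ^ 2 / 2 * d) 1 * (t - s) ≤ a * sckE C (A ^ 2 / 2 * d) 1 * τ :=
      mul_le_mul_of_nonneg_left h8 (mul_nonneg ha h7)
    have h10 : a * sckE C (A ^ 2 / 2 * d) 1 * τ = (a * τ) * sckE C (A ^ 2 / 2 * d) 1 := by ring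
    have h11 : (a * τ) * sckE C (A ^ 2 / 2 * d) 1 ≤ (a * τ) * (ε1 / (a * τ + 1)) :=
      mul_le_mul_of_nonneg_left h5 (mul_nonneg ha hτ)
    have h12 : (a * τ) * (ε1 / (a * τ + 1)) ≤ ε1 := by
      rw [mul_div_assoc', div_le_iff₀ (by positivity)]
      nlinarith [mul_nonneg ha hτ]
    linarith
  refine hb.trans ?_
  calc K * M * (A * scDst π π' s t + a * sckE C (A ^ 2 / 2 * d) 1 * (t - s))
      ≤ K * M * (2 * ε1) := mul_le_mul_of_nonneg_left (by linarith) (mul_nonneg hK0.le hM)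
    _ ≤ K * (|M| + 1) * (2 * ε1) := by
        apply mul_le_mul_of_nonneg_right _ (by positivity)
        apply mul_le_mul_of_nonneg_left _ hK0.le
        rw [abs_of_nonneg hM]; linarith
    _ = ε := by rw [hε1]; field_simp

/-- the kernels of the dyadic approximants form a Cauchy sequence (bounded `C²` tests) -/
theorem sgp_P_cauchy {F : ℝ → ℝ} (hF : ScBI F) {a τ : ℝ} {α : ℝ → ℝ} (hτ : 0 ≤ τ) (hα : ScCoef a τ α)
    {ψ : ℝ → ℝ} {M : ℝ} (hψ : ScN 2 M ψ) {s t : ℝ} (hs : 0 ≤ s) (hst : s ≤ t) (ht : t ≤ τ) (z : ℝ) :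
    CauchySeq (fun n => scPt F (scDy α τ n) s t ψ z) := by
  have ha := hα.a_nonneg hτ
  rw [Metric.cauchySeq_iff]
  intro ε hε
  obtain ⟨δ, hδ, H⟩ := sgp_P_mod hF ha hτ M (half_pos hε)
  have hev := (sgp_da_dy_tendsto hτ hα).eventually (gt_mem_nhds (half_pos hδ))
  obtain ⟨N, hN⟩ := eventually_atTop.mp hev
  refine ⟨N, fun m hm n hn => ?_⟩
  rw [Real.dist_eq]
  have hd : scDst (scDy α τ m) (scDy α τ n) 0 τ ≤ δ := by
    have := sgp_dst_le_da hτ hα (sc_dy_adm hτ hα m) (sc_dy_adm hτ hα n)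
    have h1 := hN m hm
    have h2 := hN n hn
    linarith
  have := H _ _ (sc_dy_apx hτ hα m) (sc_dy_apx hτ hα n) hd ψ hψ s t hs hst ht z
  linarith

/-- **the limit `scPa` exists** (bounded `C²` tests) -/
theorem sgp_P_tendsto_bd {F : ℝ → ℝ} (hF : ScBI F) {a τ : ℝ} {α : ℝ → ℝ} (hτ : 0 ≤ τ) (hα : ScCoef a τ α)
    {ψ : ℝ → ℝ} {M : ℝ} (hψ : ScN 2 M ψ) {s t : ℝ} (hs : 0 ≤ s) (hst : s ≤ t) (ht : t ≤ τ) (z : ℝ) :
    Tendsto (fun n => scPt F (scDy α τ n) s t ψ z) atTop (𝓝 (scPa F α τ s t ψ z)) := by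
  obtain ⟨l, hl⟩ := cauchySeq_tendsto_of_complete (sgp_P_cauchy hF hτ hα hψ hs hst ht z)
  have : scPa F α τ s t ψ z = l := hl.limUnder_eq
  rw [this]
  exact hl

/-- **master estimate** (bounded `C²` tests): every admissible step profile which is `L¹`-close to `α` has a kernel
close to `scPa`, uniformly in `α`, in the test function (`ScN 2 M`), in the times and in the starting point -/
theorem sgp_P_close_bd {F : ℝ → ℝ} (hF : ScBI F) {a τ : ℝ} (ha : 0 ≤ a) (hτ : 0 ≤ τ) (M : ℝ) {ε : ℝ} (hε : 0 < ε) :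
    ∃ δ > 0, ∀ α, ScCoef a τ α → ∀ π, SgpApx a τ π → scDa π α τ ≤ δ → ∀ ψ, ScN 2 M ψ →
      ∀ s t, 0 ≤ s → s ≤ t → t ≤ τ → ∀ z, |scPt F π s t ψ z - scPa F α τ s t ψ z| ≤ ε := by
  obtain ⟨δ, hδ, H⟩ := sgp_P_mod hF ha hτ M hε
  refine ⟨δ / 2, half_pos hδ, fun α hα π hπ hd ψ hψ s t hs hst ht z => ?_⟩
  have hlim := sgp_P_tendsto_bd hF hτ hα hψ hs hst ht z
  have hlim2 : Tendsto (fun n => |scPt F π s t ψ z - scPt F (scDy α τ n) s t ψ z|) atTop
      (𝓝 |scPt F π s t ψ z - scPa F α τ s t ψ z|) := (tendsto_const_nhds.sub hlim).abs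
  refine le_of_tendsto hlim2 ?_
  filter_upwards [(sgp_da_dy_tendsto hτ hα).eventually (gt_mem_nhds (half_pos hδ))] with n hn
  apply H _ _ hπ (sc_dy_apx hτ hα n) _ ψ hψ s t hs hst ht z
  have := sgp_dst_le_da hτ hα hπ.adm (sc_dy_adm hτ hα n)
  linarith

/-- any `L¹`-approximating sequence of admissible step profiles gives the same limit -/
theorem sgp_P_tendsto_of_apx_bd {F : ℝ → ℝ} (hF : ScBI F) {a τ : ℝ} {α : ℝ → ℝ} (hτ : 0 ≤ τ) (hα : ScCoef a τ α)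
    {π : ℕ → List (ℝ × ℝ)} (hπ : ∀ n, SgpApx a τ (π n)) (hd : Tendsto (fun n => scDa (π n) α τ) atTop (𝓝 0))
    {ψ : ℝ → ℝ} {M : ℝ} (hψ : ScN 2 M ψ) {s t : ℝ} (hs : 0 ≤ s) (hst : s ≤ t) (ht : t ≤ τ) (z : ℝ) :
    Tendsto (fun n => scPt F (π n) s t ψ z) atTop (𝓝 (scPa F α τ s t ψ z)) := by
  rw [Metric.tendsto_atTop]
  intro ε hε
  obtain ⟨δ, hδ, H⟩ := sgp_P_close_bd hF (hα.a_nonneg hτ) hτ M (half_pos hε)
  obtain ⟨N, hN⟩ := eventually_atTop.mp (hd.eventually (gt_mem_nhds hδ))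
  refine ⟨N, fun n hn => ?_⟩
  rw [Real.dist_eq]
  have := H α hα (π n) (hπ n) (hN n hn).le ψ hψ s t hs hst ht z
  linarith

/-- **`L¹`-continuity in the profile**, uniform (bounded `C²` tests) -/
theorem sgp_P_cont_bd {F : ℝ → ℝ} (hF : ScBI F) {a τ : ℝ} (ha : 0 ≤ a) (hτ : 0 ≤ τ) (M : ℝ) {ε : ℝ} (hε : 0 < ε) :
    ∃ δ > 0, ∀ α α', ScCoef a τ α → ScCoef a τ α' → (∫ r in (0 : ℝ)..τ, |α' r - α r|) ≤ δ → ∀ ψ, ScN 2 M ψ →
      ∀ s t, 0 ≤ s → s ≤ t → t ≤ τ → ∀ z, |scPa F α' τ s t ψ z - scPa F α τ s t ψ z| ≤ ε := by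
  obtain ⟨δ, hδ, H⟩ := sgp_P_close_bd hF ha hτ M (half_pos hε)
  refine ⟨δ / 2, half_pos hδ, fun α α' hα hα' hd ψ hψ s t hs hst ht z => ?_⟩
  obtain ⟨n, hn⟩ := ((sgp_da_dy_tendsto hτ hα).eventually (gt_mem_nhds (half_pos hδ))).exists
  have h1 := H α hα _ (sc_dy_apx hτ hα n) (by linarith) ψ hψ s t hs hst ht z
  have h2 := H α' hα' _ (sc_dy_apx hτ hα n)
    ((sgp_da_triangle hτ hα hα' (sc_dy_adm hτ hα n)).trans (by linarith)) ψ hψ s t hs hst ht z
  rw [abs_le] at h1 h2 ⊢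
  constructor <;> linarith [h1.1, h1.2, h2.1, h2.2]

end Claimed.Agent.R286
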