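import Claimed.Agent.R286.Sc.Mom
import Claimed.Agent.R286.Sc.Gen
import Claimed.Agent.R286.Sc.GenP
import Claimed.Agent.R286.Sc.Bound

/-!
# Row 286, scalar block, layer S5 (part 2): moment curves of polynomial observables, GENERAL monotone profiles          (helper48; contract v1 of helper197)

TEX[FS:lem:diffusion], TEX[PE:prof:scalar-derivatives] (identities + expansions at the origin of time).   Step level: `Sc/Mom.lean` (197, 81, 202).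
On `Sc/Gen.lean` (107: `scg_D_unif`, `scg_aN`, `ScApx`), `Sc/GenP.lean` (88: `sgp_P_close_bd`, `sgp_P_tendsto_bd`, `sgp_P_cont_bd`).
* sec. 0  KIT for jet polynomials (any jet `u`): `scmk_eval_bd`, `scmk_eval_lip`, `ScN.iter_der`, `scmk_N`, `scmk_hasDerivAt`.
* sec. 1  `scmObsA p F α τ r y = p(u, w, v₃, ..)(r, y)`, `scmMa p F α τ t = E p(..)(t, Z_t)`;  classes `scm_obs_N` (TAU-FREE constants), derivative `scm_obsA_deriv`.
* sec. 2  LIMITS along ANY `ScApx`: `scm_obs_tendsto`, `scm_M_tendsto` (uniform), `scm_Ma_lim`, `scm_Ma_cont`.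
* sec. 3  **`scm_moment_gen`** : `M_p(t) - M_p(s) = ∫_s^t (M_{Qp} + α M_{Rp})`;  `scm_Ma_zero`, `scm_Ma_bound` (tau-free), `scm_Ma_lip0`, linearity.
* sec. 4  named curves `scm_aGam_eq ..`, EXITS `scm_exit_Gam, _M2, _N3, _M3, _cont, _zero values`, expansions `scm_exit_N3_exp`, `scm_exit_M3_exp`, `scm_exit_M2_exp`.
-/

set_option autoImplicit false

namespace Claimed.Agent.R286

open MeasureTheory ProbabilityTheory Filter Topology Set

/-! ## 0. kit for jet polynomials -/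

section Kit

open MvPolynomial

/-- a polynomial is bounded on a box -/
theorem scmk_eval_bd (Cs : ℕ → ℝ) (p : MvPolynomial ℕ ℝ) :
    ∃ B : ℝ, 0 ≤ B ∧ ∀ v : ℕ → ℝ, (∀ k, |v k| ≤ Cs k) → |eval v p| ≤ B := by
  induction p using MvPolynomial.induction_on with
  | C c => exact ⟨|c|, abs_nonneg _, fun v _ => by simp⟩
  | add p q hp hq =>
    obtain ⟨B1, h1, H1⟩ := hp
    obtain ⟨B2, h2, H2⟩ := hq
    refine ⟨B1 + B2, by positivity, fun v hv => ?_⟩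
    rw [map_add]
    exact (abs_add_le _ _).trans (add_le_add (H1 v hv) (H2 v hv))
  | mul_X p k hp =>
    obtain ⟨B1, h1, H1⟩ := hp
    refine ⟨B1 * |Cs k|, by positivity, fun v hv => ?_⟩
    rw [map_mul, eval_X, abs_mul]
    exact mul_le_mul (H1 v hv) ((hv k).trans (le_abs_self _)) (abs_nonneg _) h1

/-- a polynomial is Lipschitz on a box; only finitely many coordinates matter -/
theorem scmk_eval_lip (Cs : ℕ → ℝ) (p : MvPolynomial ℕ ℝ) :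
    ∃ (K : ℕ) (L : ℝ), 0 ≤ L ∧ ∀ v v' : ℕ → ℝ, (∀ k, |v k| ≤ Cs k) → (∀ k, |v' k| ≤ Cs k) →
      ∀ δ : ℝ, (∀ k ≤ K, |v k - v' k| ≤ δ) → |eval v p - eval v' p| ≤ L * δ := by
  induction p using MvPolynomial.induction_on with
  | C c => exact ⟨0, 0, le_rfl, fun v v' _ _ δ _ => by simp⟩
  | add p q hp hq =>
    obtain ⟨K1, L1, h1, H1⟩ := hp
    obtain ⟨K2, L2, h2, H2⟩ := hq
    refine ⟨max K1 K2, L1 + L2, by positivity, fun v v' hv hv' δ hδ => ?_⟩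
    have a1 := H1 v v' hv hv' δ fun k hk => hδ k (hk.trans (le_max_left _ _))
    have a2 := H2 v v' hv hv' δ fun k hk => hδ k (hk.trans (le_max_right _ _))
    rw [map_add, map_add]
    have e : eval v p + eval v q - (eval v' p + eval v' q)
        = (eval v p - eval v' p) + (eval v q - eval v' q) := by ring
    rw [e]
    refine (abs_add_le _ _).trans ?_
    linarith
  | mul_X p k hp =>
    obtain ⟨K1, L1, h1, H1⟩ := hp
    obtain ⟨B, hB, HB⟩ := scmk_eval_bd Cs p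
    refine ⟨max K1 k, L1 * |Cs k| + B, by positivity, fun v v' hv hv' δ hδ => ?_⟩
    have a1 := H1 v v' hv hv' δ fun j hj => hδ j (hj.trans (le_max_left _ _))
    have a2 := hδ k (le_max_right _ _)
    have hδ0 : 0 ≤ δ := (abs_nonneg _).trans a2
    rw [map_mul, map_mul, eval_X, eval_X]
    have e : eval v p * v k - eval v' p * v' k
        = (eval v p - eval v' p) * v k + eval v' p * (v k - v' k) := by ring
    rw [e]
    refine (abs_add_le _ _).trans ?_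
    rw [abs_mul, abs_mul]
    have b1 : |eval v p - eval v' p| * |v k| ≤ L1 * δ * |Cs k| :=
      mul_le_mul a1 ((hv k).trans (le_abs_self _)) (abs_nonneg _) (by positivity)
    have b2 : |eval v' p| * |v k - v' k| ≤ B * δ := mul_le_mul (HB v' hv') a2 (abs_nonneg _) hB
    nlinarith

theorem ScN.iter_der {n : ℕ} {M : ℝ} (k : ℕ) : ∀ {φ : ℝ → ℝ}, ScN (n + k) M φ → ScN n M (deriv^[k] φ) := by
  induction k with
  | zero => intro φ h; exact h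
  | succ k ih =>
    intro φ h
    rw [Function.iterate_succ_apply]
    exact ih (ScN.der (n := n + k) h)

/-- the observable of a jet polynomial is of class `ScN n M`, with `M` depending only on the bounds of the jet -/
theorem scmk_N (Cs : ℕ → ℝ) (p : MvPolynomial ℕ ℝ) (n : ℕ) :
    ∃ M : ℝ, ∀ u : ℝ → ℝ, (∀ N, ScN N (Cs N) u) → ScN n M (fun y => eval (fun k => deriv^[k] u y) p) := by
  induction p using MvPolynomial.induction_on with
  | C c =>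
    refine ⟨|c|, fun u _ => ?_⟩
    simp only [eval_C]
    exact ScN.const n c
  | add p q hp hq =>
    obtain ⟨M1, H1⟩ := hp
    obtain ⟨M2, H2⟩ := hq
    refine ⟨M1 + M2, fun u hu => ?_⟩
    simp only [map_add]
    exact (H1 u hu).add (H2 u hu)
  | mul_X p k hp =>
    obtain ⟨M1, H1⟩ := hp
    refine ⟨2 ^ n * (M1 * Cs (n + k)), fun u hu => ?_⟩
    simp only [map_mul, eval_X]
    exact (H1 u hu).mul (ScN.iter_der k (hu (n + k)))

/-- the derivative of the observable of `p` is the observable of `D p`, `D X_k = X_{k+1}` -/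
theorem scmk_hasDerivAt {u : ℝ → ℝ} (hu : ∀ k, Differentiable ℝ (deriv^[k] u)) (p : MvPolynomial ℕ ℝ) (y : ℝ) :
    HasDerivAt (fun y => eval (fun k => deriv^[k] u y) p)
      (eval (fun k => deriv^[k] u y) (mkDerivation ℝ (fun k : ℕ => (X (k + 1) : MvPolynomial ℕ ℝ)) p)) y := by
  induction p using MvPolynomial.induction_on with
  | C c =>
    simp only [eval_C, derivation_C, map_zero]
    exact hasDerivAt_const y c
  | add p q hp hq =>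
    simp only [map_add]
    exact hp.add hq
  | mul_X p k hp =>
    simp only [map_mul, eval_X, Derivation.leibniz, mkDerivation_X, smul_eq_mul, map_add]
    have hk : HasDerivAt (deriv^[k] u) (deriv^[k + 1] u y) y := by
      rw [Function.iterate_succ_apply']
      exact (hu k y).hasDerivAt
    have h2 := hp.mul hk
    have e : eval (fun k => deriv^[k] u y) p * deriv^[k + 1] u y
        + deriv^[k] u y * eval (fun k => deriv^[k] u y) (mkDerivation ℝ (fun k : ℕ => (X (k + 1) : MvPolynomial ℕ ℝ)) p)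
        = eval (fun k => deriv^[k] u y) (mkDerivation ℝ (fun k : ℕ => (X (k + 1) : MvPolynomial ℕ ℝ)) p) * deriv^[k] u y
          + eval (fun k => deriv^[k] u y) p * deriv^[k + 1] u y := by ring
    rw [e]
    exact h2

theorem ScN.differentiable {n : ℕ} {M : ℝ} {φ : ℝ → ℝ} (h : ScN (n + 1) M φ) : Differentiable ℝ φ := h.2.1

/-- all the derivatives of a jet with `ScN` bounds of every order are differentiable -/
theorem scmk_diff {Cs : ℕ → ℝ} {u : ℝ → ℝ} (hu : ∀ N, ScN N (Cs N) u) (k : ℕ) : Differentiable ℝ (deriv^[k] u) :=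
  (ScN.iter_der (n := 1) k (hu (1 + k))).differentiable

end Kit

/-! ## 1. observables of a general profile -/

noncomputable def scmObsA (p : MvPolynomial ℕ ℝ) (F : ℝ → ℝ) (α : ℝ → ℝ) (τ r y : ℝ) : ℝ :=
  MvPolynomial.eval (fun k => scaD (k + 1) F α τ r y) p

noncomputable def scmMa (p : MvPolynomial ℕ ℝ) (F : ℝ → ℝ) (α : ℝ → ℝ) (τ t : ℝ) : ℝ :=
  scaEx F α τ t (scmObsA p F α τ t)

theorem scmg_eqns_cite : True := by
  have := @scmObsA.eq_1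
  have := @scmMa.eq_1
  trivial

theorem scm_D_iter (F : ℝ → ℝ) (π : List (ℝ × ℝ)) (r : ℝ) (k : ℕ) :
    scD (k + 1) F π r = deriv^[k] (scD 1 F π r) := by
  unfold scD
  rw [Function.iterate_succ_apply]
  rfl

theorem scm_aD_iter (F : ℝ → ℝ) (α : ℝ → ℝ) (τ r : ℝ) (k : ℕ) :
    scaD (k + 1) F α τ r = deriv^[k] (scaD 1 F α τ r) := by
  unfold scaD
  rw [Function.iterate_succ_apply]
  rfl

theorem scm_obs_jet (p : MvPolynomial ℕ ℝ) (F : ℝ → ℝ) (π : List (ℝ × ℝ)) (r : ℝ) :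
    scmObs p F π r = fun y => MvPolynomial.eval (fun k => deriv^[k] (scD 1 F π r) y) p := by
  funext y
  have e : (fun k => scD (k + 1) F π r y) = fun k => deriv^[k] (scD 1 F π r) y := by
    funext k
    rw [scm_D_iter]
  unfold scmObs
  rw [e]

theorem scm_obsA_jet (p : MvPolynomial ℕ ℝ) (F : ℝ → ℝ) (α : ℝ → ℝ) (τ r : ℝ) :
    scmObsA p F α τ r = fun y => MvPolynomial.eval (fun k => deriv^[k] (scaD 1 F α τ r) y) p := by
  funext y
  have e : (fun k => scaD (k + 1) F α τ r y) = fun k => deriv^[k] (scaD 1 F α τ r) y := by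
    funext k
    rw [scm_aD_iter]
  unfold scmObsA
  rw [e]

/-- ONE sequence of constants for all the jets (tau-free: `scg_aN`) -/
theorem scm_jets {a : ℝ} (ha : 0 ≤ a) {F : ℝ → ℝ} (hF : ScBI F) :
    ∃ Cs : ℕ → ℝ, (∀ π, ScAdm a π → ScInc π → ∀ t N, ScN N (Cs N) (scD 1 F π t)) ∧
      ∀ τ α, 0 ≤ τ → ScCoef a τ α → ∀ t, 0 ≤ t → ∀ N, ScN N (Cs N) (scaD 1 F α τ t) := by
  choose C _ h1 h2 using scg_aN ha hF
  exact ⟨C, fun π hπ hi t N => h1 N π hπ hi t, fun τ α hτ hα t ht N => h2 N τ α hτ hα t ht⟩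

/-- the observables are of class `ScN n M`, `M = M(a, F, p, n)`: neither the profile nor the horizon nor the time matter -/
theorem scm_obs_N {a : ℝ} (ha : 0 ≤ a) {F : ℝ → ℝ} (hF : ScBI F) (p : MvPolynomial ℕ ℝ) (n : ℕ) :
    ∃ M : ℝ, (∀ π, ScAdm a π → ScInc π → ∀ t, ScN n M (scmObs p F π t)) ∧
      ∀ τ α, 0 ≤ τ → ScCoef a τ α → ∀ t, 0 ≤ t → ScN n M (scmObsA p F α τ t) := by
  obtain ⟨Cs, h1, h2⟩ := scm_jets ha hF
  obtain ⟨M, hM⟩ := scmk_N Cs p n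
  refine ⟨M, fun π hπ hi t => ?_, fun τ α hτ hα t ht => ?_⟩
  · rw [scm_obs_jet]
    exact hM _ (h1 π hπ hi t)
  · rw [scm_obsA_jet]
    exact hM _ (h2 τ α hτ hα t ht)

theorem scm_obsA_BdI {a τ : ℝ} {F : ℝ → ℝ} (hF : ScBI F) {α : ℝ → ℝ} (hα : ScCoef a τ α) (hτ : 0 ≤ τ)
    (p : MvPolynomial ℕ ℝ) {r : ℝ} (hr : 0 ≤ r) : ScBdI (scmObsA p F α τ r) := by
  intro n
  obtain ⟨M, -, h2⟩ := scm_obs_N (hα.nonneg hτ) hF p n
  exact (h2 τ α hτ hα r hr).scBd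

theorem scm_obsA_hasDerivAt {a τ : ℝ} {F : ℝ → ℝ} (hF : ScBI F) {α : ℝ → ℝ} (hα : ScCoef a τ α) (hτ : 0 ≤ τ)
    (p : MvPolynomial ℕ ℝ) {r : ℝ} (hr : 0 ≤ r) (y : ℝ) :
    HasDerivAt (scmObsA p F α τ r) (scmObsA (scmD p) F α τ r y) y := by
  obtain ⟨Cs, -, h2⟩ := scm_jets (hα.nonneg hτ) hF
  have h := scmk_hasDerivAt (scmk_diff (h2 τ α hτ hα r hr)) p y
  rw [scm_obsA_jet p, scm_obsA_jet (scmD p)]
  exact h

theorem scm_obsA_deriv {a τ : ℝ} {F : ℝ → ℝ} (hF : ScBI F) {α : ℝ → ℝ} (hα : ScCoef a τ α) (hτ : 0 ≤ τ)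
    (p : MvPolynomial ℕ ℝ) {r : ℝ} (hr : 0 ≤ r) : deriv (scmObsA p F α τ r) = scmObsA (scmD p) F α τ r :=
  funext fun y => (scm_obsA_hasDerivAt hF hα hτ p hr y).deriv

/-! ## 2. limits along approximating step profiles -/

/-- uniform convergence of the observables along ANY approximating sequence -/
theorem scm_obs_tendsto {a a' τ : ℝ} {F : ℝ → ℝ} (hF : ScBI F) {α : ℝ → ℝ} (hα : ScCoef a τ α) (hτ : 0 ≤ τ)
    (p : MvPolynomial ℕ ℝ) {π : ℕ → List (ℝ × ℝ)} (hπ : ScApx a' τ α π) {ε : ℝ} (hε : 0 < ε) :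
    ∃ N, ∀ n ≥ N, ∀ r, 0 ≤ r → ∀ y, |scmObs p F (π n) r y - scmObsA p F α τ r y| ≤ ε := by
  have hA : 0 ≤ max a a' := (hα.nonneg hτ).trans (le_max_left _ _)
  have hαA : ScCoef (max a a') τ α := hα.weaken (le_max_left _ _)
  have hπA : ScApx (max a a') τ α π := hπ.weaken (le_max_right _ _)
  obtain ⟨Cs, h1, h2⟩ := scm_jets hA hF
  obtain ⟨K, L, hL, H⟩ := scmk_eval_lip Cs p
  have hδ : 0 < ε / (L + 1) := by positivity
  have hev : ∀ᶠ n in atTop, ∀ k ∈ Finset.range (K + 1), ∀ r, 0 ≤ r → ∀ y,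
      |scD (k + 1) F (π n) r y - scaD (k + 1) F α τ r y| ≤ ε / (L + 1) := by
    rw [Filter.eventually_all_finset]
    intro k _
    obtain ⟨N, hN⟩ := scg_D_unif hF hτ hα hπ (k + 1) hδ
    exact eventually_atTop.2 ⟨N, hN⟩
  obtain ⟨N, hN⟩ := eventually_atTop.1 hev
  refine ⟨N, fun n hn r hr y => ?_⟩
  have b1 : ∀ k, |scD (k + 1) F (π n) r y| ≤ Cs k := fun k => by
    rw [scm_D_iter]
    exact (h1 _ (hπA.adm n) (hπA.inc n) r k).iter le_rfl y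
  have b2 : ∀ k, |scaD (k + 1) F α τ r y| ≤ Cs k := fun k => by
    rw [scm_aD_iter]
    exact (h2 τ α hτ hαA r hr k).iter le_rfl y
  have h3 := H _ _ b1 b2 (ε / (L + 1)) (fun k hk => hN n hn k (Finset.mem_range.2 (by omega)) r hr y)
  have h4 : L * (ε / (L + 1)) ≤ ε := by
    rw [← mul_div_assoc, div_le_iff₀ (by positivity)]
    nlinarith
  unfold scmObs scmObsA
  exact h3.trans h4

/-- the kernels are contractions for the sup norm -/
theorem scm_Pt_close {F : ℝ → ℝ} (hF : ScBI F) {φ ψ : ℝ → ℝ} (hφ : ScE 0 φ) (hψ : ScE 0 ψ) {ε : ℝ}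
    (h : ∀ z, |φ z - ψ z| ≤ ε) (π : List (ℝ × ℝ)) (s t z : ℝ) :
    |scPt F π s t φ z - scPt F π s t ψ z| ≤ ε := by
  have e := congrFun (sc_Pt_sub hF hφ hψ π s t) z
  rw [← e]
  exact sc_Pt_abs_le hF (hφ.continuous.sub hψ.continuous) h π s t z

theorem scm_da_eq (π : List (ℝ × ℝ)) (α : ℝ → ℝ) (τ : ℝ) :
    scDa π α τ = ∫ r in (0 : ℝ)..τ, |scAl π r - α r| := by
  unfold scDa
  exact intervalIntegral.integral_congr fun r _ => abs_sub_comm _ _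

/-- uniform convergence of the moment curves along ANY approximating sequence -/
theorem scm_M_tendsto {a a' τ : ℝ} {F : ℝ → ℝ} (hF : ScBI F) {α : ℝ → ℝ} (hα : ScCoef a τ α) (hτ : 0 ≤ τ)
    (p : MvPolynomial ℕ ℝ) {π : ℕ → List (ℝ × ℝ)} (hπ : ScApx a' τ α π) {ε : ℝ} (hε : 0 < ε) :
    ∃ N, ∀ n ≥ N, ∀ t ∈ Icc 0 τ, |scmM p F (π n) t - scmMa p F α τ t| ≤ ε := by
  have hA : 0 ≤ max a a' := (hα.nonneg hτ).trans (le_max_left _ _)
  have hαA : ScCoef (max a a') τ α := hα.weaken (le_max_left _ _)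
  have hπA : ScApx (max a a') τ α π := hπ.weaken (le_max_right _ _)
  obtain ⟨M, m1, m2⟩ := scm_obs_N hA hF p 2
  obtain ⟨N1, hN1⟩ := scm_obs_tendsto hF hα hτ p hπ (half_pos hε)
  obtain ⟨δ, hδ, H⟩ := sgp_P_close_bd hF hA hτ M (half_pos hε)
  have hl1 : ∀ᶠ n in atTop, scDa (π n) α τ ≤ δ := by
    filter_upwards [hπ.l1.eventually (gt_mem_nhds hδ)] with n hn
    rw [scm_da_eq]
    exact hn.le
  obtain ⟨N2, hN2⟩ := eventually_atTop.1 hl1
  refine ⟨max N1 N2, fun n hn t ht => ?_⟩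
  have hn1 : N1 ≤ n := (le_max_left _ _).trans hn
  have hn2 : N2 ≤ n := (le_max_right _ _).trans hn
  have e1 : ScE 0 (scmObs p F (π n) t) := (ScN.mono (Nat.zero_le 2) (m1 _ (hπA.adm n) (hπA.inc n) t)).scE
  have e2 : ScE 0 (scmObsA p F α τ t) := (ScN.mono (Nat.zero_le 2) (m2 τ α hτ hαA t ht.1)).scE
  have c1 := scm_Pt_close hF e1 e2 (hN1 n hn1 t ht.1) (π n) 0 t 0
  have c2 := H α hαA (π n) ⟨hπA.adm n, hπA.inc n, hπA.len n⟩ (hN2 n hn2) _ (m2 τ α hτ hαA t ht.1) 0 t le_rfl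
    ht.1 ht.2 0
  unfold scmM scmMa scEx scaEx
  rw [abs_le] at c1 c2 ⊢
  constructor <;> linarith [c1.1, c1.2, c2.1, c2.2]

theorem scm_Ma_lim {a a' τ : ℝ} {F : ℝ → ℝ} (hF : ScBI F) {α : ℝ → ℝ} (hα : ScCoef a τ α) (hτ : 0 ≤ τ)
    (p : MvPolynomial ℕ ℝ) {π : ℕ → List (ℝ × ℝ)} (hπ : ScApx a' τ α π) {t : ℝ} (ht : t ∈ Icc 0 τ) :
    Tendsto (fun n => scmM p F (π n) t) atTop (𝓝 (scmMa p F α τ t)) := by
  rw [Metric.tendsto_atTop]
  intro ε hε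
  obtain ⟨N, hN⟩ := scm_M_tendsto hF hα hτ p hπ (half_pos hε)
  exact ⟨N, fun n hn => by rw [Real.dist_eq]; exact (hN n hn t ht).trans_lt (half_lt_self hε)⟩

theorem scm_Ma_cont {a τ : ℝ} {F : ℝ → ℝ} (hF : ScBI F) {α : ℝ → ℝ} (hα : ScCoef a τ α) (hτ : 0 ≤ τ)
    (p : MvPolynomial ℕ ℝ) : ContinuousOn (scmMa p F α τ) (Icc 0 τ) := by
  have hπ := scg_dy_apx hτ hα
  have hu : TendstoUniformlyOn (fun n => scmM p F (scDy α τ n)) (scmMa p F α τ) atTop (Icc 0 τ) := by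
    rw [Metric.tendstoUniformlyOn_iff]
    intro ε hε
    obtain ⟨N, hN⟩ := scm_M_tendsto hF hα hτ p hπ (half_pos hε)
    filter_upwards [eventually_ge_atTop N] with n hn t ht
    rw [Real.dist_eq, abs_sub_comm]
    exact (hN n hn t ht).trans_lt (half_lt_self hε)
  refine hu.continuousOn (Eventually.of_forall fun n => ?_).frequently
  have h := scm_M_cont hF (hπ.adm n).pos p
  rwa [hπ.len n] at h


/-! ## 3. the moment identity for general profiles -/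

/-- uniform convergence on `[s,t]` of continuous functions gives the convergence of the integrals -/
theorem scm_int_tendsto {s t : ℝ} (hst : s ≤ t) {g : ℕ → ℝ → ℝ} {G : ℝ → ℝ} (hg : ∀ n, ContinuousOn (g n) (Icc s t))
    (hG : ContinuousOn G (Icc s t)) (hu : ∀ ε > 0, ∃ N, ∀ n ≥ N, ∀ r ∈ Icc s t, |g n r - G r| ≤ ε) :
    Tendsto (fun n => ∫ r in s..t, g n r) atTop (𝓝 (∫ r in s..t, G r)) := by
  rw [Metric.tendsto_atTop]
  intro ε hε
  have hd : 0 ≤ t - s := sub_nonneg.2 hst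
  obtain ⟨N, hN⟩ := hu (ε / (2 * (t - s + 1))) (by positivity)
  refine ⟨N, fun n hn => ?_⟩
  have i1 : IntervalIntegrable (g n) volume s t := (hg n).intervalIntegrable_of_Icc hst
  have i2 : IntervalIntegrable G volume s t := hG.intervalIntegrable_of_Icc hst
  rw [Real.dist_eq, ← intervalIntegral.integral_sub i1 i2]
  have h := intervalIntegral.norm_integral_le_of_norm_le_const (a := s) (b := t) (f := fun r => g n r - G r)
    (C := ε / (2 * (t - s + 1))) (fun r hr => by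
      rw [uIoc_of_le hst] at hr
      exact hN n hn r ⟨hr.1.le, hr.2⟩)
  rw [Real.norm_eq_abs, abs_of_nonneg hd] at h
  refine h.trans_lt ?_
  rw [div_mul_eq_mul_div, div_lt_iff₀ (by positivity)]
  nlinarith

/-- **R8 for every monotone profile.**  TEX[FS:lem:diffusion], TEX[PE:prof:scalar-derivatives] -/
theorem scm_moment_gen {a τ : ℝ} {F : ℝ → ℝ} (hF : ScBI F) {α : ℝ → ℝ} (hα : ScCoef a τ α)
    (p : MvPolynomial ℕ ℝ) {s t : ℝ} (hs : 0 ≤ s) (hst : s ≤ t) (ht : t ≤ τ) :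
    scmMa p F α τ t - scmMa p F α τ s = ∫ r in s..t, (scmMa (scmQ p) F α τ r + α r * scmMa (scmR p) F α τ r) := by
  have hτ : 0 ≤ τ := hs.trans (hst.trans ht)
  have hπ := scg_dy_apx hτ hα
  have hsub : Icc s t ⊆ Icc 0 τ := Icc_subset_Icc hs ht
  have cQ : ContinuousOn (scmMa (scmQ p) F α τ) (Icc s t) := (scm_Ma_cont hF hα hτ _).mono hsub
  have cR : ContinuousOn (scmMa (scmR p) F α τ) (Icc s t) := (scm_Ma_cont hF hα hτ _).mono hsub
  have cQn : ∀ n, ContinuousOn (scmM (scmQ p) F (scDy α τ n)) (Icc s t) := fun n => by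
    have h := scm_M_cont hF (hπ.adm n).pos (scmQ p)
    rw [hπ.len n] at h
    exact h.mono hsub
  have iQn : ∀ n, IntervalIntegrable (scmM (scmQ p) F (scDy α τ n)) volume s t := fun n =>
    (cQn n).intervalIntegrable_of_Icc hst
  have iTn : ∀ n, IntervalIntegrable (fun r => scmM (scmQ p) F (scDy α τ n) r
      + scAl (scDy α τ n) r * scmM (scmR p) F (scDy α τ n) r) volume s t := fun n =>
    scm_moment_int hF (hπ.adm n).pos p hs hst (by rw [hπ.len n]; exact ht)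
  have iRn : ∀ n, IntervalIntegrable (fun r => scAl (scDy α τ n) r * scmM (scmR p) F (scDy α τ n) r) volume s t :=
    fun n => by
      have h := (iTn n).sub (iQn n)
      refine h.congr fun r _ => ?_
      simp
  have l1 := scm_int_tendsto hst cQn cQ (fun ε hε => by
    obtain ⟨N, hN⟩ := scm_M_tendsto hF hα hτ (scmQ p) hπ hε
    exact ⟨N, fun n hn r hr => hN n hn r (hsub hr)⟩)
  have l2 := hπ.integral_tendsto hs hst ht cR iRn (fun ε hε => by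
    obtain ⟨N, hN⟩ := scm_M_tendsto hF hα hτ (scmR p) hπ hε
    exact ⟨N, fun n hn r hr => hN n hn r (hsub hr)⟩)
  have l3 := (scm_Ma_lim hF hα hτ p hπ ⟨hs.trans hst, ht⟩).sub (scm_Ma_lim hF hα hτ p hπ ⟨hs, hst.trans ht⟩)
  have iα : IntervalIntegrable α volume s t :=
    hπ.int.mono_set (by rw [uIcc_of_le hst, uIcc_of_le hτ]; exact hsub)
  have iR : IntervalIntegrable (fun r => α r * scmMa (scmR p) F α τ r) volume s t :=
    iα.mul_continuousOn (by rwa [uIcc_of_le hst])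
  rw [intervalIntegral.integral_add (cQ.intervalIntegrable_of_Icc hst) iR]
  refine tendsto_nhds_unique l3 ((l1.add l2).congr fun n => ?_)
  rw [← intervalIntegral.integral_add (iQn n) (iRn n)]
  exact (scm_moment hF (hπ.adm n).pos p hs hst (by rw [hπ.len n]; exact ht)).symm

/-- the integrand of `scm_moment_gen` is integrable -/
theorem scm_moment_gen_int {a τ : ℝ} {F : ℝ → ℝ} (hF : ScBI F) {α : ℝ → ℝ} (hα : ScCoef a τ α)
    (p q : MvPolynomial ℕ ℝ) {s t : ℝ} (hs : s ∈ Icc 0 τ) (ht : t ∈ Icc 0 τ) :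
    IntervalIntegrable (fun r => scmMa p F α τ r + α r * scmMa q F α τ r) volume s t := by
  have hτ : 0 ≤ τ := hs.1.trans hs.2
  have hsub : uIcc s t ⊆ Icc 0 τ := by
    intro x hx
    rcases le_total s t with h | h
    · rw [uIcc_of_le h] at hx; exact ⟨hs.1.trans hx.1, hx.2.trans ht.2⟩
    · rw [uIcc_of_ge h] at hx; exact ⟨ht.1.trans hx.1, hx.2.trans hs.2⟩
  have iα : IntervalIntegrable α volume s t :=
    (scg_dy_apx hτ hα).int.mono_set (by rw [uIcc_of_le hτ]; exact hsub)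
  exact ((scm_Ma_cont hF hα hτ p).mono hsub).intervalIntegrable.add
    (iα.mul_continuousOn ((scm_Ma_cont hF hα hτ q).mono hsub))

/-- `scm_moment_gen` for unordered times -/
theorem scm_moment_gen' {a τ : ℝ} {F : ℝ → ℝ} (hF : ScBI F) {α : ℝ → ℝ} (hα : ScCoef a τ α)
    (p : MvPolynomial ℕ ℝ) {s t : ℝ} (hs : s ∈ Icc 0 τ) (ht : t ∈ Icc 0 τ) :
    scmMa p F α τ t - scmMa p F α τ s = ∫ r in s..t, (scmMa (scmQ p) F α τ r + α r * scmMa (scmR p) F α τ r) := by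
  rcases le_total s t with h | h
  · exact scm_moment_gen hF hα p hs.1 h ht.2
  · rw [intervalIntegral.integral_symm, ← scm_moment_gen hF hα p ht.1 h hs.2]
    ring

theorem scm_Ma_zero (F : ℝ → ℝ) (α : ℝ → ℝ) (τ : ℝ) (p : MvPolynomial ℕ ℝ) :
    scmMa p F α τ 0 = scmObsA p F α τ 0 0 := by
  unfold scmMa scaEx scPa
  simp only [sc_Pt_self]
  exact tendsto_const_nhds.limUnder_eq

/-- TAU-FREE bound of the moment curves -/
theorem scm_Ma_bound {a : ℝ} (ha : 0 ≤ a) {F : ℝ → ℝ} (hF : ScBI F) (p : MvPolynomial ℕ ℝ) :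
    ∃ B : ℝ, 0 ≤ B ∧ ∀ τ α, ScCoef a τ α → ∀ t ∈ Icc 0 τ, |scmMa p F α τ t| ≤ B := by
  obtain ⟨M, -, m2⟩ := scm_obs_N ha hF p 2
  refine ⟨|M|, abs_nonneg _, fun τ α hα t ht => ?_⟩
  have hτ : 0 ≤ τ := ht.1.trans ht.2
  have hψ := m2 τ α hτ hα t ht.1
  have hl := (sgp_P_tendsto_bd hF hτ hα hψ le_rfl ht.1 ht.2 0).abs
  refine le_of_tendsto hl (Eventually.of_forall fun n => ?_)
  exact sc_Pt_abs_le hF hψ.continuous (fun z => (hψ.bd z).trans (le_abs_self _)) _ 0 t 0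

/-- TAU-FREE Lipschitz bound of the moment curves -/
theorem scm_Ma_lip {a : ℝ} (ha : 0 ≤ a) {F : ℝ → ℝ} (hF : ScBI F) (p : MvPolynomial ℕ ℝ) :
    ∃ L : ℝ, 0 ≤ L ∧ ∀ τ α, ScCoef a τ α → ∀ s t, 0 ≤ s → s ≤ t → t ≤ τ →
      |scmMa p F α τ t - scmMa p F α τ s| ≤ L * (t - s) := by
  obtain ⟨B1, h1, H1⟩ := scm_Ma_bound ha hF (scmQ p)
  obtain ⟨B2, h2, H2⟩ := scm_Ma_bound ha hF (scmR p)
  refine ⟨B1 + a * B2, by positivity, fun τ α hα s t hs hst ht => ?_⟩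
  rw [scm_moment_gen hF hα p hs hst ht]
  have h := intervalIntegral.norm_integral_le_of_norm_le_const (a := s) (b := t)
    (f := fun r => scmMa (scmQ p) F α τ r + α r * scmMa (scmR p) F α τ r) (C := B1 + a * B2) (fun r hr => by
      rw [uIoc_of_le hst] at hr
      have hr' : r ∈ Icc 0 τ := ⟨hs.trans hr.1.le, hr.2.trans ht⟩
      rw [Real.norm_eq_abs]
      refine (abs_add_le _ _).trans (add_le_add (H1 τ α hα r hr') ?_)
      rw [abs_mul, abs_of_nonneg (hα.2 r hr').1]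
      exact mul_le_mul (hα.2 r hr').2 (H2 τ α hα r hr') (abs_nonneg _) ha)
  rwa [Real.norm_eq_abs, abs_of_nonneg (sub_nonneg.2 hst)] at h

/-- first order expansion at the origin of time -/
theorem scm_Ma_exp1 {a : ℝ} (ha : 0 ≤ a) {F : ℝ → ℝ} (hF : ScBI F) (p : MvPolynomial ℕ ℝ) :
    ∃ L : ℝ, 0 ≤ L ∧ ∀ τ α, ScCoef a τ α → ∀ t ∈ Icc 0 τ, |scmMa p F α τ t - scmObsA p F α τ 0 0| ≤ L * t := by
  obtain ⟨L, hL, H⟩ := scm_Ma_lip ha hF p
  refine ⟨L, hL, fun τ α hα t ht => ?_⟩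
  have h := H τ α hα 0 t le_rfl ht.1 ht.2
  rwa [scm_Ma_zero, sub_zero] at h

/-- second order expansion at the origin of time, when the mass part of the generator vanishes at `(0,0)` -/
theorem scm_Ma_exp2 {a : ℝ} (ha : 0 ≤ a) {F : ℝ → ℝ} (hF : ScBI F) (p : MvPolynomial ℕ ℝ) :
    ∃ C : ℝ, 0 ≤ C ∧ ∀ τ α, ScCoef a τ α → scmObsA (scmR p) F α τ 0 0 = 0 → ∀ t ∈ Icc 0 τ,
      |scmMa p F α τ t - scmObsA p F α τ 0 0 - scmObsA (scmQ p) F α τ 0 0 * t| ≤ C * t ^ 2 := by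
  obtain ⟨L1, h1, H1⟩ := scm_Ma_exp1 ha hF (scmQ p)
  obtain ⟨L2, h2, H2⟩ := scm_Ma_exp1 ha hF (scmR p)
  refine ⟨L1 + a * L2, by positivity, fun τ α hα h0 t ht => ?_⟩
  have hτ : 0 ≤ τ := ht.1.trans ht.2
  have e := scm_moment_gen hF hα p le_rfl ht.1 ht.2
  rw [scm_Ma_zero] at e
  have ec : scmObsA (scmQ p) F α τ 0 0 * t = ∫ _ in (0:ℝ)..t, scmObsA (scmQ p) F α τ 0 0 := by
    rw [intervalIntegral.integral_const, sub_zero, smul_eq_mul, mul_comm]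
  rw [e, ec, ← intervalIntegral.integral_sub (scm_moment_gen_int hF hα _ _ ⟨le_rfl, hτ⟩ ht) intervalIntegrable_const]
  have h := intervalIntegral.norm_integral_le_of_norm_le_const (a := 0) (b := t)
    (f := fun r => scmMa (scmQ p) F α τ r + α r * scmMa (scmR p) F α τ r - scmObsA (scmQ p) F α τ 0 0)
    (C := (L1 + a * L2) * t) (fun r hr => by
      rw [uIoc_of_le ht.1] at hr
      have hr' : r ∈ Icc 0 τ := ⟨hr.1.le, hr.2.trans ht.2⟩
      have b1 := H1 τ α hα r hr'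
      have b2 := H2 τ α hα r hr'
      rw [h0, sub_zero] at b2
      have b3 : |α r * scmMa (scmR p) F α τ r| ≤ a * (L2 * r) := by
        rw [abs_mul, abs_of_nonneg (hα.2 r hr').1]
        exact mul_le_mul (hα.2 r hr').2 b2 (abs_nonneg _) ha
      rw [Real.norm_eq_abs]
      have e2 : scmMa (scmQ p) F α τ r + α r * scmMa (scmR p) F α τ r - scmObsA (scmQ p) F α τ 0 0
          = (scmMa (scmQ p) F α τ r - scmObsA (scmQ p) F α τ 0 0) + α r * scmMa (scmR p) F α τ r := by ring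
      rw [e2]
      refine (abs_add_le _ _).trans ?_
      have b4 : (L1 + a * L2) * r ≤ (L1 + a * L2) * t := mul_le_mul_of_nonneg_left hr.2 (by positivity)
      linarith)
  rw [Real.norm_eq_abs, sub_zero, abs_of_nonneg ht.1] at h
  refine h.trans (le_of_eq ?_)
  ring

/-! linearity in the polynomial -/

theorem scm_Ma_C_mul {a τ : ℝ} {F : ℝ → ℝ} (hF : ScBI F) {α : ℝ → ℝ} (hα : ScCoef a τ α) (c : ℝ)
    (p : MvPolynomial ℕ ℝ) {t : ℝ} (ht : t ∈ Icc 0 τ) :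
    scmMa (MvPolynomial.C c * p) F α τ t = c * scmMa p F α τ t := by
  have hτ := ht.1.trans ht.2
  have hπ := scg_dy_apx hτ hα
  refine tendsto_nhds_unique (scm_Ma_lim hF hα hτ _ hπ ht)
    (((scm_Ma_lim hF hα hτ p hπ ht).const_mul c).congr fun n => ?_)
  exact (scm_M_C_mul F _ c p t).symm

theorem scm_Ma_neg {a τ : ℝ} {F : ℝ → ℝ} (hF : ScBI F) {α : ℝ → ℝ} (hα : ScCoef a τ α)
    (p : MvPolynomial ℕ ℝ) {t : ℝ} (ht : t ∈ Icc 0 τ) : scmMa (-p) F α τ t = - scmMa p F α τ t := by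
  have hτ := ht.1.trans ht.2
  have hπ := scg_dy_apx hτ hα
  refine tendsto_nhds_unique (scm_Ma_lim hF hα hτ _ hπ ht) (((scm_Ma_lim hF hα hτ p hπ ht).neg).congr fun n => ?_)
  exact (scm_M_neg F _ p t).symm

theorem scm_Ma_add {a τ : ℝ} {F : ℝ → ℝ} (hF : ScBI F) {α : ℝ → ℝ} (hα : ScCoef a τ α)
    (p q : MvPolynomial ℕ ℝ) {t : ℝ} (ht : t ∈ Icc 0 τ) :
    scmMa (p + q) F α τ t = scmMa p F α τ t + scmMa q F α τ t := by
  have hτ := ht.1.trans ht.2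
  have hπ := scg_dy_apx hτ hα
  refine tendsto_nhds_unique (scm_Ma_lim hF hα hτ _ hπ ht)
    (((scm_Ma_lim hF hα hτ p hπ ht).add (scm_Ma_lim hF hα hτ q hπ ht)).congr fun n => ?_)
  exact (scm_M_add hF _ p q t).symm

theorem scm_Ma_zero_poly {a τ : ℝ} {F : ℝ → ℝ} (hF : ScBI F) {α : ℝ → ℝ} (hα : ScCoef a τ α)
    {t : ℝ} (ht : t ∈ Icc 0 τ) : scmMa 0 F α τ t = 0 := by
  have hτ := ht.1.trans ht.2
  have hπ := scg_dy_apx hτ hα
  refine tendsto_nhds_unique (scm_Ma_lim hF hα hτ _ hπ ht) (tendsto_const_nhds.congr fun n => ?_)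
  exact (scm_M_zero_poly hF _ t).symm

/-! ## 4. the named curves of `Sc/GenDefs.lean`; EXITS -/

theorem scm_aGam_eq (F : ℝ → ℝ) (α : ℝ → ℝ) (τ : ℝ) : scaGam F α τ = scmMa (MvPolynomial.X 0 ^ 2) F α τ := by
  funext t; unfold scaGam scmMa; congr 1; funext z; simp [scmObsA]

theorem scm_aM2_eq (F : ℝ → ℝ) (α : ℝ → ℝ) (τ : ℝ) : scaM2 F α τ = scmMa (MvPolynomial.X 1 ^ 2) F α τ := by
  funext t; unfold scaM2 scmMa; congr 1; funext z; simp [scmObsA]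

theorem scm_aM3_eq (F : ℝ → ℝ) (α : ℝ → ℝ) (τ : ℝ) : scaM3 F α τ = scmMa (MvPolynomial.X 1 ^ 3) F α τ := by
  funext t; unfold scaM3 scmMa; congr 1; funext z; simp [scmObsA]

theorem scm_aM4_eq (F : ℝ → ℝ) (α : ℝ → ℝ) (τ : ℝ) : scaM4 F α τ = scmMa (MvPolynomial.X 1 ^ 4) F α τ := by
  funext t; unfold scaM4 scmMa; congr 1; funext z; simp [scmObsA]

theorem scm_aN3_eq (F : ℝ → ℝ) (α : ℝ → ℝ) (τ : ℝ) : scaN3 F α τ = scmMa (MvPolynomial.X 2 ^ 2) F α τ := by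
  funext t; unfold scaN3 scmMa; congr 1; funext z; simp [scmObsA]

theorem scm_aN4_eq (F : ℝ → ℝ) (α : ℝ → ℝ) (τ : ℝ) : scaN4 F α τ = scmMa (MvPolynomial.X 3 ^ 2) F α τ := by
  funext t; unfold scaN4 scmMa; congr 1; funext z; simp [scmObsA]

theorem scm_aM13_eq (F : ℝ → ℝ) (α : ℝ → ℝ) (τ : ℝ) :
    scaM13 F α τ = scmMa (MvPolynomial.X 1 * MvPolynomial.X 2 ^ 2) F α τ := by
  funext t; unfold scaM13 scmMa; congr 1; funext z; simp [scmObsA]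

/-- the odd jets of an even datum vanish at the origin -/
theorem scm_aD_odd_zero {F : ℝ → ℝ} (hF : ScBI F) (he : ∀ z, F (-z) = F z) {a τ : ℝ} {α : ℝ → ℝ} (hτ : 0 ≤ τ)
    (hα : ScCoef a τ α) (k : ℕ) {t : ℝ} (ht : 0 ≤ t) : scaD (2 * k + 1) F α τ t 0 = 0 := by
  have h := scg_aD_parity hF he hτ hα (2 * k + 1) ht 0
  rw [neg_zero, pow_succ, pow_mul] at h
  norm_num at h
  linarith

/-- `Γ' = E w²`, any two times -/
theorem scm_gen_Gam {a τ : ℝ} {F : ℝ → ℝ} (hF : ScBI F) {α : ℝ → ℝ} (hα : ScCoef a τ α) {s t : ℝ}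
    (hs : s ∈ Icc 0 τ) (ht : t ∈ Icc 0 τ) : scaGam F α τ t - scaGam F α τ s = ∫ r in s..t, scaM2 F α τ r := by
  have hsub : uIcc s t ⊆ Icc 0 τ := uIcc_subset_Icc hs ht
  rw [scm_aGam_eq, scm_aM2_eq, scm_moment_gen' hF hα _ hs ht, scm_alg_u2.1, scm_alg_u2.2]
  refine intervalIntegral.integral_congr fun r hr => ?_
  show scmMa (MvPolynomial.X 1 ^ 2) F α τ r + α r * scmMa 0 F α τ r = _
  rw [scm_Ma_zero_poly hF hα (hsub hr)]; ring

/-- `(E w²)' = E v₃² - 2 α E w³`, any two times -/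
theorem scm_gen_M2 {a τ : ℝ} {F : ℝ → ℝ} (hF : ScBI F) {α : ℝ → ℝ} (hα : ScCoef a τ α) {s t : ℝ}
    (hs : s ∈ Icc 0 τ) (ht : t ∈ Icc 0 τ) :
    scaM2 F α τ t - scaM2 F α τ s = ∫ r in s..t, (scaN3 F α τ r - 2 * α r * scaM3 F α τ r) := by
  have hsub : uIcc s t ⊆ Icc 0 τ := uIcc_subset_Icc hs ht
  rw [scm_aM2_eq, scm_aN3_eq, scm_aM3_eq, scm_moment_gen' hF hα _ hs ht, scm_alg_w2.1, scm_alg_w2.2]
  refine intervalIntegral.integral_congr fun r hr => ?_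
  show scmMa (MvPolynomial.X 2 ^ 2) F α τ r + α r * scmMa (-(MvPolynomial.C 2 * MvPolynomial.X 1 ^ 3)) F α τ r = _
  rw [scm_Ma_neg hF hα _ (hsub hr), scm_Ma_C_mul hF hα _ _ (hsub hr)]; ring

/-- `(E v₃²)' = E v₄² - 6 α E w v₃²`, any two times -/
theorem scm_gen_N3 {a τ : ℝ} {F : ℝ → ℝ} (hF : ScBI F) {α : ℝ → ℝ} (hα : ScCoef a τ α) {s t : ℝ}
    (hs : s ∈ Icc 0 τ) (ht : t ∈ Icc 0 τ) :
    scaN3 F α τ t - scaN3 F α τ s = ∫ r in s..t, (scaN4 F α τ r - 6 * α r * scaM13 F α τ r) := by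
  have hsub : uIcc s t ⊆ Icc 0 τ := uIcc_subset_Icc hs ht
  rw [scm_aN3_eq, scm_aN4_eq, scm_aM13_eq, scm_moment_gen' hF hα _ hs ht, scm_alg_v32.1, scm_alg_v32.2]
  refine intervalIntegral.integral_congr fun r hr => ?_
  show scmMa (MvPolynomial.X 3 ^ 2) F α τ r
    + α r * scmMa (-(MvPolynomial.C 6 * (MvPolynomial.X 1 * MvPolynomial.X 2 ^ 2))) F α τ r = _
  rw [scm_Ma_neg hF hα _ (hsub hr), scm_Ma_C_mul hF hα _ _ (hsub hr)]; ring

/-- `(E w³)' = 3 E w v₃² - 3 α E w⁴`, any two times -/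
theorem scm_gen_M3 {a τ : ℝ} {F : ℝ → ℝ} (hF : ScBI F) {α : ℝ → ℝ} (hα : ScCoef a τ α) {s t : ℝ}
    (hs : s ∈ Icc 0 τ) (ht : t ∈ Icc 0 τ) :
    scaM3 F α τ t - scaM3 F α τ s = ∫ r in s..t, (3 * scaM13 F α τ r - 3 * α r * scaM4 F α τ r) := by
  have hsub : uIcc s t ⊆ Icc 0 τ := uIcc_subset_Icc hs ht
  rw [scm_aM3_eq, scm_aM4_eq, scm_aM13_eq, scm_moment_gen' hF hα _ hs ht, scm_alg_w3.1, scm_alg_w3.2]
  refine intervalIntegral.integral_congr fun r hr => ?_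
  show scmMa (MvPolynomial.C 3 * (MvPolynomial.X 1 * MvPolynomial.X 2 ^ 2)) F α τ r
    + α r * scmMa (-(MvPolynomial.C 3 * MvPolynomial.X 1 ^ 4)) F α τ r = _
  rw [scm_Ma_neg hF hα _ (hsub hr), scm_Ma_C_mul hF hα _ _ (hsub hr), scm_Ma_C_mul hF hα _ _ (hsub hr)]; ring

/-- values at the time `0` -/
theorem scm_exit_Gam_zero (F : ℝ → ℝ) (α : ℝ → ℝ) (τ : ℝ) : scaGam F α τ 0 = scaD 1 F α τ 0 0 ^ 2 := by
  rw [scm_aGam_eq, scm_Ma_zero]; simp [scmObsA]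

theorem scm_exit_M2_zero (F : ℝ → ℝ) (α : ℝ → ℝ) (τ : ℝ) : scaM2 F α τ 0 = scaD 2 F α τ 0 0 ^ 2 := by
  rw [scm_aM2_eq, scm_Ma_zero]; simp [scmObsA]

theorem scm_exit_M3_zero (F : ℝ → ℝ) (α : ℝ → ℝ) (τ : ℝ) : scaM3 F α τ 0 = scaD 2 F α τ 0 0 ^ 3 := by
  rw [scm_aM3_eq, scm_Ma_zero]; simp [scmObsA]

theorem scm_exit_M4_zero (F : ℝ → ℝ) (α : ℝ → ℝ) (τ : ℝ) : scaM4 F α τ 0 = scaD 2 F α τ 0 0 ^ 4 := by
  rw [scm_aM4_eq, scm_Ma_zero]; simp [scmObsA]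

theorem scm_exit_N4_zero (F : ℝ → ℝ) (α : ℝ → ℝ) (τ : ℝ) : scaN4 F α τ 0 = scaD 4 F α τ 0 0 ^ 2 := by
  rw [scm_aN4_eq, scm_Ma_zero]; simp [scmObsA]

theorem scm_exit_N3_zero {a τ : ℝ} {F : ℝ → ℝ} (hF : ScCont a F) {α : ℝ → ℝ} (hα : ScCoef a τ α) (hτ : 0 ≤ τ) :
    scaN3 F α τ 0 = 0 := by
  rw [scm_aN3_eq, scm_Ma_zero]
  have h := scm_aD_odd_zero hF.smooth hF.even hτ hα 1 (le_refl (0:ℝ))
  simp only [scmObsA, map_pow, MvPolynomial.eval_X]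
  norm_num at h ⊢
  exact h

theorem scm_exit_M13_zero {a τ : ℝ} {F : ℝ → ℝ} (hF : ScCont a F) {α : ℝ → ℝ} (hα : ScCoef a τ α) (hτ : 0 ≤ τ) :
    scaM13 F α τ 0 = 0 := by
  rw [scm_aM13_eq, scm_Ma_zero]
  have h := scm_aD_odd_zero hF.smooth hF.even hτ hα 1 (le_refl (0:ℝ))
  simp only [scmObsA, map_pow, map_mul, MvPolynomial.eval_X]
  norm_num at h ⊢
  exact Or.inr h

/-- I4 -/
theorem scm_exit_Gam {a τ : ℝ} {F : ℝ → ℝ} (hF : ScCont a F) {α : ℝ → ℝ} (hα : ScCoef a τ α) {t : ℝ}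
    (ht : t ∈ Icc 0 τ) : scaGam F α τ t = ∫ r in (0 : ℝ)..t, scaM2 F α τ r := by
  have hτ : 0 ≤ τ := ht.1.trans ht.2
  have e := scm_gen_Gam hF.smooth hα ⟨le_rfl, hτ⟩ ht
  have h := scm_aD_odd_zero hF.smooth hF.even hτ hα 0 (le_refl (0:ℝ))
  norm_num at h
  rw [scm_exit_Gam_zero, h] at e
  rw [← e]; ring

/-- I5 -/
theorem scm_exit_M2 {a τ : ℝ} {F : ℝ → ℝ} (hF : ScCont a F) {α : ℝ → ℝ} (hα : ScCoef a τ α) {s t : ℝ}
    (hs : s ∈ Icc 0 τ) (ht : t ∈ Icc 0 τ) :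
    scaM2 F α τ t - scaM2 F α τ s = ∫ r in s..t, (scaN3 F α τ r - 2 * α r * scaM3 F α τ r) :=
  scm_gen_M2 hF.smooth hα hs ht

/-- I8 -/
theorem scm_exit_N3 {a τ : ℝ} {F : ℝ → ℝ} (hF : ScCont a F) {α : ℝ → ℝ} (hα : ScCoef a τ α) {t : ℝ}
    (ht : t ∈ Icc 0 τ) : scaN3 F α τ t = ∫ r in (0 : ℝ)..t, (scaN4 F α τ r - 6 * α r * scaM13 F α τ r) := by
  have hτ : 0 ≤ τ := ht.1.trans ht.2
  have e := scm_gen_N3 hF.smooth hα ⟨le_rfl, hτ⟩ ht
  rw [scm_exit_N3_zero hF hα hτ] at e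
  rw [← e]; ring

theorem scm_exit_cont {a τ : ℝ} {F : ℝ → ℝ} (hF : ScCont a F) {α : ℝ → ℝ} (hα : ScCoef a τ α) (hτ : 0 ≤ τ) :
    ContinuousOn (scaGam F α τ) (Icc 0 τ) ∧ ContinuousOn (scaM2 F α τ) (Icc 0 τ) ∧
    ContinuousOn (scaM3 F α τ) (Icc 0 τ) ∧ ContinuousOn (scaM4 F α τ) (Icc 0 τ) ∧
    ContinuousOn (scaN3 F α τ) (Icc 0 τ) ∧ ContinuousOn (scaN4 F α τ) (Icc 0 τ) ∧
    ContinuousOn (scaM13 F α τ) (Icc 0 τ) := by
  rw [scm_aGam_eq, scm_aM2_eq, scm_aM3_eq, scm_aM4_eq, scm_aN3_eq, scm_aN4_eq, scm_aM13_eq]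
  exact ⟨scm_Ma_cont hF.smooth hα hτ _, scm_Ma_cont hF.smooth hα hτ _, scm_Ma_cont hF.smooth hα hτ _,
    scm_Ma_cont hF.smooth hα hτ _, scm_Ma_cont hF.smooth hα hτ _, scm_Ma_cont hF.smooth hα hτ _,
    scm_Ma_cont hF.smooth hα hτ _⟩

/-- **expansions at the origin of time**, TAU-FREE constant (PE Lemma 5.3 / 5.4 l.291-300) -/
theorem scm_exit_exp {a : ℝ} {F : ℝ → ℝ} (hF : ScCont a F) :
    ∃ C : ℝ, 0 ≤ C ∧ ∀ τ α, ScCoef a τ α → ∀ t ∈ Icc 0 τ,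
      |scaN3 F α τ t - scaD 4 F α τ 0 0 ^ 2 * t| ≤ C * t ^ 2 ∧
      |scaM3 F α τ t - scaD 2 F α τ 0 0 ^ 3| ≤ C * t ∧
      |scaM2 F α τ t - scaD 2 F α τ 0 0 ^ 2| ≤ C * t := by
  have ha : 0 ≤ a := hF.a_pos.le
  obtain ⟨C1, h1, H1⟩ := scm_Ma_exp2 ha hF.smooth (MvPolynomial.X 2 ^ 2)
  obtain ⟨C2, h2, H2⟩ := scm_Ma_exp1 ha hF.smooth (MvPolynomial.X 1 ^ 3)
  obtain ⟨C3, h3, H3⟩ := scm_Ma_exp1 ha hF.smooth (MvPolynomial.X 1 ^ 2)
  refine ⟨C1 + C2 + C3, by positivity, fun τ α hα t ht => ?_⟩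
  have hτ : 0 ≤ τ := ht.1.trans ht.2
  have h := scm_aD_odd_zero hF.smooth hF.even hτ hα 1 (le_refl (0:ℝ))
  norm_num at h
  have z1 : scmObsA (scmR (MvPolynomial.X 2 ^ 2)) F α τ 0 0 = 0 := by
    rw [scm_alg_v32.2]
    simp [scmObsA, h]
  have b1 := H1 τ α hα z1 t ht
  have b2 := H2 τ α hα t ht
  have b3 := H3 τ α hα t ht
  have z2 : scmObsA (MvPolynomial.X 2 ^ 2) F α τ 0 0 = 0 := by simp [scmObsA, h]
  have z3 : scmObsA (scmQ (MvPolynomial.X 2 ^ 2)) F α τ 0 0 = scaD 4 F α τ 0 0 ^ 2 := by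
    rw [scm_alg_v32.1]; simp [scmObsA]
  have z4 : scmObsA (MvPolynomial.X 1 ^ 3) F α τ 0 0 = scaD 2 F α τ 0 0 ^ 3 := by simp [scmObsA]
  have z5 : scmObsA (MvPolynomial.X 1 ^ 2) F α τ 0 0 = scaD 2 F α τ 0 0 ^ 2 := by simp [scmObsA]
  rw [z2, z3, sub_zero, ← scm_aN3_eq] at b1
  rw [z4, ← scm_aM3_eq] at b2
  rw [z5, ← scm_aM2_eq] at b3
  have t2 : 0 ≤ t ^ 2 := by positivity
  refine ⟨b1.trans ?_, b2.trans ?_, b3.trans ?_⟩
  · exact mul_le_mul_of_nonneg_right (by linarith) t2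
  · exact mul_le_mul_of_nonneg_right (by linarith) ht.1
  · exact mul_le_mul_of_nonneg_right (by linarith) ht.1

/-! ## 5. stability in the profile (`L¹`) -/

/-- the limit kernels are contractions for the sup norm (bounded `C²` tests) -/
theorem scm_Pa_close {F : ℝ → ℝ} (hF : ScBI F) {a τ : ℝ} {α : ℝ → ℝ} (hτ : 0 ≤ τ) (hα : ScCoef a τ α)
    {φ ψ : ℝ → ℝ} {M M' : ℝ} (hφ : ScN 2 M φ) (hψ : ScN 2 M' ψ) {ε : ℝ} (h : ∀ z, |φ z - ψ z| ≤ ε) {s t : ℝ}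
    (hs : 0 ≤ s) (hst : s ≤ t) (ht : t ≤ τ) (z : ℝ) : |scPa F α τ s t φ z - scPa F α τ s t ψ z| ≤ ε := by
  have l := ((sgp_P_tendsto_bd hF hτ hα hφ hs hst ht z).sub (sgp_P_tendsto_bd hF hτ hα hψ hs hst ht z)).abs
  refine le_of_tendsto l (Eventually.of_forall fun n => ?_)
  exact scm_Pt_close hF (ScN.mono (Nat.zero_le 2) hφ).scE (ScN.mono (Nat.zero_le 2) hψ).scE h _ s t z

theorem scm_sckE_small (C : ℕ → ℝ) (K : ℕ) {δ : ℝ} (hδ : 0 < δ) :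
    ∃ η > 0, ∀ x, |x| ≤ η → ∀ k ≤ K, sckE C x k ≤ δ := by
  induction K with
  | zero =>
    obtain ⟨η, hη, H⟩ := sckE_small C 0 hδ
    exact ⟨η, hη, fun x hx k hk => by rw [Nat.le_zero.1 hk]; exact H x hx⟩
  | succ K ih =>
    obtain ⟨η1, h1, H1⟩ := ih
    obtain ⟨η2, h2, H2⟩ := sckE_small C (K + 1) hδ
    refine ⟨min η1 η2, lt_min h1 h2, fun x hx k hk => ?_⟩
    rcases Nat.lt_or_ge K k with h | h
    · have e : k = K + 1 := by omega
      rw [e]; exact H2 x (hx.trans (min_le_right _ _))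
    · exact H1 x (hx.trans (min_le_left _ _)) k h

/-- the observables are uniformly continuous in the profile; TAU-FREE modulus -/
theorem scm_obsA_stab {a : ℝ} (ha : 0 ≤ a) {F : ℝ → ℝ} (hF : ScBI F) {L : ℝ} (hL : ∀ z, |deriv F z| ≤ L)
    (p : MvPolynomial ℕ ℝ) {ε : ℝ} (hε : 0 < ε) :
    ∃ δ > 0, ∀ τ α β, 0 ≤ τ → ScCoef a τ α → ScCoef a τ β → (∫ r in (0 : ℝ)..τ, |β r - α r|) ≤ δ →
      ∀ t, 0 ≤ t → ∀ z, |scmObsA p F β τ t z - scmObsA p F α τ t z| ≤ ε := by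
  obtain ⟨Cs, -, h2⟩ := scm_jets ha hF
  obtain ⟨K, Lp, hLp, H⟩ := scmk_eval_lip Cs p
  obtain ⟨C, hC⟩ := scg_D_cont ha hF hL
  have hδ : 0 < ε / (Lp + 1) := by positivity
  obtain ⟨η, hη, Hη⟩ := scm_sckE_small C (K + 1) hδ
  refine ⟨η / (L ^ 2 / 2 + 1), by positivity, fun τ α β hτ hα hβ hd t ht z => ?_⟩
  have hi : 0 ≤ ∫ r in (0 : ℝ)..τ, |β r - α r| := intervalIntegral.integral_nonneg hτ fun r _ => abs_nonneg _
  have hx : abs (L ^ 2 / 2 * (∫ r in (0 : ℝ)..τ, |β r - α r|)) ≤ η := by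
    rw [abs_of_nonneg (by positivity)]
    rw [le_div_iff₀ (by positivity)] at hd
    nlinarith [sq_nonneg L]
  have b1 : ∀ k, |scaD (k + 1) F β τ t z| ≤ Cs k := fun k => by
    rw [scm_aD_iter]
    exact (h2 τ β hτ hβ t ht k).iter le_rfl z
  have b2 : ∀ k, |scaD (k + 1) F α τ t z| ≤ Cs k := fun k => by
    rw [scm_aD_iter]
    exact (h2 τ α hτ hα t ht k).iter le_rfl z
  have h3 := H _ _ b1 b2 (ε / (Lp + 1)) (fun k hk =>
    (hC τ α β hτ hα hβ (k + 1) t ht z).trans (Hη _ hx (k + 1) (by omega)))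
  have h4 : Lp * (ε / (Lp + 1)) ≤ ε := by
    rw [← mul_div_assoc, div_le_iff₀ (by positivity)]
    nlinarith
  unfold scmObsA
  exact h3.trans h4

/-- **continuity of the moment curves in the profile** (`L¹`), uniform in the time -/
theorem scm_Ma_stab {a τ : ℝ} (ha : 0 ≤ a) (hτ : 0 ≤ τ) {F : ℝ → ℝ} (hF : ScBI F) {L : ℝ}
    (hL : ∀ z, |deriv F z| ≤ L) (p : MvPolynomial ℕ ℝ) {ε : ℝ} (hε : 0 < ε) :
    ∃ δ > 0, ∀ α β, ScCoef a τ α → ScCoef a τ β → (∫ r in (0 : ℝ)..τ, |β r - α r|) ≤ δ →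
      ∀ t ∈ Icc 0 τ, |scmMa p F β τ t - scmMa p F α τ t| ≤ ε := by
  obtain ⟨M, -, m2⟩ := scm_obs_N ha hF p 2
  obtain ⟨δ1, h1, H1⟩ := scm_obsA_stab ha hF hL p (half_pos hε)
  obtain ⟨δ2, h2, H2⟩ := sgp_P_cont_bd hF ha hτ M (half_pos hε)
  refine ⟨min δ1 δ2, lt_min h1 h2, fun α β hα hβ hd t ht => ?_⟩
  have c1 := scm_Pa_close hF hτ hβ (m2 τ β hτ hβ t ht.1) (m2 τ α hτ hα t ht.1)
    (H1 τ α β hτ hα hβ (hd.trans (min_le_left _ _)) t ht.1) le_rfl ht.1 ht.2 0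
  have c2 := H2 α β hα hβ (hd.trans (min_le_right _ _)) _ (m2 τ α hτ hα t ht.1) 0 t le_rfl ht.1 ht.2 0
  unfold scmMa scaEx
  rw [abs_le] at c1 c2 ⊢
  constructor <;> linarith [c1.1, c1.2, c2.1, c2.2]

/-- I3 -/
theorem scm_exit_stab {a τ : ℝ} {F : ℝ → ℝ} (hF : ScCont a F) (hτ : 0 ≤ τ) :
    ∀ ε > 0, ∃ δ > 0, ∀ α α', ScCoef a τ α → ScCoef a τ α' → (∫ r in (0 : ℝ)..τ, |α r - α' r|) < δ →
      ∀ t ∈ Icc 0 τ, |scaGam F α τ t - scaGam F α' τ t| ≤ ε ∧ |scaM2 F α τ t - scaM2 F α' τ t| ≤ ε := by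
  intro ε hε
  obtain ⟨δ1, h1, H1⟩ := scm_Ma_stab hF.a_pos.le hτ hF.smooth hF.d1 (MvPolynomial.X 0 ^ 2) hε
  obtain ⟨δ2, h2, H2⟩ := scm_Ma_stab hF.a_pos.le hτ hF.smooth hF.d1 (MvPolynomial.X 1 ^ 2) hε
  refine ⟨min δ1 δ2, lt_min h1 h2, fun α α' hα hα' hd t ht => ?_⟩
  rw [scm_aGam_eq, scm_aM2_eq, scm_aGam_eq, scm_aM2_eq]
  exact ⟨H1 α' α hα' hα (hd.le.trans (min_le_left _ _)) t ht, H2 α' α hα' hα (hd.le.trans (min_le_right _ _)) t ht⟩

end Claimed.Agent.R286
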