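import Claimed.Agent.R286.Sc.Bound
import Claimed.Agent.R286.Sc.Gen
import Claimed.Agent.R286.Sc.Mom
import Claimed.Agent.R286.Sc.MomG

/-!
# Row 286, scalar block, layer S3 (part 3): A1, moments of `Z_t` (S3.4), increments, expansions at the origin of time
OWNER: helper92 (unit `Sc/Bound*.lean`).   0 sorry.   Every constant is free of the partition.
Plan: `origin/helper95:notes/R286/B03_helper95.md` S3.4, `origin/helper36:notes/R286/B03_adv_36.md` A1.
* A (steps) `scb_w_ge_al`, `scb_LC_w_ge_al`;  D (general `α`, with the VALUE `α t`) `scb_aw_ge_al`, `scb_LC_aw_ge_al` (= middle inequality of `sc_x_w`).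
* B `scb_dynkin_le`, `scb_Pt_exp_le` (exponential supersolutions), `scb_Pt_cosh_le` (exponential moments), `sc_E_exp_lin`, `sc_E_cosh`.
* C `scb_mom`: `E[(Z_t - z)^{2j} | Z_s = z] ≤ scbMomC a τ j (t - s)^j`.
* E `scb_dynkin_abs_le`, `scb_Pt_abs_le_of`, `scb_Ex_cont`, `scb_mom2`, `scb_incr` (`C²` tests), `scb_incr_lip` (Lipschitz tests).
* F transfer to general `α` (hypothesis = convergence of `scEx` along `scDy`): `scb_amom` (= `sc_x_mom`), `scb_amom2` (= `sc_x_mom2`).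
* G `scb_obs_bound`, `scb_M_bound`, `scb_M_lip` (jet polynomials, tau-free), `scb_exp_step`, `scb_exp_gen`, `scb_exp_contract` (= `sc_x_exp`).
-/

set_option autoImplicit false

namespace Claimed.Agent.R286

open MeasureTheory ProbabilityTheory Filter Topology Set

/-! ## A. (A1) the lower Riccati bound `α(t) (1 - u²) ≤ w` for nondecreasing masses -/

/-- one step of mass `m` keeps `m (1 - u²) ≤ w` (an identity for the variance, no Jensen) -/
theorem scb_step_ric_ge {F : ℝ → ℝ} (hF : ScB 2 F) {m : ℝ}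
    (h : ∀ z, m * (1 - deriv F z ^ 2) ≤ deriv (deriv F) z) (s z : ℝ) :
    m * (1 - deriv (scStep m s F) z ^ 2) ≤ deriv (deriv (scStep m s F)) z := by
  have hF1 : ScB 1 F := hF.of_succ
  have hu : ScE 0 (deriv F) := (hF.deriv_bd).of_succ.scE
  have hw : ScE 0 (deriv (deriv F)) := (hF.deriv_bd).deriv.scE
  have hu2 : ScE 0 (fun y => deriv F y ^ 2) := hu.pow 2
  rw [sc_step_deriv2 hF, sc_step_deriv hF1]
  have h1 : scTr m s F (fun y => m * (1 - deriv F y ^ 2)) z ≤ scTr m s F (deriv (deriv F)) z :=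
    sc_tr_mono hF1 (((ScE.const 0 1).sub hu2).const_mul m) hw h m s z
  have h2 : scTr m s F (fun y => m * (1 - deriv F y ^ 2)) z
      = m * (1 - scTr m s F (fun y => deriv F y ^ 2) z) := by
    rw [sc_tr_const_mul, sc_tr_sub hF1 (ScE.const 0 1) hu2, sc_tr_const hF1]
  nlinarith

/-- lists: every mass `m` below all the masses of the profile (and below the terminal one) is a lower Riccati constant -/
theorem scb_V_ric_ge {a : ℝ} {F : ℝ → ℝ} (h : ScAd a F) (hlow : ∀ z, a * (1 - deriv F z ^ 2) ≤ deriv (deriv F) z)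
    {π : List (ℝ × ℝ)} (hπ : ScAdm a π) (hi : ScInc π) {m : ℝ} (hma : m ≤ a) (hm : ∀ q ∈ π, m ≤ q.1) (z : ℝ) :
    m * (1 - deriv (scV F π) z ^ 2) ≤ deriv (deriv (scV F π)) z := by
  induction π generalizing m z with
  | nil =>
    have h1 : 0 ≤ 1 - deriv F z ^ 2 := by
      have := abs_le.1 (h.lip z)
      nlinarith
    exact (mul_le_mul_of_nonneg_right hma h1).trans (hlow z)
  | cons p π ih =>
    have hp := hπ p (by simp)
    have hπ1 : ScAdm a π := fun q hq => hπ q (by simp [hq])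
    have hi' := List.pairwise_cons.1 hi
    have h0 := scb_step_ric_ge ((h.scV hπ1).B 2) (fun y => ih hπ1 hi'.2 hp.2.1 hi'.1 y) p.2 z
    have h1 : 0 ≤ 1 - deriv (scV F (p :: π)) z ^ 2 := by
      have := abs_le.1 ((h.scV hπ).lip z)
      nlinarith
    exact (mul_le_mul_of_nonneg_right (hm p (by simp)) h1).trans h0

/-- **(A1)** `α(t) (1 - u(t,z)²) ≤ w(t,z)`, all times -/
theorem scb_w_ge_al {a : ℝ} {F : ℝ → ℝ} (h : ScAd a F) (hlow : ∀ z, a * (1 - deriv F z ^ 2) ≤ deriv (deriv F) z)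
    {π : List (ℝ × ℝ)} (hπ : ScAdm a π) (hi : ScInc π) (t z : ℝ) :
    scAl π t * (1 - scD 1 F π t z ^ 2) ≤ scD 2 F π t z := by
  rw [scD_one, scD_two]
  induction π generalizing t with
  | nil => simpa [scAl, scVt] using (h.pos z).le
  | cons p π ih =>
    have hp := hπ p (by simp)
    have hπ1 : ScAdm a π := fun q hq => hπ q (by simp [hq])
    have hi' := List.pairwise_cons.1 hi
    by_cases hc : p.2 ≤ t
    · simpa [scAl, scVt, hc] using ih hπ1 hi'.2 (t - p.2)
    · simpa [scAl, scVt, hc] using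
        scb_step_ric_ge ((h.scV hπ1).B 2) (fun y => scb_V_ric_ge h hlow hπ1 hi'.2 hp.2.1 hi'.1 y) (p.2 - t) z

/-- (A1) for the standard terminal datum -/
theorem scb_LC_w_ge_al {a : ℝ} (ha : 0 < a) {π : List (ℝ × ℝ)} (hπ : ScAdm a π) (hi : ScInc π) (t z : ℝ) :
    scAl π t * (1 - scD 1 (scLC a) π t z ^ 2) ≤ scD 2 (scLC a) π t z := by
  refine scb_w_ge_al (scb_LC_cont ha).ad (fun y => ?_) hπ hi t z
  rw [scb_LC_deriv2 ha.ne', scb_LC_deriv ha.ne']

/-! ## B. comparison in integrated form, exponential moments -/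

/-- Dynkin + an upper bound of the averaged generator -/
theorem scb_dynkin_le {F : ℝ → ℝ} (hF : ScBI F) {π : List (ℝ × ℝ)} (hπ : ScPos π) {s t : ℝ} (hs : 0 ≤ s) (hst : s ≤ t)
    (ht : t ≤ scLen π) {φ G : ℝ → ℝ → ℝ} (h : ScDyn F π s t φ G) {g : ℝ → ℝ} (hg : IntervalIntegrable g volume s t)
    (z : ℝ) (hG : ∀ r ∈ Ioo s t, ScE 0 (G r) → scPt F π s r (G r) z ≤ g r) :
    scPt F π s t (φ t) z - φ s z ≤ ∫ r in s..t, g r := by
  rw [sc_dynkin hF hπ hs hst ht h z]
  obtain ⟨S, hS, hE⟩ := scb_tp_scE h.gen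
  have hi := sc_dynkin_int hF hπ hs hst ht h z
  rw [intervalIntegral.integral_of_le hst, intervalIntegral.integral_of_le hst]
  refine integral_mono_ae ((intervalIntegrable_iff_integrableOn_Ioc_of_le hst).1 hi)
    ((intervalIntegrable_iff_integrableOn_Ioc_of_le hst).1 hg) ?_
  rw [Filter.EventuallyLE, ae_restrict_iff' measurableSet_Ioc]
  exact scb_ae_Ioo hS fun r hr hrS => hG r hr (hE r hr hrS)

theorem sc_E_exp_lin (n : ℕ) (k c : ℝ) : ScE n (fun y => k * Real.exp (c * y)) := by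
  induction n generalizing k with
  | zero =>
    refine ⟨by fun_prop, |k|, |c|, fun z => ?_⟩
    rw [abs_mul, abs_of_pos (Real.exp_pos _)]
    refine mul_le_mul_of_nonneg_left (Real.exp_le_exp.2 ?_) (abs_nonneg k)
    rw [← abs_mul]
    exact le_abs_self _
  | succ n ih =>
    have hd : ∀ y, HasDerivAt (fun y => k * Real.exp (c * y)) (k * c * Real.exp (c * y)) y := fun y => by
      have h1 : HasDerivAt (fun y : ℝ => c * y) c y := by simpa using (hasDerivAt_id y).const_mul c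
      exact (h1.exp.const_mul k).congr_deriv (by ring)
    refine ⟨by fun_prop, ?_, fun y => (hd y).differentiableAt, ?_⟩
    · refine ⟨|k|, |c|, fun z => ?_⟩
      rw [abs_mul, abs_of_pos (Real.exp_pos _)]
      refine mul_le_mul_of_nonneg_left (Real.exp_le_exp.2 ?_) (abs_nonneg k)
      rw [← abs_mul]
      exact le_abs_self _
    · rw [show deriv (fun y => k * Real.exp (c * y)) = fun y => k * c * Real.exp (c * y) from
        funext fun y => (hd y).deriv]
      exact ih (k * c)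

theorem sc_E_cosh (n : ℕ) (c : ℝ) : ScE n (fun y => Real.cosh (c * y)) := by
  have := (sc_E_exp_lin n (1 / 2) c).add (sc_E_exp_lin n (1 / 2) (-c))
  refine (congrArg (ScE n) (funext fun y => ?_)).mp this
  rw [Real.cosh_eq]
  ring_nf

/-- the exponential weight in time -/
theorem scb_dyn_expw (F : ℝ → ℝ) (π : List (ℝ × ℝ)) (s t κ : ℝ) :
    ScDyn F π s t (fun r _ => Real.exp (-(κ * (r - s)))) (fun r _ => -κ * Real.exp (-(κ * (r - s)))) := by
  refine sc_dyn_time F π (a := fun r => Real.exp (-(κ * (r - s)))) (a' := fun r => -κ * Real.exp (-(κ * (r - s))))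
    (Continuous.continuousOn (by fun_prop)) ?_ ⟨∅, finite_empty, fun r _ _ => ?_⟩
  · refine ScT.tp (ScT.of_time (Continuous.continuousOn (by fun_prop)) ?_ 0)
    exact (isCompact_Icc.exists_bound_of_continuousOn (f := fun r => -κ * Real.exp (-(κ * (r - s))))
      (Continuous.continuousOn (by fun_prop))).imp fun C hC r hr => by
        simpa [Real.norm_eq_abs] using hC r hr
  · have h1 : HasDerivAt (fun r : ℝ => -(κ * (r - s))) (-κ) r := by
      simpa using (((hasDerivAt_id r).sub_const s).const_mul κ).fun_neg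
    have h2 := h1.exp
    rwa [mul_comm] at h2

/-- `e^{-κ (r - s)} χ(y)` as a Dynkin test function -/
theorem scb_dyn_expw_space {F : ℝ → ℝ} (hF : ScBI F) {π : List (ℝ × ℝ)} (hπ : ScPos π) {s t : ℝ} (hs : 0 ≤ s)
    (ht : t ≤ scLen π) {χ : ℝ → ℝ} (hχ : ScE 2 χ) (κ : ℝ) :
    ScDyn F π s t (fun r y => Real.exp (-(κ * (r - s))) * χ y)
      (fun r y => Real.exp (-(κ * (r - s))) *
        (deriv (deriv χ) y / 2 + scAl π r * scD 1 F π r y * deriv χ y - κ * χ y)) := by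
  have := (scb_dyn_expw F π s t κ).mul (sc_dyn_space hF hπ hs ht hχ)
  refine (congrArg (ScDyn F π s t _) (funext fun r => funext fun y => ?_)).mp this
  have hd0 : deriv (fun _ : ℝ => Real.exp (-(κ * (r - s)))) y = 0 := by simp
  rw [hd0]
  ring

/-- **exponential supersolutions**: if `χ''/2 + m u χ' ≤ κ χ` for all `m ∈ [0,a]`, `|u| ≤ 1`, then `P_{s,t} χ ≤ e^{κ (t - s)} χ` -/
theorem scb_Pt_exp_le {a : ℝ} {F : ℝ → ℝ} (h : ScAd a F) {π : List (ℝ × ℝ)} (hπ : ScAdm a π)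
    {χ : ℝ → ℝ} (hχ : ScE 2 χ) {κ : ℝ}
    (hκ : ∀ m u y : ℝ, 0 ≤ m → m ≤ a → |u| ≤ 1 → deriv (deriv χ) y / 2 + m * u * deriv χ y ≤ κ * χ y)
    {s t : ℝ} (hs : 0 ≤ s) (hst : s ≤ t) (ht : t ≤ scLen π) (z : ℝ) :
    scPt F π s t χ z ≤ Real.exp (κ * (t - s)) * χ z := by
  have hsup := scb_super h.scBI hπ.pos hs hst ht (scb_dyn_expw_space h.scBI hπ.pos hs ht hχ κ) (fun r _ y => ?_) z
  · rw [sc_Pt_const_mul] at hsup
    simp only [sub_self, mul_zero, neg_zero, Real.exp_zero, one_mul] at hsup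
    have hE : 0 < Real.exp (κ * (t - s)) := Real.exp_pos _
    have e : Real.exp (κ * (t - s)) * Real.exp (-(κ * (t - s))) = 1 := by
      rw [← Real.exp_add]; simp
    calc scPt F π s t χ z = Real.exp (κ * (t - s)) * (Real.exp (-(κ * (t - s))) * scPt F π s t χ z) := by
          rw [← mul_assoc, e, one_mul]
      _ ≤ Real.exp (κ * (t - s)) * χ z := mul_le_mul_of_nonneg_left hsup hE.le
  · have hal := sc_Al_mem h.mass_pos.le hπ r
    have := hκ (scAl π r) (scD 1 F π r y) y hal.1 hal.2 (scb_u_abs_le h hπ r y)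
    exact mul_nonpos_of_nonneg_of_nonpos (Real.exp_pos _).le (by linarith)

/-- **exponential moments**, uniformly in the partition -/
theorem scb_Pt_cosh_le {a : ℝ} {F : ℝ → ℝ} (h : ScAd a F) {π : List (ℝ × ℝ)} (hπ : ScAdm a π) (c : ℝ)
    {s t : ℝ} (hs : 0 ≤ s) (hst : s ≤ t) (ht : t ≤ scLen π) (z : ℝ) :
    scPt F π s t (fun y => Real.cosh (c * y)) z ≤ Real.exp ((c ^ 2 / 2 + a * |c|) * (t - s)) * Real.cosh (c * z) := by
  have hd1 : ∀ y, HasDerivAt (fun y => Real.cosh (c * y)) (c * Real.sinh (c * y)) y := fun y => by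
    have h1 : HasDerivAt (fun y : ℝ => c * y) c y := by simpa using (hasDerivAt_id y).const_mul c
    exact ((Real.hasDerivAt_cosh (c * y)).comp y h1).congr_deriv (by ring)
  have hd2 : ∀ y, HasDerivAt (fun y => c * Real.sinh (c * y)) (c ^ 2 * Real.cosh (c * y)) y := fun y => by
    have h1 : HasDerivAt (fun y : ℝ => c * y) c y := by simpa using (hasDerivAt_id y).const_mul c
    exact (((Real.hasDerivAt_sinh (c * y)).comp y h1).const_mul c).congr_deriv (by ring)
  have e1 : deriv (fun y => Real.cosh (c * y)) = fun y => c * Real.sinh (c * y) := funext fun y => (hd1 y).deriv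
  have e2 : deriv (fun y => c * Real.sinh (c * y)) = fun y => c ^ 2 * Real.cosh (c * y) :=
    funext fun y => (hd2 y).deriv
  refine scb_Pt_exp_le h hπ (sc_E_cosh 2 c) (fun m u y hm hma hu => ?_) hs hst ht z
  rw [e1, e2]
  have hsc : |Real.sinh (c * y)| ≤ Real.cosh (c * y) := by
    rw [abs_le]
    constructor
    · have := Real.cosh_add_sinh (c * y)
      have h2 := Real.exp_pos (c * y)
      linarith
    · exact (Real.sinh_lt_cosh _).le
  have ha0 : 0 ≤ a := hm.trans hma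
  have h1 : m * u * (c * Real.sinh (c * y)) ≤ a * |c| * Real.cosh (c * y) := by
    calc m * u * (c * Real.sinh (c * y)) ≤ |m * u * (c * Real.sinh (c * y))| := le_abs_self _
      _ = m * |u| * (|c| * |Real.sinh (c * y)|) := by
          rw [abs_mul, abs_mul, abs_mul, abs_of_nonneg hm]
      _ ≤ a * 1 * (|c| * Real.cosh (c * y)) := by
          gcongr
      _ = a * |c| * Real.cosh (c * y) := by ring
  nlinarith

/-! ## C. (S3.4) centred moments `E[(Z_t - z)^{2j} | Z_s = z] ≤ C (t - s)^j` -/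

theorem sc_E_cpow (n : ℕ) (z : ℝ) (k : ℕ) : ScE n (fun y => (y - z) ^ k) := ((ScE.id n).sub (ScE.const n z)).pow k

theorem sc_cpow_deriv (z : ℝ) (k : ℕ) : deriv (fun y : ℝ => (y - z) ^ (k + 1)) = fun y => (k + 1 : ℝ) * (y - z) ^ k := by
  funext y
  simp

theorem sc_cpow_deriv2 (z : ℝ) (k : ℕ) :
    deriv (deriv (fun y : ℝ => (y - z) ^ (k + 2))) = fun y => (k + 2 : ℝ) * (k + 1) * (y - z) ^ k := by
  rw [sc_cpow_deriv z (k + 1)]
  funext y
  have h1 : deriv (fun y : ℝ => (y - z) ^ (k + 1)) y = (k + 1 : ℝ) * (y - z) ^ k := congrFun (sc_cpow_deriv z k) y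
  rw [deriv_const_mul_field, h1]
  push_cast
  ring

/-- the constants of the centred moments -/
noncomputable def scbMomC (a τ : ℝ) : ℕ → ℝ
  | 0 => 1
  | j + 1 => Real.exp ((j + 1) * a * τ) * (2 * j + 1 + a) * scbMomC a τ j

theorem scbMomC_nonneg {a : ℝ} (ha : 0 ≤ a) (τ : ℝ) (j : ℕ) : 0 ≤ scbMomC a τ j := by
  induction j with
  | zero => simp [scbMomC]
  | succ j ih =>
    simp only [scbMomC]
    positivity

/-- **(S3.4)** centred moments of the increments, uniformly in the partition and in the terminal datum -/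
theorem scb_mom {a : ℝ} {F : ℝ → ℝ} (h : ScAd a F) {π : List (ℝ × ℝ)} (hπ : ScAdm a π) {τ : ℝ} (j : ℕ)
    {s t : ℝ} (hs : 0 ≤ s) (hst : s ≤ t) (ht : t ≤ scLen π) (hτ : t - s ≤ τ) (z : ℝ) :
    scPt F π s t (fun y => (y - z) ^ (2 * j)) z ≤ scbMomC a τ j * (t - s) ^ j := by
  have ha : 0 ≤ a := h.mass_pos.le
  induction j generalizing t with
  | zero => simp [scbMomC, sc_Pt_const h.scBI]
  | succ j ih =>
    set κ : ℝ := (j + 1) * a with hκ
    have hχ : ScE 2 (fun y => (y - z) ^ (2 * j + 2)) := sc_E_cpow 2 z _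
    have hdyn := scb_dyn_expw_space h.scBI hπ.pos hs ht hχ κ
    set K : ℝ := (j + 1) * (2 * j + 1 + a) * scbMomC a τ j with hK
    have hg : IntervalIntegrable (fun r => K * (r - s) ^ j) volume s t :=
      Continuous.intervalIntegrable (by fun_prop) _ _
    have key := scb_dynkin_le h.scBI hπ.pos hs hst ht hdyn hg z (fun r hr hE => ?_)
    · -- conclusion
      have hint : ∫ r in s..t, K * (r - s) ^ j = (2 * j + 1 + a) * scbMomC a τ j * (t - s) ^ (j + 1) := by
        rw [intervalIntegral.integral_const_mul, intervalIntegral.integral_comp_sub_right (fun x => x ^ j) s,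
          integral_pow]
        simp only [sub_self, hK]
        have : (j + 1 : ℝ) ≠ 0 := by positivity
        field_simp
        ring
      rw [sc_Pt_const_mul, hint] at key
      simp only [sub_self, mul_zero, neg_zero, Real.exp_zero, one_mul] at key
      have h0 : (0 : ℝ) ^ (2 * j + 2) = 0 := by simp
      rw [h0, sub_zero] at key
      have hE : 0 < Real.exp (κ * (t - s)) := Real.exp_pos _
      have e : Real.exp (κ * (t - s)) * Real.exp (-(κ * (t - s))) = 1 := by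
        rw [← Real.exp_add]; simp
      have hC := scbMomC_nonneg ha τ j
      have hts : 0 ≤ t - s := sub_nonneg.2 hst
      have hEτ : Real.exp (κ * (t - s)) ≤ Real.exp ((j + 1) * a * τ) :=
        Real.exp_le_exp.2 (mul_le_mul_of_nonneg_left hτ (by positivity))
      have e2 : 2 * (j + 1) = 2 * j + 2 := by ring
      rw [e2]
      calc scPt F π s t (fun y => (y - z) ^ (2 * j + 2)) z
          = Real.exp (κ * (t - s)) * (Real.exp (-(κ * (t - s))) * scPt F π s t (fun y => (y - z) ^ (2 * j + 2)) z) := by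
            rw [← mul_assoc, e, one_mul]
        _ ≤ Real.exp (κ * (t - s)) * ((2 * j + 1 + a) * scbMomC a τ j * (t - s) ^ (j + 1)) :=
            mul_le_mul_of_nonneg_left key hE.le
        _ ≤ Real.exp ((j + 1) * a * τ) * ((2 * j + 1 + a) * scbMomC a τ j * (t - s) ^ (j + 1)) :=
            mul_le_mul_of_nonneg_right hEτ (by positivity)
        _ = scbMomC a τ (j + 1) * (t - s) ^ (j + 1) := by
            simp only [scbMomC]; ring
    · -- the averaged generator
      have hih := ih hr.1.le (hr.2.le.trans ht) (by linarith [hr.2])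
      have hE0 : ScE 0 (fun y => (j + 1) * (2 * j + 1 + a) * (y - z) ^ (2 * j)) := (sc_E_cpow 0 z _).const_mul _
      have hmono := sc_Pt_mono h.scBI hE hE0 (fun y => ?_) π s r z
      · rw [sc_Pt_const_mul F (fun y => (y - z) ^ (2 * j)) π s r ((j + 1) * (2 * j + 1 + a))] at hmono
        refine hmono.trans ?_
        rw [hK, mul_assoc ((j + 1 : ℝ) * (2 * j + 1 + a))]
        exact mul_le_mul_of_nonneg_left hih (by positivity)
      · rw [sc_cpow_deriv2 z (2 * j), sc_cpow_deriv z (2 * j + 1)]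
        have hal := sc_Al_mem ha hπ r
        have hu := abs_le.1 (scb_u_abs_le h hπ r y)
        set x := y - z
        set c := scAl π r * scD 1 F π r y with hc
        have hc1 : |c| ≤ a := by
          rw [hc, abs_mul, abs_of_nonneg hal.1]
          calc scAl π r * |scD 1 F π r y| ≤ a * 1 :=
                mul_le_mul hal.2 (scb_u_abs_le h hπ r y) (abs_nonneg _) ha
            _ = a := mul_one a
        have hcx : c * x ≤ a * (1 + x ^ 2) / 2 := by
          have h1 : c * x ≤ |c| * |x| := by rw [← abs_mul]; exact le_abs_self _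
          have h2 : |c| * |x| ≤ a * |x| := mul_le_mul_of_nonneg_right hc1 (abs_nonneg x)
          have h3 : |x| ≤ (1 + x ^ 2) / 2 := by
            have := sq_nonneg (|x| - 1)
            rw [sub_sq, sq_abs] at this
            linarith
          nlinarith
        have hw : 0 ≤ x ^ (2 * j) := by rw [pow_mul]; positivity
        have hexp1 : Real.exp (-(κ * (r - s))) ≤ 1 := by
          apply Real.exp_le_one_iff.2
          have : 0 ≤ κ * (r - s) := mul_nonneg (by positivity) (by linarith [hr.1])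
          linarith
        have hexp0 : 0 < Real.exp (-(κ * (r - s))) := Real.exp_pos _
        have hmain : ((2 * j : ℕ) + 2 : ℝ) * ((2 * j : ℕ) + 1) * x ^ (2 * j) / 2
            + c * (((2 * j + 1 : ℕ) + 1 : ℝ) * x ^ (2 * j + 1)) - κ * x ^ (2 * j + 2)
            ≤ (j + 1) * (2 * j + 1 + a) * x ^ (2 * j) := by
          have e1 : x ^ (2 * j + 1) = x ^ (2 * j) * x := pow_succ _ _
          have e2 : x ^ (2 * j + 2) = x ^ (2 * j) * x ^ 2 := pow_add _ _ _
          rw [e1, e2, hκ]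
          push_cast
          have := mul_le_mul_of_nonneg_left hcx (mul_nonneg (by positivity : (0:ℝ) ≤ 2 * (j + 1)) hw)
          nlinarith
        have hR : 0 ≤ (j + 1) * (2 * j + 1 + a) * x ^ (2 * j) := by positivity
        calc _ ≤ Real.exp (-(κ * (r - s))) * ((j + 1) * (2 * j + 1 + a) * x ^ (2 * j)) :=
              mul_le_mul_of_nonneg_left hmain hexp0.le
          _ ≤ 1 * ((j + 1) * (2 * j + 1 + a) * x ^ (2 * j)) := mul_le_mul_of_nonneg_right hexp1 hR
          _ = _ := one_mul _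

/-! ## D. (A1) for a general coefficient -/

/-- **(A1)** `α(t) (1 - u²) ≤ w` for a general monotone coefficient, with the VALUE `α t` (not a one-sided limit):
shift the origin of time to `t`; the first cell of the dyadic approximant then has the mass `α t`. -/
theorem scb_aw_ge_al {a : ℝ} {F : ℝ → ℝ} (h : ScAd a F) (hlow : ∀ z, a * (1 - deriv F z ^ 2) ≤ deriv (deriv F) z)
    {τ : ℝ} {α : ℝ → ℝ} (hα : ScCoef a τ α) {t : ℝ} (ht : t ∈ Icc 0 τ) (z : ℝ) :
    α t * (1 - scaD 1 F α τ t z ^ 2) ≤ scaD 2 F α τ t z := by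
  have hτ : 0 ≤ τ := ht.1.trans ht.2
  rcases eq_or_lt_of_le ht.2 with rfl | hlt
  · rw [scg_aD_of_le 1 F α hτ le_rfl, scg_aD_of_le 2 F α hτ le_rfl]
    have h1 : 0 ≤ 1 - deriv F z ^ 2 := by
      have := abs_le.1 (h.lip z)
      nlinarith
    exact (mul_le_mul_of_nonneg_right (hα.2 t ht).2 h1).trans (hlow z)
  · set β : ℝ → ℝ := fun r => α (t + r) with hβdef
    have hτ' : 0 < τ - t := sub_pos.2 hlt
    have hβ : ScCoef a (τ - t) β := by
      refine ⟨fun x hx y hy hxy => hα.1 ⟨by linarith [hx.1, ht.1], by linarith [hx.2]⟩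
        ⟨by linarith [hy.1, ht.1], by linarith [hy.2]⟩ (by linarith), fun r hr => hα.2 _ ⟨by linarith [hr.1, ht.1], by linarith [hr.2]⟩⟩
    have hsh : scVa F β (τ - t) 0 = scVa F α τ t := by
      have := scg_shift h.B hα ht.1 ht.2 (le_refl (0 : ℝ))
      rwa [add_zero] at this
    have e : ∀ k, scaD k F α τ t = scaD k F β (τ - t) 0 := fun k => by
      unfold scaD
      rw [hsh]
    rw [e 1, e 2]
    have hal : ∀ n, scAl (scDy β (τ - t) n) 0 = α t := by
      intro n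
      have hh : 0 < (τ - t) / 2 ^ n := by positivity
      have := sc_dy_al_cell β (τ - t) n 0 (by positivity) (t := 0) (by simp) (by simpa using hh)
      rw [this]
      simp [hβdef]
    refine le_of_tendsto_of_tendsto
      ((tendsto_const_nhds.sub ((scg_dy_tendsto h.B hτ'.le hβ 1 le_rfl z).pow 2)).const_mul (α t))
      (scg_dy_tendsto h.B hτ'.le hβ 2 le_rfl z) (Eventually.of_forall fun n => ?_)
    have := scb_w_ge_al h hlow (sc_dy_adm hτ'.le hβ n) (sc_dy_inc hτ'.le hβ n) 0 z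
    rwa [hal n] at this

/-- (A1), standard terminal datum (second inequality of `sc_x_w`) -/
theorem scb_LC_aw_ge_al {a τ : ℝ} (ha : 0 < a) {α : ℝ → ℝ} (hα : ScCoef a τ α) {t : ℝ} (ht : t ∈ Icc 0 τ) (z : ℝ) :
    α t * (1 - scaD 1 (scLC a) α τ t z ^ 2) ≤ scaD 2 (scLC a) α τ t z := by
  refine scb_aw_ge_al (scb_LC_cont ha).ad (fun y => ?_) hα ht z
  rw [scb_LC_deriv2 ha.ne', scb_LC_deriv ha.ne']

/-! ## E. second moment, increments -/

/-- Dynkin + a bound of the modulus of the averaged generator -/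
theorem scb_dynkin_abs_le {F : ℝ → ℝ} (hF : ScBI F) {π : List (ℝ × ℝ)} (hπ : ScPos π) {s t : ℝ} (hs : 0 ≤ s)
    (hst : s ≤ t) (ht : t ≤ scLen π) {φ G : ℝ → ℝ → ℝ} (h : ScDyn F π s t φ G) {g : ℝ → ℝ}
    (hg : IntervalIntegrable g volume s t) (z : ℝ)
    (hG : ∀ r ∈ Ioo s t, ScE 0 (G r) → |scPt F π s r (G r) z| ≤ g r) :
    |scPt F π s t (φ t) z - φ s z| ≤ ∫ r in s..t, g r := by
  rw [sc_dynkin hF hπ hs hst ht h z]
  obtain ⟨S, hS, hE⟩ := scb_tp_scE h.gen
  rw [← Real.norm_eq_abs]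
  refine intervalIntegral.norm_integral_le_of_norm_le hst ?_ hg
  refine scb_ae_Ioo hS fun r hr hrS => ?_
  rw [Real.norm_eq_abs]
  exact hG r hr (hE r hr hrS)

/-- two-sided domination under the kernel -/
theorem scb_Pt_abs_le_of {F φ ψ : ℝ → ℝ} (hF : ScBI F) (hφ : ScE 0 φ) (hψ : ScE 0 ψ) (h : ∀ y, |φ y| ≤ ψ y)
    (π : List (ℝ × ℝ)) (s t z : ℝ) : |scPt F π s t φ z| ≤ scPt F π s t ψ z := by
  rw [abs_le]
  constructor
  · have := sc_Pt_mono hF hψ.neg hφ (fun y => (abs_le.1 (h y)).1) π s t z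
    have e : (fun y => - ψ y) = fun y => (-1 : ℝ) * ψ y := by funext y; ring
    rw [e, sc_Pt_const_mul] at this
    linarith
  · exact sc_Pt_mono hF hφ hψ (fun y => (abs_le.1 (h y)).2) π s t z

/-- continuity in the time of the moments -/
theorem scb_Ex_cont {F : ℝ → ℝ} (hF : ScBI F) {π : List (ℝ × ℝ)} (hπ : ScPos π) {φ : ℝ → ℝ} (hφ : ScE 0 φ) (t : ℝ) :
    ContinuousOn (fun r => scEx F π r φ) (Icc 0 t) :=
  sc_dynkin_continuousOn hF hπ le_rfl (hφ.scT _) 0

/-- **(S3.4)** the second moment when the mass is small: `|E Z_t² - t| ≤ 2 a A ∫_0^t E Z_r² dr` if `α ≤ A` on `(0, t)` -/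
theorem scb_mom2 {a : ℝ} {F : ℝ → ℝ} (h : ScAd a F) {π : List (ℝ × ℝ)} (hπ : ScAdm a π) {t A : ℝ} (h0 : 0 ≤ t)
    (ht : t ≤ scLen π) (hA : ∀ r ∈ Ioo 0 t, scAl π r ≤ A) :
    |scEx F π t (fun y => y ^ 2) - t| ≤ 2 * a * A * ∫ r in (0 : ℝ)..t, scEx F π r (fun y => y ^ 2) := by
  have ha : 0 ≤ a := h.mass_pos.le
  have hsq : ScE 2 (fun y : ℝ => y ^ 2) := (ScE.id 2).pow 2
  have hsq0 : ScE 0 (fun y : ℝ => y ^ 2) := (ScE.id 0).pow 2
  have d1 : deriv (fun y : ℝ => y ^ 2) = fun y => 2 * y := by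
    funext y; simp
  have d2 : deriv (deriv (fun y : ℝ => y ^ 2)) = fun _ => 2 := by
    rw [d1]; funext y
    simp
  have hT : ScDyn F π 0 t (fun r _ => r) (fun _ _ => 1) :=
    sc_dyn_time F π (a := fun r => r) (a' := fun _ => 1) continuousOn_id (ScT.tp ((ScE.const 0 1).scT _))
      ⟨∅, finite_empty, fun r _ _ => hasDerivAt_id r⟩
  have hdyn := (sc_dyn_space h.scBI hπ.pos le_rfl ht hsq).sub hT
  have hg : IntervalIntegrable (fun r => 2 * a * A * scEx F π r (fun y => y ^ 2)) volume 0 t :=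
    ((scb_Ex_cont h.scBI hπ.pos hsq0 t).intervalIntegrable_of_Icc h0).const_mul _
  have key := scb_dynkin_abs_le h.scBI hπ.pos le_rfl h0 ht hdyn hg 0 (fun r hr hE => ?_)
  · rw [intervalIntegral.integral_const_mul, sc_Pt_sub h.scBI hsq0 (ScE.const 0 t), sc_Pt_const h.scBI] at key
    simpa [scEx] using key
  · have hb := scb_Pt_abs_le_of h.scBI hE (hsq0.const_mul (2 * a * A)) (fun y => ?_) π 0 r 0
    · rw [sc_Pt_const_mul] at hb
      exact hb
    · rw [d2, d1]
      have hal := sc_Al_mem ha hπ r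
      have hu := scb_u_abs_le_mul h hπ r y
      have e : (2 : ℝ) / 2 + scAl π r * scD 1 F π r y * (2 * y) - 1 = 2 * (scAl π r * (scD 1 F π r y * y)) := by ring
      rw [e, abs_mul, abs_mul, abs_mul, abs_of_nonneg hal.1, abs_of_pos (two_pos : (0:ℝ) < 2)]
      have h1 : |scD 1 F π r y| * |y| ≤ a * y ^ 2 := by
        calc |scD 1 F π r y| * |y| ≤ a * |y| * |y| := mul_le_mul_of_nonneg_right hu (abs_nonneg y)
          _ = a * y ^ 2 := by rw [mul_assoc, ← abs_mul, ← sq, abs_of_nonneg (sq_nonneg y)]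
      have h2 : scAl π r * (|scD 1 F π r y| * |y|) ≤ A * (a * y ^ 2) :=
        mul_le_mul (hA r hr) h1 (by positivity) (hal.1.trans (hA r hr))
      nlinarith

/-- **increments of the kernel** on `C²` tests with bounded derivatives -/
theorem scb_incr {a : ℝ} {F : ℝ → ℝ} (h : ScAd a F) {π : List (ℝ × ℝ)} (hπ : ScAdm a π) {φ : ℝ → ℝ} (hφ : ScE 2 φ)
    {K1 K2 : ℝ} (h1 : ∀ y, |deriv φ y| ≤ K1) (h2 : ∀ y, |deriv (deriv φ) y| ≤ K2) {s t : ℝ} (hs : 0 ≤ s) (hst : s ≤ t)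
    (ht : t ≤ scLen π) (z : ℝ) : |scPt F π s t φ z - φ z| ≤ (K2 / 2 + a * K1) * (t - s) := by
  have ha : 0 ≤ a := h.mass_pos.le
  have key := scb_duhamel h.scBI hπ.pos hs hst ht (sc_dyn_space h.scBI hπ.pos hs ht hφ)
    (g := fun _ => K2 / 2 + a * K1) intervalIntegrable_const (fun r _ y => ?_) z
  · rw [intervalIntegral.integral_const, smul_eq_mul, mul_comm] at key
    exact key
  · have hal := sc_Al_mem ha hπ r
    have hu := scb_u_abs_le h hπ r y
    have hK1 : 0 ≤ K1 := (abs_nonneg _).trans (h1 y)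
    calc |deriv (deriv φ) y / 2 + scAl π r * scD 1 F π r y * deriv φ y|
        ≤ |deriv (deriv φ) y / 2| + |scAl π r * scD 1 F π r y * deriv φ y| := abs_add_le _ _
      _ = |deriv (deriv φ) y| / 2 + scAl π r * |scD 1 F π r y| * |deriv φ y| := by
          rw [abs_div, abs_mul, abs_mul, abs_of_nonneg hal.1, abs_of_pos (two_pos : (0:ℝ) < 2)]
      _ ≤ K2 / 2 + a * 1 * K1 := by
          gcongr
          · exact h2 y
          · exact hal.2
          · exact h1 y
      _ = K2 / 2 + a * K1 := by ring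

/-- increments on Lipschitz tests: `|P_{s,t} φ(z) - φ(z)| ≤ L √(C (t - s))` -/
theorem scb_incr_lip {a : ℝ} {F : ℝ → ℝ} (h : ScAd a F) {π : List (ℝ × ℝ)} (hπ : ScAdm a π) {φ : ℝ → ℝ} (hφ : ScE 0 φ)
    {L : ℝ} (hL : ∀ x y, |φ x - φ y| ≤ L * |x - y|) {τ s t : ℝ} (hs : 0 ≤ s) (hst : s ≤ t)
    (ht : t ≤ scLen π) (hτ : t - s ≤ τ) (z : ℝ) :
    |scPt F π s t φ z - φ z| ≤ L * Real.sqrt (scbMomC a τ 1 * (t - s)) := by
  have hL0 : 0 ≤ L := by
    have := hL 1 0
    simp only [sub_zero, abs_one, mul_one] at this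
    exact (abs_nonneg _).trans this
  have hc : ScE 0 (fun y => φ y - φ z) := hφ.sub (ScE.const 0 _)
  have e1 : scPt F π s t φ z - φ z = scPt F π s t (fun y => φ y - φ z) z := by
    rw [sc_Pt_sub h.scBI hφ (ScE.const 0 _), sc_Pt_const h.scBI]
  have hJ := sc_Pt_sq_le h.scBI hc π s t z
  have hm := sc_Pt_mono h.scBI (hc.pow 2) ((sc_E_cpow 0 z 2).const_mul (L ^ 2)) (fun y => ?_) π s t z
  · rw [sc_Pt_const_mul] at hm
    have hmom := scb_mom h hπ 1 hs hst ht hτ z
    simp only [mul_one, pow_one] at hmom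
    rw [e1]
    have h3 : scPt F π s t (fun y => φ y - φ z) z ^ 2 ≤ L ^ 2 * (scbMomC a τ 1 * (t - s)) :=
      hJ.trans (hm.trans (mul_le_mul_of_nonneg_left hmom (sq_nonneg L)))
    have h4 := Real.abs_le_sqrt h3
    rwa [Real.sqrt_mul (sq_nonneg L), Real.sqrt_sq hL0] at h4
  · have := hL y z
    rw [← sq_abs (φ y - φ z), ← sq_abs (y - z), ← mul_pow]
    exact pow_le_pow_left₀ (abs_nonneg _) this 2

/-! ## F. the moments of `Z_t` for a general coefficient (transfer; the hypothesis is the convergence along `scDy`) -/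

/-- `sc_x_mom` -/
theorem scb_amom {a : ℝ} {F : ℝ → ℝ} (h : ScAd a F) {τ : ℝ} {α : ℝ → ℝ} (hα : ScCoef a τ α) (j : ℕ) {t : ℝ}
    (ht : t ∈ Icc 0 τ)
    (hlim : Tendsto (fun n => scEx F (scDy α τ n) t (fun z => z ^ (2 * j))) atTop
      (𝓝 (scaEx F α τ t (fun z => z ^ (2 * j))))) :
    scaEx F α τ t (fun z => z ^ (2 * j)) ≤ scbMomC a τ j * t ^ j := by
  have hτ : 0 ≤ τ := ht.1.trans ht.2
  refine le_of_tendsto' hlim fun n => ?_
  have := scb_mom h (sc_dy_adm hτ hα n) (τ := τ) j le_rfl ht.1 (by rw [sc_dy_len]; exact ht.2) (by linarith [ht.2]) 0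
  simpa [scEx] using this

/-- the step form along the dyadic approximants -/
theorem scb_mom2_dy {a : ℝ} {F : ℝ → ℝ} (h : ScAd a F) {τ : ℝ} {α : ℝ → ℝ} (hα : ScCoef a τ α) {t : ℝ}
    (ht : t ∈ Icc 0 τ) (n : ℕ) :
    |scEx F (scDy α τ n) t (fun y => y ^ 2) - t|
      ≤ 2 * a * α t * ∫ r in (0 : ℝ)..t, scEx F (scDy α τ n) r (fun y => y ^ 2) := by
  have hτ : 0 ≤ τ := ht.1.trans ht.2
  refine scb_mom2 h (sc_dy_adm hτ hα n) ht.1 (by rw [sc_dy_len]; exact ht.2) (fun r hr => ?_)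
  have hr' : r ∈ Ico 0 τ := ⟨hr.1.le, hr.2.trans_le ht.2⟩
  exact (sc_dy_al_le hα n hr').trans (hα.1 ⟨hr'.1, hr'.2.le⟩ ht hr.2.le)

/-- `sc_x_mom2` -/
theorem scb_amom2 {a : ℝ} {F : ℝ → ℝ} (h : ScAd a F) {τ : ℝ} {α : ℝ → ℝ} (hα : ScCoef a τ α) {t : ℝ}
    (ht : t ∈ Icc 0 τ)
    (hlim : ∀ r ∈ Icc 0 t, Tendsto (fun n => scEx F (scDy α τ n) r (fun z => z ^ 2)) atTop
      (𝓝 (scaEx F α τ r (fun z => z ^ 2)))) :
    |scaEx F α τ t (fun z => z ^ 2) - t| ≤ 2 * a * α t * ∫ r in (0 : ℝ)..t, scaEx F α τ r (fun z => z ^ 2) := by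
  have hτ : 0 ≤ τ := ht.1.trans ht.2
  have hsq0 : ScE 0 (fun y : ℝ => y ^ 2) := (ScE.id 0).pow 2
  have hC := scbMomC_nonneg h.mass_pos.le τ 1
  have hI : Tendsto (fun n => ∫ r in (0 : ℝ)..t, scEx F (scDy α τ n) r (fun y => y ^ 2)) atTop
      (𝓝 (∫ r in (0 : ℝ)..t, scaEx F α τ r (fun z => z ^ 2))) := by
    refine intervalIntegral.tendsto_integral_filter_of_dominated_convergence (fun _ => scbMomC a τ 1 * τ)
      (Eventually.of_forall fun n => ?_) (Eventually.of_forall fun n => Eventually.of_forall fun r hr => ?_)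
      intervalIntegrable_const (Eventually.of_forall fun r hr => ?_)
    · rw [uIoc_of_le ht.1]
      exact ((scb_Ex_cont h.scBI (sc_dy_adm hτ hα n).pos hsq0 t).mono Ioc_subset_Icc_self).aestronglyMeasurable
        measurableSet_Ioc
    · rw [uIoc_of_le ht.1] at hr
      have h0 : 0 ≤ scEx F (scDy α τ n) r (fun y => y ^ 2) :=
        sc_Pt_nonneg h.scBI hsq0 (fun y => sq_nonneg y) _ 0 r 0
      rw [Real.norm_eq_abs, abs_of_nonneg h0]
      have := scb_mom h (sc_dy_adm hτ hα n) (τ := τ) 1 le_rfl hr.1.le (by rw [sc_dy_len]; exact hr.2.trans ht.2)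
        (by linarith [hr.2, ht.2]) 0
      simp only [sub_zero, mul_one, pow_one] at this
      exact this.trans (mul_le_mul_of_nonneg_left (hr.2.trans ht.2) hC)
    · rw [uIoc_of_le ht.1] at hr
      exact hlim r ⟨hr.1.le, hr.2⟩
  exact le_of_tendsto_of_tendsto ((hlim t ⟨ht.1, le_rfl⟩).sub_const t).abs (hI.const_mul _)
    (Eventually.of_forall fun n => scb_mom2_dy h hα ht n)

/-! ## G. expansions of the moment curves at the origin of time -/

/-- observables are bounded, uniformly in the (nondecreasing) profile, its length, the time -/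
theorem scb_obs_bound {a : ℝ} (ha : 0 ≤ a) {F : ℝ → ℝ} (hF : ScBI F) (p : MvPolynomial ℕ ℝ) :
    ∃ B : ℝ, 0 ≤ B ∧ ∀ π, ScAdm a π → ScInc π → ∀ r y, |scmObs p F π r y| ≤ B := by
  obtain ⟨C, _, hb⟩ := scg_bounds ha hF
  obtain ⟨B, hB, hp⟩ := scmk_eval_bd (fun k => C (k + 1)) p
  exact ⟨B, hB, fun π hπ hi r y => hp _ fun k => hb π hπ hi (k + 1) (by omega) r y⟩

theorem scb_M_bound {a : ℝ} (ha : 0 ≤ a) {F : ℝ → ℝ} (hF : ScBI F) (p : MvPolynomial ℕ ℝ) :
    ∃ B : ℝ, 0 ≤ B ∧ ∀ π, ScAdm a π → ScInc π → ∀ t, |scmM p F π t| ≤ B := by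
  obtain ⟨B, hB, hb⟩ := scb_obs_bound ha hF p
  exact ⟨B, hB, fun π hπ hi t =>
    sc_Pt_abs_le hF (scm_obs_Bd hF p π t 0).scE.continuous (hb π hπ hi t) π 0 t 0⟩

/-- every moment curve is Lipschitz in the time, uniformly in the profile -/
theorem scb_M_lip {a : ℝ} (ha : 0 ≤ a) {F : ℝ → ℝ} (hF : ScBI F) (p : MvPolynomial ℕ ℝ) :
    ∃ L : ℝ, 0 ≤ L ∧ ∀ π, ScAdm a π → ScInc π → ∀ s t, 0 ≤ s → s ≤ t → t ≤ scLen π →
      |scmM p F π t - scmM p F π s| ≤ L * (t - s) := by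
  obtain ⟨B1, hB1, hb1⟩ := scb_M_bound ha hF (scmQ p)
  obtain ⟨B2, hB2, hb2⟩ := scb_M_bound ha hF (scmR p)
  refine ⟨B1 + a * B2, by positivity, fun π hπ hi s t hs hst ht => ?_⟩
  rw [scm_moment hF hπ.pos p hs hst ht, ← Real.norm_eq_abs]
  have := intervalIntegral.norm_integral_le_of_norm_le_const (a := s) (b := t) (C := B1 + a * B2)
    (f := fun r => scmM (scmQ p) F π r + scAl π r * scmM (scmR p) F π r) (fun r _ => ?_)
  · rwa [abs_of_nonneg (sub_nonneg.2 hst)] at this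
  · have hal := sc_Al_mem ha hπ r
    rw [Real.norm_eq_abs]
    calc |scmM (scmQ p) F π r + scAl π r * scmM (scmR p) F π r|
        ≤ |scmM (scmQ p) F π r| + |scAl π r * scmM (scmR p) F π r| := abs_add_le _ _
      _ = |scmM (scmQ p) F π r| + scAl π r * |scmM (scmR p) F π r| := by rw [abs_mul, abs_of_nonneg hal.1]
      _ ≤ B1 + a * B2 := add_le_add (hb1 π hπ hi r) (mul_le_mul hal.2 (hb2 π hπ hi r) (abs_nonneg _) ha)

/-- **expansions at `t = 0`, step form**, constants free of the profile and of its length: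
`E v₃² = v₄(0,0)² t + O(t²)`, `E w³ = w(0,0)³ + O(t)`, `E w² = w(0,0)² + O(t)` -/
theorem scb_exp_step {a : ℝ} {F : ℝ → ℝ} (h : ScAd a F) :
    ∃ C : ℝ, 0 ≤ C ∧ ∀ π, ScAdm a π → ScInc π → ∀ t, 0 ≤ t → t ≤ scLen π →
      |scN3 F π t - scD 4 F π 0 0 ^ 2 * t| ≤ C * t ^ 2 ∧ |scM3 F π t - scD 2 F π 0 0 ^ 3| ≤ C * t ∧
      |scM2 F π t - scD 2 F π 0 0 ^ 2| ≤ C * t := by
  have ha : 0 ≤ a := h.mass_pos.le
  have hF := h.scBI
  obtain ⟨L2, hL2, l2⟩ := scb_M_lip ha hF (MvPolynomial.X 1 ^ 2)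
  obtain ⟨L3, hL3, l3⟩ := scb_M_lip ha hF (MvPolynomial.X 1 ^ 3)
  obtain ⟨L4, hL4, l4⟩ := scb_M_lip ha hF (MvPolynomial.X 3 ^ 2)
  obtain ⟨L13, hL13, l13⟩ := scb_M_lip ha hF (MvPolynomial.X 1 * MvPolynomial.X 2 ^ 2)
  refine ⟨L2 + L3 + (L4 + 6 * a * L13), by positivity, fun π hπ hi t h0 ht => ?_⟩
  have hv3 : scD 3 F π 0 0 = 0 := scb_D_odd_zero h.cont π 1 0
  have z2 : scmM (MvPolynomial.X 1 ^ 2) F π 0 = scD 2 F π 0 0 ^ 2 := by
    rw [scm_M_zero, scm_obs_pow, scm_obs_X]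
  have z3 : scmM (MvPolynomial.X 1 ^ 3) F π 0 = scD 2 F π 0 0 ^ 3 := by
    rw [scm_M_zero, scm_obs_pow, scm_obs_X]
  have z4 : scmM (MvPolynomial.X 3 ^ 2) F π 0 = scD 4 F π 0 0 ^ 2 := by
    rw [scm_M_zero, scm_obs_pow, scm_obs_X]
  have zN : scmM (MvPolynomial.X 2 ^ 2) F π 0 = 0 := by
    rw [scm_M_zero, scm_obs_pow, scm_obs_X]
    show scD 3 F π 0 0 ^ 2 = 0
    rw [hv3]; simp
  have z13 : scmM (MvPolynomial.X 1 * MvPolynomial.X 2 ^ 2) F π 0 = 0 := by
    rw [scm_M_zero, scm_obs_mul, scm_obs_pow, scm_obs_X, scm_obs_X]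
    show scD 2 F π 0 0 * scD 3 F π 0 0 ^ 2 = 0
    rw [hv3]; simp
  refine ⟨?_, ?_, ?_⟩
  · -- `N3`
    have hN := scm_N3 hF hπ.pos le_rfl h0 ht
    have hint : IntervalIntegrable (fun r => scN4 F π r - 6 * scAl π r * scM13 F π r) volume 0 t := by
      have := scm_moment_int hF hπ.pos (MvPolynomial.X 2 ^ 2) le_rfl h0 ht
      rw [scm_alg_v32.1, scm_alg_v32.2] at this
      refine this.congr fun r _ => ?_
      show scmM (MvPolynomial.X 3 ^ 2) F π r
        + scAl π r * scmM (-(MvPolynomial.C 6 * (MvPolynomial.X 1 * MvPolynomial.X 2 ^ 2))) F π r = _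
      rw [scm_M_neg, scm_M_C_mul, scm_N4_eq, scm_M13_eq]; ring
    have e0 : scN3 F π 0 = 0 := by rw [scm_N3_eq]; exact zN
    have e1 : scN3 F π t - scD 4 F π 0 0 ^ 2 * t
        = ∫ r in (0 : ℝ)..t, ((scN4 F π r - 6 * scAl π r * scM13 F π r) - scD 4 F π 0 0 ^ 2) := by
      rw [intervalIntegral.integral_sub hint intervalIntegrable_const, ← hN, e0,
        intervalIntegral.integral_const, smul_eq_mul]
      ring
    have hg : IntervalIntegrable (fun r : ℝ => (L4 + 6 * a * L13) * r) volume 0 t :=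
      Continuous.intervalIntegrable (by fun_prop) _ _
    rw [e1, ← Real.norm_eq_abs]
    refine (intervalIntegral.norm_integral_le_of_norm_le h0 (Eventually.of_forall fun r hr => ?_) hg).trans ?_
    · have hal := sc_Al_mem ha hπ r
      have b4 := l4 π hπ hi 0 r le_rfl hr.1.le (hr.2.trans ht)
      have b13 := l13 π hπ hi 0 r le_rfl hr.1.le (hr.2.trans ht)
      rw [z4, sub_zero] at b4
      rw [z13, sub_zero, sub_zero] at b13
      rw [Real.norm_eq_abs, scm_N4_eq, scm_M13_eq]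
      have hr0 : 0 ≤ r := hr.1.le
      calc |scmM (MvPolynomial.X 3 ^ 2) F π r
              - 6 * scAl π r * scmM (MvPolynomial.X 1 * MvPolynomial.X 2 ^ 2) F π r - scD 4 F π 0 0 ^ 2|
          = |(scmM (MvPolynomial.X 3 ^ 2) F π r - scD 4 F π 0 0 ^ 2)
              - 6 * scAl π r * scmM (MvPolynomial.X 1 * MvPolynomial.X 2 ^ 2) F π r| := by congr 1; ring
        _ ≤ |scmM (MvPolynomial.X 3 ^ 2) F π r - scD 4 F π 0 0 ^ 2|
              + |6 * scAl π r * scmM (MvPolynomial.X 1 * MvPolynomial.X 2 ^ 2) F π r| := abs_sub _ _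
        _ = |scmM (MvPolynomial.X 3 ^ 2) F π r - scD 4 F π 0 0 ^ 2|
              + 6 * scAl π r * |scmM (MvPolynomial.X 1 * MvPolynomial.X 2 ^ 2) F π r| := by
            rw [abs_mul, abs_mul, abs_of_nonneg hal.1, abs_of_pos (by norm_num : (0:ℝ) < 6)]
        _ ≤ L4 * r + 6 * a * (L13 * r) := by
            refine add_le_add b4 (mul_le_mul ?_ b13 (abs_nonneg _) (by positivity))
            linarith [hal.2]
        _ = (L4 + 6 * a * L13) * r := by ring
    · rw [intervalIntegral.integral_const_mul, integral_id]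
      have ht2 : 0 ≤ t ^ 2 := sq_nonneg t
      nlinarith [mul_nonneg hL2 ht2, mul_nonneg hL3 ht2, mul_nonneg (by positivity : 0 ≤ L4 + 6 * a * L13) ht2]
  · have := l3 π hπ hi 0 t le_rfl h0 ht
    rw [z3, sub_zero] at this
    rw [scm_M3_eq]
    refine this.trans (mul_le_mul_of_nonneg_right ?_ h0)
    nlinarith [mul_nonneg ha hL13]
  · have := l2 π hπ hi 0 t le_rfl h0 ht
    rw [z2, sub_zero] at this
    rw [scm_M2_eq]
    refine this.trans (mul_le_mul_of_nonneg_right ?_ h0)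
    nlinarith [mul_nonneg ha hL13]

/-- `sc_x_exp` (transfer; the hypotheses are the convergences of the three curves along `scDy`) -/
theorem scb_exp_gen {a : ℝ} {F : ℝ → ℝ} (h : ScAd a F) :
    ∃ C : ℝ, 0 ≤ C ∧ ∀ (τ : ℝ) (α : ℝ → ℝ), ScCoef a τ α → ∀ t ∈ Icc 0 τ,
      Tendsto (fun n => scN3 F (scDy α τ n) t) atTop (𝓝 (scaN3 F α τ t)) →
      Tendsto (fun n => scM3 F (scDy α τ n) t) atTop (𝓝 (scaM3 F α τ t)) →
      Tendsto (fun n => scM2 F (scDy α τ n) t) atTop (𝓝 (scaM2 F α τ t)) →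
      |scaN3 F α τ t - scaD 4 F α τ 0 0 ^ 2 * t| ≤ C * t ^ 2 ∧ |scaM3 F α τ t - scaD 2 F α τ 0 0 ^ 3| ≤ C * t ∧
      |scaM2 F α τ t - scaD 2 F α τ 0 0 ^ 2| ≤ C * t := by
  obtain ⟨C, hC, hb⟩ := scb_exp_step h
  refine ⟨C, hC, fun τ α hα t ht hN hM3 hM2 => ?_⟩
  have hτ : 0 ≤ τ := ht.1.trans ht.2
  have d4 := scg_dy_tendsto h.B hτ hα 4 (le_refl (0 : ℝ)) 0
  have d2 := scg_dy_tendsto h.B hτ hα 2 (le_refl (0 : ℝ)) 0
  have hs := fun n => hb (scDy α τ n) (sc_dy_adm hτ hα n) (sc_dy_inc hτ hα n) t ht.1 (by rw [sc_dy_len]; exact ht.2)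
  exact ⟨le_of_tendsto' (hN.sub ((d4.pow 2).mul_const t)).abs fun n => (hs n).1,
    le_of_tendsto' (hM3.sub (d2.pow 3)).abs fun n => (hs n).2.1,
    le_of_tendsto' (hM2.sub (d2.pow 2)).abs fun n => (hs n).2.2⟩

/-- `sc_x_exp` in the form of the contract (`t √t`, `√t`, `t`) -/
theorem scb_exp_contract {a : ℝ} {F : ℝ → ℝ} (h : ScAd a F) (τ : ℝ) :
    ∃ C : ℝ, ∀ α : ℝ → ℝ, ScCoef a τ α → ∀ t ∈ Icc 0 τ,
      Tendsto (fun n => scN3 F (scDy α τ n) t) atTop (𝓝 (scaN3 F α τ t)) →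
      Tendsto (fun n => scM3 F (scDy α τ n) t) atTop (𝓝 (scaM3 F α τ t)) →
      Tendsto (fun n => scM2 F (scDy α τ n) t) atTop (𝓝 (scaM2 F α τ t)) →
      |scaN3 F α τ t - scaD 4 F α τ 0 0 ^ 2 * t| ≤ C * (t * Real.sqrt t) ∧
      |scaM3 F α τ t - scaD 2 F α τ 0 0 ^ 3| ≤ C * Real.sqrt t ∧
      |scaM2 F α τ t - scaD 2 F α τ 0 0 ^ 2| ≤ C * t := by
  obtain ⟨C, hC, hb⟩ := scb_exp_gen h
  refine ⟨C * (1 + Real.sqrt τ), fun α hα t ht hN hM3 hM2 => ?_⟩
  obtain ⟨b1, b2, b3⟩ := hb τ α hα t ht hN hM3 hM2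
  have hs : Real.sqrt t ≤ Real.sqrt τ := Real.sqrt_le_sqrt ht.2
  have hs0 : 0 ≤ Real.sqrt t := Real.sqrt_nonneg t
  have hτ0 : 0 ≤ Real.sqrt τ := Real.sqrt_nonneg τ
  have hsq : Real.sqrt t * Real.sqrt t = t := Real.mul_self_sqrt ht.1
  have e1 : t ≤ (1 + Real.sqrt τ) * Real.sqrt t := by nlinarith
  have e2 : t ^ 2 ≤ (1 + Real.sqrt τ) * (t * Real.sqrt t) := by
    have := mul_le_mul_of_nonneg_left e1 ht.1
    nlinarith
  refine ⟨b1.trans ?_, b2.trans ?_, b3.trans ?_⟩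
  · rw [mul_assoc]; exact mul_le_mul_of_nonneg_left e2 hC
  · rw [mul_assoc]; exact mul_le_mul_of_nonneg_left e1 hC
  · exact mul_le_mul_of_nonneg_right (by nlinarith) ht.1

end Claimed.Agent.R286
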