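import Claimed.Agent.R286.Sc.Step

/-!
# Row 286, scalar block, layer S2: step profiles (definitions + contract)

CONTRACT FILE (head: helper95, ADV: helper36; block A proved by helper195); plan: `origin/helper95:notes/R286/B03_helper95.md`, section S2.

A step profile is a list `π = [(m₀, s₀), .., (m_L, s_L)]` of (mass, variance length), read FORWARD in time; `F` = terminal
datum (ARBITRARY function of the smooth bounded class `ScBI`; e.g. `a⁻¹ log cosh (a z)`).  Time `t ∈ [0, scLen π]`.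
* `scV F π`      continuation at time `0`;      `scP F π φ z = E[φ(Z_end) | Z_0 = z]`   (list recursion);
* `scVt F π t`   continuation at time `t`  (`= F` for `t ≥ scLen π`);    `scD k F π t = ∂_z^k V(t, ·)`  (`u = scD 1`, `w = scD 2`, ..);
* `scAl π t`     the mass at time `t` (right continuous; `0` for `t ≥ scLen π`);    `scGrid π` the grid of jump times;
* `scPt F π s t φ z = E[φ(Z_t) | Z_s = z]`   (`= φ` for `t ≤ s`);   `scEx F π t φ = E φ(Z_t)`, `Z_0 = 0`;   `scGam F π t = E u(t, Z_t)²`.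
PDE: `V_t = -(V_zz + α V_z²)/2`;   generator `L_t = ∂_zz / 2 + α(t) u(t, ·) ∂_z`.
* `ScTP s t G`: `G` is piecewise (finitely many break times) of class `ScT 0` on `[s, t]`.
* `ScDyn F π s t φ G`: `φ` is a Dynkin test function on `[s, t]` with `(∂_r + L_r) φ = G`.   CALCULUS: `ScDyn.add/mul/..`, base cases
  `sc_dyn_D` (derivatives of `V`), `sc_dyn_P` (backward transition), `sc_dyn_space`, and THE formula `sc_dynkin`.
-/

set_option autoImplicit false

namespace Claimed.Agent.R286

open MeasureTheory ProbabilityTheory Filter Topology Set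

/-! ## 0. definitions -/

/-- all lengths are nonnegative -/
def ScPos (π : List (ℝ × ℝ)) : Prop := ∀ p ∈ π, 0 ≤ p.2

/-- masses in `[0, a]`, lengths nonnegative -/
def ScAdm (a : ℝ) (π : List (ℝ × ℝ)) : Prop := ∀ p ∈ π, 0 ≤ p.1 ∧ p.1 ≤ a ∧ 0 ≤ p.2

/-- the masses are nondecreasing in time -/
def ScInc (π : List (ℝ × ℝ)) : Prop := π.Pairwise (fun p q => p.1 ≤ q.1)

/-- smooth, all derivatives of order `≥ 1` bounded -/
def ScBI (F : ℝ → ℝ) : Prop := ∀ n, ScB n F

/-- total variance -/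
def scLen : List (ℝ × ℝ) → ℝ
  | [] => 0
  | p :: π => p.2 + scLen π

/-- continuation at time `0` -/
noncomputable def scV (F : ℝ → ℝ) : List (ℝ × ℝ) → ℝ → ℝ
  | [] => F
  | p :: π => scStep p.1 p.2 (scV F π)

/-- transition from time `0` to the end -/
noncomputable def scP (F : ℝ → ℝ) : List (ℝ × ℝ) → (ℝ → ℝ) → ℝ → ℝ
  | [], φ => φ
  | p :: π, φ => scTr p.1 p.2 (scV F π) (scP F π φ)

/-- continuation at time `t` -/
noncomputable def scVt (F : ℝ → ℝ) : List (ℝ × ℝ) → ℝ → ℝ → ℝ
  | [], _ => F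
  | p :: π, t => if p.2 ≤ t then scVt F π (t - p.2) else scStep p.1 (p.2 - t) (scV F π)

/-- the mass at time `t` (right continuous) -/
noncomputable def scAl : List (ℝ × ℝ) → ℝ → ℝ
  | [], _ => 0
  | p :: π, t => if p.2 ≤ t then scAl π (t - p.2) else p.1

/-- transition from time `s` to time `t` -/
noncomputable def scPt (F : ℝ → ℝ) : List (ℝ × ℝ) → ℝ → ℝ → (ℝ → ℝ) → ℝ → ℝ
  | [], _, _, φ => φ
  | p :: π, s, t, φ =>
      if p.2 ≤ s then scPt F π (s - p.2) (t - p.2) φ
      else if t ≤ p.2 then scTr p.1 (t - s) (scStep p.1 (p.2 - t) (scV F π)) φ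
      else scTr p.1 (p.2 - s) (scV F π) (scPt F π 0 (t - p.2) φ)

/-- the grid `{0, s₀, s₀ + s₁, .., scLen π}` -/
def scGrid : List (ℝ × ℝ) → Set ℝ
  | [] => {0}
  | p :: π => insert 0 ((fun x => p.2 + x) '' scGrid π)

/-- the profile on `[t, scLen π]` -/
noncomputable def scAfter : List (ℝ × ℝ) → ℝ → List (ℝ × ℝ)
  | [], _ => []
  | p :: π, t => if p.2 ≤ t then scAfter π (t - p.2) else (p.1, p.2 - t) :: π

/-- the profile on `[0, t]` -/
noncomputable def scUpto : List (ℝ × ℝ) → ℝ → List (ℝ × ℝ)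
  | [], _ => []
  | p :: π, t => if t ≤ p.2 then [(p.1, t)] else p :: scUpto π (t - p.2)

/-- `∂_z^k V(t, ·)` -/
noncomputable def scD (k : ℕ) (F : ℝ → ℝ) (π : List (ℝ × ℝ)) (t : ℝ) : ℝ → ℝ := deriv^[k] (scVt F π t)

/-- `E φ(Z_t)`, started from `Z_0 = 0` -/
noncomputable def scEx (F : ℝ → ℝ) (π : List (ℝ × ℝ)) (t : ℝ) (φ : ℝ → ℝ) : ℝ := scPt F π 0 t φ 0

/-- `Γ(t) = E u(t, Z_t)²` -/
noncomputable def scGam (F : ℝ → ℝ) (π : List (ℝ × ℝ)) (t : ℝ) : ℝ := scEx F π t (fun z => scD 1 F π t z ^ 2)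

/-- piecewise in time (finitely many break times) of class `ScT 0` on `[s, t]` -/
def ScTP (s t : ℝ) (G : ℝ → ℝ → ℝ) : Prop :=
  ∃ S : Set ℝ, S.Finite ∧ ∀ a b, s ≤ a → a ≤ b → b ≤ t → Disjoint (Ioo a b) S →
    ∃ G' : ℝ → ℝ → ℝ, ScT (Icc a b) 0 G' ∧ ∀ r ∈ Ioo a b, G r = G' r

/-- `φ` is a Dynkin test function on `[s, t]`, and `(∂_r + ∂_zz / 2 + α(r) u(r, ·) ∂_z) φ = G` off finitely many times -/
structure ScDyn (F : ℝ → ℝ) (π : List (ℝ × ℝ)) (s t : ℝ) (φ G : ℝ → ℝ → ℝ) : Prop where
  reg : ScT (Icc s t) 2 φ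
  gen : ScTP s t G
  der : ∃ S : Set ℝ, S.Finite ∧ ∀ r ∈ Ioo s t, r ∉ S → ∀ y, HasDerivAt (fun r => φ r y)
      (G r y - deriv (deriv (φ r)) y / 2 - scAl π r * scD 1 F π r y * deriv (φ r) y) r

/-! ## A. lists, whole profile -/

theorem ScAdm.pos {a : ℝ} {π : List (ℝ × ℝ)} (h : ScAdm a π) : ScPos π := fun p hp => (h p hp).2.2

theorem ScPos.of_cons {p : ℝ × ℝ} {π : List (ℝ × ℝ)} (h : ScPos (p :: π)) : ScPos π :=
  fun q hq => h q (List.mem_cons_of_mem _ hq)

theorem ScAdm.of_cons {a : ℝ} {p : ℝ × ℝ} {π : List (ℝ × ℝ)} (h : ScAdm a (p :: π)) : ScAdm a π :=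
  fun q hq => h q (List.mem_cons_of_mem _ hq)

theorem ScInc.of_cons {p : ℝ × ℝ} {π : List (ℝ × ℝ)} (h : ScInc (p :: π)) : ScInc π := (List.pairwise_cons.1 h).2

theorem sc_len_nonneg {π : List (ℝ × ℝ)} (h : ScPos π) : 0 ≤ scLen π := by
  induction π with
  | nil => simp [scLen]
  | cons p π ih =>
    have h1 := h p (List.mem_cons_self ..)
    have h2 := ih h.of_cons
    simp only [scLen]
    linarith

theorem sc_len_append (π ρ : List (ℝ × ℝ)) : scLen (π ++ ρ) = scLen π + scLen ρ := by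
  induction π with
  | nil => simp [scLen]
  | cons p π ih => simp only [List.cons_append, scLen, ih, add_assoc]

theorem sc_logcosh_BI (a : ℝ) : ScBI (fun z => a⁻¹ * Real.log (Real.cosh (a * z))) := fun n => sc_logcosh_B n a

theorem sc_step_BI {F : ℝ → ℝ} (hF : ScBI F) (m s : ℝ) : ScBI (scStep m s F) := by
  exact fun n => (sc_step_B (hF (n + 1)) m s).of_succ

theorem sc_V_BI {F : ℝ → ℝ} (hF : ScBI F) (π : List (ℝ × ℝ)) : ScBI (scV F π) := by
  induction π with
  | nil => exact hF
  | cons p π ih => exact sc_step_BI ih p.1 p.2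

theorem sc_V_append (F : ℝ → ℝ) (π ρ : List (ℝ × ℝ)) : scV F (π ++ ρ) = scV (scV F ρ) π := by
  induction π with
  | nil => rfl
  | cons p π ih => simp only [List.cons_append, scV, ih]

theorem sc_P_append (F φ : ℝ → ℝ) (π ρ : List (ℝ × ℝ)) : scP F (π ++ ρ) φ = scP (scV F ρ) π (scP F ρ φ) := by
  induction π with
  | nil => rfl
  | cons p π ih => simp only [List.cons_append, scP, ih, sc_V_append]

/-- refinement invariance -/
theorem sc_V_split {F : ℝ → ℝ} (hF : ScBI F) (m : ℝ) {s s' : ℝ} (hs : 0 ≤ s) (hs' : 0 ≤ s') (π : List (ℝ × ℝ)) :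
    scV F ((m, s + s') :: π) = scV F ((m, s) :: (m, s') :: π) := by
  simp only [scV]
  exact (sc_step_step (sc_V_BI hF π 1) m hs hs').symm

theorem sc_P_E {n : ℕ} {F φ : ℝ → ℝ} (hF : ScBI F) (hφ : ScE n φ) (π : List (ℝ × ℝ)) : ScE n (scP F π φ) := by
  induction π with
  | nil => exact hφ
  | cons p π ih => exact sc_tr_E (sc_V_BI hF π (n + 1)) ih p.1 p.2

theorem sc_P_split {F φ : ℝ → ℝ} (hF : ScBI F) (hφ : ScE 0 φ) (m : ℝ) {s s' : ℝ} (hs : 0 ≤ s) (hs' : 0 ≤ s')
    (π : List (ℝ × ℝ)) : scP F ((m, s + s') :: π) φ = scP F ((m, s) :: (m, s') :: π) φ := by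
  simp only [scP, scV]
  exact (sc_tr_tr (sc_V_BI hF π 1) (sc_P_E hF hφ π) m hs hs').symm

theorem sc_V_cons_zero (F : ℝ → ℝ) (m : ℝ) (π : List (ℝ × ℝ)) : scV F ((m, 0) :: π) = scV F π := by
  simp only [scV, sc_step_var_zero]

theorem sc_P_cons_zero (F φ : ℝ → ℝ) (m : ℝ) (π : List (ℝ × ℝ)) : scP F ((m, 0) :: π) φ = scP F π φ := by
  simp only [scP, sc_tr_var_zero]

theorem sc_V_even {F : ℝ → ℝ} (h : ∀ z, F (-z) = F z) (π : List (ℝ × ℝ)) (z : ℝ) : scV F π (-z) = scV F π z := by
  induction π generalizing z with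
  | nil => exact h z
  | cons p π ih => exact sc_step_even ih p.1 p.2 z

theorem sc_V_add_const {F : ℝ → ℝ} (hF : ScBI F) (c : ℝ) (π : List (ℝ × ℝ)) :
    scV (fun z => F z + c) π = fun z => scV F π z + c := by
  induction π with
  | nil => rfl
  | cons p π ih =>
    simp only [scV, ih]
    exact sc_step_add_const (sc_V_BI hF π 1) p.1 p.2 c

theorem sc_P_add_const {F : ℝ → ℝ} (hF : ScBI F) (c : ℝ) (π : List (ℝ × ℝ)) (φ : ℝ → ℝ) :
    scP (fun z => F z + c) π φ = scP F π φ := by
  induction π with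
  | nil => rfl
  | cons p π ih =>
    simp only [scP, ih, sc_V_add_const hF c π]
    exact sc_tr_add_const p.1 p.2 c (scV F π) (scP F π φ)

/-- `u(0, ·) = E[F'(Z_end) | Z_0 = ·]` -/
theorem sc_V_deriv {F : ℝ → ℝ} (hF : ScBI F) (π : List (ℝ × ℝ)) : deriv (scV F π) = scP F π (deriv F) := by
  induction π with
  | nil => rfl
  | cons p π ih =>
    simp only [scV, scP]
    rw [sc_step_deriv (sc_V_BI hF π 1), ih]

theorem sc_V_mono {F G : ℝ → ℝ} (hF : ScBI F) (hG : ScBI G) (h : ∀ z, F z ≤ G z) {π : List (ℝ × ℝ)}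
    (hπ : ∀ p ∈ π, 0 ≤ p.1) (z : ℝ) : scV F π z ≤ scV G π z := by
  induction π generalizing z with
  | nil => exact h z
  | cons p π ih =>
    exact sc_step_mono (sc_V_BI hF π 1) (sc_V_BI hG π 1)
      (ih fun q hq => hπ q (List.mem_cons_of_mem _ hq)) (hπ p (List.mem_cons_self ..)) p.2 z

theorem sc_V_contract {F G : ℝ → ℝ} (hF : ScBI F) (hG : ScBI G) {ε : ℝ} (h : ∀ z, |F z - G z| ≤ ε)
    {π : List (ℝ × ℝ)} (hπ : ∀ p ∈ π, 0 ≤ p.1) (z : ℝ) : |scV F π z - scV G π z| ≤ ε := by
  induction π generalizing z with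
  | nil => exact h z
  | cons p π ih =>
    exact sc_step_contract (sc_V_BI hF π 1) (sc_V_BI hG π 1)
      (ih fun q hq => hπ q (List.mem_cons_of_mem _ hq)) (hπ p (List.mem_cons_self ..)) p.2 z

/-- the annealed profile: all masses equal to the terminal mass -/
theorem sc_V_logcosh {a : ℝ} (ha : a ≠ 0) {π : List (ℝ × ℝ)} (hπ : ScPos π) (hm : ∀ p ∈ π, p.1 = a) :
    scV (fun z => a⁻¹ * Real.log (Real.cosh (a * z))) π =
      fun z => a⁻¹ * Real.log (Real.cosh (a * z)) + a * scLen π / 2 := by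
  induction π with
  | nil => funext z; simp [scV, scLen]
  | cons p π ih =>
    have h1 := ih hπ.of_cons (fun q hq => hm q (List.mem_cons_of_mem _ hq))
    have hp : p.1 = a := hm p (List.mem_cons_self ..)
    have hs : 0 ≤ p.2 := hπ p (List.mem_cons_self ..)
    simp only [scV, h1, hp]
    rw [sc_step_add_const (sc_logcosh_BI a 1) a p.2 (a * scLen π / 2), sc_step_logcosh ha hs]
    funext z
    simp only [scLen]
    ring

/-! ## B. restriction of a profile, the continuation at time `t` -/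

theorem sc_after_pos {π : List (ℝ × ℝ)} (h : ScPos π) (t : ℝ) : ScPos (scAfter π t) := by
  induction π generalizing t with
  | nil => exact h
  | cons p π ih =>
    by_cases hp : p.2 ≤ t
    · have e : scAfter (p :: π) t = scAfter π (t - p.2) := by simp [scAfter, hp]
      rw [e]
      exact ih h.of_cons _
    · have e : scAfter (p :: π) t = (p.1, p.2 - t) :: π := by simp [scAfter, hp]
      rw [e]
      intro q hq
      rcases List.mem_cons.1 hq with rfl | hq
      · show 0 ≤ p.2 - t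
        linarith [not_le.1 hp]
      · exact h.of_cons q hq

theorem sc_after_adm {a : ℝ} {π : List (ℝ × ℝ)} (h : ScAdm a π) (t : ℝ) : ScAdm a (scAfter π t) := by
  induction π generalizing t with
  | nil => exact h
  | cons p π ih =>
    by_cases hp : p.2 ≤ t
    · have e : scAfter (p :: π) t = scAfter π (t - p.2) := by simp [scAfter, hp]
      rw [e]
      exact ih h.of_cons _
    · have e : scAfter (p :: π) t = (p.1, p.2 - t) :: π := by simp [scAfter, hp]
      rw [e]
      intro q hq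
      rcases List.mem_cons.1 hq with rfl | hq
      · exact ⟨(h p List.mem_cons_self).1, (h p List.mem_cons_self).2.1, by show 0 ≤ p.2 - t; linarith [not_le.1 hp]⟩
      · exact h.of_cons q hq

theorem sc_after_inc {π : List (ℝ × ℝ)} (h : ScInc π) (t : ℝ) : ScInc (scAfter π t) := by
  induction π generalizing t with
  | nil => exact h
  | cons p π ih =>
    by_cases hp : p.2 ≤ t
    · have e : scAfter (p :: π) t = scAfter π (t - p.2) := by simp [scAfter, hp]
      rw [e]
      exact ih h.of_cons _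
    · have e : scAfter (p :: π) t = (p.1, p.2 - t) :: π := by simp [scAfter, hp]
      rw [e]
      exact List.pairwise_cons.2 ⟨fun q hq => (List.pairwise_cons.1 h).1 q hq, h.of_cons⟩

theorem sc_upto_pos {π : List (ℝ × ℝ)} (h : ScPos π) {t : ℝ} (ht : 0 ≤ t) : ScPos (scUpto π t) := by
  induction π generalizing t with
  | nil => exact h
  | cons p π ih =>
    by_cases hp : t ≤ p.2
    · have e : scUpto (p :: π) t = [(p.1, t)] := by simp [scUpto, hp]
      rw [e]
      intro q hq
      rcases List.mem_singleton.1 hq with rfl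
      exact ht
    · have e : scUpto (p :: π) t = p :: scUpto π (t - p.2) := by simp [scUpto, hp]
      rw [e]
      intro q hq
      rcases List.mem_cons.1 hq with rfl | hq
      · exact h q List.mem_cons_self
      · exact ih h.of_cons (by linarith [not_le.1 hp]) q hq

theorem sc_upto_adm {a : ℝ} {π : List (ℝ × ℝ)} (h : ScAdm a π) {t : ℝ} (ht : 0 ≤ t) : ScAdm a (scUpto π t) := by
  induction π generalizing t with
  | nil => exact h
  | cons p π ih =>
    by_cases hp : t ≤ p.2
    · have e : scUpto (p :: π) t = [(p.1, t)] := by simp [scUpto, hp]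
      rw [e]
      intro q hq
      rcases List.mem_singleton.1 hq with rfl
      exact ⟨(h p List.mem_cons_self).1, (h p List.mem_cons_self).2.1, ht⟩
    · have e : scUpto (p :: π) t = p :: scUpto π (t - p.2) := by simp [scUpto, hp]
      rw [e]
      intro q hq
      rcases List.mem_cons.1 hq with rfl | hq
      · exact h q List.mem_cons_self
      · exact ih h.of_cons (by linarith [not_le.1 hp]) q hq

/-- the masses of the restricted profile are masses of the profile -/
theorem sc_upto_inc_mem {π : List (ℝ × ℝ)} {t : ℝ} {q : ℝ × ℝ} (hq : q ∈ scUpto π t) : ∃ q' ∈ π, q.1 = q'.1 := by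
  induction π generalizing t with
  | nil => exact absurd hq (by simp [scUpto])
  | cons p π ih =>
    by_cases hp : t ≤ p.2
    · have e : scUpto (p :: π) t = [(p.1, t)] := by simp [scUpto, hp]
      rw [e] at hq
      rcases List.mem_singleton.1 hq with rfl
      exact ⟨p, List.mem_cons_self, rfl⟩
    · have e : scUpto (p :: π) t = p :: scUpto π (t - p.2) := by simp [scUpto, hp]
      rw [e] at hq
      rcases List.mem_cons.1 hq with rfl | hq
      · exact ⟨q, List.mem_cons_self, rfl⟩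
      · obtain ⟨q', h1, h2⟩ := ih hq
        exact ⟨q', List.mem_cons_of_mem _ h1, h2⟩

theorem sc_upto_inc {π : List (ℝ × ℝ)} (h : ScInc π) (t : ℝ) : ScInc (scUpto π t) := by
  induction π generalizing t with
  | nil => exact h
  | cons p π ih =>
    by_cases hp : t ≤ p.2
    · have e : scUpto (p :: π) t = [(p.1, t)] := by simp [scUpto, hp]
      rw [e]
      exact List.pairwise_singleton _ _
    · have e : scUpto (p :: π) t = p :: scUpto π (t - p.2) := by simp [scUpto, hp]
      rw [e]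
      refine List.pairwise_cons.2 ⟨fun q hq => ?_, ih h.of_cons _⟩
      obtain ⟨q', h1, h2⟩ := sc_upto_inc_mem hq
      rw [h2]
      exact (List.pairwise_cons.1 h).1 q' h1

theorem sc_len_after {π : List (ℝ × ℝ)} (h : ScPos π) {t : ℝ} (h0 : 0 ≤ t) (ht : t ≤ scLen π) :
    scLen (scAfter π t) = scLen π - t := by
  induction π generalizing t with
  | nil =>
    have : t ≤ 0 := ht
    show (0:ℝ) = 0 - t
    linarith
  | cons p π ih =>
    have ht' : t ≤ p.2 + scLen π := ht
    by_cases hp : p.2 ≤ t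
    · have e : scAfter (p :: π) t = scAfter π (t - p.2) := by simp [scAfter, hp]
      rw [e, ih h.of_cons (by linarith) (by linarith)]
      show scLen π - (t - p.2) = p.2 + scLen π - t
      ring
    · have e : scAfter (p :: π) t = (p.1, p.2 - t) :: π := by simp [scAfter, hp]
      rw [e]
      show p.2 - t + scLen π = p.2 + scLen π - t
      ring

theorem sc_len_upto {π : List (ℝ × ℝ)} (h : ScPos π) {t : ℝ} (h0 : 0 ≤ t) (ht : t ≤ scLen π) :
    scLen (scUpto π t) = t := by
  induction π generalizing t with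
  | nil =>
    have : t ≤ 0 := ht
    show (0:ℝ) = t
    linarith
  | cons p π ih =>
    have ht' : t ≤ p.2 + scLen π := ht
    by_cases hp : t ≤ p.2
    · have e : scUpto (p :: π) t = [(p.1, t)] := by simp [scUpto, hp]
      rw [e]
      show t + 0 = t
      ring
    · have e : scUpto (p :: π) t = p :: scUpto π (t - p.2) := by simp [scUpto, hp]
      rw [e]
      show p.2 + scLen (scUpto π (t - p.2)) = t
      rw [ih h.of_cons (by linarith [not_le.1 hp]) (by linarith)]
      ring

theorem sc_Vt_after (F : ℝ → ℝ) (π : List (ℝ × ℝ)) (t : ℝ) : scVt F π t = scV F (scAfter π t) := by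
  induction π generalizing t with
  | nil => rfl
  | cons p π ih =>
    by_cases hp : p.2 ≤ t
    · have e : scAfter (p :: π) t = scAfter π (t - p.2) := by simp [scAfter, hp]
      have e' : scVt F (p :: π) t = scVt F π (t - p.2) := by simp [scVt, hp]
      rw [e, e']
      exact ih _
    · have e : scAfter (p :: π) t = (p.1, p.2 - t) :: π := by simp [scAfter, hp]
      have e' : scVt F (p :: π) t = scStep p.1 (p.2 - t) (scV F π) := by simp [scVt, hp]
      rw [e, e']
      rfl

theorem sc_Vt_zero (F : ℝ → ℝ) {π : List (ℝ × ℝ)} (h : ScPos π) : scVt F π 0 = scV F π := by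
  induction π with
  | nil => rfl
  | cons p π ih =>
    have hp0 : 0 ≤ p.2 := h p List.mem_cons_self
    by_cases hp : p.2 ≤ 0
    · have hz : p.2 = 0 := le_antisymm hp hp0
      have e' : scVt F (p :: π) 0 = scVt F π (0 - p.2) := by simp [scVt, hp]
      rw [e', hz, sub_zero, ih h.of_cons]
      show scV F π = scStep p.1 p.2 (scV F π)
      rw [hz, sc_step_var_zero]
    · have e' : scVt F (p :: π) 0 = scStep p.1 (p.2 - 0) (scV F π) := by simp [scVt, hp]
      rw [e', sub_zero]
      rfl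

theorem sc_Vt_of_le (F : ℝ → ℝ) {π : List (ℝ × ℝ)} (h : ScPos π) {t : ℝ} (ht : scLen π ≤ t) : scVt F π t = F := by
  induction π generalizing t with
  | nil => rfl
  | cons p π ih =>
    have ht' : p.2 + scLen π ≤ t := ht
    have hl : 0 ≤ scLen π := sc_len_nonneg h.of_cons
    have hp : p.2 ≤ t := by linarith
    have e' : scVt F (p :: π) t = scVt F π (t - p.2) := by simp [scVt, hp]
    rw [e']
    exact ih h.of_cons (by linarith)

theorem sc_Vt_len (F : ℝ → ℝ) {π : List (ℝ × ℝ)} (h : ScPos π) : scVt F π (scLen π) = F := sc_Vt_of_le F h le_rfl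

/-- the continuation at time `0` from the continuation at time `t` -/
theorem sc_V_upto {F : ℝ → ℝ} (hF : ScBI F) {π : List (ℝ × ℝ)} (h : ScPos π) {t : ℝ} (ht : 0 ≤ t) :
    scV (scVt F π t) (scUpto π t) = scV F π := by
  induction π generalizing t with
  | nil => rfl
  | cons p π ih =>
    have hp0 : 0 ≤ p.2 := h p List.mem_cons_self
    rcases lt_trichotomy t p.2 with hlt | heq | hgt
    · have e : scUpto (p :: π) t = [(p.1, t)] := by simp [scUpto, hlt.le]
      have e' : scVt F (p :: π) t = scStep p.1 (p.2 - t) (scV F π) := by simp [scVt, not_le.2 hlt]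
      rw [e, e']
      show scStep p.1 t (scStep p.1 (p.2 - t) (scV F π)) = scStep p.1 p.2 (scV F π)
      rw [sc_step_step (sc_V_BI hF π 1) p.1 ht (by linarith)]
      congr 1
      ring
    · have e : scUpto (p :: π) t = [(p.1, t)] := by simp [scUpto, heq.le]
      have e' : scVt F (p :: π) t = scVt F π (t - p.2) := by simp [scVt, heq.ge]
      rw [e, e', heq, sub_self, sc_Vt_zero F h.of_cons]
      rfl
    · have e : scUpto (p :: π) t = p :: scUpto π (t - p.2) := by simp [scUpto, not_le.2 hgt]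
      have e' : scVt F (p :: π) t = scVt F π (t - p.2) := by simp [scVt, hgt.le]
      rw [e, e']
      show scStep p.1 p.2 (scV (scVt F π (t - p.2)) (scUpto π (t - p.2))) = scStep p.1 p.2 (scV F π)
      rw [ih h.of_cons (by linarith)]

theorem sc_Vt_shift (F : ℝ → ℝ) {π : List (ℝ × ℝ)} (h : ScPos π) {s t : ℝ} (hs : 0 ≤ s) (ht : 0 ≤ t) :
    scVt F (scAfter π s) t = scVt F π (s + t) := by
  induction π generalizing s with
  | nil => rfl
  | cons p π ih =>
    by_cases hp : p.2 ≤ s
    · have e : scAfter (p :: π) s = scAfter π (s - p.2) := by simp [scAfter, hp]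
      have e' : scVt F (p :: π) (s + t) = scVt F π (s + t - p.2) := by
        have : p.2 ≤ s + t := by linarith
        simp [scVt, this]
      rw [e, e', ih h.of_cons (by linarith)]
      congr 1
      ring
    · have e : scAfter (p :: π) s = (p.1, p.2 - s) :: π := by simp [scAfter, hp]
      rw [e]
      by_cases hq : p.2 ≤ s + t
      · have e' : scVt F (p :: π) (s + t) = scVt F π (s + t - p.2) := by simp [scVt, hq]
        have hq' : p.2 - s ≤ t := by linarith
        have e'' : scVt F ((p.1, p.2 - s) :: π) t = scVt F π (t - (p.2 - s)) := by simp [scVt, hq']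
        rw [e', e'']
        congr 1
        ring
      · have e' : scVt F (p :: π) (s + t) = scStep p.1 (p.2 - (s + t)) (scV F π) := by simp [scVt, hq]
        have hq' : ¬ p.2 - s ≤ t := by
          intro hc
          exact hq (by linarith)
        have e'' : scVt F ((p.1, p.2 - s) :: π) t = scStep p.1 (p.2 - s - t) (scV F π) := by simp [scVt, hq']
        rw [e', e'']
        congr 1
        ring

theorem sc_Vt_upto {F : ℝ → ℝ} (hF : ScBI F) {π : List (ℝ × ℝ)} (h : ScPos π) {s t : ℝ} (ht : 0 ≤ t) (hts : t ≤ s) :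
    scVt (scVt F π s) (scUpto π s) t = scVt F π t := by
  induction π generalizing s t with
  | nil => rfl
  | cons p π ih =>
    have hp : 0 ≤ p.2 := h p (List.mem_cons_self ..)
    by_cases h1 : s ≤ p.2
    · simp only [scUpto, if_pos h1]
      by_cases h2 : s ≤ t
      · obtain rfl : t = s := le_antisymm hts h2
        simp only [scVt, le_refl, if_true]
      · have h3 : ¬ p.2 ≤ t := by push Not at h2 ⊢; linarith
        by_cases h4 : p.2 ≤ s
        · obtain rfl : s = p.2 := le_antisymm h1 h4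
          simp only [scVt, scV, if_neg h3, le_refl, if_true, sub_self, sc_Vt_zero F h.of_cons]
        · simp only [scVt, scV, if_neg h2, if_neg h3, if_neg h4]
          rw [sc_step_step (sc_V_BI hF π 1) p.1 (by push Not at h2; linarith) (by linarith)]
          congr 1
          ring
    · have h1' : p.2 ≤ s := by push Not at h1; exact h1.le
      simp only [scUpto, if_neg h1]
      by_cases h2 : p.2 ≤ t
      · simp only [scVt, if_pos h2, if_pos h1']
        exact ih h.of_cons (by linarith) (by linarith)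
      · simp only [scVt, if_neg h2, if_pos h1']
        rw [sc_V_upto hF h.of_cons (by linarith)]

theorem sc_Al_shift {π : List (ℝ × ℝ)} (h : ScPos π) {s t : ℝ} (hs : 0 ≤ s) (ht : 0 ≤ t) :
    scAl (scAfter π s) t = scAl π (s + t) := by
  induction π generalizing s with
  | nil => rfl
  | cons p π ih =>
    by_cases h1 : p.2 ≤ s
    · have h2 : p.2 ≤ s + t := by linarith
      simp only [scAfter, scAl, if_pos h1, if_pos h2]
      rw [ih h.of_cons (by linarith)]
      congr 1
      ring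
    · simp only [scAfter, if_neg h1, scAl]
      by_cases h2 : p.2 ≤ s + t
      · rw [if_pos h2, if_pos (by linarith)]
        congr 1
        ring
      · rw [if_neg h2, if_neg (by push Not at h2 ⊢; linarith)]

theorem sc_Al_upto {π : List (ℝ × ℝ)} (h : ScPos π) {s t : ℝ} (ht : 0 ≤ t) (hts : t < s) :
    scAl (scUpto π s) t = scAl π t := by
  induction π generalizing s t with
  | nil => rfl
  | cons p π ih =>
    by_cases h1 : s ≤ p.2
    · simp only [scUpto, if_pos h1, scAl]
      rw [if_neg (by push Not; exact hts), if_neg (by push Not; linarith)]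
    · simp only [scUpto, if_neg h1, scAl]
      by_cases h2 : p.2 ≤ t
      · rw [if_pos h2, if_pos h2]
        exact ih h.of_cons (by linarith) (by linarith)
      · rw [if_neg h2, if_neg h2]

theorem sc_Vt_BI {F : ℝ → ℝ} (hF : ScBI F) (π : List (ℝ × ℝ)) (t : ℝ) : ScBI (scVt F π t) := by
  induction π generalizing t with
  | nil => exact hF
  | cons p π ih =>
    by_cases h1 : p.2 ≤ t
    · simp only [scVt, if_pos h1]
      exact ih _
    · simp only [scVt, if_neg h1]
      exact sc_step_BI (sc_V_BI hF π) _ _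

theorem sc_Vt_even {F : ℝ → ℝ} (h : ∀ z, F (-z) = F z) (π : List (ℝ × ℝ)) (t z : ℝ) :
    scVt F π t (-z) = scVt F π t z := by
  induction π generalizing t with
  | nil => exact h z
  | cons p π ih =>
    by_cases h1 : p.2 ≤ t
    · simp only [scVt, if_pos h1]
      exact ih _
    · simp only [scVt, if_neg h1]
      exact sc_step_even (sc_V_even h π) _ _ z

theorem sc_Vt_add_const {F : ℝ → ℝ} (hF : ScBI F) (c : ℝ) (π : List (ℝ × ℝ)) (t : ℝ) :
    scVt (fun z => F z + c) π t = fun z => scVt F π t z + c := by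
  induction π generalizing t with
  | nil => rfl
  | cons p π ih =>
    by_cases h1 : p.2 ≤ t
    · simp only [scVt, if_pos h1]
      exact ih _
    · simp only [scVt, if_neg h1, sc_V_add_const hF c π]
      exact sc_step_add_const (sc_V_BI hF π 1) _ _ c

theorem sc_D_zero (F : ℝ → ℝ) (π : List (ℝ × ℝ)) (t : ℝ) : scD 0 F π t = scVt F π t := rfl

theorem sc_D_one (F : ℝ → ℝ) (π : List (ℝ × ℝ)) (t : ℝ) : scD 1 F π t = deriv (scVt F π t) := rfl

theorem sc_D_succ (k : ℕ) (F : ℝ → ℝ) (π : List (ℝ × ℝ)) (t : ℝ) : deriv (scD k F π t) = scD (k + 1) F π t := by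
  exact (Function.iterate_succ_apply' deriv k _).symm

theorem sc_D_hasDerivAt_aux_BI {G : ℝ → ℝ} (hG : ScBI G) (k : ℕ) : ScBI (deriv^[k] G) := by
  induction k with
  | zero => exact hG
  | succ k ih =>
    rw [Function.iterate_succ_apply']
    exact fun n => (ih (n + 1)).2.2

theorem sc_D_hasDerivAt {F : ℝ → ℝ} (hF : ScBI F) (k : ℕ) (π : List (ℝ × ℝ)) (t z : ℝ) :
    HasDerivAt (scD k F π t) (scD (k + 1) F π t z) z := by
  rw [← sc_D_succ]
  exact ((sc_D_hasDerivAt_aux_BI (sc_Vt_BI hF π t) k 1).1 z).hasDerivAt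

theorem sc_D_of_le (k : ℕ) (F : ℝ → ℝ) {π : List (ℝ × ℝ)} (h : ScPos π) {t : ℝ} (ht : scLen π ≤ t) :
    scD k F π t = deriv^[k] F := by
  unfold scD
  rw [sc_Vt_of_le F h ht]

theorem sc_D_Bd {F : ℝ → ℝ} (hF : ScBI F) (k n : ℕ) (π : List (ℝ × ℝ)) (t : ℝ) : ScBd n (scD (k + 1) F π t) := by
  rw [← sc_D_succ]
  exact (sc_D_hasDerivAt_aux_BI (sc_Vt_BI hF π t) k (n + 1)).deriv_bd

theorem sc_D_E {F : ℝ → ℝ} (hF : ScBI F) (k n : ℕ) (π : List (ℝ × ℝ)) (t : ℝ) : ScE n (scD k F π t) := by
  exact (sc_D_hasDerivAt_aux_BI (sc_Vt_BI hF π t) k (n + 1)).scE.of_succ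

/-- bounds uniform in the time (NOT in the profile: see layer S3) -/
theorem sc_D_bdd {F : ℝ → ℝ} (hF : ScBI F) (k : ℕ) {π : List (ℝ × ℝ)} (h : ScPos π) :
    ∃ C : ℝ, ∀ t, 0 ≤ t → ∀ z, |scD (k + 1) F π t z| ≤ C := by
  induction π with
  | nil =>
    obtain ⟨C, hC⟩ := (sc_D_hasDerivAt_aux_BI hF k 1).2.1
    refine ⟨C, fun t _ z => ?_⟩
    have := hC z
    rwa [← Function.iterate_succ_apply' deriv k F] at this
  | cons p π ih =>
    obtain ⟨C1, hC1⟩ := ih h.of_cons
    obtain ⟨C2, hC2⟩ := sc_step_deriv_bdd (sc_V_BI hF π (k + 1)) p.1 p.2 (k + 1) (by omega) le_rfl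
    refine ⟨max C1 C2, fun t ht z => ?_⟩
    by_cases h1 : p.2 ≤ t
    · have : scD (k + 1) F (p :: π) t = scD (k + 1) F π (t - p.2) := by
        simp only [scD, scVt, if_pos h1]
      rw [this]
      exact (hC1 _ (by linarith) z).trans (le_max_left _ _)
    · have : scD (k + 1) F (p :: π) t = deriv^[k + 1] (scStep p.1 (p.2 - t) (scV F π)) := by
        simp only [scD, scVt, if_neg h1]
      rw [this]
      exact (hC2 _ ⟨by push Not at h1; linarith, by linarith⟩ z).trans (le_max_right _ _)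

theorem sc_D_parity_aux {G : ℝ → ℝ} (h : ∀ z, G (-z) = G z) (k : ℕ) (z : ℝ) :
    deriv^[k] G (-z) = (-1) ^ k * deriv^[k] G z := by
  induction k generalizing z with
  | zero => simpa using h z
  | succ k ih =>
    rw [Function.iterate_succ_apply']
    have h1 : (fun x => deriv^[k] G (-x)) = fun x => (-1) ^ k * deriv^[k] G x := funext ih
    have h2 := congrArg (fun f => deriv f z) h1
    simp only [deriv_comp_neg, deriv_const_mul_field] at h2
    rw [pow_succ]
    linarith

theorem sc_D_parity {F : ℝ → ℝ} (hF : ScBI F) (h : ∀ z, F (-z) = F z) (k : ℕ) (π : List (ℝ × ℝ)) (t z : ℝ) :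
    scD k F π t (-z) = (-1) ^ k * scD k F π t z := by
  exact sc_D_parity_aux (sc_Vt_even h π t) k z

theorem sc_D1_le_aux {F : ℝ → ℝ} (hF : ScBI F) {L : ℝ} (h : ∀ z, |deriv F z| ≤ L) (π : List (ℝ × ℝ)) (z : ℝ) :
    |deriv (scV F π) z| ≤ L := by
  induction π generalizing z with
  | nil => exact h z
  | cons p π ih => exact sc_step_deriv_le (sc_V_BI hF π 1) ih _ _ z

theorem sc_D1_le {F : ℝ → ℝ} (hF : ScBI F) {L : ℝ} (h : ∀ z, |deriv F z| ≤ L) (π : List (ℝ × ℝ)) (t z : ℝ) :
    |scD 1 F π t z| ≤ L := by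
  rw [sc_D_one]
  induction π generalizing t with
  | nil => exact h z
  | cons p π ih =>
    by_cases h1 : p.2 ≤ t
    · simp only [scVt, if_pos h1]
      exact ih _
    · simp only [scVt, if_neg h1]
      exact sc_step_deriv_le (sc_V_BI hF π 1) (sc_D1_le_aux hF h π) _ _ z

theorem sc_D2_nonneg_V {F : ℝ → ℝ} (hF : ScBI F) (h : ∀ z, 0 ≤ deriv (deriv F) z) {π : List (ℝ × ℝ)}
    (hπ : ∀ p ∈ π, 0 ≤ p.1) (z : ℝ) : 0 ≤ deriv (deriv (scV F π)) z := by
  induction π generalizing z with
  | nil => exact h z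
  | cons p π ih =>
    exact sc_step_convex (sc_V_BI hF π 2) (ih fun q hq => hπ q (List.mem_cons_of_mem _ hq))
      (hπ p List.mem_cons_self) p.2 z

theorem sc_D2_nonneg {F : ℝ → ℝ} (hF : ScBI F) (h : ∀ z, 0 ≤ deriv (deriv F) z) {π : List (ℝ × ℝ)}
    (hπ : ∀ p ∈ π, 0 ≤ p.1) (t z : ℝ) : 0 ≤ scD 2 F π t z := by
  show 0 ≤ deriv (deriv (scVt F π t)) z
  induction π generalizing t z with
  | nil => exact h z
  | cons p π ih =>
    have hπ' : ∀ q ∈ π, 0 ≤ q.1 := fun q hq => hπ q (List.mem_cons_of_mem _ hq)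
    by_cases hp : p.2 ≤ t
    · have e : scVt F (p :: π) t = scVt F π (t - p.2) := by simp [scVt, hp]
      rw [e]
      exact ih hπ' _ z
    · have e : scVt F (p :: π) t = scStep p.1 (p.2 - t) (scV F π) := by simp [scVt, hp]
      rw [e]
      exact sc_step_convex (sc_V_BI hF π 2) (sc_D2_nonneg_V hF h hπ') (hπ p List.mem_cons_self) _ z

theorem sc_D2_pos_V {F : ℝ → ℝ} (hF : ScBI F) (h : ∀ z, 0 < deriv (deriv F) z) {π : List (ℝ × ℝ)}
    (hπ : ∀ p ∈ π, 0 ≤ p.1) (z : ℝ) : 0 < deriv (deriv (scV F π)) z := by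
  induction π generalizing z with
  | nil => exact h z
  | cons p π ih =>
    exact sc_step_strict_convex (sc_V_BI hF π 2) (ih fun q hq => hπ q (List.mem_cons_of_mem _ hq))
      (hπ p List.mem_cons_self) p.2 z

theorem sc_D2_pos {F : ℝ → ℝ} (hF : ScBI F) (h : ∀ z, 0 < deriv (deriv F) z) {π : List (ℝ × ℝ)}
    (hπ : ∀ p ∈ π, 0 ≤ p.1) (t z : ℝ) : 0 < scD 2 F π t z := by
  show 0 < deriv (deriv (scVt F π t)) z
  induction π generalizing t z with
  | nil => exact h z
  | cons p π ih =>
    have hπ' : ∀ q ∈ π, 0 ≤ q.1 := fun q hq => hπ q (List.mem_cons_of_mem _ hq)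
    by_cases hp : p.2 ≤ t
    · have e : scVt F (p :: π) t = scVt F π (t - p.2) := by simp [scVt, hp]
      rw [e]
      exact ih hπ' _ z
    · have e : scVt F (p :: π) t = scStep p.1 (p.2 - t) (scV F π) := by simp [scVt, hp]
      rw [e]
      exact sc_step_strict_convex (sc_V_BI hF π 2) (sc_D2_pos_V hF h hπ') (hπ p List.mem_cons_self) _ z

theorem sc_grid_finite (π : List (ℝ × ℝ)) : (scGrid π).Finite := by
  induction π with
  | nil => exact Set.finite_singleton 0
  | cons p π ih => exact (ih.image _).insert 0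

theorem sc_grid_zero (π : List (ℝ × ℝ)) : (0 : ℝ) ∈ scGrid π := by
  cases π with
  | nil => exact Set.mem_singleton 0
  | cons p π => exact Set.mem_insert 0 _

theorem sc_grid_len (π : List (ℝ × ℝ)) : scLen π ∈ scGrid π := by
  induction π with
  | nil => exact Set.mem_singleton 0
  | cons p π ih => exact Set.mem_insert_of_mem 0 ⟨scLen π, ih, rfl⟩

theorem sc_Al_measurable (π : List (ℝ × ℝ)) : Measurable (scAl π) := by
  induction π with
  | nil => exact measurable_const
  | cons p π ih =>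
    exact Measurable.ite (measurableSet_le measurable_const measurable_id)
      (ih.comp (measurable_id.sub_const _)) measurable_const

theorem sc_Al_mem {a : ℝ} (ha : 0 ≤ a) {π : List (ℝ × ℝ)} (h : ScAdm a π) (t : ℝ) : scAl π t ∈ Icc 0 a := by
  induction π generalizing t with
  | nil => exact ⟨le_rfl, ha⟩
  | cons p π ih =>
    by_cases hp : p.2 ≤ t
    · have e : scAl (p :: π) t = scAl π (t - p.2) := by simp [scAl, hp]
      rw [e]
      exact ih h.of_cons _
    · have e : scAl (p :: π) t = p.1 := by simp [scAl, hp]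
      rw [e]
      exact ⟨(h p List.mem_cons_self).1, (h p List.mem_cons_self).2.1⟩

theorem sc_Al_bdd (π : List (ℝ × ℝ)) : ∃ C : ℝ, ∀ t, |scAl π t| ≤ C := by
  induction π with
  | nil => exact ⟨0, fun t => by simp [scAl]⟩
  | cons p π ih =>
    obtain ⟨C, hC⟩ := ih
    refine ⟨max |p.1| C, fun t => ?_⟩
    by_cases hp : p.2 ≤ t
    · have e : scAl (p :: π) t = scAl π (t - p.2) := by simp [scAl, hp]
      rw [e]
      exact (hC _).trans (le_max_right _ _)
    · have e : scAl (p :: π) t = p.1 := by simp [scAl, hp]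
      rw [e]
      exact le_max_left _ _

/-- before the end, the mass is the mass of one of the steps -/
theorem sc_Al_mono_mem {π : List (ℝ × ℝ)} {t : ℝ} (h0 : 0 ≤ t) (ht : t < scLen π) : ∃ q ∈ π, scAl π t = q.1 := by
  induction π generalizing t with
  | nil => exact absurd ht (not_lt.2 h0)
  | cons p π ih =>
    by_cases hp : p.2 ≤ t
    · have e : scAl (p :: π) t = scAl π (t - p.2) := by simp [scAl, hp]
      have ht' : t < p.2 + scLen π := ht
      obtain ⟨q, hq, hq'⟩ := ih (t := t - p.2) (by linarith) (by linarith)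
      exact ⟨q, List.mem_cons_of_mem _ hq, e.trans hq'⟩
    · exact ⟨p, List.mem_cons_self, by simp [scAl, hp]⟩

theorem sc_Al_mono {π : List (ℝ × ℝ)} (h : ScPos π) (hi : ScInc π) : MonotoneOn (scAl π) (Iio (scLen π)) := by
  induction π with
  | nil => intro x _ y _ _; exact le_rfl
  | cons p π ih =>
    intro x hx y hy hxy
    have hy' : y < p.2 + scLen π := hy
    have hx' : x < p.2 + scLen π := hx
    by_cases hpx : p.2 ≤ x
    · have hpy : p.2 ≤ y := hpx.trans hxy
      have e1 : scAl (p :: π) x = scAl π (x - p.2) := by simp [scAl, hpx]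
      have e2 : scAl (p :: π) y = scAl π (y - p.2) := by simp [scAl, hpy]
      rw [e1, e2]
      exact ih h.of_cons hi.of_cons (show x - p.2 < scLen π by linarith) (show y - p.2 < scLen π by linarith) (by linarith)
    · have e1 : scAl (p :: π) x = p.1 := by simp [scAl, hpx]
      rw [e1]
      by_cases hpy : p.2 ≤ y
      · have e2 : scAl (p :: π) y = scAl π (y - p.2) := by simp [scAl, hpy]
        obtain ⟨q, hq, hq'⟩ := sc_Al_mono_mem (π := π) (t := y - p.2) (by linarith) (by linarith)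
        rw [e2, hq']
        exact (List.pairwise_cons.1 hi).1 q hq
      · have e2 : scAl (p :: π) y = p.1 := by simp [scAl, hpy]
        rw [e2]

theorem sc_local_Pt_self (F : ℝ → ℝ) (π : List (ℝ × ℝ)) (t : ℝ) (φ : ℝ → ℝ) : scPt F π t t φ = φ := by
  induction π generalizing t with
  | nil => rfl
  | cons p π ih =>
    by_cases hp : p.2 ≤ t
    · simp only [scPt, if_pos hp]
      exact ih _
    · simp only [scPt, if_neg hp, if_pos (not_le.1 hp).le, sub_self, sc_tr_var_zero]

/-- **localisation**: an interval which contains no grid point in its interior lies in one step -/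
theorem sc_local {F : ℝ → ℝ} (hF : ScBI F) {π : List (ℝ × ℝ)} (h : ScPos π) {a b : ℝ} (h0 : 0 ≤ a) (hab : a < b)
    (hb : b ≤ scLen π) (hS : Disjoint (Ioo a b) (scGrid π)) :
    (∀ r ∈ Ico a b, scAl π r = scAl π a) ∧
    (∀ r ∈ Icc a b, scVt F π r = scStep (scAl π a) (b - r) (scVt F π b)) ∧
    (∀ r ∈ Icc a b, ∀ r' ∈ Icc r b, ∀ φ, scPt F π r r' φ = scTr (scAl π a) (r' - r) (scVt F π r') φ) := by
  induction π generalizing a b with
  | nil =>
    simp only [scLen] at hb
    linarith
  | cons p π ih =>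
    have hπ : ScPos π := h.of_cons
    by_cases hpa : p.2 ≤ a
    · -- shift
      have hS' : Disjoint (Ioo (a - p.2) (b - p.2)) (scGrid π) := by
        rw [Set.disjoint_left] at hS ⊢
        intro x hx hxg
        refine hS (a := p.2 + x) ⟨by linarith [hx.1], by linarith [hx.2]⟩ ?_
        simp only [scGrid]
        exact Or.inr ⟨x, hxg, rfl⟩
      have hb' : b - p.2 ≤ scLen π := by simp only [scLen] at hb; linarith
      obtain ⟨i1, i2, i3⟩ := ih hπ (a := a - p.2) (b := b - p.2) (by linarith) (by linarith) hb' hS'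
      have hAa : scAl (p :: π) a = scAl π (a - p.2) := by simp only [scAl, if_pos hpa]
      refine ⟨fun r hr => ?_, fun r hr => ?_, fun r hr r' hr' φ => ?_⟩
      · have hpr : p.2 ≤ r := hpa.trans hr.1
        rw [hAa]
        simp only [scAl, if_pos hpr]
        exact i1 _ ⟨by linarith [hr.1], by linarith [hr.2]⟩
      · have hpr : p.2 ≤ r := hpa.trans hr.1
        have hpb : p.2 ≤ b := hpa.trans hab.le
        rw [hAa]
        simp only [scVt, if_pos hpr, if_pos hpb]
        have := i2 (r - p.2) ⟨by linarith [hr.1], by linarith [hr.2]⟩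
        rw [this]
        congr 1
        ring
      · have hpr : p.2 ≤ r := hpa.trans hr.1
        have hpr' : p.2 ≤ r' := hpr.trans hr'.1
        rw [hAa]
        simp only [scPt, scVt, if_pos hpr, if_pos hpr']
        have := i3 (r - p.2) ⟨by linarith [hr.1], by linarith [hr.2]⟩ (r' - p.2)
          ⟨by linarith [hr'.1], by linarith [hr'.2]⟩ φ
        rw [this]
        congr 1
        ring
    · -- inside the first step
      push Not at hpa
      have hbp : b ≤ p.2 := by
        by_contra hcon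
        push Not at hcon
        rw [Set.disjoint_left] at hS
        refine hS (a := p.2) ⟨hpa, hcon⟩ ?_
        simp only [scGrid]
        exact Or.inr ⟨0, sc_grid_zero π, by simp⟩
      have hAa : scAl (p :: π) a = p.1 := by simp only [scAl, if_neg (not_le.2 hpa)]
      have hV1 : ScB 1 (scV F π) := sc_V_BI hF π 1
      -- the continuation at any time of the first step
      have hVt : ∀ r, r ≤ p.2 → scVt F (p :: π) r = scStep p.1 (p.2 - r) (scV F π) := by
        intro r hr
        rcases eq_or_lt_of_le hr with rfl | hlt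
        · simp only [scVt, if_pos le_rfl, sub_self, sc_step_var_zero, sc_Vt_zero F hπ]
        · simp only [scVt, if_neg (not_le.2 hlt)]
      refine ⟨fun r hr => ?_, fun r hr => ?_, fun r hr r' hr' φ => ?_⟩
      · rw [hAa]
        simp only [scAl, if_neg (not_le.2 (lt_of_lt_of_le hr.2 hbp))]
      · rw [hAa, hVt r (hr.2.trans hbp), hVt b hbp, sc_step_step hV1 p.1 (sub_nonneg.2 hr.2) (sub_nonneg.2 hbp)]
        congr 1
        ring
      · rw [hAa, hVt r' (hr'.2.trans hbp)]
        by_cases hrp : p.2 ≤ r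
        · -- then `r = r' = p.2`
          have e1 : r = p.2 := le_antisymm (hr.2.trans hbp) hrp
          have e2 : r' = p.2 := le_antisymm (hr'.2.trans hbp) (hrp.trans hr'.1)
          subst e1
          rw [e2, sub_self, sc_tr_var_zero, sc_local_Pt_self]
        · simp only [scPt, if_neg hrp, if_pos (hr'.2.trans hbp)]

/-- induction over the pieces of a finite subdivision -/
theorem sc_piecewise_induction {S : Set ℝ} (hS : S.Finite) {P : ℝ → ℝ → Prop}
    (hbase : ∀ a b, a ≤ b → Disjoint (Ioo a b) S → P a b)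
    (htrans : ∀ a b c, a ≤ b → b ≤ c → P a b → P b c → P a c) {a b : ℝ} (hab : a ≤ b) : P a b := by
  classical
  have key : ∀ n : ℕ, ∀ a b : ℝ, a ≤ b → (hS.toFinset.filter (fun x => x ∈ Ioo a b)).card ≤ n → P a b := by
    intro n
    induction n with
    | zero =>
      intro a b hab hc
      refine hbase a b hab ?_
      rw [Set.disjoint_left]
      intro x hx hxS
      have : x ∈ hS.toFinset.filter (fun x => x ∈ Ioo a b) := by simp [hxS, hx.1, hx.2]
      rw [Nat.le_zero, Finset.card_eq_zero] at hc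
      rw [hc] at this
      simp at this
    | succ n ih =>
      intro a b hab hc
      by_cases hd : Disjoint (Ioo a b) S
      · exact hbase a b hab hd
      · rw [Set.not_disjoint_iff] at hd
        obtain ⟨c, hc1, hc2⟩ := hd
        have hcmem : c ∈ hS.toFinset.filter (fun x => x ∈ Ioo a b) := by simp [hc2, hc1.1, hc1.2]
        have h1 : (hS.toFinset.filter (fun x => x ∈ Ioo a c)).card ≤ n := by
          have hsub : hS.toFinset.filter (fun x => x ∈ Ioo a c) ⊆ (hS.toFinset.filter (fun x => x ∈ Ioo a b)).erase c := by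
            intro x hx
            simp only [Finset.mem_filter, Finite.mem_toFinset, mem_Ioo, Finset.mem_erase] at hx ⊢
            exact ⟨hx.2.2.ne, hx.1, hx.2.1, hx.2.2.trans hc1.2⟩
          have := Finset.card_le_card hsub
          rw [Finset.card_erase_of_mem hcmem] at this
          omega
        have h2 : (hS.toFinset.filter (fun x => x ∈ Ioo c b)).card ≤ n := by
          have hsub : hS.toFinset.filter (fun x => x ∈ Ioo c b) ⊆ (hS.toFinset.filter (fun x => x ∈ Ioo a b)).erase c := by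
            intro x hx
            simp only [Finset.mem_filter, Finite.mem_toFinset, mem_Ioo, Finset.mem_erase] at hx ⊢
            exact ⟨hx.2.1.ne', hx.1, hc1.1.trans hx.2.1, hx.2.2⟩
          have := Finset.card_le_card hsub
          rw [Finset.card_erase_of_mem hcmem] at this
          omega
        exact htrans a c b hc1.1.le hc1.2.le (ih a c hc1.1.le h1) (ih c b hc1.2.le h2)
  exact key _ a b hab le_rfl

/-- gluing of two time intervals -/
theorem ScT.union {a b c : ℝ} (hab : a ≤ b) (hbc : b ≤ c) {n : ℕ} {ψ : ℝ → ℝ → ℝ} (h1 : ScT (Icc a b) n ψ)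
    (h2 : ScT (Icc b c) n ψ) : ScT (Icc a c) n ψ := by
  have hU : Icc a c = Icc a b ∪ Icc b c := (Icc_union_Icc_eq_Icc hab hbc).symm
  have hcont : ∀ {χ : ℝ → ℝ → ℝ}, ContinuousOn (fun p : ℝ × ℝ => χ p.1 p.2) (Icc a b ×ˢ univ) →
      ContinuousOn (fun p : ℝ × ℝ => χ p.1 p.2) (Icc b c ×ˢ univ) →
      ContinuousOn (fun p : ℝ × ℝ => χ p.1 p.2) (Icc a c ×ˢ univ) := by
    intro χ g1 g2
    rw [hU, union_prod]
    exact g1.union_of_isClosed g2 (isClosed_Icc.prod isClosed_univ) (isClosed_Icc.prod isClosed_univ)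
  have hgr : ∀ {χ : ℝ → ℝ → ℝ}, ScGU (Icc a b) χ → ScGU (Icc b c) χ → ScGU (Icc a c) χ := by
    rintro χ ⟨C1, c1, g1⟩ ⟨C2, c2, g2⟩
    refine ⟨max C1 C2, max c1 c2, fun r hr z => ?_⟩
    rw [hU] at hr
    have hC1 : 0 ≤ C1 ∨ True := Or.inr trivial
    rcases hr with hr | hr
    · have h0 := g1 r hr z
      have hC : 0 ≤ C1 := by
        by_contra hneg
        push Not at hneg
        have := (abs_nonneg _).trans h0
        have h3 := mul_neg_of_neg_of_pos hneg (Real.exp_pos (c1 * |z|))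
        linarith
      calc |χ r z| ≤ C1 * Real.exp (c1 * |z|) := h0
        _ ≤ max C1 C2 * Real.exp (max c1 c2 * |z|) := by
          refine mul_le_mul (le_max_left _ _) (Real.exp_le_exp.2 ?_) (Real.exp_pos _).le (hC.trans (le_max_left _ _))
          exact mul_le_mul_of_nonneg_right (le_max_left _ _) (abs_nonneg _)
    · have h0 := g2 r hr z
      have hC : 0 ≤ C2 := by
        by_contra hneg
        push Not at hneg
        have := (abs_nonneg _).trans h0
        have h3 := mul_neg_of_neg_of_pos hneg (Real.exp_pos (c2 * |z|))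
        linarith
      calc |χ r z| ≤ C2 * Real.exp (c2 * |z|) := h0
        _ ≤ max C1 C2 * Real.exp (max c1 c2 * |z|) := by
          refine mul_le_mul (le_max_right _ _) (Real.exp_le_exp.2 ?_) (Real.exp_pos _).le (hC.trans (le_max_right _ _))
          exact mul_le_mul_of_nonneg_right (le_max_right _ _) (abs_nonneg _)
  induction n generalizing ψ with
  | zero => exact ⟨hcont h1.1 h2.1, hgr h1.2 h2.2⟩
  | succ n ih =>
    refine ⟨hcont h1.1 h2.1, hgr h1.2.1 h2.2.1, fun r hr => ?_, ih h1.2.2.2 h2.2.2.2⟩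
    rw [hU] at hr
    rcases hr with hr | hr
    · exact h1.2.2.1 r hr
    · exact h2.2.2.1 r hr

theorem ScT.iter_deriv {I : Set ℝ} {n : ℕ} (k : ℕ) {ψ : ℝ → ℝ → ℝ} (h : ScT I (n + k) ψ) :
    ScT I n (fun r => deriv^[k] (ψ r)) := by
  induction k generalizing ψ with
  | zero => exact h
  | succ k ih => exact ih (ψ := fun r => deriv (ψ r)) h.2.2.2

/-- joint regularity of all the derivatives of `V` -/
theorem sc_D_T {F : ℝ → ℝ} (hF : ScBI F) {π : List (ℝ × ℝ)} (h : ScPos π) (k n : ℕ) :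
    ScT (Icc 0 (scLen π)) n (scD k F π) := by
  have key : ∀ N : ℕ, 0 ≤ (0 : ℝ) → scLen π ≤ scLen π → ScT (Icc 0 (scLen π)) N (scVt F π) := by
    intro N
    refine sc_piecewise_induction (sc_grid_finite π)
      (P := fun a b => 0 ≤ a → b ≤ scLen π → ScT (Icc a b) N (scVt F π)) ?_ ?_ (sc_len_nonneg h)
    · intro a b hab hd h0 hb
      rcases eq_or_lt_of_le hab with rfl | hlt
      · have hE : ScE N (scVt F π a) := sc_D_E hF 0 N π a
        refine (hE.scT (Icc a a)).congr' fun r hr => ?_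
        rw [Icc_self, mem_singleton_iff] at hr
        rw [hr]
      · obtain ⟨-, h2, -⟩ := sc_local hF h h0 hlt hb hd
        exact ((sc_step_T (n := N) (sc_Vt_BI hF π b (N + 1)) (scAl π a) a b).of_succ).congr' h2
    · intro a b c hab hbc h1 h2 h0 hc
      exact (h1 h0 (hbc.trans hc)).union hab hbc (h2 (h0.trans hab) hc)
  exact (key (n + k) le_rfl le_rfl).iter_deriv k

/-- `deriv^[k]` is additive on the exponential class -/
theorem sc_iter_deriv_add {k : ℕ} : ∀ {f g : ℝ → ℝ}, ScE k f → ScE k g →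
    deriv^[k] (fun y => f y + g y) = fun y => deriv^[k] f y + deriv^[k] g y := by
  induction k with
  | zero => intro f g _ _; rfl
  | succ k ih =>
    intro f g hf hg
    have e : deriv (fun y => f y + g y) = fun y => deriv f y + deriv g y :=
      funext fun y => ((hf.differentiable y).hasDerivAt.add (hg.differentiable y).hasDerivAt).deriv
    rw [Function.iterate_succ_apply, e, ih hf.deriv hg.deriv]
    rfl

theorem sc_iter_deriv_const_mul (k : ℕ) (c : ℝ) : ∀ f : ℝ → ℝ,
    deriv^[k] (fun y => c * f y) = fun y => c * deriv^[k] f y := by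
  induction k with
  | zero => intro f; rfl
  | succ k ih =>
    intro f
    have e : deriv (fun y => c * f y) = fun y => c * deriv f y := funext fun y => deriv_const_mul_field c
    rw [Function.iterate_succ_apply, e, ih]
    rfl

/-- **the Parisi PDE**, differentiated `k` times, off the grid -/
theorem sc_D_pde {F : ℝ → ℝ} (hF : ScBI F) {π : List (ℝ × ℝ)} (h : ScPos π) (k : ℕ) {r : ℝ} (h0 : 0 < r)
    (hr : r < scLen π) (hg : r ∉ scGrid π) (z : ℝ) :
    HasDerivAt (fun r => scD k F π r z)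
      (-(scD (k + 2) F π r z) / 2 - scAl π r * deriv^[k] (fun y => scD 1 F π r y ^ 2 / 2) z) r := by
  -- a neighbourhood free of grid points
  have hopen : IsOpen ((scGrid π)ᶜ ∩ Ioo 0 (scLen π)) := (sc_grid_finite π).isClosed.isOpen_compl.inter isOpen_Ioo
  obtain ⟨ε, hε, hball⟩ := Metric.isOpen_iff.1 hopen r ⟨hg, h0, hr⟩
  set a := r - ε / 2 with ha
  set b := r + ε / 2 with hb
  have hsub : Icc a b ⊆ (scGrid π)ᶜ ∩ Ioo 0 (scLen π) := by
    intro x hx
    refine hball ?_
    rw [Metric.mem_ball, Real.dist_eq, abs_lt]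
    constructor <;> [linarith [hx.1]; linarith [hx.2]]
  have ha0 : 0 ≤ a := (hsub (left_mem_Icc.2 (by linarith))).2.1.le
  have hbl : b ≤ scLen π := (hsub (right_mem_Icc.2 (by linarith))).2.2.le
  have hd : Disjoint (Ioo a b) (scGrid π) := by
    rw [Set.disjoint_left]
    intro x hx hxg
    exact (hsub (Ioo_subset_Icc_self hx)).1 hxg
  obtain ⟨h1, h2, -⟩ := sc_local hF h ha0 (by linarith : a < b) hbl hd
  set m := scAl π a with hm
  set G := scVt F π b with hG
  have hGB : ScBI G := sc_Vt_BI hF π b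
  have hmr : scAl π r = m := h1 r ⟨by linarith, by linarith⟩
  have hVr : scVt F π r = scStep m (b - r) G := h2 r ⟨by linarith, by linarith⟩
  have hev : (fun r => scD k F π r z) =ᶠ[𝓝 r] fun r => deriv^[k] (scStep m (b - r) G) z := by
    filter_upwards [Icc_mem_nhds (by linarith : a < r) (by linarith : r < b)] with x hx
    simp only [scD, h2 x hx]
  refine ((sc_step_pde_iter k (hGB (k + 3)) m (by linarith : r < b) z).congr_of_eventuallyEq hev).congr_deriv ?_
  rw [hmr]
  simp only [scD, hVr]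
  set V := scStep m (b - r) G with hV
  have hVB : ScBI V := sc_step_BI hGB m (b - r)
  have hVE : ∀ N, ScE N V := fun N => (ScB.scE (n := N) (hVB (N + 1))).of_succ
  have hE1 : ScE k (fun y => -(1 / 2) * deriv (deriv V) y) := ((hVE (k + 2)).deriv.deriv).const_mul _
  have hE2 : ScE k (fun y => -m * (deriv V y ^ 2 / 2)) := by
    have := ((((hVE (k + 1)).deriv).pow 2).const_mul (1 / 2)).const_mul (-m)
    refine cast ?_ this
    congr 1
    funext y
    ring
  have e : (fun y => -(deriv (deriv V) y + m * deriv V y ^ 2) / 2)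
      = fun y => -(1 / 2) * deriv (deriv V) y + -m * (deriv V y ^ 2 / 2) := by
    funext y; ring
  rw [e, sc_iter_deriv_add hE1 hE2, sc_iter_deriv_const_mul, sc_iter_deriv_const_mul]
  have e2 : deriv^[k] (deriv (deriv V)) z = deriv^[k + 2] V z := rfl
  simp only [Function.iterate_one]
  rw [e2]
  ring

/-- continuity in the time at a fixed point -/
theorem ScT.continuousOn_time {I : Set ℝ} {n : ℕ} {ψ : ℝ → ℝ → ℝ} (h : ScT I n ψ) (z : ℝ) :
    ContinuousOn (fun r => ψ r z) I :=
  h.continuousOn.comp (f := fun r : ℝ => (r, z)) (by fun_prop) (fun r hr => ⟨hr, mem_univ _⟩)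

/-- the PDE in integrated form -/
theorem sc_D_sub_eq_integral {F : ℝ → ℝ} (hF : ScBI F) {π : List (ℝ × ℝ)} (h : ScPos π) (k : ℕ) {t t' : ℝ}
    (h0 : 0 ≤ t) (htt : t ≤ t') (ht' : t' ≤ scLen π) (z : ℝ) :
    scD k F π t' z - scD k F π t z =
      ∫ r in t..t', (-(scD (k + 2) F π r z) / 2 - scAl π r * deriv^[k] (fun y => scD 1 F π r y ^ 2 / 2) z) := by
  have hsub : Icc t t' ⊆ Icc 0 (scLen π) := Icc_subset_Icc h0 ht'
  have hc0 : ContinuousOn (fun r => scD k F π r z) (Icc t t') :=
    ((sc_D_T hF h k 0).continuousOn_time z).mono hsub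
  have hcA : ContinuousOn (fun r => scD (k + 2) F π r z) (Icc t t') :=
    ((sc_D_T hF h (k + 2) 0).continuousOn_time z).mono hsub
  have hT1 : ScT (Icc 0 (scLen π)) (0 + k) (fun r y => scD 1 F π r y ^ 2 / 2) := by
    refine (((sc_D_T hF h 1 (0 + k)).pow 2).const_mul (1 / 2)).congr fun r _ y => ?_
    ring
  have hcB : ContinuousOn (fun r => deriv^[k] (fun y => scD 1 F π r y ^ 2 / 2) z) (Icc t t') :=
    ((hT1.iter_deriv k).continuousOn_time z).mono hsub
  have hiA : IntervalIntegrable (fun r => -(scD (k + 2) F π r z) / 2) volume t t' := by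
    refine ContinuousOn.intervalIntegrable ?_
    rw [uIcc_of_le htt]
    exact (hcA.neg).div_const 2
  have hiB : IntervalIntegrable (fun r => deriv^[k] (fun y => scD 1 F π r y ^ 2 / 2) z) volume t t' := by
    refine ContinuousOn.intervalIntegrable ?_
    rw [uIcc_of_le htt]
    exact hcB
  obtain ⟨C, hC⟩ := sc_Al_bdd π
  have hiAB : IntervalIntegrable (fun r => scAl π r * deriv^[k] (fun y => scD 1 F π r y ^ 2 / 2) z) volume t t' := by
    rw [intervalIntegrable_iff] at hiB ⊢
    exact hiB.bdd_mul (c := C) (sc_Al_measurable π).aestronglyMeasurable (ae_of_all _ fun r => by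
      rw [Real.norm_eq_abs]; exact hC r)
  symm
  refine integral_eq_of_hasDerivAt_off_countable_of_le (fun r => scD k F π r z) _ htt
    (sc_grid_finite π).countable hc0 ?_ (hiA.sub hiAB)
  intro r hr
  exact sc_D_pde hF h k (lt_of_le_of_lt h0 hr.1.1) (lt_of_lt_of_le hr.1.2 ht') hr.2 z

/-! ## C. the transition operators -/

/-! ### C1 (helper146): unfolding lemmas -/

theorem sc_c1_tr_nonpos (m : ℝ) {σ : ℝ} (hσ : σ ≤ 0) (F φ : ℝ → ℝ) : scTr m σ F φ = φ := by
  have h : scTr m σ F φ = scTr m 0 F φ := by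
    funext z
    unfold scTr scW
    rw [sc_heat_max_zero σ, sc_heat_max_zero σ (fun y => Real.exp (m * F y)), max_eq_right hσ]
  rw [h, sc_tr_var_zero]

theorem sc_Pt_cons_ge (F : ℝ → ℝ) (p : ℝ × ℝ) (π : List (ℝ × ℝ)) {s : ℝ} (h : p.2 ≤ s) (t : ℝ) (φ : ℝ → ℝ) :
    scPt F (p :: π) s t φ = scPt F π (s - p.2) (t - p.2) φ := by
  simp only [scPt, if_pos h]

theorem sc_Pt_cons_in (F : ℝ → ℝ) (p : ℝ × ℝ) (π : List (ℝ × ℝ)) {s t : ℝ} (h : ¬ p.2 ≤ s) (ht : t ≤ p.2) (φ : ℝ → ℝ) :
    scPt F (p :: π) s t φ = scTr p.1 (t - s) (scStep p.1 (p.2 - t) (scV F π)) φ := by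
  simp only [scPt, if_neg h, if_pos ht]

theorem sc_Pt_of_le (F : ℝ → ℝ) (π : List (ℝ × ℝ)) {s t : ℝ} (h : t ≤ s) (φ : ℝ → ℝ) : scPt F π s t φ = φ := by
  induction π generalizing s t with
  | nil => rfl
  | cons p π ih =>
    by_cases hp : p.2 ≤ s
    · rw [sc_Pt_cons_ge F p π hp]
      exact ih (by linarith)
    · rw [sc_Pt_cons_in F p π hp (by linarith [not_le.1 hp])]
      exact sc_c1_tr_nonpos _ (by linarith) _ _

theorem sc_Pt_self (F : ℝ → ℝ) (π : List (ℝ × ℝ)) (t : ℝ) (φ : ℝ → ℝ) : scPt F π t t φ = φ :=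
  sc_Pt_of_le F π le_rfl φ

theorem sc_Pt_cons_out (F : ℝ → ℝ) (p : ℝ × ℝ) (π : List (ℝ × ℝ)) {s t : ℝ} (h : ¬ p.2 ≤ s) (ht : p.2 ≤ t) (φ : ℝ → ℝ) :
    scPt F (p :: π) s t φ = scTr p.1 (p.2 - s) (scV F π) (scPt F π 0 (t - p.2) φ) := by
  rcases ht.lt_or_eq with h1 | h1
  · simp only [scPt, if_neg h, if_neg (not_le.2 h1)]
  · rw [sc_Pt_cons_in F p π h h1.ge, ← h1, sub_self, sc_step_var_zero, sc_Pt_of_le F π le_rfl]

theorem sc_Pt_after_zero (F : ℝ → ℝ) (π : List (ℝ × ℝ)) (s t : ℝ) (φ : ℝ → ℝ) :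
    scPt F (scAfter π s) 0 (t - s) φ = scPt F π s t φ := by
  induction π generalizing s t with
  | nil => rfl
  | cons p π ih =>
    by_cases hp : p.2 ≤ s
    · rw [sc_Pt_cons_ge F p π hp, ← ih (s - p.2) (t - p.2)]
      simp only [scAfter, if_pos hp]
      congr 1
      ring
    · have hp' : ¬ (p.1, p.2 - s).2 ≤ 0 := by
        simp only [not_le] at hp ⊢
        linarith
      simp only [scAfter, if_neg hp]
      by_cases ht : t ≤ p.2
      · rw [sc_Pt_cons_in F p π hp ht, sc_Pt_cons_in F _ π hp' (by simpa using ht)]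
        simp only [sub_zero]
        congr 2
        ring
      · have ht' := (not_le.1 ht).le
        rw [sc_Pt_cons_out F p π hp ht', sc_Pt_cons_out F _ π hp' (by simpa using ht')]
        simp only [sub_zero]
        congr 2
        ring

theorem sc_Vt_after_sub (F : ℝ → ℝ) (π : List (ℝ × ℝ)) (s t : ℝ) (hst : s ≤ t) : scVt F (scAfter π s) (t - s) = scVt F π t := by
  induction π generalizing s t with
  | nil => rfl
  | cons p π ih =>
    by_cases hp : p.2 ≤ s
    · simp only [scAfter, if_pos hp, scVt, if_pos (hp.trans hst)]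
      rw [← ih (s - p.2) (t - p.2) (by linarith)]
      congr 1
      ring
    · simp only [scAfter, if_neg hp, scVt]
      by_cases ht : p.2 ≤ t
      · rw [if_pos ht, if_pos (by linarith)]
        congr 1
        ring
      · rw [if_neg ht, if_neg (by simpa using ht)]
        congr 1
        ring

theorem sc_Pt_zero_eq_P {F : ℝ → ℝ} (hF : ScBI F) {π : List (ℝ × ℝ)} (h : ScPos π) {t : ℝ} (ht : 0 ≤ t) (φ : ℝ → ℝ) :
    scPt F π 0 t φ = scP (scVt F π t) (scUpto π t) φ := by
  induction π generalizing t with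
  | nil => rfl
  | cons p π ih =>
    have hp0 : 0 ≤ p.2 := h p (List.mem_cons_self ..)
    by_cases htp : t ≤ p.2
    · simp only [scUpto, if_pos htp, scP, scV]
      by_cases hp : p.2 ≤ 0
      · have e1 : p.2 = 0 := le_antisymm hp hp0
        have e2 : t = 0 := le_antisymm (e1 ▸ htp) ht
        rw [e2, sc_tr_var_zero, sc_Pt_of_le F _ le_rfl]
      · rw [sc_Pt_cons_in F p π hp htp, sub_zero]
        congr 1
        rcases htp.lt_or_eq with h1 | h1
        · simp only [scVt, if_neg (not_le.2 h1)]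
        · simp only [scVt, if_pos h1.ge]
          rw [h1, sub_self, sc_step_var_zero, sc_Vt_zero F h.of_cons]
    · have htp' := (not_le.1 htp).le
      simp only [scUpto, if_neg htp, scP, scVt, if_pos htp']
      rw [sc_V_upto hF h.of_cons (by linarith), ← ih h.of_cons (by linarith : 0 ≤ t - p.2)]
      by_cases hp : p.2 ≤ 0
      · have e1 : p.2 = 0 := le_antisymm hp hp0
        rw [sc_Pt_cons_ge F p π hp, e1, sc_tr_var_zero, sub_zero]
      · rw [sc_Pt_cons_out F p π hp htp', sub_zero]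

/-- link with the list recursion -/
theorem sc_Pt_eq_P {F : ℝ → ℝ} (hF : ScBI F) {π : List (ℝ × ℝ)} (h : ScPos π) {s t : ℝ} (hst : s ≤ t) (φ : ℝ → ℝ) :
    scPt F π s t φ = scP (scVt F π t) (scUpto (scAfter π s) (t - s)) φ := by
  rw [← sc_Pt_after_zero F π s t φ, sc_Pt_zero_eq_P hF (sc_after_pos h s) (by linarith), sc_Vt_after_sub F π s t hst]

theorem sc_P_eq_Pt (F : ℝ → ℝ) {π : List (ℝ × ℝ)} (h : ScPos π) (φ : ℝ → ℝ) :
    scP F π φ = scPt F π 0 (scLen π) φ := by
  induction π with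
  | nil => rfl
  | cons p π ih =>
    have hp0 : 0 ≤ p.2 := h p (List.mem_cons_self ..)
    have hl := sc_len_nonneg h.of_cons
    simp only [scP, scLen]
    by_cases hp : p.2 ≤ 0
    · have e1 : p.2 = 0 := le_antisymm hp hp0
      rw [sc_Pt_cons_ge F p π hp, e1, sc_tr_var_zero, sub_zero, zero_add, sub_zero]
      exact ih h.of_cons
    · rw [sc_Pt_cons_out F p π hp (by linarith), sub_zero, add_sub_cancel_left, ← ih h.of_cons]

theorem sc_Pt_after (F : ℝ → ℝ) {π : List (ℝ × ℝ)} (h : ScPos π) {s : ℝ} (hs : 0 ≤ s) (φ : ℝ → ℝ) :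
    scPt F π s (scLen π) φ = scP F (scAfter π s) φ := by
  induction π generalizing s with
  | nil => rfl
  | cons p π ih =>
    have hl := sc_len_nonneg h.of_cons
    by_cases hp : p.2 ≤ s
    · simp only [scAfter, if_pos hp, scLen]
      rw [sc_Pt_cons_ge F p π hp, add_sub_cancel_left]
      exact ih h.of_cons (by linarith)
    · simp only [scAfter, if_neg hp, scLen, scP]
      rw [sc_Pt_cons_out F p π hp (by linarith), add_sub_cancel_left, ← sc_P_eq_Pt F h.of_cons]

theorem sc_Pt_of_len_le (F : ℝ → ℝ) {π : List (ℝ × ℝ)} (h : ScPos π) (s : ℝ) {t : ℝ} (ht : scLen π ≤ t)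
    (φ : ℝ → ℝ) : scPt F π s t φ = scPt F π s (scLen π) φ := by
  induction π generalizing s t with
  | nil => rfl
  | cons p π ih =>
    have hl := sc_len_nonneg h.of_cons
    simp only [scLen] at ht ⊢
    by_cases hp : p.2 ≤ s
    · rw [sc_Pt_cons_ge F p π hp, sc_Pt_cons_ge F p π hp, add_sub_cancel_left]
      exact ih h.of_cons _ (by linarith)
    · rw [sc_Pt_cons_out F p π hp (by linarith), sc_Pt_cons_out F p π hp (by linarith), add_sub_cancel_left,
        ih h.of_cons 0 (by linarith : scLen π ≤ t - p.2)]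

theorem sc_c1_Pt_E {n : ℕ} {F φ : ℝ → ℝ} (hF : ScBI F) (hφ : ScE n φ) (π : List (ℝ × ℝ)) (s t : ℝ) :
    ScE n (scPt F π s t φ) := by
  induction π generalizing s t with
  | nil => exact hφ
  | cons p π ih =>
    by_cases hp : p.2 ≤ s
    · rw [sc_Pt_cons_ge F p π hp]
      exact ih _ _
    · by_cases ht : t ≤ p.2
      · rw [sc_Pt_cons_in F p π hp ht]
        exact sc_tr_E (sc_step_BI (sc_V_BI hF π) _ _ (n + 1)) hφ _ _
      · rw [sc_Pt_cons_out F p π hp (not_le.1 ht).le]
        exact sc_tr_E (sc_V_BI hF π (n + 1)) (ih _ _) _ _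

/-- **Chapman-Kolmogorov** -/
theorem sc_Pt_Pt {F φ : ℝ → ℝ} (hF : ScBI F) (hφ : ScE 0 φ) {π : List (ℝ × ℝ)} (h : ScPos π) {s r t : ℝ}
    (hsr : s ≤ r) (hrt : r ≤ t) : scPt F π s r (scPt F π r t φ) = scPt F π s t φ := by
  induction π generalizing s r t with
  | nil => rfl
  | cons p π ih =>
    by_cases hp : p.2 ≤ s
    · rw [sc_Pt_cons_ge F p π (hp.trans hsr), sc_Pt_cons_ge F p π hp, sc_Pt_cons_ge F p π hp]
      exact ih h.of_cons (by linarith) (by linarith)
    · by_cases hr : p.2 ≤ r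
      · rw [sc_Pt_cons_ge F p π hr, sc_Pt_cons_out F p π hp hr, sc_Pt_cons_out F p π hp (hr.trans hrt),
          ih h.of_cons (by linarith) (by linarith)]
      · have hr' := (not_le.1 hr).le
        by_cases ht : t ≤ p.2
        · rw [sc_Pt_cons_in F p π hr ht, sc_Pt_cons_in F p π hp hr', sc_Pt_cons_in F p π hp ht]
          have e1 : scStep p.1 (p.2 - r) (scV F π) = scStep p.1 (t - r) (scStep p.1 (p.2 - t) (scV F π)) := by
            rw [sc_step_step (sc_V_BI hF π 1) p.1 (by linarith) (by linarith)]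
            congr 1
            ring
          rw [e1, sc_tr_tr (sc_step_BI (sc_V_BI hF π) _ _ 1) hφ p.1 (by linarith) (by linarith)]
          congr 1
          ring
        · have ht' := (not_le.1 ht).le
          rw [sc_Pt_cons_out F p π hr ht', sc_Pt_cons_in F p π hp hr', sc_Pt_cons_out F p π hp ht',
            sc_tr_tr (sc_V_BI hF π 1) (sc_c1_Pt_E hF hφ π _ _) p.1 (by linarith) (by linarith)]
          congr 1
          ring

theorem sc_Pt_const {F : ℝ → ℝ} (hF : ScBI F) (π : List (ℝ × ℝ)) (s t c : ℝ) :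
    scPt F π s t (fun _ => c) = fun _ => c := by
  induction π generalizing s t with
  | nil => rfl
  | cons p π ih =>
    by_cases hp : p.2 ≤ s
    · rw [sc_Pt_cons_ge F p π hp]
      exact ih _ _
    · by_cases ht : t ≤ p.2
      · rw [sc_Pt_cons_in F p π hp ht]
        exact sc_tr_const (sc_step_BI (sc_V_BI hF π) _ _ 1) _ _ _
      · rw [sc_Pt_cons_out F p π hp (not_le.1 ht).le, ih]
        exact sc_tr_const (sc_V_BI hF π 1) _ _ _

theorem sc_Pt_E {n : ℕ} {F φ : ℝ → ℝ} (hF : ScBI F) (hφ : ScE n φ) (π : List (ℝ × ℝ)) (s t : ℝ) :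
    ScE n (scPt F π s t φ) := by
  exact sc_c1_Pt_E hF hφ π s t

theorem sc_Pt_Bd {n : ℕ} {F φ : ℝ → ℝ} (hF : ScBI F) (hφ : ScBd n φ) (π : List (ℝ × ℝ)) (s t : ℝ) :
    ScBd n (scPt F π s t φ) := by
  induction π generalizing s t with
  | nil => exact hφ
  | cons p π ih =>
    by_cases hp : p.2 ≤ s
    · rw [sc_Pt_cons_ge F p π hp]
      exact ih _ _
    · by_cases ht : t ≤ p.2
      · rw [sc_Pt_cons_in F p π hp ht]
        exact sc_tr_Bd (sc_step_BI (sc_V_BI hF π) _ _ (n + 1)) hφ _ _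
      · rw [sc_Pt_cons_out F p π hp (not_le.1 ht).le]
        exact sc_tr_Bd (sc_V_BI hF π (n + 1)) (ih _ _) _ _

theorem sc_Pt_add {F φ ψ : ℝ → ℝ} (hF : ScBI F) (hφ : ScE 0 φ) (hψ : ScE 0 ψ) (π : List (ℝ × ℝ)) (s t : ℝ) :
    scPt F π s t (fun z => φ z + ψ z) = fun z => scPt F π s t φ z + scPt F π s t ψ z := by
  induction π generalizing s t with
  | nil => rfl
  | cons p π ih =>
    by_cases hp : p.2 ≤ s
    · simp only [sc_Pt_cons_ge F p π hp]
      exact ih _ _
    · by_cases ht : t ≤ p.2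
      · simp only [sc_Pt_cons_in F p π hp ht]
        exact sc_tr_add (sc_step_BI (sc_V_BI hF π) _ _ 1) hφ hψ _ _
      · simp only [sc_Pt_cons_out F p π hp (not_le.1 ht).le, ih]
        exact sc_tr_add (sc_V_BI hF π 1) (sc_Pt_E hF hφ π _ _) (sc_Pt_E hF hψ π _ _) _ _

theorem sc_Pt_sub {F φ ψ : ℝ → ℝ} (hF : ScBI F) (hφ : ScE 0 φ) (hψ : ScE 0 ψ) (π : List (ℝ × ℝ)) (s t : ℝ) :
    scPt F π s t (fun z => φ z - ψ z) = fun z => scPt F π s t φ z - scPt F π s t ψ z := by
  induction π generalizing s t with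
  | nil => rfl
  | cons p π ih =>
    by_cases hp : p.2 ≤ s
    · simp only [sc_Pt_cons_ge F p π hp]
      exact ih _ _
    · by_cases ht : t ≤ p.2
      · simp only [sc_Pt_cons_in F p π hp ht]
        exact sc_tr_sub (sc_step_BI (sc_V_BI hF π) _ _ 1) hφ hψ _ _
      · simp only [sc_Pt_cons_out F p π hp (not_le.1 ht).le, ih]
        exact sc_tr_sub (sc_V_BI hF π 1) (sc_Pt_E hF hφ π _ _) (sc_Pt_E hF hψ π _ _) _ _

theorem sc_Pt_const_mul (F φ : ℝ → ℝ) (π : List (ℝ × ℝ)) (s t c : ℝ) :
    scPt F π s t (fun z => c * φ z) = fun z => c * scPt F π s t φ z := by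
  induction π generalizing s t with
  | nil => rfl
  | cons p π ih =>
    by_cases hp : p.2 ≤ s
    · simp only [sc_Pt_cons_ge F p π hp]
      exact ih _ _
    · by_cases ht : t ≤ p.2
      · simp only [sc_Pt_cons_in F p π hp ht]
        exact sc_tr_const_mul _ _ _ _ _
      · simp only [sc_Pt_cons_out F p π hp (not_le.1 ht).le, ih]
        exact sc_tr_const_mul _ _ _ _ _

theorem sc_Pt_mono {F φ ψ : ℝ → ℝ} (hF : ScBI F) (hφ : ScE 0 φ) (hψ : ScE 0 ψ) (h : ∀ z, φ z ≤ ψ z)
    (π : List (ℝ × ℝ)) (s t z : ℝ) : scPt F π s t φ z ≤ scPt F π s t ψ z := by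
  induction π generalizing s t z with
  | nil => exact h z
  | cons p π ih =>
    by_cases hp : p.2 ≤ s
    · simp only [sc_Pt_cons_ge F p π hp]
      exact ih _ _ _
    · by_cases ht : t ≤ p.2
      · simp only [sc_Pt_cons_in F p π hp ht]
        exact sc_tr_mono (sc_step_BI (sc_V_BI hF π) _ _ 1) hφ hψ h _ _ _
      · simp only [sc_Pt_cons_out F p π hp (not_le.1 ht).le]
        exact sc_tr_mono (sc_V_BI hF π 1) (sc_Pt_E hF hφ π _ _) (sc_Pt_E hF hψ π _ _) (ih _ _) _ _ _

theorem sc_Pt_nonneg {F φ : ℝ → ℝ} (hF : ScBI F) (hφ : ScE 0 φ) (h : ∀ z, 0 ≤ φ z) (π : List (ℝ × ℝ)) (s t z : ℝ) :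
    0 ≤ scPt F π s t φ z := by
  have h1 := sc_Pt_mono hF (ScE.const 0 0) hφ h π s t z
  rwa [sc_Pt_const hF π s t 0] at h1

theorem sc_Pt_pos {F φ : ℝ → ℝ} (hF : ScBI F) (hφ : ScE 0 φ) (h : ∀ z, 0 < φ z) (π : List (ℝ × ℝ)) (s t z : ℝ) :
    0 < scPt F π s t φ z := by
  induction π generalizing s t φ z with
  | nil => exact h z
  | cons p π ih =>
    simp only [scPt]
    split_ifs with h1 h2
    · exact ih hφ h _ _ _
    · exact sc_tr_pos (sc_step_BI (sc_V_BI hF π) _ _ 1) hφ h _ _ _
    · exact sc_tr_pos (sc_V_BI hF π 1) (sc_Pt_E hF hφ π _ _) (fun y => ih hφ h _ _ y) _ _ _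

theorem sc_Pt_abs_le {F φ : ℝ → ℝ} (hF : ScBI F) (hφ : Continuous φ) {C : ℝ} (h : ∀ z, |φ z| ≤ C)
    (π : List (ℝ × ℝ)) (s t z : ℝ) : |scPt F π s t φ z| ≤ C := by
  induction π generalizing s t z with
  | nil => exact h z
  | cons p π ih =>
    simp only [scPt]
    split_ifs with h1 h2
    · exact ih _ _ _
    · exact sc_tr_abs_le (sc_step_BI (sc_V_BI hF π) _ _ 1) hφ h _ _ _
    · exact sc_tr_abs_le (sc_V_BI hF π 1)
        (sc_Pt_E (n := 0) hF ⟨hφ, ScG.of_bdd h⟩ π _ _).continuous (fun y => ih _ _ y) _ _ _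

theorem sc_Pt_mul_sq_le {F φ ψ : ℝ → ℝ} (hF : ScBI F) (hφ : ScE 0 φ) (hψ : ScE 0 ψ) (π : List (ℝ × ℝ)) (s t z : ℝ) :
    scPt F π s t (fun y => φ y * ψ y) z ^ 2
      ≤ scPt F π s t (fun y => φ y ^ 2) z * scPt F π s t (fun y => ψ y ^ 2) z := by
  have hq : ∀ x : ℝ, 0 ≤ scPt F π s t (fun y => ψ y ^ 2) z * (x * x)
      + 2 * scPt F π s t (fun y => φ y * ψ y) z * x + scPt F π s t (fun y => φ y ^ 2) z := by
    intro x
    have h0 : 0 ≤ scPt F π s t (fun y => (φ y + x * ψ y) ^ 2) z :=
      sc_Pt_nonneg hF ((hφ.add (hψ.const_mul x)).pow 2) (fun y => sq_nonneg _) π s t z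
    have e0 : (fun y => (φ y + x * ψ y) ^ 2)
        = fun y => φ y ^ 2 + ((2 * x) * (φ y * ψ y) + (x * x) * ψ y ^ 2) := by
      funext y; ring
    have e1 := congrFun (sc_Pt_add hF (hφ.pow 2)
      (((hφ.mul hψ).const_mul (2 * x)).add ((hψ.pow 2).const_mul (x * x))) π s t) z
    have e2 := congrFun (sc_Pt_add hF ((hφ.mul hψ).const_mul (2 * x))
      ((hψ.pow 2).const_mul (x * x)) π s t) z
    have e3 := congrFun (sc_Pt_const_mul F (fun y => φ y * ψ y) π s t (2 * x)) z
    have e4 := congrFun (sc_Pt_const_mul F (fun y => ψ y ^ 2) π s t (x * x)) z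
    rw [e0, e1, e2, e3, e4] at h0
    linarith
  have hd := discrim_le_zero hq
  rw [discrim] at hd
  nlinarith

theorem sc_Pt_sq_le {F φ : ℝ → ℝ} (hF : ScBI F) (hφ : ScE 0 φ) (π : List (ℝ × ℝ)) (s t z : ℝ) :
    scPt F π s t φ z ^ 2 ≤ scPt F π s t (fun y => φ y ^ 2) z := by
  have h1 := sc_Pt_mul_sq_le hF hφ (ScE.const 0 1) π s t z
  have e1 : (fun y => φ y * (1:ℝ)) = φ := by funext y; ring
  have e2 : (fun _ : ℝ => (1:ℝ) ^ 2) = fun _ => 1 := by funext y; ring
  rw [e1, e2, sc_Pt_const hF π s t 1, mul_one] at h1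
  exact h1

theorem sc_Pt_even {F φ : ℝ → ℝ} (h : ∀ z, F (-z) = F z) (hφ : ∀ z, φ (-z) = φ z) (π : List (ℝ × ℝ)) (s t z : ℝ) :
    scPt F π s t φ (-z) = scPt F π s t φ z := by
  induction π generalizing s t z with
  | nil => exact hφ z
  | cons p π ih =>
    simp only [scPt]
    split_ifs with h1 h2
    · exact ih _ _ _
    · exact sc_tr_even (fun y => sc_step_even (fun y => sc_V_even h π y) _ _ y) hφ _ _ z
    · exact sc_tr_even (fun y => sc_V_even h π y) (fun y => ih _ _ y) _ _ z

theorem sc_Pt_odd {F φ : ℝ → ℝ} (h : ∀ z, F (-z) = F z) (hφ : ∀ z, φ (-z) = - φ z) (π : List (ℝ × ℝ)) (s t z : ℝ) :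
    scPt F π s t φ (-z) = - scPt F π s t φ z := by
  induction π generalizing s t z with
  | nil => exact hφ z
  | cons p π ih =>
    simp only [scPt]
    split_ifs with h1 h2
    · exact ih _ _ _
    · exact sc_tr_odd (fun y => sc_step_even (fun y => sc_V_even h π y) _ _ y) hφ _ _ z
    · exact sc_tr_odd (fun y => sc_V_even h π y) (fun y => ih _ _ y) _ _ z

theorem sc_Pt_add_const {F : ℝ → ℝ} (hF : ScBI F) (c : ℝ) (π : List (ℝ × ℝ)) (s t : ℝ) (φ : ℝ → ℝ) :
    scPt (fun z => F z + c) π s t φ = scPt F π s t φ := by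
  induction π generalizing s t φ with
  | nil => rfl
  | cons p π ih =>
    simp only [scPt]
    rw [sc_V_add_const hF c π, sc_step_add_const (sc_V_BI hF π 1), sc_tr_add_const, sc_tr_add_const,
      ih, ih]

/-- restriction of the profile does not change the transition -/
theorem sc_Pt_shift (F : ℝ → ℝ) {π : List (ℝ × ℝ)} (h : ScPos π) {r s t : ℝ} (hr : 0 ≤ r) (hs : 0 ≤ s) (φ : ℝ → ℝ) :
    scPt F (scAfter π r) s t φ = scPt F π (r + s) (r + t) φ := by
  induction π generalizing r with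
  | nil => rfl
  | cons p π ih =>
    simp only [scAfter]
    split_ifs with h1
    · rw [ih h.of_cons (sub_nonneg.2 h1)]
      have h2 : p.2 ≤ r + s := by linarith
      simp only [scPt, if_pos h2]
      have e1 : r - p.2 + s = r + s - p.2 := by ring
      have e2 : r - p.2 + t = r + t - p.2 := by ring
      rw [e1, e2]
    · simp only [scPt]
      have e1 : s - (p.2 - r) = r + s - p.2 := by ring
      have e2 : t - (p.2 - r) = r + t - p.2 := by ring
      have e3 : r + t - (r + s) = t - s := by ring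
      have e4 : p.2 - r - t = p.2 - (r + t) := by ring
      have e5 : p.2 - r - s = p.2 - (r + s) := by ring
      by_cases h2 : p.2 ≤ r + s
      · rw [if_pos (show p.2 - r ≤ s by linarith), if_pos h2, e1, e2]
      · rw [if_neg (show ¬ p.2 - r ≤ s from fun h' => h2 (by linarith)), if_neg h2]
        by_cases h3 : r + t ≤ p.2
        · rw [if_pos (show t ≤ p.2 - r by linarith), if_pos h3, e3, e4]
        · rw [if_neg (show ¬ t ≤ p.2 - r from fun h' => h3 (by linarith)), if_neg h3, e2, e5]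

theorem sc_Pt_upto {F : ℝ → ℝ} (hF : ScBI F) {π : List (ℝ × ℝ)} (h : ScPos π) {r s t : ℝ} (hs : 0 ≤ s) (htr : t ≤ r)
    (φ : ℝ → ℝ) : scPt (scVt F π r) (scUpto π r) s t φ = scPt F π s t φ := by
  rcases le_or_gt t s with hts | hst
  · rw [sc_Pt_of_le _ _ hts, sc_Pt_of_le _ _ hts]
  induction π generalizing r s t with
  | nil => rfl
  | cons p π ih =>
    have hπ : ScPos π := h.of_cons
    have hV := sc_V_BI hF π
    by_cases h1 : r ≤ p.2
    · -- the whole interval lies in the first step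
      have hG : scVt F (p :: π) r = scStep p.1 (p.2 - r) (scV F π) := by
        simp only [scVt]
        split_ifs with h2
        · have : r = p.2 := le_antisymm h1 h2
          rw [this, sub_self, sc_Vt_zero F hπ, sc_step_var_zero]
        · rfl
      have hU : scUpto (p :: π) r = [(p.1, r)] := by simp only [scUpto, if_pos h1]
      rw [hG, hU]
      simp only [scPt, scV]
      rw [if_neg (show ¬ r ≤ s by linarith), if_pos htr, if_neg (show ¬ p.2 ≤ s by linarith),
        if_pos (htr.trans h1), sc_step_step (hV 1) p.1 (sub_nonneg.2 htr) (sub_nonneg.2 h1)]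
      have e : r - t + (p.2 - r) = p.2 - t := by ring
      rw [e]
    · have h1' : p.2 < r := not_le.1 h1
      have hG : scVt F (p :: π) r = scVt F π (r - p.2) := by simp only [scVt, if_pos h1'.le]
      have hU : scUpto (p :: π) r = p :: scUpto π (r - p.2) := by simp only [scUpto, if_neg h1]
      rw [hG, hU]
      simp only [scPt]
      rw [sc_V_upto hF hπ (sub_nonneg.2 h1'.le)]
      split_ifs with h2 h3
      · exact ih hπ (sub_nonneg.2 h2) (by linarith) (by linarith)
      · rfl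
      · rw [ih hπ le_rfl (by linarith) (by linarith)]

/-- **martingale property of `u = V_z`** -/
theorem sc_D1_mart {F : ℝ → ℝ} (hF : ScBI F) {π : List (ℝ × ℝ)} (h : ScPos π) {s t : ℝ} (hst : s ≤ t) :
    scPt F π s t (scD 1 F π t) = scD 1 F π s := by
  induction π generalizing s t with
  | nil => rfl
  | cons p π ih =>
    have hπ : ScPos π := h.of_cons
    have hV := sc_V_BI hF π
    -- the continuation inside the first step
    have hG : ∀ r, r ≤ p.2 → scVt F (p :: π) r = scStep p.1 (p.2 - r) (scV F π) := by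
      intro r hr
      simp only [scVt]
      split_ifs with h2
      · have : r = p.2 := le_antisymm hr h2
        rw [this, sub_self, sc_Vt_zero F hπ, sc_step_var_zero]
      · rfl
    have hG' : ∀ r, p.2 ≤ r → scVt F (p :: π) r = scVt F π (r - p.2) := by
      intro r hr
      simp only [scVt, if_pos hr]
    simp only [scD, Function.iterate_one] at ih ⊢
    by_cases h1 : p.2 ≤ s
    · rw [hG' s h1, hG' t (h1.trans hst)]
      simp only [scPt, if_pos h1]
      exact ih hπ (by linarith)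
    · have h1' : s < p.2 := not_le.1 h1
      rw [hG s h1'.le]
      by_cases h2 : t ≤ p.2
      · rw [hG t h2]
        simp only [scPt, if_neg h1, if_pos h2]
        rw [← sc_step_deriv (sc_step_BI hV _ _ 1), sc_step_step (hV 1) p.1 (sub_nonneg.2 hst)
          (sub_nonneg.2 h2)]
        have e : t - s + (p.2 - t) = p.2 - s := by ring
        rw [e]
      · have h2' : p.2 < t := not_le.1 h2
        rw [hG' t h2'.le]
        simp only [scPt, if_neg h1, if_neg h2]
        rw [ih hπ (sub_nonneg.2 h2'.le), sc_Vt_zero F hπ, ← sc_step_deriv (hV 1)]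

/-- change of the time variable -/
theorem sc_T_comp_time {I J : Set ℝ} {n : ℕ} {ψ : ℝ → ℝ → ℝ} (h : ScT I n ψ) {τ : ℝ → ℝ}
    (hτ : ContinuousOn τ J) (hm : MapsTo τ J I) : ScT J n (fun r => ψ (τ r)) := by
  have hc : ∀ {χ : ℝ → ℝ → ℝ}, ContinuousOn (fun p : ℝ × ℝ => χ p.1 p.2) (I ×ˢ univ) →
      ContinuousOn (fun p : ℝ × ℝ => χ (τ p.1) p.2) (J ×ˢ univ) := by
    intro χ hχ
    have h2 : ContinuousOn (fun p : ℝ × ℝ => ((τ p.1, p.2) : ℝ × ℝ)) (J ×ˢ univ) :=
      (hτ.comp continuousOn_fst (fun p hp => hp.1)).prodMk continuousOn_snd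
    exact hχ.comp h2 (fun p hp => ⟨hm hp.1, mem_univ _⟩)
  have hg : ∀ {χ : ℝ → ℝ → ℝ}, ScGU I χ → ScGU J (fun r => χ (τ r)) := by
    rintro χ ⟨C, c, hC⟩
    exact ⟨C, c, fun r hr z => hC _ (hm hr) z⟩
  induction n generalizing ψ with
  | zero => exact ⟨hc h.1, hg h.2⟩
  | succ n ih => exact ⟨hc h.1, hg h.2.1, fun r hr => h.2.2.1 _ (hm hr), ih h.2.2.2⟩

/-- the planted transition with frozen variance applied to a time dependent function -/
theorem sc_tr_T_frozen {I : Set ℝ} {n : ℕ} {V : ℝ → ℝ} (hV : ScB (n + 1) V) (m σ : ℝ) {χ : ℝ → ℝ → ℝ}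
    (hχ : ScT I n χ) : ScT I n (fun r => scTr m σ V (χ r)) := by
  have hV1 : ScB 1 V := hV.mono (by omega)
  have hE : ScE n (fun y => Real.exp (m * V y)) := (hV.exp m).of_succ
  have h1 : ScT I n (fun r => scHeat σ (fun y => χ r y * Real.exp (m * V y))) :=
    sc_heat_T_of_T (hχ.mul (hE.scT I)) σ
  have h2 : ScT I n (fun _ z => (scW m σ V z)⁻¹) := by
    have h3 : ScT I n (fun _ => scW m σ V) := (sc_heat_E hE σ).scT _
    refine h3.inv (fun _ _ z => sc_W_pos hV1 m _ z) ?_
    by_cases hσ : 0 ≤ σ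
    · obtain ⟨C, c, h⟩ := sc_W_inv_growth hV1 m σ
      exact ⟨C, c, fun _ _ z => by
        rw [abs_of_pos (inv_pos.2 (sc_W_pos hV1 m _ z))]; exact h σ ⟨hσ, le_rfl⟩ z⟩
    · obtain ⟨C, c, h⟩ := sc_W_inv_growth hV1 m 0
      refine ⟨C, c, fun _ _ z => ?_⟩
      rw [abs_of_pos (inv_pos.2 (sc_W_pos hV1 m _ z))]
      have e : scW m σ V z = scW m 0 V z := by
        simp only [scW, scHeat, Real.sqrt_eq_zero_of_nonpos (not_le.1 hσ).le, Real.sqrt_zero]
      rw [e]
      exact h 0 ⟨le_rfl, le_rfl⟩ z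
  refine (h1.mul h2).congr fun r _ z => ?_
  rw [scTr, div_eq_mul_inv]

/-- forward transition inside a step, started at `c ≤ a`, on a sub-interval `[a, b] ⊆ [c, t₁]` -/
theorem sc_tr_T_loc {n : ℕ} {V : ℝ → ℝ} (hV : ScB (n + 1) V) (m : ℝ) {c a b t₁ : ℝ} (hca : c ≤ a)
    (hb : b ≤ t₁) {χ : ℝ → ℝ → ℝ} (hχ : ScT (Icc a b) n χ) :
    ScT (Icc a b) n (fun r => scTr m (r - c) (scStep m (t₁ - r) V) (χ r)) := by
  have hV1 : ScB 1 V := hV.mono (by omega)
  have hsub : Icc a b ⊆ Icc c t₁ := Icc_subset_Icc hca hb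
  have hW : ScT (Icc a b) n (fun r => scW m (t₁ - r) V) := ((sc_W_T hV m c t₁).of_succ).subset hsub
  have h1 : ScT (Icc a b) n (fun r => scHeat (r - c) (fun y => χ r y * scW m (t₁ - r) V y)) :=
    sc_heat_T_gen (hχ.mul hW) (σ := fun r => r - c) (Continuous.continuousOn (by fun_prop))
      (S := b - c) (fun r hr => by linarith [hr.2])
  have h2 : ScT (Icc a b) n (fun _ z => (scW m (t₁ - c) V z)⁻¹) := by
    have h3 : ScT (Icc a b) n (fun _ => scW m (t₁ - c) V) :=
      ((sc_heat_E (hV.exp m) (t₁ - c)).of_succ).scT _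
    refine h3.inv (fun _ _ z => sc_W_pos hV1 m _ z) ?_
    obtain ⟨C, c', h⟩ := sc_W_invGU hV1 m c t₁
    by_cases hle : c ≤ t₁
    · exact ⟨C, c', fun _ _ z => h c ⟨le_rfl, hle⟩ z⟩
    · exact ⟨0, 0, fun r hr z => absurd (hca.trans (hr.1.trans (hr.2.trans hb))) hle⟩
  refine (h1.mul h2).congr fun r hr z => ?_
  exact sc_tr_fwd_eq hV1 m (hsub hr) (χ r) z

theorem sc_heat_var_nonpos {σ : ℝ} (hσ : σ ≤ 0) (f : ℝ → ℝ) : scHeat σ f = f := by
  funext z
  simp [scHeat, Real.sqrt_eq_zero_of_nonpos hσ]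

theorem sc_tr_var_nonpos {σ : ℝ} (hσ : σ ≤ 0) (m : ℝ) (G φ : ℝ → ℝ) : scTr m σ G φ = φ := by
  funext z
  rw [scTr, scW, sc_heat_var_nonpos hσ, sc_heat_var_nonpos hσ]
  field_simp

theorem sc_pt_cons_shift {F : ℝ → ℝ} {p : ℝ × ℝ} {π : List (ℝ × ℝ)} {s : ℝ} (hs : p.2 ≤ s) (r : ℝ)
    (φ : ℝ → ℝ) : scPt F (p :: π) s r φ = scPt F π (s - p.2) (r - p.2) φ := by
  simp [scPt, hs]

theorem sc_pt_cons_left {F : ℝ → ℝ} {p : ℝ × ℝ} {π : List (ℝ × ℝ)} {s r : ℝ} (hs : s < p.2)
    (hr : r ≤ p.2) (φ : ℝ → ℝ) :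
    scPt F (p :: π) s r φ = scTr p.1 (r - s) (scStep p.1 (p.2 - r) (scV F π)) φ := by
  simp [scPt, not_le.2 hs, hr]

theorem sc_pt_cons_right {F : ℝ → ℝ} {p : ℝ × ℝ} {π : List (ℝ × ℝ)} {s r : ℝ} (hs : s < p.2)
    (hr : p.2 ≤ r) (φ : ℝ → ℝ) :
    scPt F (p :: π) s r φ = scTr p.1 (p.2 - s) (scV F π) (scPt F π 0 (r - p.2) φ) := by
  rcases hr.eq_or_lt with rfl | hr
  · rw [sc_pt_cons_left hs le_rfl, sub_self, sc_step_var_zero, sc_Pt_of_le F π le_rfl]
  · simp [scPt, not_le.2 hs, not_le.2 hr]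

/-- **regularity of the forward transition** of a time dependent test function -/
theorem sc_pt_T {F : ℝ → ℝ} (hF : ScBI F) (π : List (ℝ × ℝ)) {n : ℕ} {s a b : ℝ} (hsa : s ≤ a)
    {χ : ℝ → ℝ → ℝ} (hχ : ScT (Icc a b) n χ) : ScT (Icc a b) n (fun r => scPt F π s r (χ r)) := by
  induction π generalizing s a b χ with
  | nil => exact hχ
  | cons p π ih =>
    have hV : ScB (n + 1) (scV F π) := sc_V_BI hF π (n + 1)
    -- shifted induction hypothesis
    have ihs : ∀ {s' a' b' : ℝ} {χ' : ℝ → ℝ → ℝ}, s' ≤ a' - p.2 → ScT (Icc a' b') n χ' →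
        ScT (Icc a' b') n (fun r => scPt F π s' (r - p.2) (χ' r)) := by
      intro s' a' b' χ' hs' hχ'
      have h1 : ScT (Icc (a' - p.2) (b' - p.2)) n (fun r => χ' (r + p.2)) :=
        sc_T_comp_time hχ' (Continuous.continuousOn (by fun_prop))
          (fun r hr => ⟨by linarith [hr.1], by linarith [hr.2]⟩)
      have h2 := ih hs' h1
      have h3 := sc_T_comp_time h2 (τ := fun r => r - p.2) (J := Icc a' b')
        (Continuous.continuousOn (by fun_prop)) (fun r hr => ⟨by linarith [hr.1], by linarith [hr.2]⟩)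
      simpa only [sub_add_cancel] using h3
    by_cases hs : p.2 ≤ s
    · refine (ihs (s' := s - p.2) (by linarith) hχ).congr' fun r _ => ?_
      rw [sc_pt_cons_shift hs]
    · have hs' : s < p.2 := not_le.1 hs
      -- left of the first grid point
      have hL : ∀ {a' b' : ℝ}, s ≤ a' → b' ≤ p.2 → ScT (Icc a' b') n χ →
          ScT (Icc a' b') n (fun r => scPt F (p :: π) s r (χ r)) := by
        intro a' b' ha' hb' hχ'
        refine (sc_tr_T_loc hV p.1 ha' hb' hχ').congr' fun r hr => ?_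
        rw [sc_pt_cons_left hs' (hr.2.trans hb')]
      -- right of the first grid point
      have hR : ∀ {a' b' : ℝ}, p.2 ≤ a' → ScT (Icc a' b') n χ →
          ScT (Icc a' b') n (fun r => scPt F (p :: π) s r (χ r)) := by
        intro a' b' ha' hχ'
        refine (sc_tr_T_frozen hV p.1 (p.2 - s) (ihs (s' := 0) (by linarith) hχ')).congr' fun r hr => ?_
        rw [sc_pt_cons_right hs' (ha'.trans hr.1)]
      rcases le_total b p.2 with hb | hb
      · exact hL hsa hb hχ
      rcases le_total p.2 a with ha | ha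
      · exact hR ha hχ
      · exact ScT.union ha hb (hL hsa le_rfl (hχ.subset (Icc_subset_Icc le_rfl hb)))
          (hR le_rfl (hχ.subset (Icc_subset_Icc ha le_rfl)))

theorem sc_pt_T_shift {F : ℝ → ℝ} (hF : ScBI F) (π : List (ℝ × ℝ)) {n : ℕ} {s' a b c : ℝ}
    (hs : s' ≤ a - c) {χ : ℝ → ℝ → ℝ} (hχ : ScT (Icc a b) n χ) :
    ScT (Icc a b) n (fun r => scPt F π s' (r - c) (χ r)) := by
  have h1 : ScT (Icc (a - c) (b - c)) n (fun r => χ (r + c)) :=
    sc_T_comp_time hχ (Continuous.continuousOn (by fun_prop))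
      (fun r hr => ⟨by linarith [hr.1], by linarith [hr.2]⟩)
  have h2 := sc_pt_T hF π hs h1
  have h3 := sc_T_comp_time h2 (τ := fun r => r - c) (J := Icc a b)
    (Continuous.continuousOn (by fun_prop)) (fun r hr => ⟨by linarith [hr.1], by linarith [hr.2]⟩)
  simpa only [sub_add_cancel] using h3

/-- backward variable: `r ↦ E[ψ(Z_t) | Z_r = z]` -/
theorem sc_Pt_T {n : ℕ} {F ψ : ℝ → ℝ} (hF : ScBI F) (hψ : ScE n ψ) {π : List (ℝ × ℝ)} (h : ScPos π) (t : ℝ) :
    ScT (Icc 0 t) n (fun r => scPt F π r t ψ) := by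
  induction π generalizing t with
  | nil => exact hψ.scT _
  | cons p π ih =>
    have hV : ScBI (scV F π) := sc_V_BI hF π
    have hp : 0 ≤ p.2 := h p List.mem_cons_self
    rcases le_total t p.2 with ht | ht
    · refine (sc_tr_T (sc_step_BI hV p.1 (p.2 - t) (n + 1)) hψ p.1 0 t).congr' fun r hr => ?_
      rcases (hr.2.trans ht).eq_or_lt with e | hlt
      · have e2 : t = r := le_antisymm (by linarith) hr.2
        subst e2
        rw [sc_Pt_of_le F _ le_rfl, sub_self, sc_tr_var_zero]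
      · rw [sc_pt_cons_left hlt ht]
    · have hL : ScT (Icc 0 p.2) n (fun r => scPt F (p :: π) r t ψ) := by
        refine (sc_tr_T (hV (n + 1)) (sc_Pt_E hF hψ π 0 (t - p.2)) p.1 0 p.2).congr' fun r hr => ?_
        rcases hr.2.eq_or_lt with e | hlt
        · rw [e, sc_pt_cons_shift le_rfl, sub_self, sc_tr_var_zero]
        · rw [sc_pt_cons_right hlt ht]
      have hR : ScT (Icc p.2 t) n (fun r => scPt F (p :: π) r t ψ) := by
        have h1 := sc_T_comp_time (ih h.of_cons (t - p.2)) (τ := fun r => r - p.2) (J := Icc p.2 t)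
          (Continuous.continuousOn (by fun_prop)) (fun r hr => ⟨by linarith [hr.1], by linarith [hr.2]⟩)
        refine h1.congr' fun r hr => ?_
        rw [sc_pt_cons_shift hr.1]
      exact ScT.union hp ht hL hR

/-- forward variable, time dependent test function: `r ↦ E[φ_r(Z_r) | Z_s = z]` -/
theorem sc_Pt_T' {n : ℕ} {F : ℝ → ℝ} (hF : ScBI F) {π : List (ℝ × ℝ)} (h : ScPos π) {s t : ℝ} (hs : 0 ≤ s)
    {φ : ℝ → ℝ → ℝ} (hφ : ScT (Icc s t) n φ) : ScT (Icc s t) n (fun r => scPt F π s r (φ r)) := by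
  exact sc_pt_T hF π le_rfl hφ

/-- **backward equation** off the grid -/
theorem sc_Pt_backward {F ψ : ℝ → ℝ} (hF : ScBI F) (hψ : ScE 2 ψ) {π : List (ℝ × ℝ)} (h : ScPos π) {r t : ℝ}
    (h0 : 0 < r) (hrt : r < t) (ht : t ≤ scLen π) (hg : r ∉ scGrid π) (z : ℝ) :
    HasDerivAt (fun r => scPt F π r t ψ z)
      (-(deriv (deriv (scPt F π r t ψ)) z / 2 + scAl π r * scD 1 F π r z * deriv (scPt F π r t ψ) z)) r := by
  induction π generalizing r t ψ with
  | nil =>
    simp only [scLen] at ht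
    linarith
  | cons p π ih =>
    have hπ : ScPos π := h.of_cons
    have hV := sc_V_BI hF π
    have hne : r ≠ p.2 := by
      intro e
      apply hg
      simp only [scGrid]
      exact Or.inr ⟨0, sc_grid_zero π, by rw [e]; ring⟩
    rcases lt_or_gt_of_ne hne with h1 | h1
    · have hAl : scAl (p :: π) r = p.1 := by simp only [scAl, if_neg (not_le.2 h1)]
      have hD : scD 1 F (p :: π) r = deriv (scStep p.1 (p.2 - r) (scV F π)) := by
        simp only [scD, Function.iterate_one, scVt, if_neg (not_le.2 h1)]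
      by_cases h2 : t ≤ p.2
      · have key := sc_tr_backward (sc_step_BI hV p.1 (p.2 - t) 3) hψ p.1 hrt z
        have hloc : (fun r => scPt F (p :: π) r t ψ z)
            =ᶠ[𝓝 r] fun r => scTr p.1 (t - r) (scStep p.1 (p.2 - t) (scV F π)) ψ z := by
          filter_upwards [Iio_mem_nhds h1] with r' hr'
          simp only [scPt, if_neg (not_le.2 (show r' < p.2 from hr')), if_pos h2]
        have hval : scPt F (p :: π) r t ψ = scTr p.1 (t - r) (scStep p.1 (p.2 - t) (scV F π)) ψ := by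
          simp only [scPt, if_neg (not_le.2 h1), if_pos h2]
        have hstep : scStep p.1 (t - r) (scStep p.1 (p.2 - t) (scV F π))
            = scStep p.1 (p.2 - r) (scV F π) := by
          rw [sc_step_step (hV 1) p.1 (sub_nonneg.2 hrt.le) (sub_nonneg.2 h2)]
          have e : t - r + (p.2 - t) = p.2 - r := by ring
          rw [e]
        rw [hval, hAl, hD, ← hstep]
        exact key.congr_of_eventuallyEq hloc
      · have hΨ : ScE 2 (scPt F π 0 (t - p.2) ψ) := sc_Pt_E hF hψ π _ _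
        have key := sc_tr_backward (hV 3) hΨ p.1 h1 z
        have hloc : (fun r => scPt F (p :: π) r t ψ z)
            =ᶠ[𝓝 r] fun r => scTr p.1 (p.2 - r) (scV F π) (scPt F π 0 (t - p.2) ψ) z := by
          filter_upwards [Iio_mem_nhds h1] with r' hr'
          simp only [scPt, if_neg (not_le.2 (show r' < p.2 from hr')), if_neg h2]
        have hval : scPt F (p :: π) r t ψ
            = scTr p.1 (p.2 - r) (scV F π) (scPt F π 0 (t - p.2) ψ) := by
          simp only [scPt, if_neg (not_le.2 h1), if_neg h2]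
        rw [hval, hAl, hD]
        exact key.congr_of_eventuallyEq hloc
    · have hg' : r - p.2 ∉ scGrid π := by
        intro hmem
        apply hg
        simp only [scGrid]
        exact Or.inr ⟨r - p.2, hmem, by ring⟩
      have ht' : t - p.2 ≤ scLen π := by
        simp only [scLen] at ht
        linarith
      have key := (ih hψ hπ (r := r - p.2) (t := t - p.2) (by linarith) (by linarith) ht' hg')
      have key2 := HasDerivAt.comp_sub_const r p.2 key
      have hAl : scAl (p :: π) r = scAl π (r - p.2) := by simp only [scAl, if_pos h1.le]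
      have hD : scD 1 F (p :: π) r = scD 1 F π (r - p.2) := by
        simp only [scD, Function.iterate_one, scVt, if_pos h1.le]
      have hval : scPt F (p :: π) r t ψ = scPt F π (r - p.2) (t - p.2) ψ := by
        simp only [scPt, if_pos h1.le]
      have hloc : (fun r => scPt F (p :: π) r t ψ z)
          =ᶠ[𝓝 r] fun r => scPt F π (r - p.2) (t - p.2) ψ z := by
        filter_upwards [Ioi_mem_nhds h1] with r' hr'
        simp only [scPt, if_pos (le_of_lt (show p.2 < r' from hr'))]
      rw [hval, hAl, hD]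
      exact key2.congr_of_eventuallyEq hloc

end Claimed.Agent.R286
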