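import Claimed.Agent.R286.Sc.MaxP

/-!
# Row 286, BOX-C: parabolic comparison, GROWTH forms      (owner helper183; prefix `sc_mpg_`)

The forms of `Sc/MaxP.lean` (helper270) ask for lateral errors tending to `0` at infinity.  Here: NO decay at infinity, only
a sub-quadratic lower bound `u ≥ -M0 (1 + |x|)` and the one-sided drift condition `B x ≤ B0 (1 + x²)` (a singular drift like `-v/r ~ -1/x`
is allowed on the half-line).  Proof: add the barrier `ε (1 + x²) e^{μ (t - t0)}`.   This is what removes FS Lemma `tail:class`.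
* `sc_mpg_halfline` : region `[0,∞)`, Dirichlet at `0`.      * `sc_mpg_line` : region `ℝ`.
* `sc_mpg_line_le`, `sc_mpg_line_abs` : Gronwall form  `u_t = A u_xx + B u_x + c u + S`, `c ≤ C`, `|S| ≤ S0`  ⟹  `|u(t)| ≤ e^{C⁺ (t-t0)} (K + S0 (t - t0))`.
-/

set_option autoImplicit false

namespace Claimed.Agent.R286

open Set Filter Topology

/-- the barrier -/
noncomputable def scBar (μ t0 : ℝ) (t x : ℝ) : ℝ := (1 + x ^ 2) * Real.exp (μ * (t - t0))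

theorem sc_mpg_bar_cont (μ t0 : ℝ) : Continuous (fun p : ℝ × ℝ => scBar μ t0 p.1 p.2) := by
  unfold scBar; fun_prop

theorem sc_mpg_bar_dt (μ t0 t x : ℝ) : HasDerivAt (fun s => scBar μ t0 s x) (μ * scBar μ t0 t x) t := by
  unfold scBar
  have h1 : HasDerivAt (fun s : ℝ => μ * (s - t0)) μ t := by
    simpa using ((hasDerivAt_id t).sub_const t0).const_mul μ
  have h2 := (h1.exp).const_mul (1 + x ^ 2)
  have e : (1 + x ^ 2) * (Real.exp (μ * (t - t0)) * μ) = μ * ((1 + x ^ 2) * Real.exp (μ * (t - t0))) := by ring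
  rw [e] at h2
  exact h2

theorem sc_mpg_bar_dx (μ t0 t x : ℝ) :
    HasDerivAt (fun y => scBar μ t0 t y) (2 * x * Real.exp (μ * (t - t0))) x := by
  unfold scBar
  have h1 : HasDerivAt (fun y : ℝ => 1 + y ^ 2) (2 * x) x := by
    simpa using ((hasDerivAt_pow 2 x).const_add 1)
  exact h1.mul_const _

theorem sc_mpg_bar_dxx (μ t0 t x : ℝ) :
    HasDerivAt (fun y => 2 * y * Real.exp (μ * (t - t0))) (2 * Real.exp (μ * (t - t0))) x := by
  have h1 : HasDerivAt (fun y : ℝ => 2 * y) 2 x := by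
    simpa using (hasDerivAt_id x).const_mul 2
  exact h1.mul_const _

theorem sc_mpg_bar_pos (μ t0 t x : ℝ) : 0 < scBar μ t0 t x := by
  unfold scBar
  have h1 := Real.exp_pos (μ * (t - t0))
  have h2 : (0:ℝ) < 1 + x ^ 2 := by nlinarith [sq_nonneg x]
  positivity

theorem sc_mpg_bar_ge {μ t0 t : ℝ} (hμ : 0 ≤ μ) (ht : t0 ≤ t) (x : ℝ) : 1 + x ^ 2 ≤ scBar μ t0 t x := by
  unfold scBar
  have h1 : 1 ≤ Real.exp (μ * (t - t0)) := Real.one_le_exp (mul_nonneg hμ (by linarith))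
  have h2 : (0:ℝ) < 1 + x ^ 2 := by nlinarith [sq_nonneg x]
  nlinarith

/-- the barrier is a supersolution -/
theorem sc_mpg_bar_super {A B c A0 B0 C μ t0 t x : ℝ} (hA0 : A ≤ A0) (hA00 : 0 ≤ A0) (hB : B * x ≤ B0 * (1 + x ^ 2)) (hc : c ≤ C)
    (hμ : 2 * A0 + 2 * B0 + C ≤ μ) :
    0 ≤ μ * scBar μ t0 t x - A * (2 * Real.exp (μ * (t - t0))) - B * (2 * x * Real.exp (μ * (t - t0))) - c * scBar μ t0 t x := by
  unfold scBar
  have hE : 0 < Real.exp (μ * (t - t0)) := Real.exp_pos _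
  have hq : (1 : ℝ) ≤ 1 + x ^ 2 := by nlinarith [sq_nonneg x]
  have key : 0 ≤ μ * (1 + x ^ 2) - 2 * A - 2 * (B * x) - c * (1 + x ^ 2) := by
    have h1 : 2 * A ≤ 2 * A0 * (1 + x ^ 2) := by nlinarith
    have h2 : c * (1 + x ^ 2) ≤ C * (1 + x ^ 2) := by nlinarith
    have h3 : (2 * A0 + 2 * B0 + C) * (1 + x ^ 2) ≤ μ * (1 + x ^ 2) := by nlinarith
    nlinarith
  have h := mul_nonneg key hE.le
  have e : (μ * (1 + x ^ 2) - 2 * A - 2 * (B * x) - c * (1 + x ^ 2)) * Real.exp (μ * (t - t0))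
      = μ * ((1 + x ^ 2) * Real.exp (μ * (t - t0))) - A * (2 * Real.exp (μ * (t - t0))) - B * (2 * x * Real.exp (μ * (t - t0)))
        - c * ((1 + x ^ 2) * Real.exp (μ * (t - t0))) := by ring
  rw [e] at h
  exact h

/-- elementary: the quadratic barrier beats a linear lower bound far out -/
theorem sc_mpg_far {M0 ε R : ℝ} (hε : 0 < ε) (hR1 : 1 ≤ R) (hR2 : 2 * |M0| / ε ≤ R) : 0 ≤ -(M0 * (1 + R)) + ε * (1 + R ^ 2) := by
  have h1 : 2 * |M0| ≤ R * ε := by rwa [div_le_iff₀ hε] at hR2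
  have h2 : M0 * (1 + R) ≤ |M0| * (2 * R) := by
    have : M0 * (1 + R) ≤ |M0| * (1 + R) := mul_le_mul_of_nonneg_right (le_abs_self _) (by linarith)
    have : |M0| * (1 + R) ≤ |M0| * (2 * R) := mul_le_mul_of_nonneg_left (by linarith) (abs_nonneg _)
    linarith
  have h3 : |M0| * (2 * R) ≤ ε * R ^ 2 := by nlinarith
  nlinarith

/-- **Half-line, Dirichlet at `0`, growth form.** -/
theorem sc_mpg_halfline {u ut ux uxx A B c : ℝ → ℝ → ℝ} {t0 t1 C A0 B0 M0 : ℝ}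
    (hcont : ContinuousOn (fun p : ℝ × ℝ => u p.1 p.2) (Icc t0 t1 ×ˢ Ici 0))
    (ht : ∀ t ∈ Ioc t0 t1, ∀ x ∈ Ioi (0 : ℝ), HasDerivWithinAt (fun s => u s x) (ut t x) (Iic t) t)
    (hx : ∀ t ∈ Ioc t0 t1, ∀ x ∈ Ioi (0 : ℝ), HasDerivAt (fun y => u t y) (ux t x) x)
    (hxx : ∀ t ∈ Ioc t0 t1, ∀ x ∈ Ioi (0 : ℝ), HasDerivAt (fun y => ux t y) (uxx t x) x)
    (hA : ∀ t ∈ Ioc t0 t1, ∀ x ∈ Ioi (0 : ℝ), 0 ≤ A t x) (hA0 : ∀ t ∈ Ioc t0 t1, ∀ x ∈ Ioi (0 : ℝ), A t x ≤ A0)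
    (hB : ∀ t ∈ Ioc t0 t1, ∀ x ∈ Ioi (0 : ℝ), B t x * x ≤ B0 * (1 + x ^ 2))
    (hc : ∀ t ∈ Ioc t0 t1, ∀ x ∈ Ioi (0 : ℝ), c t x ≤ C)
    (hpde : ∀ t ∈ Ioc t0 t1, ∀ x ∈ Ioi (0 : ℝ), 0 ≤ ut t x - A t x * uxx t x - B t x * ux t x - c t x * u t x)
    (hinit : ∀ x ∈ Ici (0 : ℝ), 0 ≤ u t0 x)
    (hzero : ∀ t ∈ Icc t0 t1, 0 ≤ u t 0)
    (hgrow : ∀ t ∈ Icc t0 t1, ∀ x ∈ Ici (0 : ℝ), -(M0 * (1 + x)) ≤ u t x) :
    ∀ t ∈ Icc t0 t1, ∀ x ∈ Ici (0 : ℝ), 0 ≤ u t x := by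
  intro t htI x hxI
  obtain ⟨μ, hμ⟩ : ∃ μ : ℝ, μ = 2 * |A0| + 2 * |B0| + |C| := ⟨_, rfl⟩
  have hμ0 : 0 ≤ μ := by rw [hμ]; positivity
  have hμ1 : 2 * |A0| + 2 * B0 + C ≤ μ := by rw [hμ]; linarith [le_abs_self B0, le_abs_self C]
  have hb := sc_mpg_bar_pos μ t0 t x
  apply le_of_forall_pos_lt_add
  intro δ hδ
  obtain ⟨ε, hε⟩ : ∃ ε : ℝ, ε = δ / (2 * scBar μ t0 t x) := ⟨_, rfl⟩
  have hεpos : 0 < ε := by rw [hε]; positivity
  have hc1 : ContinuousOn (fun p : ℝ × ℝ => u p.1 p.2 + ε * scBar μ t0 p.1 p.2) (Icc t0 t1 ×ˢ Ici 0) :=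
    hcont.add ((continuous_const.mul (sc_mpg_bar_cont μ t0)).continuousOn)
  have main := sc_mp_halfline (u := fun s y => u s y + ε * scBar μ t0 s y)
    (ut := fun s y => ut s y + ε * (μ * scBar μ t0 s y))
    (ux := fun s y => ux s y + ε * (2 * y * Real.exp (μ * (s - t0))))
    (uxx := fun s y => uxx s y + ε * (2 * Real.exp (μ * (s - t0))))
    (A := A) (B := B) (c := c) (t0 := t0) (t1 := t1) (C := C)
    hc1
    (fun s hs y hy => (ht s hs y hy).add (((sc_mpg_bar_dt μ t0 s y).const_mul ε).hasDerivWithinAt))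
    (fun s hs y hy => (hx s hs y hy).add ((sc_mpg_bar_dx μ t0 s y).const_mul ε))
    (fun s hs y hy => (hxx s hs y hy).add ((sc_mpg_bar_dxx μ t0 s y).const_mul ε))
    hA hc
    (fun s hs y hy => by
      have h1 := hpde s hs y hy
      have h2 := sc_mpg_bar_super (A := A s y) (B := B s y) (c := c s y) (A0 := |A0|) (B0 := B0) (C := C) (μ := μ) (t0 := t0) (t := s) (x := y)
        (le_trans (hA0 s hs y hy) (le_abs_self _)) (abs_nonneg _) (hB s hs y hy) (hc s hs y hy) hμ1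
      have h3 := mul_nonneg hεpos.le h2
      linarith [h1, h3])
    (fun y hy => by
      have h1 := hinit y hy; have h2 := sc_mpg_bar_pos μ t0 t0 y
      have h3 := mul_pos hεpos h2
      linarith)
    (fun s hs => by
      have h1 := hzero s hs; have h2 := sc_mpg_bar_pos μ t0 s 0
      have h3 := mul_pos hεpos h2
      linarith)
    (fun ε' hε' => by
      have hev : ∀ᶠ R : ℝ in atTop, max 1 (2 * |M0| / ε) ≤ R := eventually_ge_atTop _
      filter_upwards [hev] with R hR s hs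
      have hR1 : 1 ≤ R := le_trans (le_max_left _ _) hR
      have hR2 : 2 * |M0| / ε ≤ R := le_trans (le_max_right _ _) hR
      have hg := hgrow s hs R (by simp only [mem_Ici]; linarith)
      have h1 := sc_mpg_far hεpos hR1 hR2
      have h2 := sc_mpg_bar_ge hμ0 hs.1 R
      have h3 := mul_le_mul_of_nonneg_left h2 hεpos.le
      linarith)
    t htI x hxI
  have e : ε * scBar μ t0 t x = δ / 2 := by rw [hε]; field_simp
  simp only [e] at main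
  linarith

/-- **Whole line, growth form.** -/
theorem sc_mpg_line {u ut ux uxx A B c : ℝ → ℝ → ℝ} {t0 t1 C A0 B0 M0 : ℝ}
    (hcont : ContinuousOn (fun p : ℝ × ℝ => u p.1 p.2) (Icc t0 t1 ×ˢ univ))
    (ht : ∀ t ∈ Ioc t0 t1, ∀ x : ℝ, HasDerivWithinAt (fun s => u s x) (ut t x) (Iic t) t)
    (hx : ∀ t ∈ Ioc t0 t1, ∀ x : ℝ, HasDerivAt (fun y => u t y) (ux t x) x)
    (hxx : ∀ t ∈ Ioc t0 t1, ∀ x : ℝ, HasDerivAt (fun y => ux t y) (uxx t x) x)
    (hA : ∀ t ∈ Ioc t0 t1, ∀ x : ℝ, 0 ≤ A t x) (hA0 : ∀ t ∈ Ioc t0 t1, ∀ x : ℝ, A t x ≤ A0)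
    (hB : ∀ t ∈ Ioc t0 t1, ∀ x : ℝ, B t x * x ≤ B0 * (1 + x ^ 2))
    (hc : ∀ t ∈ Ioc t0 t1, ∀ x : ℝ, c t x ≤ C)
    (hpde : ∀ t ∈ Ioc t0 t1, ∀ x : ℝ, 0 ≤ ut t x - A t x * uxx t x - B t x * ux t x - c t x * u t x)
    (hinit : ∀ x : ℝ, 0 ≤ u t0 x)
    (hgrow : ∀ t ∈ Icc t0 t1, ∀ x : ℝ, -(M0 * (1 + |x|)) ≤ u t x) :
    ∀ t ∈ Icc t0 t1, ∀ x : ℝ, 0 ≤ u t x := by
  intro t htI x
  obtain ⟨μ, hμ⟩ : ∃ μ : ℝ, μ = 2 * |A0| + 2 * |B0| + |C| := ⟨_, rfl⟩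
  have hμ0 : 0 ≤ μ := by rw [hμ]; positivity
  have hμ1 : 2 * |A0| + 2 * B0 + C ≤ μ := by rw [hμ]; linarith [le_abs_self B0, le_abs_self C]
  have hb := sc_mpg_bar_pos μ t0 t x
  apply le_of_forall_pos_lt_add
  intro δ hδ
  obtain ⟨ε, hε⟩ : ∃ ε : ℝ, ε = δ / (2 * scBar μ t0 t x) := ⟨_, rfl⟩
  have hεpos : 0 < ε := by rw [hε]; positivity
  have hc1 : ContinuousOn (fun p : ℝ × ℝ => u p.1 p.2 + ε * scBar μ t0 p.1 p.2) (Icc t0 t1 ×ˢ univ) :=
    hcont.add ((continuous_const.mul (sc_mpg_bar_cont μ t0)).continuousOn)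
  have main := sc_mp_line (u := fun s y => u s y + ε * scBar μ t0 s y)
    (ut := fun s y => ut s y + ε * (μ * scBar μ t0 s y))
    (ux := fun s y => ux s y + ε * (2 * y * Real.exp (μ * (s - t0))))
    (uxx := fun s y => uxx s y + ε * (2 * Real.exp (μ * (s - t0))))
    (A := A) (B := B) (c := c) (t0 := t0) (t1 := t1) (C := C)
    hc1
    (fun s hs y => (ht s hs y).add (((sc_mpg_bar_dt μ t0 s y).const_mul ε).hasDerivWithinAt))
    (fun s hs y => (hx s hs y).add ((sc_mpg_bar_dx μ t0 s y).const_mul ε))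
    (fun s hs y => (hxx s hs y).add ((sc_mpg_bar_dxx μ t0 s y).const_mul ε))
    hA hc
    (fun s hs y => by
      have h1 := hpde s hs y
      have h2 := sc_mpg_bar_super (A := A s y) (B := B s y) (c := c s y) (A0 := |A0|) (B0 := B0) (C := C) (μ := μ) (t0 := t0) (t := s) (x := y)
        (le_trans (hA0 s hs y) (le_abs_self _)) (abs_nonneg _) (hB s hs y) (hc s hs y) hμ1
      have h3 := mul_nonneg hεpos.le h2
      linarith [h1, h3])
    (fun y => by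
      have h1 := hinit y; have h2 := sc_mpg_bar_pos μ t0 t0 y
      have h3 := mul_pos hεpos h2
      linarith)
    (fun ε' hε' => by
      have hev : ∀ᶠ R : ℝ in atBot, R ≤ -(max 1 (2 * |M0| / ε)) := eventually_le_atBot _
      filter_upwards [hev] with R hR s hs
      have hR' : max 1 (2 * |M0| / ε) ≤ -R := by linarith
      have hR1 : 1 ≤ -R := le_trans (le_max_left _ _) hR'
      have hR2 : 2 * |M0| / ε ≤ -R := le_trans (le_max_right _ _) hR'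
      have hg := hgrow s hs R
      rw [abs_of_nonpos (by linarith)] at hg
      have h1 := sc_mpg_far hεpos hR1 hR2
      have h2 := sc_mpg_bar_ge hμ0 hs.1 R
      have h3 := mul_le_mul_of_nonneg_left h2 hεpos.le
      have e : (-R) ^ 2 = R ^ 2 := by ring
      rw [e] at h1
      linarith)
    (fun ε' hε' => by
      have hev : ∀ᶠ R : ℝ in atTop, max 1 (2 * |M0| / ε) ≤ R := eventually_ge_atTop _
      filter_upwards [hev] with R hR s hs
      have hR1 : 1 ≤ R := le_trans (le_max_left _ _) hR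
      have hR2 : 2 * |M0| / ε ≤ R := le_trans (le_max_right _ _) hR
      have hg := hgrow s hs R
      rw [abs_of_nonneg (by linarith)] at hg
      have h1 := sc_mpg_far hεpos hR1 hR2
      have h2 := sc_mpg_bar_ge hμ0 hs.1 R
      have h3 := mul_le_mul_of_nonneg_left h2 hεpos.le
      linarith)
    t htI x
  have e : ε * scBar μ t0 t x = δ / 2 := by rw [hε]; field_simp
  simp only [e] at main
  linarith

/-- **Gronwall form, upper bound** (whole line): `u_t ≤ A u_xx + B u_x + c u + S0`, `c ≤ C`, `0 ≤ C`, `u(t0) ≤ K`, `0 ≤ K`, `0 ≤ S0`. -/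
theorem sc_mpg_line_le {u ut ux uxx A B c : ℝ → ℝ → ℝ} {t0 t1 C A0 B0 M0 K S0 : ℝ}
    (hcont : ContinuousOn (fun p : ℝ × ℝ => u p.1 p.2) (Icc t0 t1 ×ˢ univ))
    (ht : ∀ t ∈ Ioc t0 t1, ∀ x : ℝ, HasDerivWithinAt (fun s => u s x) (ut t x) (Iic t) t)
    (hx : ∀ t ∈ Ioc t0 t1, ∀ x : ℝ, HasDerivAt (fun y => u t y) (ux t x) x)
    (hxx : ∀ t ∈ Ioc t0 t1, ∀ x : ℝ, HasDerivAt (fun y => ux t y) (uxx t x) x)
    (hA : ∀ t ∈ Ioc t0 t1, ∀ x : ℝ, 0 ≤ A t x) (hA0 : ∀ t ∈ Ioc t0 t1, ∀ x : ℝ, A t x ≤ A0)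
    (hB : ∀ t ∈ Ioc t0 t1, ∀ x : ℝ, B t x * x ≤ B0 * (1 + x ^ 2))
    (hc : ∀ t ∈ Ioc t0 t1, ∀ x : ℝ, c t x ≤ C) (hC : 0 ≤ C) (hK : 0 ≤ K) (hS0 : 0 ≤ S0)
    (hpde : ∀ t ∈ Ioc t0 t1, ∀ x : ℝ, ut t x - A t x * uxx t x - B t x * ux t x - c t x * u t x ≤ S0)
    (hinit : ∀ x : ℝ, u t0 x ≤ K)
    (hgrow : ∀ t ∈ Icc t0 t1, ∀ x : ℝ, u t x ≤ M0 * (1 + |x|)) :
    ∀ t ∈ Icc t0 t1, ∀ x : ℝ, u t x ≤ Real.exp (C * (t - t0)) * (K + S0 * (t - t0)) := by
  have hg : ∀ s : ℝ, HasDerivAt (fun s => Real.exp (C * (s - t0)) * (K + S0 * (s - t0)))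
      (C * (Real.exp (C * (s - t0)) * (K + S0 * (s - t0))) + Real.exp (C * (s - t0)) * S0) s := by
    intro s
    have h1 : HasDerivAt (fun s : ℝ => C * (s - t0)) C s := by
      simpa using ((hasDerivAt_id s).sub_const t0).const_mul C
    have h2 : HasDerivAt (fun s : ℝ => K + S0 * (s - t0)) S0 s := by
      simpa using (((hasDerivAt_id s).sub_const t0).const_mul S0).const_add K
    have h3 := (h1.exp).mul h2
    have e : Real.exp (C * (s - t0)) * C * (K + S0 * (s - t0)) + Real.exp (C * (s - t0)) * S0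
        = C * (Real.exp (C * (s - t0)) * (K + S0 * (s - t0))) + Real.exp (C * (s - t0)) * S0 := by ring
    rw [e] at h3
    exact h3
  have hgc : Continuous (fun p : ℝ × ℝ => Real.exp (C * (p.1 - t0)) * (K + S0 * (p.1 - t0))) := by fun_prop
  have main := sc_mpg_line (u := fun s y => Real.exp (C * (s - t0)) * (K + S0 * (s - t0)) - u s y)
    (ut := fun s y => (C * (Real.exp (C * (s - t0)) * (K + S0 * (s - t0))) + Real.exp (C * (s - t0)) * S0) - ut s y)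
    (ux := fun s y => 0 - ux s y) (uxx := fun s y => 0 - uxx s y)
    (A := A) (B := B) (c := c) (t0 := t0) (t1 := t1) (C := C) (A0 := A0) (B0 := B0) (M0 := M0)
    (hgc.continuousOn.sub hcont)
    (fun s hs y => ((hg s).hasDerivWithinAt).sub (ht s hs y))
    (fun s hs y => (hasDerivAt_const y _).sub (hx s hs y))
    (fun s hs y => (hasDerivAt_const y _).sub (hxx s hs y))
    hA hA0 hB hc
    (fun s hs y => by
      have h1 := hpde s hs y
      have hE : 1 ≤ Real.exp (C * (s - t0)) := Real.one_le_exp (mul_nonneg hC (by linarith [hs.1]))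
      have hG : 0 ≤ Real.exp (C * (s - t0)) * (K + S0 * (s - t0)) := by
        have : 0 ≤ K + S0 * (s - t0) := by have := mul_nonneg hS0 (by linarith [hs.1] : 0 ≤ s - t0); linarith
        positivity
      have h2 : 0 ≤ (C - c s y) * (Real.exp (C * (s - t0)) * (K + S0 * (s - t0))) := mul_nonneg (by linarith [hc s hs y]) hG
      have h3 : S0 ≤ Real.exp (C * (s - t0)) * S0 := by nlinarith
      nlinarith [h1, h2, h3])
    (fun y => by have := hinit y; simp; linarith)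
    (fun s hs y => by
      have h1 := hgrow s hs y
      have hG : 0 ≤ Real.exp (C * (s - t0)) * (K + S0 * (s - t0)) := by
        have : 0 ≤ K + S0 * (s - t0) := by have := mul_nonneg hS0 (by linarith [hs.1] : 0 ≤ s - t0); linarith
        positivity
      linarith)
  intro t htI x
  have := main t htI x
  linarith

/-- **Gronwall form, two-sided** (whole line, bounded `u`). -/
theorem sc_mpg_line_abs {u ut ux uxx A B c : ℝ → ℝ → ℝ} {t0 t1 C A0 B0 M0 K S0 : ℝ}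
    (hcont : ContinuousOn (fun p : ℝ × ℝ => u p.1 p.2) (Icc t0 t1 ×ˢ univ))
    (ht : ∀ t ∈ Ioc t0 t1, ∀ x : ℝ, HasDerivWithinAt (fun s => u s x) (ut t x) (Iic t) t)
    (hx : ∀ t ∈ Ioc t0 t1, ∀ x : ℝ, HasDerivAt (fun y => u t y) (ux t x) x)
    (hxx : ∀ t ∈ Ioc t0 t1, ∀ x : ℝ, HasDerivAt (fun y => ux t y) (uxx t x) x)
    (hA : ∀ t ∈ Ioc t0 t1, ∀ x : ℝ, 0 ≤ A t x) (hA0 : ∀ t ∈ Ioc t0 t1, ∀ x : ℝ, A t x ≤ A0)
    (hB : ∀ t ∈ Ioc t0 t1, ∀ x : ℝ, B t x * x ≤ B0 * (1 + x ^ 2))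
    (hc : ∀ t ∈ Ioc t0 t1, ∀ x : ℝ, c t x ≤ C) (hC : 0 ≤ C) (hK : 0 ≤ K) (hS0 : 0 ≤ S0)
    (hpde : ∀ t ∈ Ioc t0 t1, ∀ x : ℝ, |ut t x - A t x * uxx t x - B t x * ux t x - c t x * u t x| ≤ S0)
    (hinit : ∀ x : ℝ, |u t0 x| ≤ K)
    (hgrow : ∀ t ∈ Icc t0 t1, ∀ x : ℝ, |u t x| ≤ M0 * (1 + |x|)) :
    ∀ t ∈ Icc t0 t1, ∀ x : ℝ, |u t x| ≤ Real.exp (C * (t - t0)) * (K + S0 * (t - t0)) := by
  intro t htI x
  have h1 := sc_mpg_line_le (u := u) (ut := ut) (ux := ux) (uxx := uxx) (A := A) (B := B) (c := c) (M0 := M0) (K := K) (S0 := S0)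
    hcont ht hx hxx hA hA0 hB hc hC hK hS0 (fun s hs y => (abs_le.mp (hpde s hs y)).2) (fun y => (abs_le.mp (hinit y)).2)
    (fun s hs y => (abs_le.mp (hgrow s hs y)).2) t htI x
  have h2 := sc_mpg_line_le (u := fun s y => - u s y) (ut := fun s y => - ut s y) (ux := fun s y => - ux s y) (uxx := fun s y => - uxx s y)
    (A := A) (B := B) (c := c) (M0 := M0) (K := K) (S0 := S0)
    hcont.neg (fun s hs y => (ht s hs y).neg) (fun s hs y => (hx s hs y).neg) (fun s hs y => (hxx s hs y).neg) hA hA0 hB hc hC hK hS0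
    (fun s hs y => by have := (abs_le.mp (hpde s hs y)).1; linarith) (fun y => by have := (abs_le.mp (hinit y)).1; linarith)
    (fun s hs y => by have := (abs_le.mp (hgrow s hs y)).1; linarith) t htI x
  exact abs_le.mpr ⟨by linarith, h1⟩

end Claimed.Agent.R286
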