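import Mathlib

/-!
# Row 286, scalar block (BOX-C / B03), layer S0: one-dimensional heat calculus

CONTRACT FILE (head: helper95).  Plan and proofs on paper: `origin/helper95:notes/R286/B03_helper95.md`, section S0.

* `scHeat s f z = E f (z + sqrt s * g)`, `g` standard Gaussian.
* `ScE n f`  : `f` is `n` times differentiable; `f, f', .., f^(n)` are continuous with exponential growth.
* `ScB n f`  : `f` is `n` times differentiable, `f', .., f^(n)` bounded, `f^(n)` continuous.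
* `ScT I n ψ`: the same as `ScE` for a time dependent function, jointly continuous, constants uniform in the time `r ∈ I`.
All three classes are RECURSIVE in `n` (through `deriv`), so that closure properties are plain inductions.
-/

set_option autoImplicit false

namespace Claimed.Agent.R286

open MeasureTheory ProbabilityTheory Filter Topology Set

/-- the heat operator: `E f (z + sqrt s * g)` -/
noncomputable def scHeat (s : ℝ) (f : ℝ → ℝ) (z : ℝ) : ℝ :=
  ∫ g, f (z + Real.sqrt s * g) ∂(gaussianReal 0 1)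

/-- exponential growth -/
def ScG (f : ℝ → ℝ) : Prop := ∃ C c : ℝ, ∀ z, |f z| ≤ C * Real.exp (c * |z|)

/-- `n` derivatives, all continuous with exponential growth -/
def ScE : ℕ → (ℝ → ℝ) → Prop
  | 0, f => Continuous f ∧ ScG f
  | n + 1, f => Continuous f ∧ ScG f ∧ Differentiable ℝ f ∧ ScE n (deriv f)

/-- `n` derivatives, those of order `1..n` bounded, the last one continuous -/
def ScB : ℕ → (ℝ → ℝ) → Prop
  | 0, f => Continuous f
  | n + 1, f => Differentiable ℝ f ∧ (∃ C : ℝ, ∀ z, |deriv f z| ≤ C) ∧ ScB n (deriv f)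

/-- exponential growth, uniform in the time `r ∈ I` -/
def ScGU (I : Set ℝ) (ψ : ℝ → ℝ → ℝ) : Prop :=
  ∃ C c : ℝ, ∀ r ∈ I, ∀ z, |ψ r z| ≤ C * Real.exp (c * |z|)

/-- time dependent version of `ScE`: joint continuity on `I × ℝ`, growth uniform in `r ∈ I` -/
def ScT (I : Set ℝ) : ℕ → (ℝ → ℝ → ℝ) → Prop
  | 0, ψ => ContinuousOn (fun p : ℝ × ℝ => ψ p.1 p.2) (I ×ˢ univ) ∧ ScGU I ψ
  | n + 1, ψ => ContinuousOn (fun p : ℝ × ℝ => ψ p.1 p.2) (I ×ˢ univ) ∧ ScGU I ψ ∧
      (∀ r ∈ I, Differentiable ℝ (ψ r)) ∧ ScT I n (fun r => deriv (ψ r))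

/-! ## A. the classes
OWNERS (02:15Z): helper63 = ScE and ScB lemmas; helper107 = ScT from the top (of_succ .. sub); helper92 = ScT from the bottom (log, inv, pow, const_mul, mul).
For ScT products etc. first prove a congruence lemma `ScT.congr` (functions equal for all `r ∈ I`). -/

theorem ScE.continuous {n : ℕ} {f : ℝ → ℝ} (h : ScE n f) : Continuous f := by
  cases n with
  | zero => exact h.1
  | succ n => exact h.1

theorem ScE.growth {n : ℕ} {f : ℝ → ℝ} (h : ScE n f) : ScG f := by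
  cases n with
  | zero => exact h.2
  | succ n => exact h.2.1

theorem ScE.differentiable {n : ℕ} {f : ℝ → ℝ} (h : ScE (n + 1) f) : Differentiable ℝ f := h.2.2.1

theorem ScE.deriv {n : ℕ} {f : ℝ → ℝ} (h : ScE (n + 1) f) : ScE n (deriv f) := h.2.2.2

/-! ### growth lemmas (helper92) -/

theorem ScG.nonneg {f : ℝ → ℝ} (h : ScG f) :
    ∃ C c : ℝ, 0 ≤ C ∧ 0 ≤ c ∧ ∀ z, |f z| ≤ C * Real.exp (c * |z|) := by
  obtain ⟨C, c, h⟩ := h
  have hC : 0 ≤ C := by
    have := h 0
    simp at this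
    exact (abs_nonneg _).trans this
  refine ⟨C, |c|, hC, abs_nonneg _, fun z => (h z).trans ?_⟩
  gcongr
  exact le_abs_self c

theorem ScG.of_le {f g : ℝ → ℝ} (hg : ScG g) (h : ∀ z, |f z| ≤ |g z|) : ScG f := by
  obtain ⟨C, c, hg⟩ := hg
  exact ⟨C, c, fun z => (h z).trans (hg z)⟩

theorem ScG.const (a : ℝ) : ScG (fun _ => a) := ⟨|a|, 0, fun z => by simp⟩

theorem ScG.of_bdd {f : ℝ → ℝ} {C : ℝ} (h : ∀ z, |f z| ≤ C) : ScG f := ⟨C, 0, fun z => by simpa using h z⟩

theorem ScG.id : ScG (fun z => z) := by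
  refine ⟨1, 1, fun z => ?_⟩
  have := Real.add_one_le_exp |z|
  simp only [one_mul]
  linarith

theorem ScG.add {f g : ℝ → ℝ} (hf : ScG f) (hg : ScG g) : ScG (fun z => f z + g z) := by
  obtain ⟨C, c, hC, hc, hf⟩ := hf.nonneg
  obtain ⟨D, d, hD, hd, hg⟩ := hg.nonneg
  refine ⟨C + D, max c d, fun z => ?_⟩
  have h1 : Real.exp (c * |z|) ≤ Real.exp (max c d * |z|) := by
    gcongr; exact le_max_left _ _
  have h2 : Real.exp (d * |z|) ≤ Real.exp (max c d * |z|) := by
    gcongr; exact le_max_right _ _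
  calc |f z + g z| ≤ |f z| + |g z| := abs_add_le _ _
    _ ≤ C * Real.exp (c * |z|) + D * Real.exp (d * |z|) := add_le_add (hf z) (hg z)
    _ ≤ C * Real.exp (max c d * |z|) + D * Real.exp (max c d * |z|) := by gcongr
    _ = _ := by ring

theorem ScG.mul {f g : ℝ → ℝ} (hf : ScG f) (hg : ScG g) : ScG (fun z => f z * g z) := by
  obtain ⟨C, c, hC, hc, hf⟩ := hf.nonneg
  obtain ⟨D, d, hD, hd, hg⟩ := hg.nonneg
  refine ⟨C * D, c + d, fun z => ?_⟩
  rw [abs_mul, add_mul, Real.exp_add]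
  calc |f z| * |g z| ≤ (C * Real.exp (c * |z|)) * (D * Real.exp (d * |z|)) :=
        mul_le_mul (hf z) (hg z) (abs_nonneg _) (by positivity)
    _ = _ := by ring

theorem ScG.neg {f : ℝ → ℝ} (hf : ScG f) : ScG (fun z => - f z) :=
  hf.of_le fun z => by simp

theorem ScG.comp_affine {f : ℝ → ℝ} (hf : ScG f) (a b : ℝ) : ScG (fun z => f (a * z + b)) := by
  obtain ⟨C, c, hC, hc, hf⟩ := hf.nonneg
  refine ⟨C * Real.exp (c * |b|), c * |a|, fun z => (hf _).trans ?_⟩
  rw [mul_assoc, ← Real.exp_add]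
  gcongr
  calc c * |a * z + b| ≤ c * (|a| * |z| + |b|) := by
        gcongr
        exact (abs_add_le _ _).trans (by rw [abs_mul])
    _ = _ := by ring

/-- a function with bounded derivative has exponential growth -/
theorem ScG.of_deriv_bdd {f : ℝ → ℝ} (hd : Differentiable ℝ f) {C : ℝ} (hC : ∀ z, |_root_.deriv f z| ≤ C) :
    ∀ z, |f z| ≤ |f 0| + C * |z| := by
  intro z
  have h := Convex.norm_image_sub_le_of_norm_deriv_le (f := f) (s := univ) (C := C)
    (fun x _ => hd x) (fun x _ => by simpa using hC x) convex_univ (mem_univ 0) (mem_univ z)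
  simp only [Real.norm_eq_abs, sub_zero] at h
  have := abs_sub_abs_le_abs_sub (f z) (f 0)
  linarith

theorem ScG.of_lin {f : ℝ → ℝ} {A C : ℝ} (h : ∀ z, |f z| ≤ A + C * |z|) : ScG f := by
  refine ⟨|A| + |C|, 1, fun z => (h z).trans ?_⟩
  have h1 := Real.add_one_le_exp |z|
  have h2 : (1 : ℝ) ≤ Real.exp (1 * |z|) := by
    rw [one_mul]; linarith [abs_nonneg z]
  have h3 : |z| ≤ Real.exp (1 * |z|) := by rw [one_mul]; linarith
  calc A + C * |z| ≤ |A| * 1 + |C| * |z| := by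
        have := le_abs_self A
        have := mul_le_mul_of_nonneg_right (le_abs_self C) (abs_nonneg z)
        linarith
    _ ≤ |A| * Real.exp (1 * |z|) + |C| * Real.exp (1 * |z|) := by gcongr
    _ = _ := by ring

theorem ScG.exp_of_lin {f : ℝ → ℝ} {A C : ℝ} (h : ∀ z, |f z| ≤ A + C * |z|) (m : ℝ) :
    ScG (fun z => Real.exp (m * f z)) := by
  refine ⟨Real.exp (|m| * A), |m| * C, fun z => ?_⟩
  rw [abs_of_pos (Real.exp_pos _), ← Real.exp_add]
  apply Real.exp_le_exp.2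
  calc m * f z ≤ |m * f z| := le_abs_self _
    _ = |m| * |f z| := abs_mul _ _
    _ ≤ |m| * (A + C * |z|) := by gcongr; exact h z
    _ = _ := by ring

theorem ScE.of_succ {n : ℕ} {f : ℝ → ℝ} (h : ScE (n + 1) f) : ScE n f := by
  induction n generalizing f with
  | zero => exact ⟨h.1, h.2.1⟩
  | succ n ih => exact ⟨h.1, h.2.1, h.2.2.1, ih h.2.2.2⟩

theorem ScE.mono {m n : ℕ} (hmn : m ≤ n) {f : ℝ → ℝ} (h : ScE n f) : ScE m f := by
  induction n, hmn using Nat.le_induction with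
  | base => exact h
  | succ n _ ih => exact ih h.of_succ

theorem ScE.const (n : ℕ) (c : ℝ) : ScE n (fun _ => c) := by
  induction n generalizing c with
  | zero => exact ⟨continuous_const, ScG.const c⟩
  | succ n ih =>
    refine ⟨continuous_const, ScG.const c, differentiable_const c, ?_⟩
    have : _root_.deriv (fun _ : ℝ => c) = fun _ => 0 := by ext z; simp
    rw [this]
    exact ih 0

theorem ScE.id (n : ℕ) : ScE n (fun z => z) := by
  cases n with
  | zero => exact ⟨continuous_id, ScG.id⟩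
  | succ n =>
    refine ⟨continuous_id, ScG.id, differentiable_id, ?_⟩
    have : _root_.deriv (fun z : ℝ => z) = fun _ => 1 := by ext z; simp
    rw [this]
    exact ScE.const n 1

theorem ScE.add {n : ℕ} {f g : ℝ → ℝ} (hf : ScE n f) (hg : ScE n g) : ScE n (fun z => f z + g z) := by
  induction n generalizing f g with
  | zero => exact ⟨hf.1.add hg.1, hf.2.add hg.2⟩
  | succ n ih =>
    refine ⟨hf.1.add hg.1, hf.2.1.add hg.2.1, hf.2.2.1.add hg.2.2.1, ?_⟩
    have : _root_.deriv (fun z => f z + g z) = fun z => _root_.deriv f z + _root_.deriv g z := by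
      ext z; exact deriv_fun_add (hf.2.2.1 z) (hg.2.2.1 z)
    rw [this]
    exact ih hf.2.2.2 hg.2.2.2

theorem ScE.mul {n : ℕ} {f g : ℝ → ℝ} (hf : ScE n f) (hg : ScE n g) : ScE n (fun z => f z * g z) := by
  induction n generalizing f g with
  | zero => exact ⟨hf.1.mul hg.1, hf.2.mul hg.2⟩
  | succ n ih =>
    refine ⟨hf.1.mul hg.1, hf.2.1.mul hg.2.1, hf.2.2.1.mul hg.2.2.1, ?_⟩
    have : _root_.deriv (fun z => f z * g z) = fun z => _root_.deriv f z * g z + f z * _root_.deriv g z := by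
      ext z; exact deriv_fun_mul (hf.2.2.1 z) (hg.2.2.1 z)
    rw [this]
    exact (ih hf.2.2.2 hg.of_succ).add (ih hf.of_succ hg.2.2.2)

theorem ScE.const_mul {n : ℕ} {f : ℝ → ℝ} (c : ℝ) (hf : ScE n f) : ScE n (fun z => c * f z) :=
  (ScE.const n c).mul hf

theorem ScE.neg {n : ℕ} {f : ℝ → ℝ} (hf : ScE n f) : ScE n (fun z => - f z) := by
  simpa using hf.const_mul (-1)

theorem ScE.sub {n : ℕ} {f g : ℝ → ℝ} (hf : ScE n f) (hg : ScE n g) : ScE n (fun z => f z - g z) := by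
  simpa [sub_eq_add_neg] using hf.add hg.neg

theorem ScE.pow {n : ℕ} {f : ℝ → ℝ} (hf : ScE n f) (k : ℕ) : ScE n (fun z => f z ^ k) := by
  induction k with
  | zero => simpa using ScE.const n 1
  | succ k ih => simpa [pow_succ] using ih.mul hf

/-- affine change of variable -/
theorem ScE.comp_affine {n : ℕ} {f : ℝ → ℝ} (hf : ScE n f) (a b : ℝ) : ScE n (fun z => f (a * z + b)) := by
  induction n generalizing f with
  | zero => exact ⟨hf.1.comp (by fun_prop), hf.2.comp_affine a b⟩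
  | succ n ih =>
    have hd : ∀ z, HasDerivAt (fun z => f (a * z + b)) (a * _root_.deriv f (a * z + b)) z := by
      intro z
      have h1 : HasDerivAt (fun z : ℝ => a * z + b) a z := by
        simpa using ((hasDerivAt_id z).const_mul a).add_const b
      have := (hf.2.2.1 (a * z + b)).hasDerivAt.comp z h1
      exact this.congr_deriv (by ring)
    refine ⟨hf.1.comp (by fun_prop), hf.2.1.comp_affine a b, fun z => (hd z).differentiableAt, ?_⟩
    have : _root_.deriv (fun z => f (a * z + b)) = fun z => a * _root_.deriv f (a * z + b) := by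
      ext z; exact (hd z).deriv
    rw [this]
    exact (ih hf.2.2.2).const_mul a

theorem ScB.of_succ {n : ℕ} {f : ℝ → ℝ} (h : ScB (n + 1) f) : ScB n f := by
  induction n generalizing f with
  | zero => exact h.1.continuous
  | succ n ih => exact ⟨h.1, h.2.1, ih h.2.2⟩

theorem ScB.mono {m n : ℕ} (hmn : m ≤ n) {f : ℝ → ℝ} (h : ScB n f) : ScB m f := by
  induction n, hmn using Nat.le_induction with
  | base => exact h
  | succ n _ ih => exact ih h.of_succ

/-- linear growth of a function of the bounded class -/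
theorem ScB.lin {n : ℕ} {f : ℝ → ℝ} (h : ScB (n + 1) f) : ∃ C, ∀ z, |f z| ≤ |f 0| + C * |z| := by
  obtain ⟨C, hC⟩ := h.2.1
  exact ⟨C, ScG.of_deriv_bdd h.1 hC⟩

/-- a function of the bounded class has (at most) linear growth, so it is in the exponential class -/
theorem ScB.scE {n : ℕ} {f : ℝ → ℝ} (h : ScB (n + 1) f) : ScE (n + 1) f := by
  induction n generalizing f with
  | zero =>
    obtain ⟨C, hC⟩ := h.lin
    obtain ⟨D, hD⟩ := h.2.1
    exact ⟨h.1.continuous, ScG.of_lin hC, h.1, h.2.2, ScG.of_bdd hD⟩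
  | succ n ih =>
    obtain ⟨C, hC⟩ := h.lin
    exact ⟨h.1.continuous, ScG.of_lin hC, h.1, ih h.2.2⟩

/-- a bounded function of the bounded class is in the exponential class -/
theorem ScB.scE_of_bdd {n : ℕ} {f : ℝ → ℝ} (h : ScB n f) {C : ℝ} (hC : ∀ z, |f z| ≤ C) : ScE n f := by
  cases n with
  | zero => exact ⟨h, ScG.of_bdd hC⟩
  | succ n => exact h.scE

theorem ScB.add {n : ℕ} {f g : ℝ → ℝ} (hf : ScB n f) (hg : ScB n g) : ScB n (fun z => f z + g z) := by
  induction n generalizing f g with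
  | zero => exact Continuous.add hf hg
  | succ n ih =>
    have e : _root_.deriv (fun z => f z + g z) = fun z => _root_.deriv f z + _root_.deriv g z := by
      ext z; exact deriv_fun_add (hf.1 z) (hg.1 z)
    obtain ⟨C, hC⟩ := hf.2.1
    obtain ⟨D, hD⟩ := hg.2.1
    refine ⟨hf.1.add hg.1, ⟨C + D, fun z => ?_⟩, ?_⟩
    · rw [e]
      exact (abs_add_le _ _).trans (add_le_add (hC z) (hD z))
    · rw [e]
      exact ih hf.2.2 hg.2.2

theorem ScB.const_mul {n : ℕ} {f : ℝ → ℝ} (c : ℝ) (hf : ScB n f) : ScB n (fun z => c * f z) := by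
  induction n generalizing f with
  | zero => exact Continuous.mul continuous_const hf
  | succ n ih =>
    have e : _root_.deriv (fun z => c * f z) = fun z => c * _root_.deriv f z := by
      ext z; exact deriv_const_mul c (hf.1 z)
    obtain ⟨C, hC⟩ := hf.2.1
    refine ⟨hf.1.const_mul c, ⟨|c| * C, fun z => ?_⟩, ?_⟩
    · rw [e, abs_mul]
      exact mul_le_mul_of_nonneg_left (hC z) (abs_nonneg _)
    · rw [e]
      exact ih hf.2.2

/-- `φ exp (m F)` is in the exponential class -/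
theorem ScE.mul_exp {n : ℕ} {φ F : ℝ → ℝ} (hφ : ScE n φ) (h1 : ScB 1 F) (h : ScB n F) (m : ℝ) :
    ScE n (fun z => φ z * Real.exp (m * F z)) := by
  obtain ⟨C, hC⟩ := h1.lin
  have hFc : Continuous F := h1.1.continuous
  induction n generalizing φ with
  | zero => exact ⟨hφ.1.mul (by fun_prop), hφ.2.mul (ScG.exp_of_lin hC m)⟩
  | succ n ih =>
    have hd : ∀ z, HasDerivAt (fun z => φ z * Real.exp (m * F z))
        ((_root_.deriv φ z + m * (φ z * _root_.deriv F z)) * Real.exp (m * F z)) z := by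
      intro z
      have := (hφ.2.2.1 z).hasDerivAt.mul (((h.1 z).hasDerivAt.const_mul m).exp)
      exact this.congr_deriv (by ring)
    refine ⟨hφ.1.mul (by fun_prop), hφ.2.1.mul (ScG.exp_of_lin hC m),
      fun z => (hd z).differentiableAt, ?_⟩
    have e : _root_.deriv (fun z => φ z * Real.exp (m * F z)) =
        fun z => (_root_.deriv φ z + m * (φ z * _root_.deriv F z)) * Real.exp (m * F z) := by
      ext z; exact (hd z).deriv
    rw [e]
    obtain ⟨D, hD⟩ := h.2.1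
    exact ih (hφ.2.2.2.add ((hφ.of_succ.mul (h.2.2.scE_of_bdd hD)).const_mul m)) h.of_succ

/-- `exp (m F)` is in the exponential class when `F` is in the bounded class -/
theorem ScB.exp {n : ℕ} {F : ℝ → ℝ} (h : ScB (n + 1) F) (m : ℝ) : ScE (n + 1) (fun z => Real.exp (m * F z)) := by
  simpa using (ScE.const (n + 1) 1).mul_exp (h.mono (by omega)) h m

theorem sc_hasDerivAt_tanh (x : ℝ) : HasDerivAt Real.tanh (1 - Real.tanh x ^ 2) x := by
  have h : Real.tanh = fun x => Real.sinh x / Real.cosh x := by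
    ext x; exact Real.tanh_eq_sinh_div_cosh x
  have hc : Real.cosh x ≠ 0 := (Real.cosh_pos x).ne'
  rw [h]
  refine ((Real.hasDerivAt_sinh x).div (Real.hasDerivAt_cosh x) hc).congr_deriv ?_
  field_simp

/-- polynomials in `tanh (a z)` are in the bounded class -/
theorem sc_poly_tanh_B (n : ℕ) (a : ℝ) (p : Polynomial ℝ) :
    ScB n (fun z => p.eval (Real.tanh (a * z))) := by
  have hct : Continuous Real.tanh :=
    continuous_iff_continuousAt.2 fun x => (sc_hasDerivAt_tanh x).continuousAt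
  induction n generalizing p with
  | zero => exact p.continuous.comp (hct.comp (by fun_prop))
  | succ n ih =>
    set q : Polynomial ℝ := Polynomial.C a * Polynomial.derivative p * (1 - Polynomial.X ^ 2) with hq
    have hd : ∀ z, HasDerivAt (fun z => p.eval (Real.tanh (a * z))) (q.eval (Real.tanh (a * z))) z := by
      intro z
      have h1 : HasDerivAt (fun z : ℝ => a * z) a z := by
        simpa using (hasDerivAt_id z).const_mul a
      have h2 := (sc_hasDerivAt_tanh (a * z)).comp z h1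
      have h3 := (p.hasDerivAt (Real.tanh (a * z))).comp z h2
      refine h3.congr_deriv ?_
      simp [hq]
      ring
    have e : _root_.deriv (fun z => p.eval (Real.tanh (a * z))) = fun z => q.eval (Real.tanh (a * z)) := by
      ext z; exact (hd z).deriv
    refine ⟨fun z => (hd z).differentiableAt, ?_, ?_⟩
    · obtain ⟨C, hC⟩ := (isCompact_Icc (a := (-1 : ℝ)) (b := 1)).exists_bound_of_continuousOn
        q.continuous.continuousOn
      refine ⟨C, fun z => ?_⟩
      rw [e]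
      exact hC _ ⟨(Real.neg_one_lt_tanh _).le, (Real.tanh_lt_one _).le⟩
    · rw [e]
      exact ih q

/-- `a⁻¹ log cosh (a z)` is in the bounded class -/
theorem sc_logcosh_B (n : ℕ) (a : ℝ) : ScB n (fun z => a⁻¹ * Real.log (Real.cosh (a * z))) := by
  have hd : ∀ z, HasDerivAt (fun z => a⁻¹ * Real.log (Real.cosh (a * z)))
      ((Polynomial.C (a⁻¹ * a) * Polynomial.X).eval (Real.tanh (a * z))) z := by
    intro z
    have h1 : HasDerivAt (fun z : ℝ => a * z) a z := by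
      simpa using (hasDerivAt_id z).const_mul a
    have h2 := (Real.hasDerivAt_cosh (a * z)).comp z h1
    have h3 := (h2.log (Real.cosh_pos _).ne').const_mul a⁻¹
    refine h3.congr_deriv ?_
    simp [Real.tanh_eq_sinh_div_cosh]
    ring
  cases n with
  | zero => exact continuous_iff_continuousAt.2 fun z => (hd z).continuousAt
  | succ n =>
    have e : _root_.deriv (fun z => a⁻¹ * Real.log (Real.cosh (a * z))) =
        fun z => (Polynomial.C (a⁻¹ * a) * Polynomial.X).eval (Real.tanh (a * z)) := by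
      ext z; exact (hd z).deriv
    refine ⟨fun z => (hd z).differentiableAt, ⟨|a⁻¹ * a|, fun z => ?_⟩, ?_⟩
    · rw [e]
      simp only [Polynomial.eval_mul, Polynomial.eval_C, Polynomial.eval_X, abs_mul]
      have := (Real.abs_tanh_lt_one (a * z)).le
      have h0 : 0 ≤ |a⁻¹| * |a| := by positivity
      nlinarith
    · rw [e]
      exact sc_poly_tanh_B n a _

/-! ### uniform growth lemmas (helper161) -/

theorem ScGU.nonneg {I : Set ℝ} {ψ : ℝ → ℝ → ℝ} (h : ScGU I ψ) :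
    ∃ C c : ℝ, 0 ≤ C ∧ 0 ≤ c ∧ ∀ r ∈ I, ∀ z, |ψ r z| ≤ C * Real.exp (c * |z|) := by
  obtain ⟨C, c, h⟩ := h
  refine ⟨|C|, |c|, abs_nonneg _, abs_nonneg _, fun r hr z => (h r hr z).trans ?_⟩
  calc C * Real.exp (c * |z|) ≤ |C| * Real.exp (c * |z|) :=
        mul_le_mul_of_nonneg_right (le_abs_self C) (Real.exp_pos _).le
    _ ≤ |C| * Real.exp (|c| * |z|) := by
        gcongr
        exact le_abs_self c

theorem ScGU.of_le {I : Set ℝ} {ψ χ : ℝ → ℝ → ℝ} (hχ : ScGU I χ) (h : ∀ r ∈ I, ∀ z, |ψ r z| ≤ |χ r z|) : ScGU I ψ := by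
  obtain ⟨C, c, hχ⟩ := hχ
  exact ⟨C, c, fun r hr z => (h r hr z).trans (hχ r hr z)⟩

theorem ScGU.subset {I J : Set ℝ} (hJ : J ⊆ I) {ψ : ℝ → ℝ → ℝ} (h : ScGU I ψ) : ScGU J ψ := by
  obtain ⟨C, c, h⟩ := h
  exact ⟨C, c, fun r hr z => h r (hJ hr) z⟩

theorem ScGU.add {I : Set ℝ} {ψ χ : ℝ → ℝ → ℝ} (hψ : ScGU I ψ) (hχ : ScGU I χ) : ScGU I (fun r z => ψ r z + χ r z) := by
  obtain ⟨C, c, hC, hc, hf⟩ := hψ.nonneg
  obtain ⟨D, d, hD, hd, hg⟩ := hχ.nonneg
  refine ⟨C + D, max c d, fun r hr z => ?_⟩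
  have h1 : Real.exp (c * |z|) ≤ Real.exp (max c d * |z|) := by
    gcongr; exact le_max_left _ _
  have h2 : Real.exp (d * |z|) ≤ Real.exp (max c d * |z|) := by
    gcongr; exact le_max_right _ _
  calc |ψ r z + χ r z| ≤ |ψ r z| + |χ r z| := abs_add_le _ _
    _ ≤ C * Real.exp (c * |z|) + D * Real.exp (d * |z|) := add_le_add (hf r hr z) (hg r hr z)
    _ ≤ C * Real.exp (max c d * |z|) + D * Real.exp (max c d * |z|) := by gcongr
    _ = _ := by ring

theorem ScGU.mul {I : Set ℝ} {ψ χ : ℝ → ℝ → ℝ} (hψ : ScGU I ψ) (hχ : ScGU I χ) : ScGU I (fun r z => ψ r z * χ r z) := by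
  obtain ⟨C, c, hC, hc, hf⟩ := hψ.nonneg
  obtain ⟨D, d, hD, hd, hg⟩ := hχ.nonneg
  refine ⟨C * D, c + d, fun r hr z => ?_⟩
  rw [abs_mul, add_mul, Real.exp_add]
  calc |ψ r z| * |χ r z| ≤ (C * Real.exp (c * |z|)) * (D * Real.exp (d * |z|)) :=
        mul_le_mul (hf r hr z) (hg r hr z) (abs_nonneg _) (by positivity)
    _ = _ := by ring

theorem ScT.continuousOn {I : Set ℝ} {n : ℕ} {ψ : ℝ → ℝ → ℝ} (h : ScT I n ψ) :
    ContinuousOn (fun p : ℝ × ℝ => ψ p.1 p.2) (I ×ˢ univ) := by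
  cases n with
  | zero => exact h.1
  | succ n => exact h.1

theorem ScT.growth {I : Set ℝ} {n : ℕ} {ψ : ℝ → ℝ → ℝ} (h : ScT I n ψ) : ScGU I ψ := by
  cases n with
  | zero => exact h.2
  | succ n => exact h.2.1

/-- only the times `r ∈ I` matter -/
theorem ScT.congr {I : Set ℝ} {n : ℕ} {ψ χ : ℝ → ℝ → ℝ} (hψ : ScT I n ψ) (h : ∀ r ∈ I, ∀ z, χ r z = ψ r z) : ScT I n χ := by
  induction n generalizing ψ χ with
  | zero =>
    exact ⟨hψ.1.congr fun p hp => h p.1 hp.1 p.2, hψ.2.of_le fun r hr z => by rw [h r hr z]⟩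
  | succ n ih =>
    have e : ∀ r ∈ I, χ r = ψ r := fun r hr => funext (h r hr)
    refine ⟨hψ.1.congr fun p hp => h p.1 hp.1 p.2, hψ.2.1.of_le fun r hr z => by rw [h r hr z],
      fun r hr => by rw [e r hr]; exact hψ.2.2.1 r hr, ih hψ.2.2.2 fun r hr z => by rw [e r hr]⟩

theorem ScT.of_succ {I : Set ℝ} {n : ℕ} {ψ : ℝ → ℝ → ℝ} (h : ScT I (n + 1) ψ) : ScT I n ψ := by
  induction n generalizing ψ with
  | zero => exact ⟨h.1, h.2.1⟩
  | succ n ih => exact ⟨h.1, h.2.1, h.2.2.1, ih h.2.2.2⟩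

theorem ScT.mono {I : Set ℝ} {m n : ℕ} (hmn : m ≤ n) {ψ : ℝ → ℝ → ℝ} (h : ScT I n ψ) : ScT I m ψ := by
  induction n, hmn using Nat.le_induction with
  | base => exact h
  | succ n _ ih => exact ih h.of_succ

theorem ScT.subset {I J : Set ℝ} (hJ : J ⊆ I) {n : ℕ} {ψ : ℝ → ℝ → ℝ} (h : ScT I n ψ) : ScT J n ψ := by
  have hs : J ×ˢ (univ : Set ℝ) ⊆ I ×ˢ univ := prod_mono hJ subset_rfl
  induction n generalizing ψ with
  | zero => exact ⟨h.1.mono hs, h.2.subset hJ⟩
  | succ n ih => exact ⟨h.1.mono hs, h.2.1.subset hJ, fun r hr => h.2.2.1 r (hJ hr), ih h.2.2.2⟩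

theorem ScT.scE {I : Set ℝ} {n : ℕ} {ψ : ℝ → ℝ → ℝ} (h : ScT I n ψ) {r : ℝ} (hr : r ∈ I) : ScE n (ψ r) := by
  have hc : ∀ {χ : ℝ → ℝ → ℝ}, ContinuousOn (fun p : ℝ × ℝ => χ p.1 p.2) (I ×ˢ univ) → Continuous (χ r) := by
    intro χ hχ
    exact hχ.comp_continuous (f := fun z : ℝ => (r, z)) (by fun_prop) fun z => ⟨hr, mem_univ _⟩
  have hg : ∀ {χ : ℝ → ℝ → ℝ}, ScGU I χ → ScG (χ r) := by
    rintro χ ⟨C, c, hχ⟩
    exact ⟨C, c, hχ r hr⟩
  induction n generalizing ψ with
  | zero => exact ⟨hc h.1, hg h.2⟩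
  | succ n ih => exact ⟨hc h.1, hg h.2.1, h.2.2.1 r hr, ih h.2.2.2⟩

theorem ScE.scT {n : ℕ} {f : ℝ → ℝ} (h : ScE n f) (I : Set ℝ) : ScT I n (fun _ => f) := by
  have hg : ∀ {f : ℝ → ℝ}, ScG f → ScGU I (fun _ => f) := by
    rintro f ⟨C, c, hf⟩
    exact ⟨C, c, fun _ _ z => hf z⟩
  induction n generalizing f with
  | zero => exact ⟨(h.1.comp continuous_snd).continuousOn, hg h.2⟩
  | succ n ih => exact ⟨(h.1.comp continuous_snd).continuousOn, hg h.2.1, fun _ _ => h.2.2.1, ih h.2.2.2⟩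

/-- a continuous function of the time alone -/
theorem ScT.of_time {I : Set ℝ} {a : ℝ → ℝ} (ha : ContinuousOn a I) (hb : ∃ C, ∀ r ∈ I, |a r| ≤ C) (n : ℕ) :
    ScT I n (fun r _ => a r) := by
  have hc : ContinuousOn (fun p : ℝ × ℝ => a p.1) (I ×ˢ univ) :=
    ha.comp continuousOn_fst fun p hp => hp.1
  have hg : ScGU I (fun r _ => a r) := by
    obtain ⟨C, hC⟩ := hb
    exact ⟨C, 0, fun r hr z => by simpa using hC r hr⟩
  cases n with
  | zero => exact ⟨hc, hg⟩
  | succ n =>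
    refine ⟨hc, hg, fun r _ => differentiable_const _, ?_⟩
    have e : (fun r => _root_.deriv (fun _ : ℝ => a r)) = fun _ _ => (0 : ℝ) := by
      ext r z; simp
    rw [e]
    exact (ScE.const n 0).scT I

theorem ScT.add {I : Set ℝ} {n : ℕ} {ψ χ : ℝ → ℝ → ℝ} (hψ : ScT I n ψ) (hχ : ScT I n χ) :
    ScT I n (fun r z => ψ r z + χ r z) := by
  induction n generalizing ψ χ with
  | zero => exact ⟨hψ.1.add hχ.1, hψ.2.add hχ.2⟩
  | succ n ih =>
    refine ⟨hψ.1.add hχ.1, hψ.2.1.add hχ.2.1, fun r hr => (hψ.2.2.1 r hr).add (hχ.2.2.1 r hr), ?_⟩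
    exact (ih hψ.2.2.2 hχ.2.2.2).congr fun r hr z => deriv_fun_add (hψ.2.2.1 r hr z) (hχ.2.2.1 r hr z)

theorem ScT.mul {I : Set ℝ} {n : ℕ} {ψ χ : ℝ → ℝ → ℝ} (hψ : ScT I n ψ) (hχ : ScT I n χ) :
    ScT I n (fun r z => ψ r z * χ r z) := by
  induction n generalizing ψ χ with
  | zero => exact ⟨hψ.1.mul hχ.1, hψ.2.mul hχ.2⟩
  | succ n ih =>
    refine ⟨hψ.1.mul hχ.1, hψ.2.1.mul hχ.2.1, fun r hr => (hψ.2.2.1 r hr).mul (hχ.2.2.1 r hr), ?_⟩
    exact ((ih hψ.2.2.2 hχ.of_succ).add (ih hψ.of_succ hχ.2.2.2)).congr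
      fun r hr z => deriv_fun_mul (hψ.2.2.1 r hr z) (hχ.2.2.1 r hr z)

theorem ScT.const_mul {I : Set ℝ} {n : ℕ} {ψ : ℝ → ℝ → ℝ} (c : ℝ) (hψ : ScT I n ψ) :
    ScT I n (fun r z => c * ψ r z) :=
  ((ScE.const n c).scT I).mul hψ

theorem ScT.neg {I : Set ℝ} {n : ℕ} {ψ : ℝ → ℝ → ℝ} (hψ : ScT I n ψ) : ScT I n (fun r z => - ψ r z) := by
  simpa using hψ.const_mul (-1)

theorem ScT.sub {I : Set ℝ} {n : ℕ} {ψ χ : ℝ → ℝ → ℝ} (hψ : ScT I n ψ) (hχ : ScT I n χ) :
    ScT I n (fun r z => ψ r z - χ r z) := by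
  simpa [sub_eq_add_neg] using hψ.add hχ.neg

theorem ScT.pow {I : Set ℝ} {n : ℕ} {ψ : ℝ → ℝ → ℝ} (hψ : ScT I n ψ) (k : ℕ) :
    ScT I n (fun r z => ψ r z ^ k) := by
  induction k with
  | zero => simpa using (ScE.const n 1).scT I
  | succ k ih => simpa [pow_succ] using ih.mul hψ

/-- inverse of a positive function whose inverse has uniform exponential growth -/
theorem ScT.inv {I : Set ℝ} {n : ℕ} {ψ : ℝ → ℝ → ℝ} (hψ : ScT I n ψ) (hpos : ∀ r ∈ I, ∀ z, 0 < ψ r z)
    (hinv : ScGU I (fun r z => (ψ r z)⁻¹)) : ScT I n (fun r z => (ψ r z)⁻¹) := by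
  have hc : ContinuousOn (fun p : ℝ × ℝ => (ψ p.1 p.2)⁻¹) (I ×ˢ univ) :=
    hψ.continuousOn.inv₀ fun p hp => (hpos p.1 hp.1 p.2).ne'
  induction n with
  | zero => exact ⟨hc, hinv⟩
  | succ n ih =>
    have h1 := ih hψ.of_succ
    have hd : ∀ r ∈ I, ∀ z, HasDerivAt (fun z => (ψ r z)⁻¹) (-(_root_.deriv (ψ r) z * ((ψ r z)⁻¹) ^ 2)) z := by
      intro r hr z
      have := (hψ.2.2.1 r hr z).hasDerivAt.inv (hpos r hr z).ne'
      refine this.congr_deriv ?_
      have := (hpos r hr z).ne'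
      field_simp
    refine ⟨hc, hinv, fun r hr z => (hd r hr z).differentiableAt, ?_⟩
    exact (hψ.2.2.2.mul (h1.pow 2)).neg.congr fun r hr z => (hd r hr z).deriv

/-- logarithm of a positive function which, with its inverse, has uniform exponential growth -/
theorem ScT.log {I : Set ℝ} {n : ℕ} {ψ : ℝ → ℝ → ℝ} (hψ : ScT I n ψ) (hpos : ∀ r ∈ I, ∀ z, 0 < ψ r z)
    (hinv : ScGU I (fun r z => (ψ r z)⁻¹)) : ScT I n (fun r z => Real.log (ψ r z)) := by
  have hc : ContinuousOn (fun p : ℝ × ℝ => Real.log (ψ p.1 p.2)) (I ×ˢ univ) :=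
    hψ.continuousOn.log fun p hp => (hpos p.1 hp.1 p.2).ne'
  have hg : ScGU I (fun r z => Real.log (ψ r z)) := by
    refine (hψ.growth.add hinv).of_le fun r hr z => ?_
    have hp := hpos r hr z
    have hi : 0 < (ψ r z)⁻¹ := inv_pos.2 hp
    have h1 : Real.log (ψ r z) ≤ ψ r z := (Real.log_le_sub_one_of_pos hp).trans (by linarith)
    have h2 : -Real.log (ψ r z) ≤ (ψ r z)⁻¹ := by
      rw [← Real.log_inv]
      exact (Real.log_le_sub_one_of_pos hi).trans (by linarith)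
    rw [abs_of_pos (add_pos hp hi)]
    exact abs_le.2 ⟨by linarith, by linarith⟩
  cases n with
  | zero => exact ⟨hc, hg⟩
  | succ n =>
    have hd : ∀ r ∈ I, ∀ z, HasDerivAt (fun z => Real.log (ψ r z)) (_root_.deriv (ψ r) z * (ψ r z)⁻¹) z := by
      intro r hr z
      exact ((hψ.2.2.1 r hr z).hasDerivAt.log (hpos r hr z).ne').congr_deriv (by rw [div_eq_mul_inv])
    refine ⟨hc, hg, fun r hr z => (hd r hr z).differentiableAt, ?_⟩
    exact (hψ.2.2.2.mul (hψ.of_succ.inv hpos hinv)).congr fun r hr z => (hd r hr z).deriv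

end Claimed.Agent.R286
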