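import Claimed.Agent.R286.Sc.GenDefs
import Claimed.Agent.R286.Sc.DynC
import Claimed.Agent.R286.Fs.BackProf
import Claimed.Agent.R286.Fs.Fwd
import Claimed.Agent.R286.Fs.Stat
import Claimed.Agent.R286.Fs.Law

/-!
# Row 286, scalar block, unit C5a: the step induction and the curvature on cells of equal mass      OWNER: helper265

`F = scLC A = A⁻¹ log cosh (A z)`, `π` a step profile with nondecreasing masses in `(0, A]`.
* `scc_data`      : `FsBI m F` + `FsFI t F ψ`  ⇒  `FssData` (hypotheses of the static certificate `fss_static`, unit C4);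
* `scc_fwd_aux`, `scc_fwd` : the forward invariant `FsFI t (V(t)) (ψ(t))` at EVERY time `0 < t < scLen π` (induction over the list);
* `scc_data_at`   : `FssData` at every such time;      `scc_static` : the certificate for the weight `scWt`.
* `scc_convex_of_second` : real analysis: `f' = D1`, `D1' = D2 ≥ 2 κ` (integrated forms) ⇒ `f - κ t²` convex.
* `scc_M2_sub`, `scc_D1_sub` (any `F ∈ ScBI`): `M₂' = N₃ - 2 α M₃`, `(N₃ - 2 m M₃)' = N₄ - 6 (α + m) M₁₃ + 6 m α M₄` (Dynkin calculus of `Sc/Dyn.lean`).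
* `scc_third`     : `N₄ - 12 α M₁₃ + 6 α² M₄ ≥ (α²/1000) M₄` at every time `0 < t < scLen π`.
* EXITS (consumer: C5b, helper183): `scc_curv` (`M₂ - κ t²` convex on `[s,t]` if `α = m` on `(s,t)` and `2 κ ≤ (m²/1000) M₄`), `scc_curv'` (`κ = m² c²/2000` if `M₂ ≥ c`), `scc_M2_sq_le`.
0 own sorry.   SUPPLIES still sorried elsewhere: `fsf_step` (Fs/Fwd.lean), contracts of `Sc/Prof.lean`, `Sc/Dyn.lean`.
-/

set_option autoImplicit false

namespace Claimed.Agent.R286

open MeasureTheory Filter Topology Set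

/-! ## 0. unfolding lemmas by `rfl` (so that NO on-demand equation lemma `f.eq_1`, `f.eq_def` is written in this file: RULES.md, rule 6) -/

theorem scc_len_nil : scLen [] = 0 := rfl

theorem scc_len_cons (p : ℝ × ℝ) (π : List (ℝ × ℝ)) : scLen (p :: π) = p.2 + scLen π := rfl

theorem scc_Al_cons (p : ℝ × ℝ) (π : List (ℝ × ℝ)) (t : ℝ) :
    scAl (p :: π) t = if p.2 ≤ t then scAl π (t - p.2) else p.1 := rfl

theorem scc_Vt_cons (F : ℝ → ℝ) (p : ℝ × ℝ) (π : List (ℝ × ℝ)) (t : ℝ) :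
    scVt F (p :: π) t = if p.2 ≤ t then scVt F π (t - p.2) else scStep p.1 (p.2 - t) (scV F π) := rfl

theorem scc_psi_cons (F : ℝ → ℝ) (p : ℝ × ℝ) (π : List (ℝ × ℝ)) (a mp : ℝ) (ψ : ℝ → ℝ) (t : ℝ) :
    scPsiAux F (p :: π) a mp ψ t =
      if p.2 ≤ t then scPsiAux F π (a + p.2) p.1 (scFw a p.2 fun y => ψ y + (p.1 - mp) * scV F (p :: π) y) (t - p.2)
      else scFw a t fun y => ψ y + (p.1 - mp) * scV F (p :: π) y := rfl

theorem scc_fw_def (a h : ℝ) (ψ : ℝ → ℝ) (x : ℝ) :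
    scFw a h ψ x = - Real.log (scHeat (a * h / (a + h)) (fun y => Real.exp (-(ψ y))) (a / (a + h) * x)) := rfl

theorem scc_M2_def (F : ℝ → ℝ) (π : List (ℝ × ℝ)) (t : ℝ) : scM2 F π t = scEx F π t fun z => scD 2 F π t z ^ 2 := rfl

theorem scc_M3_def (F : ℝ → ℝ) (π : List (ℝ × ℝ)) (t : ℝ) : scM3 F π t = scEx F π t fun z => scD 2 F π t z ^ 3 := rfl

theorem scc_M4_def (F : ℝ → ℝ) (π : List (ℝ × ℝ)) (t : ℝ) : scM4 F π t = scEx F π t fun z => scD 2 F π t z ^ 4 := rfl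

theorem scc_N3_def (F : ℝ → ℝ) (π : List (ℝ × ℝ)) (t : ℝ) : scN3 F π t = scEx F π t fun z => scD 3 F π t z ^ 2 := rfl

theorem scc_N4_def (F : ℝ → ℝ) (π : List (ℝ × ℝ)) (t : ℝ) : scN4 F π t = scEx F π t fun z => scD 4 F π t z ^ 2 := rfl

theorem scc_M13_def (F : ℝ → ℝ) (π : List (ℝ × ℝ)) (t : ℝ) :
    scM13 F π t = scEx F π t fun z => scD 2 F π t z * scD 3 F π t z ^ 2 := rfl

/-! ## 1. the hypotheses of the static certificate -/

theorem scc_iter_bdd {F : ℝ → ℝ} (h : ∀ n, ScB n F) (k : ℕ) : ∃ C : ℝ, ∀ x, |deriv^[k + 1] F x| ≤ C := by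
  have h1 : ScB 1 (deriv^[k] F) := fsb_B_iter k (h (1 + k))
  obtain ⟨C, hC⟩ := h1.2.1
  exact ⟨C, fun x => by rw [Function.iterate_succ_apply']; exact hC x⟩

theorem scc_iter_cont {F : ℝ → ℝ} (h : ∀ n, ScB n F) (k : ℕ) : Continuous (deriv^[k] F) :=
  continuous_iff_continuousAt.2 fun x => (fsb_iter_hasDerivAt h k x).continuousAt

/-- **backward + forward invariant at one time ⇒ the data of the static certificate** -/
theorem scc_data {t m : ℝ} {F ψ : ℝ → ℝ} (ht : 0 < t) (hm : 0 < m) (hB : FsBI m F) (hF : FsFI t F ψ) :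
    FssData t m F (deriv^[1] F) (deriv^[2] F) (deriv^[3] F) (deriv^[4] F) ψ (deriv^[1] ψ) (deriv^[2] ψ) (deriv^[3] ψ) := by
  obtain ⟨C1, h1⟩ := scc_iter_bdd hB.cls 0
  obtain ⟨C2, h2⟩ := scc_iter_bdd hB.cls 1
  obtain ⟨C3, h3⟩ := scc_iter_bdd hB.cls 2
  obtain ⟨C4, h4⟩ := scc_iter_bdd hB.cls 3
  obtain ⟨C5, h5⟩ := scc_iter_bdd hF.cls 0
  obtain ⟨C6, h6⟩ := scc_iter_bdd hF.cls 1
  obtain ⟨C7, h7⟩ := scc_iter_bdd hF.cls 2
  have p1 := (abs_nonneg _).trans (h1 0)
  have p2 := (abs_nonneg _).trans (h2 0)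
  have p3 := (abs_nonneg _).trans (h3 0)
  have p4 := (abs_nonneg _).trans (h4 0)
  have p5 := (abs_nonneg _).trans (h5 0)
  have p6 := (abs_nonneg _).trans (h6 0)
  have p7 := (abs_nonneg _).trans (h7 0)
  exact
    { ht := ht
      hm := hm
      dV := fsb_iter_hasDerivAt hB.cls 0
      dV1 := fsb_iter_hasDerivAt hB.cls 1
      dV2 := fsb_iter_hasDerivAt hB.cls 2
      dV3 := fsb_iter_hasDerivAt hB.cls 3
      cV4 := scc_iter_cont hB.cls 4
      dψ := fsb_iter_hasDerivAt hF.cls 0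
      dψ1 := fsb_iter_hasDerivAt hF.cls 1
      dψ2 := fsb_iter_hasDerivAt hF.cls 2
      cψ3 := scc_iter_cont hF.cls 3
      bd := ⟨C1 + C2 + C3 + C4 + C5 + C6 + C7, fun x =>
        ⟨by linarith [h1 x], by linarith [h2 x], by linarith [h3 x], by linarith [h4 x], by linarith [h5 x],
          by linarith [h6 x], by linarith [h7 x]⟩⟩
      eV := hB.even
      eψ := hF.even
      pos := hB.v_pos
      sY := fun x hx => by have := hB.y_le x hx; linarith
      sQ := fun x hx => by have := hB.q_ge x hx; linarith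
      sJ := hF.j_ge
      sψ2 := hF.a_ge
      sψ3 := hF.b_le }

/-! ## 2. the forward induction -/

theorem scc_fw_first (h : ℝ) (ψ : ℝ → ℝ) : scFw 0 h ψ = fun _ => ψ 0 := by
  funext x
  simp [scc_fw_def, sc_heat_zero]

theorem scc_Al_pos {π : List (ℝ × ℝ)} (pos : ∀ p ∈ π, 0 < p.1) {t : ℝ} (h0 : 0 ≤ t) (ht : t < scLen π) :
    0 < scAl π t := by
  induction π generalizing t with
  | nil => rw [scc_len_nil] at ht; linarith
  | cons p π ih =>
    by_cases h : p.2 ≤ t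
    · rw [scc_Al_cons, if_pos h]
      exact ih (fun q hq => pos q (List.mem_cons_of_mem _ hq)) (by linarith) (by rw [scc_len_cons] at ht; linarith)
    · rw [scc_Al_cons, if_neg h]
      exact pos p List.mem_cons_self

/-- **the forward induction**, started at the time `a ≥ 0` with the previous mass `mp` and the pre-jump value `ψ` -/
theorem scc_fwd_aux {A : ℝ} (hA : 0 < A) {π : List (ℝ × ℝ)} (adm : ScAdm A π) (inc : ScInc π) (pos : ∀ p ∈ π, 0 < p.1)
    {a mp : ℝ} {ψ : ℝ → ℝ} (ha : 0 ≤ a) (hmp : ∀ p ∈ π, mp ≤ p.1) (hI : 0 < a → FsFI a (scV (scLC A) π) ψ)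
    {t : ℝ} (ht0 : 0 ≤ t) (ht : t < scLen π) (hat : 0 < a + t) :
    FsFI (a + t) (scVt (scLC A) π t) (scPsiAux (scLC A) π a mp ψ t) := by
  induction π generalizing a mp ψ t with
  | nil => rw [scc_len_nil] at ht; linarith
  | cons p π ih =>
    have adm' : ScAdm A π := adm.of_cons
    have inc' : ScInc π := inc.of_cons
    have hp := adm p List.mem_cons_self
    have hpp := pos p List.mem_cons_self
    have hsort : ∀ q ∈ π, p.1 ≤ q.1 := (List.pairwise_cons.mp inc).1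
    have hBπ : FsBI p.1 (scV (scLC A) π) := fsb_V hA adm' inc' hsort hp.2.1
    have hl : 0 ≤ p.1 - mp := sub_nonneg.2 (hmp p List.mem_cons_self)
    have hU : FsBI p.1 (scV (scLC A) (p :: π)) := fsb_step hp.1 hp.2.2 hBπ
    by_cases h : p.2 ≤ t
    · rw [scc_Vt_cons, scc_psi_cons, if_pos h, if_pos h]
      have key := ih adm' inc' (fun q hq => pos q (List.mem_cons_of_mem _ hq)) (a := a + p.2) (mp := p.1)
        (ψ := scFw a p.2 fun y => ψ y + (p.1 - mp) * scV (scLC A) (p :: π) y) (add_nonneg ha hp.2.2) hsort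
        (fun hap => by
          rcases ha.eq_or_lt with h0 | h0
          · subst h0
            rw [scc_fw_first]
            exact fsf_const hap hBπ _
          · exact fsf_step h0 hp.2.2 hpp hBπ (fsf_jump hU (hI h0) hl))
        (t := t - p.2) (by linarith) (by rw [scc_len_cons] at ht; linarith) (by linarith)
      have e : a + p.2 + (t - p.2) = a + t := by ring
      rwa [e] at key
    · rw [scc_Vt_cons, scc_psi_cons, if_neg h, if_neg h]
      have h' : 0 ≤ p.2 - t := by linarith [not_le.mp h]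
      have hBt : FsBI p.1 (scStep p.1 (p.2 - t) (scV (scLC A) π)) := fsb_step hp.1 h' hBπ
      rcases ha.eq_or_lt with h0 | h0
      · subst h0
        rw [scc_fw_first]
        exact fsf_const hat hBt _
      · refine fsf_step h0 ht0 hpp hBt ?_
        rw [sc_step_step (hBπ.cls 1) p.1 ht0 h']
        have e : t + (p.2 - t) = p.2 := by ring
        rw [e]
        exact fsf_jump hU (hI h0) hl

/-- the forward invariant at every time `0 < t < scLen π` -/
theorem scc_fwd {A : ℝ} (hA : 0 < A) {π : List (ℝ × ℝ)} (adm : ScAdm A π) (inc : ScInc π) (pos : ∀ p ∈ π, 0 < p.1)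
    {t : ℝ} (ht0 : 0 < t) (ht : t < scLen π) : FsFI t (scVt (scLC A) π t) (scPsi (scLC A) π t) := by
  have := scc_fwd_aux hA adm inc pos (a := 0) (mp := 0) (ψ := fun _ => 0) le_rfl (fun p hp => (pos p hp).le)
    (fun h => absurd h (lt_irrefl _)) ht0.le ht (by linarith)
  rwa [zero_add] at this

/-- **`FssData` at every time `0 < t < scLen π`** -/
theorem scc_data_at {A : ℝ} (hA : 0 < A) {π : List (ℝ × ℝ)} (adm : ScAdm A π) (inc : ScInc π) (pos : ∀ p ∈ π, 0 < p.1)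
    {t : ℝ} (ht0 : 0 < t) (ht : t < scLen π) :
    FssData t (scAl π t) (scVt (scLC A) π t) (scD 1 (scLC A) π t) (scD 2 (scLC A) π t) (scD 3 (scLC A) π t)
      (scD 4 (scLC A) π t) (scPsi (scLC A) π t) (deriv^[1] (scPsi (scLC A) π t)) (deriv^[2] (scPsi (scLC A) π t))
      (deriv^[3] (scPsi (scLC A) π t)) :=
  scc_data ht0 (scc_Al_pos pos ht0.le ht) (fsb_Vt hA adm inc t) (scc_fwd hA adm inc pos ht0 ht)

/-- **the static certificate along the profile**, for the weight `scWt` -/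
theorem scc_static {A : ℝ} (hA : 0 < A) {π : List (ℝ × ℝ)} (adm : ScAdm A π) (inc : ScInc π) (pos : ∀ p ∈ π, 0 < p.1)
    {t : ℝ} (ht0 : 0 < t) (ht : t < scLen π) :
    scAl π t ^ 2 / 1000 * scHeat t (fun x => scD 2 (scLC A) π t x ^ 4 * scWt (scLC A) π t x) 0
      ≤ scHeat t (fun x => (scD 4 (scLC A) π t x ^ 2 - 12 * scAl π t * scD 2 (scLC A) π t x * scD 3 (scLC A) π t x ^ 2
          + 6 * scAl π t ^ 2 * scD 2 (scLC A) π t x ^ 4) * scWt (scLC A) π t x) 0 :=
  fss_static (scc_data_at hA adm inc pos ht0 ht)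

/-! ## 3. real analysis -/

/-- `f' = D1`, `D1' = D2 ≥ 2 κ` (integrated forms) ⇒ `f - κ t²` is convex -/
theorem scc_convex_of_second {f D1 D2 : ℝ → ℝ} {s t κ : ℝ} (hst : s ≤ t)
    (h1 : ∀ r ∈ Icc s t, f r - f s = ∫ x in s..r, D1 x)
    (h2 : ∀ r ∈ Icc s t, D1 r - D1 s = ∫ x in s..r, D2 x)
    (hint : IntervalIntegrable D2 volume s t)
    (hlow : ∀ x ∈ Ioo s t, 2 * κ ≤ D2 x) :
    ConvexOn ℝ (Icc s t) (fun r => f r - κ * r ^ 2) := by
  have hI2 : IntegrableOn D2 (uIcc s t) := by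
    rw [uIcc_of_le hst]
    exact (intervalIntegrable_iff_integrableOn_Icc_of_le hst).1 hint
  have cD1 : ContinuousOn D1 (Icc s t) := by
    have := intervalIntegral.continuousOn_primitive_interval (μ := volume) (f := D2) (a := s) (b := t) hI2
    rw [uIcc_of_le hst] at this
    refine (this.add (continuousOn_const (c := D1 s))).congr fun r hr => ?_
    have := h2 r hr
    simp only [Pi.add_apply]
    linarith
  have hI1 : IntegrableOn D1 (uIcc s t) := by
    rw [uIcc_of_le hst]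
    exact cD1.integrableOn_Icc
  have cf : ContinuousOn f (Icc s t) := by
    have := intervalIntegral.continuousOn_primitive_interval (μ := volume) (f := D1) (a := s) (b := t) hI1
    rw [uIcc_of_le hst] at this
    refine (this.add (continuousOn_const (c := f s))).congr fun r hr => ?_
    have := h1 r hr
    simp only [Pi.add_apply]
    linarith
  have hd : ∀ r ∈ Ioo s t, HasDerivAt (fun r => f r - κ * r ^ 2) (D1 r - 2 * κ * r) r := by
    intro r hr
    have hnb : Ioo s t ∈ 𝓝 r := isOpen_Ioo.mem_nhds hr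
    have cAt : ContinuousAt D1 r := (cD1.mono Ioo_subset_Icc_self).continuousAt hnb
    have hii : IntervalIntegrable D1 volume s r :=
      (cD1.mono (Icc_subset_Icc_right hr.2.le)).intervalIntegrable_of_Icc hr.1.le
    have hsm : StronglyMeasurableAtFilter D1 (𝓝 r) volume :=
      (cD1.mono Ioo_subset_Icc_self).stronglyMeasurableAtFilter isOpen_Ioo r hr
    have hF := intervalIntegral.integral_hasDerivAt_right hii hsm cAt
    have hf : HasDerivAt f (D1 r) r := by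
      have : HasDerivAt (fun u => (∫ x in s..u, D1 x) + f s) (D1 r) r := hF.add_const _
      refine this.congr_of_eventuallyEq ?_
      filter_upwards [hnb] with u hu
      have := h1 u (Ioo_subset_Icc_self hu)
      linarith
    have hq : HasDerivAt (fun r : ℝ => κ * r ^ 2) (2 * κ * r) r := by
      have := ((hasDerivAt_id r).pow 2).const_mul κ
      refine this.congr_deriv ?_
      simp
      ring
    exact hf.sub hq
  refine MonotoneOn.convexOn_of_deriv (convex_Icc s t) (cf.sub (by fun_prop)) ?_ ?_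
  · rw [interior_Icc]
    exact fun r hr => (hd r hr).differentiableAt.differentiableWithinAt
  · rw [interior_Icc]
    intro r hr r' hr' hrr
    rw [(hd r hr).deriv, (hd r' hr').deriv]
    have e1 := h2 r (Ioo_subset_Icc_self hr)
    have e2 := h2 r' (Ioo_subset_Icc_self hr')
    have i1 : IntervalIntegrable D2 volume s r :=
      hint.mono_set (by rw [uIcc_of_le hr.1.le, uIcc_of_le hst]; exact Icc_subset_Icc_right hr.2.le)
    have i2 : IntervalIntegrable D2 volume s r' :=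
      hint.mono_set (by rw [uIcc_of_le hr'.1.le, uIcc_of_le hst]; exact Icc_subset_Icc_right hr'.2.le)
    have i3 : IntervalIntegrable D2 volume r r' :=
      hint.mono_set (by rw [uIcc_of_le hrr, uIcc_of_le hst]; exact Icc_subset_Icc hr.1.le hr'.2.le)
    have e3 : (∫ x in s..r', D2 x) - ∫ x in s..r, D2 x = ∫ x in r..r', D2 x :=
      intervalIntegral.integral_interval_sub_left i2 i1
    have e4 : ∫ x in r..r', (2 * κ) ≤ ∫ x in r..r', D2 x :=
      intervalIntegral.integral_mono_on hrr intervalIntegrable_const i3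
        (fun x hx => hlow x ⟨lt_of_lt_of_le hr.1 hx.1, lt_of_le_of_lt hx.2 hr'.2⟩)
    rw [intervalIntegral.integral_const, smul_eq_mul] at e4
    linarith

/-! ## 4. the moment curves: first and second derivative (any terminal datum of the class `ScBI`) -/

section mom

variable {F : ℝ → ℝ} {π : List (ℝ × ℝ)}

theorem scc_Ex_sub_fun (hF : ScBI F) {φ ψ : ℝ → ℝ} (hφ : ScE 0 φ) (hψ : ScE 0 ψ) (t : ℝ) :
    scEx F π t (fun z => φ z - ψ z) = scEx F π t φ - scEx F π t ψ := congrFun (sc_Pt_sub hF hφ hψ π 0 t) 0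

theorem scc_Ex_add_fun (hF : ScBI F) {φ ψ : ℝ → ℝ} (hφ : ScE 0 φ) (hψ : ScE 0 ψ) (t : ℝ) :
    scEx F π t (fun z => φ z + ψ z) = scEx F π t φ + scEx F π t ψ := congrFun (sc_Pt_add hF hφ hψ π 0 t) 0

theorem scc_Ex_cmul (c : ℝ) (φ : ℝ → ℝ) (t : ℝ) : scEx F π t (fun z => c * φ z) = c * scEx F π t φ :=
  congrFun (sc_Pt_const_mul F φ π 0 t c) 0

/-- difference form of the Dynkin formula started from `Z_0 = 0` -/
theorem scc_Ex_dynkin_sub (hF : ScBI F) (h : ScPos π) {T : ℝ} (hT : T ≤ scLen π) {φ G : ℝ → ℝ → ℝ}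
    (hφ : ScDyn F π 0 T φ G) {s t : ℝ} (hs : 0 ≤ s) (hst : s ≤ t) (ht : t ≤ T) :
    scEx F π t (φ t) - scEx F π s (φ s) = ∫ r in s..t, scEx F π r (G r) := by
  have e1 := sc_Ex_dynkin hF h (hs.trans hst) (ht.trans hT) (hφ.sub_interval le_rfl ht)
  have e2 := sc_Ex_dynkin hF h hs ((hst.trans ht).trans hT) (hφ.sub_interval le_rfl (hst.trans ht))
  have i1 : IntervalIntegrable (fun r => scEx F π r (G r)) volume 0 t :=
    sc_dynkin_integrable hF h le_rfl (hs.trans hst) (hφ.gen.sub_interval le_rfl ht) 0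
  have i2 : IntervalIntegrable (fun r => scEx F π r (G r)) volume 0 s :=
    sc_dynkin_integrable hF h le_rfl hs (hφ.gen.sub_interval le_rfl (hst.trans ht)) 0
  rw [← intervalIntegral.integral_interval_sub_left i1 i2]
  linarith

theorem scc_Ex_dynkin_int (hF : ScBI F) (h : ScPos π) {T : ℝ} {φ G : ℝ → ℝ → ℝ}
    (hφ : ScDyn F π 0 T φ G) {s t : ℝ} (hs : 0 ≤ s) (hst : s ≤ t) (ht : t ≤ T) :
    IntervalIntegrable (fun r => scEx F π r (G r)) volume s t := by
  have i1 : IntervalIntegrable (fun r => scEx F π r (G r)) volume 0 t :=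
    sc_dynkin_integrable hF h le_rfl (hs.trans hst) (hφ.gen.sub_interval le_rfl ht) 0
  exact i1.mono_set (by rw [uIcc_of_le hst, uIcc_of_le (hs.trans hst)]; exact Icc_subset_Icc_left hs)

/-- `(∂_t + L) V₂² = V₃² - 2 α V₂³` -/
theorem scc_dyn_sq2 (hF : ScBI F) (h : ScPos π) {T : ℝ} (hT : T ≤ scLen π) :
    ScDyn F π 0 T (fun r y => scD 2 F π r y ^ 2)
      (fun r y => scD 3 F π r y ^ 2 - 2 * scAl π r * scD 2 F π r y ^ 3) := by
  refine (sc_dyn_D2 hF h (s := 0) (t := T) le_rfl hT).sq.congr_gen fun r _ => ?_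
  funext y
  rw [sc_D_succ]
  ring

/-- `(∂_t + L) V₃² = V₄² - 6 α V₂ V₃²` -/
theorem scc_dyn_sq3 (hF : ScBI F) (h : ScPos π) {T : ℝ} (hT : T ≤ scLen π) :
    ScDyn F π 0 T (fun r y => scD 3 F π r y ^ 2)
      (fun r y => scD 4 F π r y ^ 2 - 6 * scAl π r * (scD 2 F π r y * scD 3 F π r y ^ 2)) := by
  refine (sc_dyn_D3 hF h (s := 0) (t := T) le_rfl hT).sq.congr_gen fun r _ => ?_
  funext y
  rw [sc_D_succ]
  ring

/-- `(∂_t + L) V₂³ = 3 V₂ V₃² - 3 α V₂⁴` -/
theorem scc_dyn_cube2 (hF : ScBI F) (h : ScPos π) {T : ℝ} (hT : T ≤ scLen π) :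
    ScDyn F π 0 T (fun r y => scD 2 F π r y ^ 3)
      (fun r y => 3 * (scD 2 F π r y * scD 3 F π r y ^ 2) - 3 * scAl π r * scD 2 F π r y ^ 4) := by
  have h1 := (sc_dyn_D2 hF h (s := 0) (t := T) le_rfl hT).mul (scc_dyn_sq2 hF h hT)
  have e : (fun (r y : ℝ) => scD 2 F π r y * scD 2 F π r y ^ 2) = fun r y => scD 2 F π r y ^ 3 := by
    funext r y; ring
  rw [e] at h1
  refine h1.congr_gen fun r _ => ?_
  funext y
  have hd : deriv (fun y => scD 2 F π r y ^ 2) y = 2 * scD 2 F π r y * scD 3 F π r y := by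
    have := (sc_D_hasDerivAt hF 2 π r y).pow 2
    refine (this.congr_deriv ?_).deriv
    simp
  rw [sc_D_succ, hd]
  ring

/-- `(∂_t + L)(V₃² - 2 m V₂³)` -/
theorem scc_dyn_D1 (hF : ScBI F) (h : ScPos π) {T : ℝ} (hT : T ≤ scLen π) (m : ℝ) :
    ScDyn F π 0 T (fun r y => scD 3 F π r y ^ 2 - 2 * m * scD 2 F π r y ^ 3)
      (fun r y => (scD 4 F π r y ^ 2 - 6 * scAl π r * (scD 2 F π r y * scD 3 F π r y ^ 2))
        - 2 * m * (3 * (scD 2 F π r y * scD 3 F π r y ^ 2) - 3 * scAl π r * scD 2 F π r y ^ 4)) :=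
  (scc_dyn_sq3 hF h hT).sub ((scc_dyn_cube2 hF h hT).const_mul (2 * m))

theorem scc_E_pow (hF : ScBI F) (k j : ℕ) (t : ℝ) : ScE 0 (fun y => scD k F π t y ^ j) := (sc_D_E hF k 0 π t).pow j

theorem scc_E_13 (hF : ScBI F) (t : ℝ) : ScE 0 (fun y => scD 2 F π t y * scD 3 F π t y ^ 2) :=
  (sc_D_E hF 2 0 π t).mul (scc_E_pow hF 3 2 t)

/-- **first derivative of `M₂ = E V₂²`** -/
theorem scc_M2_sub (hF : ScBI F) (h : ScPos π) {s t : ℝ} (hs : 0 ≤ s) (hst : s ≤ t) (ht : t ≤ scLen π) :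
    scM2 F π t - scM2 F π s = ∫ r in s..t, (scN3 F π r - 2 * scAl π r * scM3 F π r) := by
  have := scc_Ex_dynkin_sub hF h le_rfl (scc_dyn_sq2 hF h le_rfl) hs hst ht
  rw [scc_M2_def, scc_M2_def, this]
  refine intervalIntegral.integral_congr fun r _ => ?_
  rw [scc_Ex_sub_fun hF (scc_E_pow hF 3 2 r) ((scc_E_pow hF 2 3 r).const_mul _), scc_Ex_cmul]
  rfl

/-- the generator of `V₃² - 2 m V₂³` in terms of the moment curves -/
theorem scc_Ex_gen (hF : ScBI F) (m r : ℝ) :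
    scEx F π r (fun y => (scD 4 F π r y ^ 2 - 6 * scAl π r * (scD 2 F π r y * scD 3 F π r y ^ 2))
        - 2 * m * (3 * (scD 2 F π r y * scD 3 F π r y ^ 2) - 3 * scAl π r * scD 2 F π r y ^ 4))
      = scN4 F π r - 6 * (scAl π r + m) * scM13 F π r + 6 * m * scAl π r * scM4 F π r := by
  have a4 := scc_E_pow (π := π) hF 4 2 r
  have a13 := scc_E_13 (π := π) hF r
  have a24 := scc_E_pow (π := π) hF 2 4 r
  rw [scc_Ex_sub_fun hF (a4.sub (a13.const_mul _)) (((a13.const_mul 3).sub (a24.const_mul _)).const_mul _),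
    scc_Ex_sub_fun hF a4 (a13.const_mul _), scc_Ex_cmul, scc_Ex_cmul,
    scc_Ex_sub_fun hF (a13.const_mul 3) (a24.const_mul _), scc_Ex_cmul, scc_Ex_cmul]
  rw [scc_N4_def, scc_M13_def, scc_M4_def]
  ring

/-- **second derivative of `M₂`**: derivative of `N₃ - 2 m M₃` -/
theorem scc_D1_sub (hF : ScBI F) (h : ScPos π) (m : ℝ) {s t : ℝ} (hs : 0 ≤ s) (hst : s ≤ t) (ht : t ≤ scLen π) :
    (scN3 F π t - 2 * m * scM3 F π t) - (scN3 F π s - 2 * m * scM3 F π s)
      = ∫ r in s..t, (scN4 F π r - 6 * (scAl π r + m) * scM13 F π r + 6 * m * scAl π r * scM4 F π r) := by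
  have := scc_Ex_dynkin_sub hF h le_rfl (scc_dyn_D1 hF h le_rfl m) hs hst ht
  rw [scc_Ex_sub_fun hF (scc_E_pow hF 3 2 t) ((scc_E_pow hF 2 3 t).const_mul _), scc_Ex_cmul,
    scc_Ex_sub_fun hF (scc_E_pow hF 3 2 s) ((scc_E_pow hF 2 3 s).const_mul _), scc_Ex_cmul] at this
  rw [scc_N3_def, scc_N3_def, scc_M3_def, scc_M3_def, this]
  exact intervalIntegral.integral_congr fun r _ => scc_Ex_gen hF m r

theorem scc_D2_int (hF : ScBI F) (h : ScPos π) (m : ℝ) {s t : ℝ} (hs : 0 ≤ s) (hst : s ≤ t) (ht : t ≤ scLen π) :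
    IntervalIntegrable (fun r => scN4 F π r - 6 * (scAl π r + m) * scM13 F π r + 6 * m * scAl π r * scM4 F π r)
      volume s t := by
  have := scc_Ex_dynkin_int hF h (scc_dyn_D1 hF h le_rfl m) hs hst ht
  exact this.congr fun r _ => scc_Ex_gen hF m r

end mom

/-! ## 5. the curvature on cells of equal mass -/

/-- A6: the law of `Z_t` (helper230, `Fs/Law.lean`) -/
theorem scc_A6 {F : ℝ → ℝ} (hF : ScBI F) {π : List (ℝ × ℝ)} (h : ScPos π) {t : ℝ} (ht0 : 0 < t) (ht : t < scLen π)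
    {φ : ℝ → ℝ} (hφ : ScE 0 φ) : scEx F π t φ = scHeat t (fun x => φ x * scWt F π t x) 0 :=
  sc_ex_eq_wt hF h hφ ht0.le ht.le

theorem scc_LC_BI (A : ℝ) : ScBI (scLC A) := sc_logcosh_BI A

/-- **the third-derivative inequality** (FS Prop. cert:coercivity along a step profile)
TEX[FS:cert:coercivity] -/
theorem scc_third {A : ℝ} (hA : 0 < A) {π : List (ℝ × ℝ)} (adm : ScAdm A π) (inc : ScInc π) (pos : ∀ p ∈ π, 0 < p.1)
    {t : ℝ} (ht0 : 0 < t) (ht : t < scLen π) :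
    scAl π t ^ 2 / 1000 * scM4 (scLC A) π t
      ≤ scN4 (scLC A) π t - 12 * scAl π t * scM13 (scLC A) π t + 6 * scAl π t ^ 2 * scM4 (scLC A) π t := by
  have hF := scc_LC_BI A
  have key := scc_static hA adm inc pos ht0 ht
  have a4 := scc_E_pow (π := π) hF 4 2 t
  have a13 := scc_E_13 (π := π) hF t
  have a24 := scc_E_pow (π := π) hF 2 4 t
  have e : (fun x => scD 4 (scLC A) π t x ^ 2 - 12 * scAl π t * scD 2 (scLC A) π t x * scD 3 (scLC A) π t x ^ 2
      + 6 * scAl π t ^ 2 * scD 2 (scLC A) π t x ^ 4)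
      = fun x => (scD 4 (scLC A) π t x ^ 2 - 12 * scAl π t * (scD 2 (scLC A) π t x * scD 3 (scLC A) π t x ^ 2))
      + 6 * scAl π t ^ 2 * scD 2 (scLC A) π t x ^ 4 := by
    funext x; ring
  have e1 := scc_A6 hF adm.pos ht0 ht a24
  have e2 := scc_A6 hF adm.pos ht0 ht ((a4.sub (a13.const_mul (12 * scAl π t))).add (a24.const_mul (6 * scAl π t ^ 2)))
  rw [scc_Ex_add_fun hF (a4.sub (a13.const_mul _)) (a24.const_mul _), scc_Ex_sub_fun hF a4 (a13.const_mul _),
    scc_Ex_cmul, scc_Ex_cmul] at e2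
  rw [scc_M4_def, scc_N4_def, scc_M13_def, e2, e1]
  refine key.trans (le_of_eq ?_)
  congr 1
  funext x
  rw [congrFun e x]

/-- `M₂² ≤ M₄` -/
theorem scc_M2_sq_le {F : ℝ → ℝ} (hF : ScBI F) (π : List (ℝ × ℝ)) (t : ℝ) : scM2 F π t ^ 2 ≤ scM4 F π t := by
  have := sc_Pt_sq_le hF (scc_E_pow (π := π) hF 2 2 t) π 0 t 0
  have e : (fun y => (scD 2 F π t y ^ 2) ^ 2) = fun y => scD 2 F π t y ^ 4 := by funext y; ring
  rw [e] at this
  exact this

/-- **EXIT OF UNIT C5a: strict curvature of `M₂ = E V₂²` on an interval of constant mass `m`.** -/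
theorem scc_curv {A : ℝ} (hA : 0 < A) {π : List (ℝ × ℝ)} (adm : ScAdm A π) (inc : ScInc π) (pos : ∀ p ∈ π, 0 < p.1)
    {s t m κ : ℝ} (hs : 0 ≤ s) (hst : s ≤ t) (ht : t ≤ scLen π) (hcell : ∀ r ∈ Ioo s t, scAl π r = m)
    (hκ : ∀ r ∈ Ioo s t, 2 * κ ≤ m ^ 2 / 1000 * scM4 (scLC A) π r) :
    ConvexOn ℝ (Icc s t) (fun r => scM2 (scLC A) π r - κ * r ^ 2) := by
  have hF := scc_LC_BI A
  have hP := adm.pos
  refine scc_convex_of_second (D1 := fun r => scN3 (scLC A) π r - 2 * m * scM3 (scLC A) π r)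
    (D2 := fun r => scN4 (scLC A) π r - 6 * (scAl π r + m) * scM13 (scLC A) π r + 6 * m * scAl π r * scM4 (scLC A) π r)
    hst ?_ ?_ (scc_D2_int hF hP m hs hst ht) ?_
  · intro r hr
    rw [scc_M2_sub hF hP hs hr.1 (hr.2.trans ht)]
    refine intervalIntegral.integral_congr_ae ?_
    have hne : ∀ᵐ x ∂(volume : Measure ℝ), x ≠ r := by
      simp [ae_iff, measure_singleton]
    filter_upwards [hne] with x hx hxm
    rw [uIoc_of_le hr.1] at hxm
    rw [hcell x ⟨hxm.1, lt_of_lt_of_le (lt_of_le_of_ne hxm.2 hx) hr.2⟩]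
  · intro r hr
    exact scc_D1_sub hF hP m hs hr.1 (hr.2.trans ht)
  · intro x hx
    have h3 := scc_third hA adm inc pos (lt_of_le_of_lt hs hx.1) (lt_of_lt_of_le hx.2 ht)
    rw [hcell x hx] at h3 ⊢
    have := hκ x hx
    linarith

/-- the same with a lower bound of `M₂` -/
theorem scc_curv' {A : ℝ} (hA : 0 < A) {π : List (ℝ × ℝ)} (adm : ScAdm A π) (inc : ScInc π) (pos : ∀ p ∈ π, 0 < p.1)
    {s t m c : ℝ} (hs : 0 ≤ s) (hst : s ≤ t) (ht : t ≤ scLen π) (hcell : ∀ r ∈ Ioo s t, scAl π r = m) (hc : 0 ≤ c)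
    (hlow : ∀ r ∈ Ioo s t, c ≤ scM2 (scLC A) π r) :
    ConvexOn ℝ (Icc s t) (fun r => scM2 (scLC A) π r - m ^ 2 * c ^ 2 / 2000 * r ^ 2) := by
  refine scc_curv hA adm inc pos hs hst ht hcell fun r hr => ?_
  have h1 := scc_M2_sq_le (scc_LC_BI A) π r
  have h2 : c ^ 2 ≤ scM2 (scLC A) π r ^ 2 := pow_le_pow_left₀ hc (hlow r hr) 2
  have h3 : m ^ 2 / 1000 * c ^ 2 ≤ m ^ 2 / 1000 * scM4 (scLC A) π r :=
    mul_le_mul_of_nonneg_left (h2.trans h1) (by positivity)
  linarith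

end Claimed.Agent.R286
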