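import Claimed.Agent.R286.Sc.Curv
import Claimed.Agent.R286.Sc.CurvStep
import Claimed.Agent.R286.Sc.Mom
import Claimed.Agent.R286.Sc.Bound
import Claimed.Agent.R286.Sc.Gen
import Claimed.Agent.R286.Sc.GenP

/-!
# Row 286, BOX-C, unit C5: strict curvature on positive plateaus, FINAL EXIT      (owner helper183; prefix `sc_cvx_`)

TEX[FS:prop:gap-curvature] TEX[FS:lem:constant-transfer]
Glue: `scc_curv` (C5a, helper265, `Sc/CurvStep.lean`) + `scb_Ew_lower` (helper90, `Sc/Bound.lean`) + `sc_cvx_pow_tendsto` (helper265, here: power moments converge along any `ScApx`) + `sc_cv_curv` (C5b, `Sc/Curv.lean`).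
EXIT: `sc_cvx_curv` (general coefficient, variance time, terminal datum `scLC a`).
-/

set_option autoImplicit false

namespace Claimed.Agent.R286

open Filter Topology Set

theorem sc_cvx_step {a : ℝ} (ha : 0 < a) : ScCvStep a := by
  intro π adm inc pp c s0 s1 m4 hc hs0 hs01 hs1 hal hm4
  refine scc_curv ha adm inc (fun p hp => (pp p hp).1) hs0.le hs01 hs1.le (fun r hr => hal r ⟨hr.1.le, hr.2.le⟩) fun r hr => ?_
  have h1 := hm4 r ⟨hr.1.le, hr.2.le⟩
  have h2 : c ^ 2 / 1000 * m4 ≤ c ^ 2 / 1000 * scM4 (scLC a) π r := mul_le_mul_of_nonneg_left h1 (by positivity)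
  linarith

theorem sc_cvx_low {a : ℝ} (ha : 0 < a) (τ : ℝ) : ScM4Low a τ := by
  refine ⟨(a * Real.exp (-3 * a ^ 2 * τ)) ^ 4, by positivity, fun π adm _ hlen t ht => ?_⟩
  have h := scb_Ew_lower (scb_LC_cont ha) ha.le (fun z => by rw [scb_LC_deriv2 ha.ne']; exact le_rfl) adm ht.1 (by rw [hlen]; exact ht.2) 4
  rw [hlen] at h
  exact h

theorem sc_cvx_same_map (l : List ℕ) (f g : ℕ → ℝ) (h : ℝ) : ScSame (l.map fun k => (f k, h)) (l.map fun k => (g k, h)) := by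
  simp [ScSame, List.map_map, Function.comp_def]

theorem sc_cvx_dist_map (l : List ℕ) (f g : ℕ → ℝ) {h ε : ℝ} (hh : 0 ≤ h) (hfg : ∀ k ∈ l, |f k - g k| ≤ ε) :
    0 ≤ scDist (l.map fun k => (f k, h)) (l.map fun k => (g k, h)) ∧ scDist (l.map fun k => (f k, h)) (l.map fun k => (g k, h)) ≤ l.length * (ε * h) := by
  induction l with
  | nil => simp [scDist]
  | cons k l ih =>
    have e : scDist ((k :: l).map fun k => (f k, h)) ((k :: l).map fun k => (g k, h))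
        = |f k - g k| * h + scDist (l.map fun k => (f k, h)) (l.map fun k => (g k, h)) := by
      simp [scDist]
    rw [e]
    have ih' := ih fun j hj => hfg j (List.mem_cons_of_mem _ hj)
    have h1 : |f k - g k| * h ≤ ε * h := mul_le_mul_of_nonneg_right (hfg k List.mem_cons_self) hh
    have h0 : 0 ≤ |f k - g k| * h := mul_nonneg (abs_nonneg _) hh
    refine ⟨by linarith [ih'.1], ?_⟩
    simp only [List.length_cons]
    push_cast
    linarith [ih'.2]

theorem sc_cvx_dist_le {a τ : ℝ} {α : ℝ → ℝ} (hα : ScCoef a τ α) (hτ : 0 ≤ τ) (n : ℕ) :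
    0 ≤ scDist (scDyP α τ n) (scDy α τ n) ∧ scDist (scDyP α τ n) (scDy α τ n) ≤ (1 / 2 : ℝ) ^ n * τ := by
  have h := sc_cvx_dist_map (List.range (2 ^ n)) (fun k : ℕ => max (α (k * τ / 2 ^ n)) ((1 / 2 : ℝ) ^ n)) (fun k : ℕ => α (k * τ / 2 ^ n))
      (h := τ / 2 ^ n) (ε := (1 / 2 : ℝ) ^ n) (by positivity) (fun k hk => by
        have hk' : k < 2 ^ n := List.mem_range.1 hk
        have h0 := (hα.2 _ (sc_cv_grid_mem hτ hk')).1
        have hp : (0 : ℝ) < (1 / 2 : ℝ) ^ n := by positivity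
        rw [abs_of_nonneg (by linarith [le_max_left (α (k * τ / 2 ^ n)) ((1 / 2 : ℝ) ^ n)])]
        rcases le_total (α (k * τ / 2 ^ n)) ((1 / 2 : ℝ) ^ n) with h1 | h1
        · rw [max_eq_right h1]; linarith
        · rw [max_eq_left h1]; linarith)
  refine ⟨h.1, h.2.trans (le_of_eq ?_)⟩
  rw [List.length_range]
  push_cast
  field_simp

theorem sc_cvx_dist {a τ : ℝ} {α : ℝ → ℝ} (hα : ScCoef a τ α) (hτ : 0 ≤ τ) :
    Tendsto (fun n => scDist (scDyP α τ n) (scDy α τ n)) atTop (𝓝 0) := by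
  have hl2 : Tendsto (fun n : ℕ => (1 / 2 : ℝ) ^ n * τ) atTop (𝓝 0) := by
    simpa using (tendsto_pow_atTop_nhds_zero_of_lt_one (r := (1 / 2 : ℝ)) (by norm_num) (by norm_num)).mul_const τ
  exact squeeze_zero (fun n => (sc_cvx_dist_le hα hτ n).1) (fun n => (sc_cvx_dist_le hα hτ n).2) hl2

/-- powers stay in the class `ScN` -/
theorem sc_cvx_N_pow {n : ℕ} {M : ℝ} {f : ℝ → ℝ} (hf : ScN n M f) (p : ℕ) : ∃ M' : ℝ, ScN n M' (fun z => f z ^ p) := by
  induction p with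
  | zero => exact ⟨|1|, by simpa using ScN.const n 1⟩
  | succ p ih =>
    obtain ⟨M', h⟩ := ih
    exact ⟨_, by simpa only [pow_succ] using h.mul hf⟩

/-- **convergence of the power moments** `E (∂_z^k V)^p`, `k ≥ 1`, along ANY approximating sequence of step profiles -/
theorem sc_cvx_pow_tendsto {F : ℝ → ℝ} (hF : ScBI F) {a τ : ℝ} {α : ℝ → ℝ} (hτ : 0 ≤ τ) (hα : ScCoef a τ α)
    {π : ℕ → List (ℝ × ℝ)} (hπ : ScApx a τ α π) {k : ℕ} (hk : 1 ≤ k) (p : ℕ) {t : ℝ} (ht : t ∈ Icc 0 τ) :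
    Tendsto (fun n => scEx F (π n) t fun z => scD k F (π n) t z ^ p) atTop (𝓝 (scaEx F α τ t fun z => scaD k F α τ t z ^ p)) := by
  obtain ⟨C, hC0, hC1, hC2⟩ := scg_aD_bound hπ.nonneg hF
  -- the limit test function
  have hN0 : ScN 2 (C k + C (k + 1) + C (k + 2)) (scaD k F α τ t) := by
    refine scg_N_of_tower 2 (j := fun i => scaD (k + i) F α τ t) (fun i x => scg_aD_hasDerivAt hF hτ hα (k + i) ht.1 x) fun i hi z => ?_
    have h := hC2 τ α hτ hα (k + i) (by omega) t ht.1 z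
    have h0 := hC0 k
    have h1 := hC0 (k + 1)
    have h2 := hC0 (k + 2)
    interval_cases i
    · simp only [add_zero] at h ⊢; linarith
    · linarith
    · linarith
  obtain ⟨M, hM⟩ := sc_cvx_N_pow hN0 p
  have hlim := sgp_P_tendsto_of_apx_bd hF hτ hα (π := π) (fun n => ⟨hπ.adm n, hπ.inc n, hπ.len n⟩)
    (by
      refine hπ.l1.congr fun n => ?_
      unfold scDa
      exact intervalIntegral.integral_congr fun r _ => abs_sub_comm _ _) hM le_rfl ht.1 ht.2 0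
  -- the error of the test functions
  rw [Metric.tendsto_atTop] at hlim ⊢
  intro ε hε
  obtain ⟨N1, hN1⟩ := hlim (ε / 2) (half_pos hε)
  have hK : 0 < (p : ℝ) * C k ^ (p - 1) + 1 := by have := hC0 k; positivity
  obtain ⟨N2, hN2⟩ := scg_D_unif hF hτ hα hπ k (ε := ε / 4 / ((p : ℝ) * C k ^ (p - 1) + 1)) (by positivity)
  refine ⟨max N1 N2, fun n hn => ?_⟩
  have h1 := hN1 n (le_of_max_le_left hn)
  have h2 := hN2 n (le_of_max_le_right hn) t ht.1
  rw [Real.dist_eq] at h1 ⊢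
  have hcn : Continuous (scD k F (π n) t) := (sc_D_E hF k 0 (π n) t).1
  have hbn : ∀ z, |scD k F (π n) t z| ≤ C k := fun z => hC1 _ (hπ.adm n) (hπ.inc n) k hk t z
  have hba : ∀ z, |scaD k F α τ t z| ≤ C k := fun z => hC2 τ α hτ hα k hk t ht.1 z
  have hE1 : ScE 0 (fun z => scD k F (π n) t z ^ p) :=
    ScN.scE (n := 0) (M := C k ^ p) ⟨hcn.pow p, fun z => by rw [abs_pow]; exact pow_le_pow_left₀ (abs_nonneg _) (hbn z) p⟩
  have hE2 : ScE 0 (fun z => scaD k F α τ t z ^ p) := (hM.mono (by norm_num)).scE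
  have hd : ∀ z, |scD k F (π n) t z ^ p - scaD k F α τ t z ^ p| ≤ ε / 4 := fun z => by
    refine (abs_pow_sub_pow_le _ _ p).trans ?_
    have h3 : max |scD k F (π n) t z| |scaD k F α τ t z| ^ (p - 1) ≤ C k ^ (p - 1) :=
      pow_le_pow_left₀ (le_max_of_le_left (abs_nonneg _)) (max_le (hbn z) (hba z)) _
    have h4 := h2 z
    rw [le_div_iff₀ hK] at h4
    have h5 : 0 ≤ |scD k F (π n) t z - scaD k F α τ t z| := abs_nonneg _
    calc |scD k F (π n) t z - scaD k F α τ t z| * p * max |scD k F (π n) t z| |scaD k F α τ t z| ^ (p - 1)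
        ≤ |scD k F (π n) t z - scaD k F α τ t z| * p * C k ^ (p - 1) := mul_le_mul_of_nonneg_left h3 (by positivity)
      _ ≤ |scD k F (π n) t z - scaD k F α τ t z| * ((p : ℝ) * C k ^ (p - 1) + 1) := by nlinarith
      _ ≤ ε / 4 := h4
  have h6 := sc_Pt_abs_le hF ((hcn.pow p).sub hM.continuous) hd (π n) 0 t 0
  have h7 := congrFun (sc_Pt_sub hF hE1 hE2 (π n) 0 t) 0
  have h8 : |scPt F (π n) 0 t (fun z => scD k F (π n) t z ^ p) 0 - scPt F (π n) 0 t (fun z => scaD k F α τ t z ^ p) 0| ≤ ε / 4 := by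
    rw [← h7]; exact h6
  unfold scEx scaEx
  rw [abs_lt] at h1 ⊢
  rw [abs_le] at h8
  constructor <;> linarith [h1.1, h1.2, h8.1, h8.2]

/-- the limit of `E V_zz²` along the positive dyadic profiles (direct proof, helper265: `Sc/Gen.lean` + `Sc/GenP.lean`) -/
theorem sc_cvx_lim {a τ : ℝ} (ha : 0 < a) (hτ : 0 ≤ τ) {α : ℝ → ℝ} (hα : ScCoef a τ α) : ScM2Lim a τ α := fun _ ht =>
  sc_cvx_pow_tendsto (scb_LC_cont ha).smooth hτ (hα.weaken (le_max_left a 1)) (scg_dyP_apx hτ hα) one_le_two 2 ht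

/-- **EXIT of the unit C5**: strict curvature of `E V_zz²` on a positive plateau of a general coefficient.      TEX[FS:prop:gap-curvature] -/
theorem sc_cvx_curv {a τ : ℝ} (ha : 0 < a) (hτ : 0 < τ) {α : ℝ → ℝ} (hα : ScCoef a τ α) {t0 t1 c : ℝ} (h00 : 0 ≤ t0) (h1τ : t1 ≤ τ) (hc : 0 < c)
    (hpl : ∀ t ∈ Ioo t0 t1, α t = c) {s0 s1 : ℝ} (hs0 : t0 < s0) (hs01 : s0 ≤ s1) (hs1 : s1 < t1) :
    ∃ κ : ℝ, 0 < κ ∧ ConvexOn ℝ (Icc s0 s1) (fun t => scaM2 (scLC a) α τ t - κ * t ^ 2) :=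
  sc_cv_curv ha hτ (sc_cvx_step ha) (sc_cvx_low ha τ) hα (sc_cvx_lim ha hτ.le hα) h00 h1τ hc hpl hs0 hs01 hs1

end Claimed.Agent.R286
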