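import Claimed.Agent.R286.Sc.Gen
import Claimed.Agent.R286.Sc.GenP

/-!
# Row 286, scalar block, layer S7.1: SANDWICH and FIRST VARIATION of `α ↦ V_α(0,0)`      (OWNER helper197, types + proves; prefix `sfv`)

TEX[FS:lem:first-variation], TEX[PE:prof:scalar-minimizer] (the derivative of the Parisi functional), positive temperature, any terminal datum `F ∈ ScBI`.
TEXDROP[control representation]: replaced by the exact Duhamel identity `sc_duhamel_V` (helper95), used in BOTH directions: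
      `(1/2) ∫ (β - α) E^α[u_β²] ≤ V_β(0,0) - V_α(0,0) ≤ (1/2) ∫ (β - α) E^β[u_α²]`            (`sfv_step_ge`, `sfv_ge`, `sfv_le`)
(no rate of stability of `u` is needed: the quadratic term `α (u_β - u_α)²` has a sign).
* `sfvX F π π' r = E^π[u_{π'}(r, Z_r)²]`, `sfvXa F α β τ r = E^α[u_β(r, Z_r)²]`  (cross moments; `sfvXa F α α τ = scaGam F α τ`);
* `sfv_X_unif` uniform convergence along the dyadic approximants, `sfv_Xa_cont` continuity in time;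
* `sfv_cross1`, `sfv_cross2`: `L¹`-continuity of the cross moments in either coefficient, uniform;
* **`sfv_frechet`**: `|V_β - V_α - (1/2) ∫ (β - α) Γ_α| ≤ e ∫ |β - α|` as soon as `∫ |β - α| ≤ δ(e)`, uniformly in `α, β`;
* **`sfv_fv2`** = `pk_t_fv2` of `Sc/Pkg.lean` (helper229) for every `F ∈ ScBI`;   `sfv_tendsto` = the one-sided derivative.
-/

set_option autoImplicit false

namespace Claimed.Agent.R286

open MeasureTheory ProbabilityTheory Filter Topology Set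

/-- cross moment of two step profiles: `E^π[u_{π'}(r, Z_r)²]` -/
noncomputable def sfvX (F : ℝ → ℝ) (π π' : List (ℝ × ℝ)) (r : ℝ) : ℝ := scEx F π r (fun y => scD 1 F π' r y ^ 2)

/-- cross moment of two coefficients: `E^α[u_β(r, Z_r)²]` -/
noncomputable def sfvXa (F : ℝ → ℝ) (α β : ℝ → ℝ) (τ r : ℝ) : ℝ := scaEx F α τ r (fun y => scaD 1 F β τ r y ^ 2)

theorem sfv_Xa_self (F : ℝ → ℝ) (α : ℝ → ℝ) (τ : ℝ) : sfvXa F α α τ = scaGam F α τ := rfl

/-! ## 1. step level -/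

theorem sfv_X_cont {F : ℝ → ℝ} (hF : ScBI F) {π π' : List (ℝ × ℝ)} (h : ScPos π) (h' : ScPos π')
    (hlen : scLen π' = scLen π) : ContinuousOn (sfvX F π π') (Icc 0 (scLen π)) := by
  have hT : ScT (Icc 0 (scLen π)) 0 (fun r y => scD 1 F π' r y ^ 2) := by
    have := (sc_D_T hF h' 1 0).pow 2
    rwa [hlen] at this
  exact sc_dynkin_continuousOn hF h le_rfl hT 0

theorem sfv_X_int {F : ℝ → ℝ} (hF : ScBI F) {π π' : List (ℝ × ℝ)} (h : ScPos π) (h' : ScPos π')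
    (hlen : scLen π' = scLen π) (ρ : List (ℝ × ℝ)) :
    IntervalIntegrable (fun r => scAl ρ r * sfvX F π π' r) volume 0 (scLen π) := by
  refine (scg_al_int ρ 0 (scLen π)).mul_continuousOn ?_
  rw [uIcc_of_le (sc_len_nonneg h)]
  exact sfv_X_cont hF h h' hlen

/-- **lower half of the sandwich**, step profiles on any two grids -/
theorem sfv_step_ge {F : ℝ → ℝ} (hF : ScBI F) {a a' : ℝ} {π π' : List (ℝ × ℝ)} (h : ScAdm a π) (h' : ScAdm a' π')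
    (hlen : scLen π' = scLen π) :
    ∫ r in (0 : ℝ)..scLen π, (scAl π' r * sfvX F π π' r - scAl π r * sfvX F π π' r) / 2
      ≤ scVt F π' 0 0 - scVt F π 0 0 := by
  have hl := sc_len_nonneg h.pos
  have hd := sc_duhamel_V hF hF h.pos h'.pos le_rfl hl le_rfl hlen.ge 0
  rw [sc_Vt_len F h.pos, sc_Vt_of_le F h'.pos hlen.le] at hd
  have h0 : scPt F π 0 (scLen π) (fun y => F y - F y) 0 = 0 := by
    have e : (fun y => F y - F y) = fun _ => (0 : ℝ) := by funext y; ring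
    rw [e, sc_Pt_const hF]
  rw [h0, zero_add] at hd
  rw [hd]
  have hA' : ScTP 0 (scLen π) (fun r _ => scAl π' r) := sc_Al_tp h'.pos 0 _
  have hA : ScTP 0 (scLen π) (fun r _ => scAl π r) := sc_Al_tp h.pos 0 _
  have hu' : ScTP 0 (scLen π) (scD 1 F π') :=
    ((sc_D_T hF h'.pos 1 0).subset (Icc_subset_Icc le_rfl hlen.ge)).tp
  have hu : ScTP 0 (scLen π) (scD 1 F π) := (sc_D_T hF h.pos 1 0).tp
  have hG : ScTP 0 (scLen π) (fun r y => ((scAl π' r - scAl π r) * scD 1 F π' r y ^ 2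
          + scAl π r * (scD 1 F π' r y - scD 1 F π r y) ^ 2) / 2) := by
    refine ((((hA'.sub hA).mul (hu'.pow 2)).add (hA.mul ((hu'.sub hu).pow 2))).const_mul (1 / 2)).congr ?_
    intro r _
    funext y
    ring
  have hint := sc_dynkin_integrable hF h.pos le_rfl hl hG 0
  have hint2 : IntervalIntegrable (fun r => (scAl π' r * sfvX F π π' r - scAl π r * sfvX F π π' r) / 2)
      volume 0 (scLen π) :=
    ((sfv_X_int hF h.pos h'.pos hlen π').sub (sfv_X_int hF h.pos h'.pos hlen π)).div_const 2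
  refine intervalIntegral.integral_mono_on hl hint2 hint ?_
  intro r _
  have e1 := sc_D_E hF 1 0 π' r
  have e2 := sc_D_E hF 1 0 π r
  have hE : ScE 0 (fun y => ((scAl π' r - scAl π r) * scD 1 F π' r y ^ 2
        + scAl π r * (scD 1 F π' r y - scD 1 F π r y) ^ 2) / 2) := by
    have := (((e1.pow 2).const_mul (scAl π' r - scAl π r)).add (((e1.sub e2).pow 2).const_mul (scAl π r))).const_mul (1 / 2)
    convert this using 2
    ring
  have hE1 : ScE 0 (fun y => ((scAl π' r - scAl π r) / 2) * scD 1 F π' r y ^ 2) := (e1.pow 2).const_mul _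
  have := sc_Pt_mono hF hE1 hE (fun y => ?_) π 0 r 0
  · rw [sc_Pt_const_mul] at this
    have e : (scAl π' r * sfvX F π π' r - scAl π r * sfvX F π π' r) / 2 =
        (scAl π' r - scAl π r) / 2 * scPt F π 0 r (fun y => scD 1 F π' r y ^ 2) 0 := by
      unfold sfvX scEx; ring
    rw [e]
    exact this
  · have hs : 0 ≤ scAl π r * (scD 1 F π' r y - scD 1 F π r y) ^ 2 := mul_nonneg (scg_al_nonneg h r) (sq_nonneg _)
    linarith

/-! ## 2. kernels on bounded tests -/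

theorem sfv_Pt_sub_le {F : ℝ → ℝ} (hF : ScBI F) {ψ ψ' : ℝ → ℝ} {M M' : ℝ} (hψ : ScN 0 M ψ) (hψ' : ScN 0 M' ψ')
    {c : ℝ} (hc : ∀ z, |ψ z - ψ' z| ≤ c) (π : List (ℝ × ℝ)) (s t z : ℝ) :
    |scPt F π s t ψ z - scPt F π s t ψ' z| ≤ c := by
  have e := congrFun (sc_Pt_sub hF hψ.scE hψ'.scE π s t) z
  rw [← e]
  exact sc_Pt_abs_le hF (hψ.continuous.sub hψ'.continuous) hc π s t z

/-- the kernel of a general coefficient is a contraction in the sup norm -/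
theorem sfv_Pa_sub_le {F : ℝ → ℝ} (hF : ScBI F) {a τ : ℝ} {α : ℝ → ℝ} (hτ : 0 ≤ τ) (hα : ScCoef a τ α)
    {ψ ψ' : ℝ → ℝ} {M M' : ℝ} (hψ : ScN 2 M ψ) (hψ' : ScN 2 M' ψ') {c : ℝ} (hc : ∀ z, |ψ z - ψ' z| ≤ c)
    {s t : ℝ} (hs : 0 ≤ s) (hst : s ≤ t) (ht : t ≤ τ) (z : ℝ) :
    |scPa F α τ s t ψ z - scPa F α τ s t ψ' z| ≤ c := by
  have h1 := sgp_P_tendsto_bd hF hτ hα hψ hs hst ht z
  have h2 := sgp_P_tendsto_bd hF hτ hα hψ' hs hst ht z
  refine le_of_tendsto' (h1.sub h2).abs fun n => ?_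
  exact sfv_Pt_sub_le hF (hψ.mono (by norm_num)) (hψ'.mono (by norm_num)) hc _ s t z

/-- `u²` is a bounded `C²` test, uniformly -/
theorem sfv_sq_N {a : ℝ} (ha : 0 ≤ a) {F : ℝ → ℝ} (hF : ScBI F) :
    ∃ M : ℝ, (∀ π, ScAdm a π → ScInc π → ∀ t, ScN 2 M (fun y => scD 1 F π t y ^ 2)) ∧
      ∀ τ α, 0 ≤ τ → ScCoef a τ α → ∀ t, 0 ≤ t → ScN 2 M (fun y => scaD 1 F α τ t y ^ 2) := by
  obtain ⟨C, _, h1, h2⟩ := scg_aN ha hF 2
  refine ⟨2 ^ 2 * (C * C), fun π hπ hi t => ?_, fun τ α hτ hα t ht => ?_⟩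
  · have := (h1 π hπ hi t).mul (h1 π hπ hi t)
    simpa [sq] using this
  · have := (h2 τ α hτ hα t ht).mul (h2 τ α hτ hα t ht)
    simpa [sq] using this

theorem sfv_sq_sub_le {L x y c : ℝ} (hx : |x| ≤ L) (hy : |y| ≤ L) (hc : |x - y| ≤ c) : |x ^ 2 - y ^ 2| ≤ 2 * L * c := by
  have e : x ^ 2 - y ^ 2 = (x + y) * (x - y) := by ring
  rw [e, abs_mul]
  have h1 : |x + y| ≤ 2 * L := (abs_add_le _ _).trans (by linarith)
  exact mul_le_mul h1 hc (abs_nonneg _) ((abs_nonneg _).trans h1)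

/-! ## 3. cross moments of general coefficients -/

/-- uniform convergence of the cross moments along the dyadic approximants -/
theorem sfv_X_unif {F : ℝ → ℝ} (hF : ScBI F) {a τ : ℝ} {α β : ℝ → ℝ} (hτ : 0 ≤ τ) (hα : ScCoef a τ α)
    (hβ : ScCoef a τ β) {ε : ℝ} (hε : 0 < ε) :
    ∃ N, ∀ n ≥ N, ∀ r ∈ Icc 0 τ, |sfvX F (scDy α τ n) (scDy β τ n) r - sfvXa F α β τ r| ≤ ε := by
  have ha := hα.nonneg hτ
  obtain ⟨L, hL0, hLN⟩ := scg_BI_N hF 0
  have hL : ∀ z, |deriv F z| ≤ L := hLN.bd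
  obtain ⟨M, hM1, hM2⟩ := sfv_sq_N ha hF
  obtain ⟨δ, hδ, hclose⟩ := sgp_P_close_bd hF ha hτ M (half_pos hε)
  have hη : 0 < ε / 2 / (2 * L + 1) := by positivity
  obtain ⟨N1, hN1⟩ := scg_D_unif hF hτ hβ (scg_dy_apx hτ hβ) 1 hη
  obtain ⟨N2, hN2⟩ := ((sgp_da_dy_tendsto hτ hα).eventually (ge_mem_nhds hδ)).exists_forall_of_atTop
  refine ⟨max N1 N2, fun n hn r hr => ?_⟩
  have hn1 := hN1 n ((le_max_left _ _).trans hn) r hr.1
  have hn2 := hN2 n ((le_max_right _ _).trans hn)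
  have s1 : |scPt F (scDy α τ n) 0 r (fun y => scD 1 F (scDy β τ n) r y ^ 2) 0
      - scPt F (scDy α τ n) 0 r (fun y => scaD 1 F β τ r y ^ 2) 0| ≤ 2 * L * (ε / 2 / (2 * L + 1)) := by
    refine sfv_Pt_sub_le hF ((hM1 _ (sc_dy_adm hτ hβ n) (sc_dy_inc hτ hβ n) r).mono (by norm_num))
      ((hM2 τ β hτ hβ r hr.1).mono (by norm_num)) (fun z => ?_) _ _ _ _
    exact sfv_sq_sub_le (sc_D1_le hF hL _ r z) (scg_u_le hF hL hτ hβ hr.1 z) (hn1 z)
  have s2 := hclose α hα (scDy α τ n) (sc_dy_apx hτ hα n) hn2 _ (hM2 τ β hτ hβ r hr.1) 0 r le_rfl hr.1 hr.2 0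
  have s3 : 2 * L * (ε / 2 / (2 * L + 1)) ≤ ε / 2 := by
    rw [← mul_div_assoc, div_le_iff₀ (by positivity)]
    nlinarith
  unfold sfvX sfvXa scEx scaEx
  have := abs_sub_le (scPt F (scDy α τ n) 0 r (fun y => scD 1 F (scDy β τ n) r y ^ 2) 0)
    (scPt F (scDy α τ n) 0 r (fun y => scaD 1 F β τ r y ^ 2) 0) (scPa F α τ 0 r (fun y => scaD 1 F β τ r y ^ 2) 0)
  linarith

/-- continuity in time of the cross moments -/
theorem sfv_Xa_cont {F : ℝ → ℝ} (hF : ScBI F) {a τ : ℝ} {α β : ℝ → ℝ} (hτ : 0 ≤ τ) (hα : ScCoef a τ α)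
    (hβ : ScCoef a τ β) : ContinuousOn (sfvXa F α β τ) (Icc 0 τ) := by
  have hu : TendstoUniformlyOn (fun n => sfvX F (scDy α τ n) (scDy β τ n)) (sfvXa F α β τ) atTop (Icc 0 τ) := by
    rw [Metric.tendstoUniformlyOn_iff]
    intro ε hε
    obtain ⟨N, hN⟩ := sfv_X_unif hF hτ hα hβ (half_pos hε)
    filter_upwards [eventually_ge_atTop N] with n hn r hr
    rw [Real.dist_eq, abs_sub_comm]
    exact (hN n hn r hr).trans_lt (half_lt_self hε)
  refine hu.continuousOn (Eventually.frequently (Eventually.of_forall fun n => ?_))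
  have := sfv_X_cont hF (sc_dy_adm hτ hα n).pos (sc_dy_adm hτ hβ n).pos
    (by rw [sc_dy_len, sc_dy_len])
  rwa [sc_dy_len] at this

theorem sfv_coef_int {a τ : ℝ} {α : ℝ → ℝ} (hτ : 0 ≤ τ) (hα : ScCoef a τ α) : IntervalIntegrable α volume 0 τ :=
  (scg_dy_apx hτ hα).int

theorem sfv_Xa_int {F : ℝ → ℝ} (hF : ScBI F) {a τ : ℝ} {α β γ : ℝ → ℝ} (hτ : 0 ≤ τ) (hα : ScCoef a τ α)
    (hβ : ScCoef a τ β) (hγ : IntervalIntegrable γ volume 0 τ) :
    IntervalIntegrable (fun r => γ r * sfvXa F α β τ r) volume 0 τ := by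
  refine hγ.mul_continuousOn ?_
  rw [uIcc_of_le hτ]
  exact sfv_Xa_cont hF hτ hα hβ

/-- **lower half of the sandwich** -/
theorem sfv_ge {F : ℝ → ℝ} (hF : ScBI F) {a τ : ℝ} {α β : ℝ → ℝ} (hτ : 0 ≤ τ) (hα : ScCoef a τ α)
    (hβ : ScCoef a τ β) :
    1 / 2 * ∫ r in (0 : ℝ)..τ, (β r - α r) * sfvXa F α β τ r ≤ scVa F β τ 0 0 - scVa F α τ 0 0 := by
  have hA := scg_dy_apx hτ hα
  have hB := scg_dy_apx hτ hβ
  have hpos : ∀ n, ScPos (scDy α τ n) := fun n => (sc_dy_adm hτ hα n).pos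
  have hpos' : ∀ n, ScPos (scDy β τ n) := fun n => (sc_dy_adm hτ hβ n).pos
  have hlen : ∀ n, scLen (scDy β τ n) = scLen (scDy α τ n) := fun n => by rw [sc_dy_len, sc_dy_len]
  have hi : ∀ (ρ : List (ℝ × ℝ)) n, IntervalIntegrable
      (fun r => scAl ρ r * sfvX F (scDy α τ n) (scDy β τ n) r) volume 0 τ := fun ρ n => by
    have := sfv_X_int hF (hpos n) (hpos' n) (hlen n) ρ
    rwa [sc_dy_len] at this
  have hc := sfv_Xa_cont hF hτ hα hβ
  have hu : ∀ ε > 0, ∃ N, ∀ n ≥ N, ∀ r ∈ Icc 0 τ,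
      |sfvX F (scDy α τ n) (scDy β τ n) r - sfvXa F α β τ r| ≤ ε := fun ε hε => sfv_X_unif hF hτ hα hβ hε
  have t1 := hB.integral_tendsto le_rfl hτ le_rfl hc (fun n => hi _ n) hu
  have t2 := hA.integral_tendsto le_rfl hτ le_rfl hc (fun n => hi _ n) hu
  have t3 := ((t1.sub t2).const_mul (1 / 2))
  have v1 := scg_restrict_tendsto hF hτ hβ hB le_rfl 0
  have v2 := scg_restrict_tendsto hF hτ hα hA le_rfl 0
  have e : 1 / 2 * ∫ r in (0 : ℝ)..τ, (β r - α r) * sfvXa F α β τ r =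
      1 / 2 * ((∫ r in (0 : ℝ)..τ, β r * sfvXa F α β τ r) - ∫ r in (0 : ℝ)..τ, α r * sfvXa F α β τ r) := by
    rw [← intervalIntegral.integral_sub (sfv_Xa_int hF hτ hα hβ (sfv_coef_int hτ hβ))
      (sfv_Xa_int hF hτ hα hβ (sfv_coef_int hτ hα))]
    congr 1
    refine intervalIntegral.integral_congr fun r _ => ?_
    ring
  rw [e]
  refine le_of_tendsto_of_tendsto' t3 (v1.sub v2) fun n => ?_
  have := sfv_step_ge hF (sc_dy_adm hτ hα n) (sc_dy_adm hτ hβ n) (hlen n)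
  rw [sc_dy_len] at this
  refine le_trans (le_of_eq ?_) this
  rw [← intervalIntegral.integral_sub (hi _ n) (hi _ n), ← intervalIntegral.integral_const_mul]
  refine intervalIntegral.integral_congr fun r _ => ?_
  ring

/-- **upper half of the sandwich** -/
theorem sfv_le {F : ℝ → ℝ} (hF : ScBI F) {a τ : ℝ} {α β : ℝ → ℝ} (hτ : 0 ≤ τ) (hα : ScCoef a τ α)
    (hβ : ScCoef a τ β) :
    scVa F β τ 0 0 - scVa F α τ 0 0 ≤ 1 / 2 * ∫ r in (0 : ℝ)..τ, (β r - α r) * sfvXa F β α τ r := by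
  have := sfv_ge hF hτ hβ hα
  have e : ∫ r in (0 : ℝ)..τ, (α r - β r) * sfvXa F β α τ r = - ∫ r in (0 : ℝ)..τ, (β r - α r) * sfvXa F β α τ r := by
    rw [← intervalIntegral.integral_neg]
    refine intervalIntegral.integral_congr fun r _ => ?_
    ring
  rw [e] at this
  linarith

/-! ## 4. `L¹`-continuity of the cross moments, first variation -/

/-- continuity in the coefficient of the observable -/
theorem sfv_cross1 {F : ℝ → ℝ} (hF : ScBI F) {a τ : ℝ} (ha : 0 ≤ a) (hτ : 0 ≤ τ) {η : ℝ} (hη : 0 < η) :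
    ∃ δ > 0, ∀ α β, ScCoef a τ α → ScCoef a τ β → (∫ r in (0 : ℝ)..τ, |β r - α r|) ≤ δ →
      ∀ r ∈ Icc 0 τ, |sfvXa F α β τ r - scaGam F α τ r| ≤ η := by
  obtain ⟨L, hL0, hLN⟩ := scg_BI_N hF 0
  have hL : ∀ z, |deriv F z| ≤ L := hLN.bd
  obtain ⟨M, _, hM2⟩ := sfv_sq_N ha hF
  obtain ⟨C, hC⟩ := scg_D_cont ha hF hL
  have hη' : 0 < η / (2 * L + 1) := by positivity
  obtain ⟨κ, hκ, hsm⟩ := sckE_small C 1 hη'
  refine ⟨κ / (L ^ 2 / 2 + 1), by positivity, fun α β hα hβ hd r hr => ?_⟩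
  have hd0 : 0 ≤ ∫ r in (0 : ℝ)..τ, |β r - α r| := intervalIntegral.integral_nonneg hτ fun _ _ => abs_nonneg _
  have hk : abs (L ^ 2 / 2 * ∫ r in (0 : ℝ)..τ, |β r - α r|) ≤ κ := by
    rw [abs_of_nonneg (by positivity)]
    rw [le_div_iff₀ (by positivity)] at hd
    nlinarith [sq_nonneg L]
  have h1 : ∀ z, |scaD 1 F β τ r z - scaD 1 F α τ r z| ≤ η / (2 * L + 1) := fun z =>
    (hC τ α β hτ hα hβ 1 r hr.1 z).trans (hsm _ hk)
  have h2 : 2 * L * (η / (2 * L + 1)) ≤ η := by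
    rw [← mul_div_assoc, div_le_iff₀ (by positivity)]
    nlinarith
  refine le_trans ?_ h2
  unfold sfvXa scaGam scaEx
  refine sfv_Pa_sub_le hF hτ hα (hM2 τ β hτ hβ r hr.1) (hM2 τ α hτ hα r hr.1) (fun z => ?_) le_rfl hr.1 hr.2 0
  exact sfv_sq_sub_le (scg_u_le hF hL hτ hβ hr.1 z) (scg_u_le hF hL hτ hα hr.1 z) (h1 z)

/-- continuity in the coefficient of the law -/
theorem sfv_cross2 {F : ℝ → ℝ} (hF : ScBI F) {a τ : ℝ} (ha : 0 ≤ a) (hτ : 0 ≤ τ) {η : ℝ} (hη : 0 < η) :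
    ∃ δ > 0, ∀ α β, ScCoef a τ α → ScCoef a τ β → (∫ r in (0 : ℝ)..τ, |β r - α r|) ≤ δ →
      ∀ r ∈ Icc 0 τ, |sfvXa F β α τ r - scaGam F α τ r| ≤ η := by
  obtain ⟨M, _, hM2⟩ := sfv_sq_N ha hF
  obtain ⟨δ, hδ, h⟩ := sgp_P_cont_bd hF ha hτ M hη
  refine ⟨δ, hδ, fun α β hα hβ hd r hr => ?_⟩
  exact h α β hα hβ hd _ (hM2 τ α hτ hα r hr.1) 0 r le_rfl hr.1 hr.2 0

theorem sfv_abs_int {a τ : ℝ} {α β : ℝ → ℝ} (hτ : 0 ≤ τ) (hα : ScCoef a τ α) (hβ : ScCoef a τ β) :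
    IntervalIntegrable (fun r => |β r - α r|) volume 0 τ :=
  ((sfv_coef_int hτ hβ).sub (sfv_coef_int hτ hα)).abs

/-- replacing a cross moment by `Γ_α` under the integral -/
theorem sfv_replace {F : ℝ → ℝ} (hF : ScBI F) {a τ : ℝ} {α β α₁ β₁ : ℝ → ℝ} (hτ : 0 ≤ τ) (hα : ScCoef a τ α)
    (hβ : ScCoef a τ β) (hα₁ : ScCoef a τ α₁) (hβ₁ : ScCoef a τ β₁) {η : ℝ}
    (h : ∀ r ∈ Icc 0 τ, |sfvXa F α₁ β₁ τ r - scaGam F α τ r| ≤ η) :
    |(∫ r in (0 : ℝ)..τ, (β r - α r) * sfvXa F α₁ β₁ τ r) - ∫ r in (0 : ℝ)..τ, (β r - α r) * scaGam F α τ r|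
      ≤ η * ∫ r in (0 : ℝ)..τ, |β r - α r| := by
  have hd := (sfv_coef_int hτ hβ).sub (sfv_coef_int hτ hα)
  have i1 : IntervalIntegrable (fun r => (β r - α r) * sfvXa F α₁ β₁ τ r) volume 0 τ :=
    sfv_Xa_int hF hτ hα₁ hβ₁ hd
  have i2 : IntervalIntegrable (fun r => (β r - α r) * scaGam F α τ r) volume 0 τ :=
    sfv_Xa_int hF hτ hα hα hd
  rw [← intervalIntegral.integral_sub i1 i2, ← intervalIntegral.integral_const_mul]
  refine (intervalIntegral.abs_integral_le_integral_abs hτ).trans ?_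
  refine intervalIntegral.integral_mono_on hτ (i1.sub i2).abs ((sfv_abs_int hτ hα hβ).const_mul η) fun r hr => ?_
  rw [← mul_sub, abs_mul, mul_comm]
  exact mul_le_mul_of_nonneg_right (h r hr) (abs_nonneg _)

/-- **FIRST VARIATION**, uniform Frechet form in `L¹`.   TEX[FS:lem:first-variation] -/
theorem sfv_frechet {F : ℝ → ℝ} (hF : ScBI F) {a τ : ℝ} (ha : 0 ≤ a) (hτ : 0 ≤ τ) {e : ℝ} (he : 0 < e) :
    ∃ δ > 0, ∀ α β, ScCoef a τ α → ScCoef a τ β → (∫ r in (0 : ℝ)..τ, |β r - α r|) ≤ δ →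
      |scVa F β τ 0 0 - scVa F α τ 0 0 - 1 / 2 * ∫ r in (0 : ℝ)..τ, (β r - α r) * scaGam F α τ r|
        ≤ e * ∫ r in (0 : ℝ)..τ, |β r - α r| := by
  obtain ⟨δ1, hδ1, h1⟩ := sfv_cross1 hF ha hτ he
  obtain ⟨δ2, hδ2, h2⟩ := sfv_cross2 hF ha hτ he
  refine ⟨min δ1 δ2, lt_min hδ1 hδ2, fun α β hα hβ hd => ?_⟩
  have lo := sfv_ge hF hτ hα hβ
  have up := sfv_le hF hτ hα hβ
  have r1 := sfv_replace hF hτ hα hβ hα hβ (h1 α β hα hβ (hd.trans (min_le_left _ _)))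
  have r2 := sfv_replace hF hτ hα hβ hβ hα (h2 α β hα hβ (hd.trans (min_le_right _ _)))
  have hd0 : 0 ≤ ∫ r in (0 : ℝ)..τ, |β r - α r| := intervalIntegral.integral_nonneg hτ fun _ _ => abs_nonneg _
  have hp : 0 ≤ e * ∫ r in (0 : ℝ)..τ, |β r - α r| := by positivity
  rw [abs_le] at r1 r2 ⊢
  constructor <;> linarith [r1.1, r1.2, r2.1, r2.2]

/-- a segment of coefficients -/
theorem sfv_coef_seg {a τ : ℝ} {α α' : ℝ → ℝ} (hα : ScCoef a τ α) (hα' : ScCoef a τ α') {ε : ℝ} (h0 : 0 ≤ ε)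
    (h1 : ε ≤ 1) : ScCoef a τ (fun s => α s + ε * (α' s - α s)) := by
  refine ⟨fun x hx y hy hxy => ?_, fun t ht => ⟨?_, ?_⟩⟩
  · have m1 := hα.1 hx hy hxy
    have m2 := hα'.1 hx hy hxy
    show α x + ε * (α' x - α x) ≤ α y + ε * (α' y - α y)
    nlinarith [mul_le_mul_of_nonneg_left m2 h0, mul_le_mul_of_nonneg_left m1 (sub_nonneg.2 h1)]
  · nlinarith [mul_nonneg h0 (hα'.2 t ht).1, mul_nonneg (sub_nonneg.2 h1) (hα.2 t ht).1]
  · nlinarith [mul_le_mul_of_nonneg_left (hα'.2 t ht).2 h0, mul_le_mul_of_nonneg_left (hα.2 t ht).2 (sub_nonneg.2 h1)]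

/-- **first variation along a segment**, two-sided bound of the difference quotient (= `pk_t_fv2` of `Sc/Pkg.lean`, any `F ∈ ScBI`) -/
theorem sfv_fv2 {F : ℝ → ℝ} (hF : ScBI F) {a τ : ℝ} (hτ : 0 ≤ τ) : ∀ α α', ScCoef a τ α → ScCoef a τ α' →
    ∀ e > 0, ∃ ε₀ > 0, ∀ ε, 0 < ε → ε ≤ ε₀ → ε ≤ 1 →
    |scVa F (fun s => α s + ε * (α' s - α s)) τ 0 0 - scVa F α τ 0 0
      - ε * (1 / 2 * ∫ t in (0:ℝ)..τ, (α' t - α t) * scaGam F α τ t)| ≤ ε * e := by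
  intro α α' hα hα' e he
  have ha := hα.nonneg hτ
  set D : ℝ := ∫ r in (0 : ℝ)..τ, |α' r - α r| with hD
  have hD0 : 0 ≤ D := intervalIntegral.integral_nonneg hτ fun _ _ => abs_nonneg _
  obtain ⟨δ, hδ, h⟩ := sfv_frechet hF ha hτ (e := e / (D + 1)) (by positivity)
  refine ⟨δ / (D + 1), by positivity, fun ε h0 h1 h2 => ?_⟩
  have hseg := sfv_coef_seg hα hα' h0.le h2
  have e1 : ∫ r in (0 : ℝ)..τ, |(α r + ε * (α' r - α r)) - α r| = ε * D := by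
    rw [hD, ← intervalIntegral.integral_const_mul]
    refine intervalIntegral.integral_congr fun r _ => ?_
    show |(α r + ε * (α' r - α r)) - α r| = ε * |α' r - α r|
    rw [add_sub_cancel_left, abs_mul, abs_of_pos h0]
  have e2 : ∫ r in (0 : ℝ)..τ, ((α r + ε * (α' r - α r)) - α r) * scaGam F α τ r =
      ε * ∫ t in (0:ℝ)..τ, (α' t - α t) * scaGam F α τ t := by
    rw [← intervalIntegral.integral_const_mul]
    refine intervalIntegral.integral_congr fun r _ => ?_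
    show ((α r + ε * (α' r - α r)) - α r) * scaGam F α τ r = ε * ((α' r - α r) * scaGam F α τ r)
    ring
  have hsmall : (∫ r in (0 : ℝ)..τ, |(α r + ε * (α' r - α r)) - α r|) ≤ δ := by
    rw [e1]
    rw [le_div_iff₀ (by positivity)] at h1
    nlinarith
  have := h α _ hα hseg hsmall
  rw [e1, e2] at this
  have e3 : ε * (1 / 2 * ∫ t in (0:ℝ)..τ, (α' t - α t) * scaGam F α τ t) =
      1 / 2 * (ε * ∫ t in (0:ℝ)..τ, (α' t - α t) * scaGam F α τ t) := by ring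
  rw [e3]
  refine this.trans ?_
  have : e / (D + 1) * (ε * D) = ε * (e * (D / (D + 1))) := by ring
  rw [this]
  have hq : D / (D + 1) ≤ 1 := by rw [div_le_one (by positivity)]; linarith
  exact mul_le_mul_of_nonneg_left (by nlinarith) h0.le

/-- the one-sided derivative along a segment -/
theorem sfv_tendsto {F : ℝ → ℝ} (hF : ScBI F) {a τ : ℝ} (hτ : 0 ≤ τ) {α α' : ℝ → ℝ} (hα : ScCoef a τ α)
    (hα' : ScCoef a τ α') :
    Tendsto (fun θ : ℝ => (scVa F (fun s => α s + θ * (α' s - α s)) τ 0 0 - scVa F α τ 0 0) / θ) (𝓝[>] 0)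
      (𝓝 (1 / 2 * ∫ t in (0:ℝ)..τ, (α' t - α t) * scaGam F α τ t)) := by
  rw [Metric.tendsto_nhdsWithin_nhds]
  intro e he
  obtain ⟨ε₀, h0, h⟩ := sfv_fv2 hF hτ α α' hα hα' (e / 2) (half_pos he)
  refine ⟨min ε₀ 1, lt_min h0 one_pos, fun θ hθ hd => ?_⟩
  have hθ0 : 0 < θ := hθ
  rw [Real.dist_eq, sub_zero, abs_of_pos hθ0] at hd
  have := h θ hθ0 (hd.le.trans (min_le_left _ _)) (hd.le.trans (min_le_right _ _))
  rw [Real.dist_eq]
  have e1 : (scVa F (fun s => α s + θ * (α' s - α s)) τ 0 0 - scVa F α τ 0 0) / θ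
      - 1 / 2 * ∫ t in (0:ℝ)..τ, (α' t - α t) * scaGam F α τ t =
      (scVa F (fun s => α s + θ * (α' s - α s)) τ 0 0 - scVa F α τ 0 0
      - θ * (1 / 2 * ∫ t in (0:ℝ)..τ, (α' t - α t) * scaGam F α τ t)) / θ := by
    field_simp
  rw [e1, abs_div, abs_of_pos hθ0, div_lt_iff₀ hθ0]
  nlinarith

end Claimed.Agent.R286
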