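import Claimed.Agent.R286.Sc.GenDefs

/-!
# Row 286, scalar block, A7: concatenation of profiles, horizon independence under an annealed extension

CONTRACT FILE (head: helper95, ADV: helper36).   Prefix `sc_app_` (concatenation `π ++ ρ`), `sc_ann_` (annealed step `(a, d)` after `π`, terminal datum `scLC a`).
* before the junction the profile `π ++ ρ` with terminal datum `F` is the profile `π` with terminal datum `scV F ρ`;  after the junction it is `ρ`, time shifted by `scLen π`;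
* `scV (scLC a) [(a, d)] = scLC a + a d / 2`: an annealed extension changes `V` by a constant, so `∂_z^k V` (`k ≥ 1`), `scPt`, `scEx`, `scGam`, moment curves do not change on `[0, scLen π]`;
* on the annealed piece `V = scLC a + a (d - t) / 2`, `u = tanh (a z)`, `w = a (1 - tanh² (a z))`.
All proofs: list induction on `π` with the equations of `scVt, scAl, scPt` (as in `Sc/Prof.lean`, section B/C).   Market: claim286 key `Sc/App.lean#A`, `#B`.
-/

set_option autoImplicit false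

namespace Claimed.Agent.R286

open MeasureTheory ProbabilityTheory Filter Topology Set

/-! ## A. concatenation -/

theorem sc_app_pos {π ρ : List (ℝ × ℝ)} (h : ScPos π) (h' : ScPos ρ) : ScPos (π ++ ρ) := by
  intro p hp
  rcases List.mem_append.1 hp with hp | hp
  · exact h p hp
  · exact h' p hp

theorem sc_app_adm {a : ℝ} {π ρ : List (ℝ × ℝ)} (h : ScAdm a π) (h' : ScAdm a ρ) : ScAdm a (π ++ ρ) := by
  intro p hp
  rcases List.mem_append.1 hp with hp | hp
  · exact h p hp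
  · exact h' p hp

theorem sc_app_inc {π ρ : List (ℝ × ℝ)} (h : ScInc π) (h' : ScInc ρ) (hc : ∀ p ∈ π, ∀ q ∈ ρ, p.1 ≤ q.1) :
    ScInc (π ++ ρ) := by
  exact List.pairwise_append.2 ⟨h, h', hc⟩

theorem sc_app_Vt_left (F : ℝ → ℝ) {π ρ : List (ℝ × ℝ)} (h' : ScPos ρ) {t : ℝ} (h0 : 0 ≤ t) (ht : t ≤ scLen π) :
    scVt F (π ++ ρ) t = scVt (scV F ρ) π t := by
  induction π generalizing t with
  | nil =>
    have ht0 : t = 0 := le_antisymm (by simpa [scLen] using ht) h0
    subst ht0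
    simp only [List.nil_append, scVt]
    exact sc_Vt_zero F h'
  | cons p π ih =>
    simp only [scLen] at ht
    by_cases h1 : p.2 ≤ t
    · simp only [List.cons_append, scVt, if_pos h1]
      exact ih (by linarith) (by linarith)
    · simp only [List.cons_append, scVt, if_neg h1, sc_V_append]

theorem sc_app_Vt_right (F : ℝ → ℝ) {π : List (ℝ × ℝ)} (h : ScPos π) (ρ : List (ℝ × ℝ)) {t : ℝ} (ht : 0 ≤ t) :
    scVt F (π ++ ρ) (scLen π + t) = scVt F ρ t := by
  induction π with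
  | nil => simp [scLen]
  | cons p π ih =>
    have hl := sc_len_nonneg h.of_cons
    have h1 : p.2 ≤ p.2 + scLen π + t := by linarith
    simp only [List.cons_append, scVt, scLen, if_pos h1]
    rw [show p.2 + scLen π + t - p.2 = scLen π + t by ring]
    exact ih h.of_cons

theorem sc_app_D_left (k : ℕ) (F : ℝ → ℝ) {π ρ : List (ℝ × ℝ)} (h' : ScPos ρ) {t : ℝ} (h0 : 0 ≤ t) (ht : t ≤ scLen π) :
    scD k F (π ++ ρ) t = scD k (scV F ρ) π t := by
  unfold scD
  rw [sc_app_Vt_left F h' h0 ht]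

theorem sc_app_D_right (k : ℕ) (F : ℝ → ℝ) {π : List (ℝ × ℝ)} (h : ScPos π) (ρ : List (ℝ × ℝ)) {t : ℝ} (ht : 0 ≤ t) :
    scD k F (π ++ ρ) (scLen π + t) = scD k F ρ t := by
  unfold scD
  rw [sc_app_Vt_right F h ρ ht]

theorem sc_app_Al_left (π ρ : List (ℝ × ℝ)) {t : ℝ} (h0 : 0 ≤ t) (ht : t < scLen π) : scAl (π ++ ρ) t = scAl π t := by
  induction π generalizing t with
  | nil =>
    simp only [scLen] at ht
    exact absurd ht (not_lt.2 h0)
  | cons p π ih =>
    simp only [scLen] at ht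
    by_cases h1 : p.2 ≤ t
    · simp only [List.cons_append, scAl, if_pos h1]
      exact ih (by linarith) (by linarith)
    · simp only [List.cons_append, scAl, if_neg h1]

theorem sc_app_Al_right {π : List (ℝ × ℝ)} (h : ScPos π) (ρ : List (ℝ × ℝ)) {t : ℝ} (ht : 0 ≤ t) :
    scAl (π ++ ρ) (scLen π + t) = scAl ρ t := by
  induction π with
  | nil => simp [scLen]
  | cons p π ih =>
    have hl := sc_len_nonneg h.of_cons
    have h1 : p.2 ≤ p.2 + scLen π + t := by linarith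
    simp only [List.cons_append, scAl, scLen, if_pos h1]
    rw [show p.2 + scLen π + t - p.2 = scLen π + t by ring]
    exact ih h.of_cons

theorem sc_app_Pt_left (F : ℝ → ℝ) {π ρ : List (ℝ × ℝ)} {s t : ℝ} (hs : 0 ≤ s) (ht : t ≤ scLen π) (φ : ℝ → ℝ) :
    scPt F (π ++ ρ) s t φ = scPt (scV F ρ) π s t φ := by
  induction π generalizing s t with
  | nil =>
    simp only [scLen] at ht
    simp only [List.nil_append, scPt]
    exact sc_Pt_of_le F ρ (ht.trans hs) φ
  | cons p π ih =>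
    simp only [scLen] at ht
    by_cases h1 : p.2 ≤ s
    · simp only [List.cons_append, scPt, if_pos h1]
      exact ih (by linarith) (by linarith)
    · by_cases h2 : t ≤ p.2
      · simp only [List.cons_append, scPt, if_neg h1, if_pos h2, sc_V_append]
      · simp only [List.cons_append, scPt, if_neg h1, if_neg h2, sc_V_append]
        rw [ih le_rfl (by linarith)]

theorem sc_app_Pt_right (F : ℝ → ℝ) {π : List (ℝ × ℝ)} (h : ScPos π) (ρ : List (ℝ × ℝ)) {s : ℝ} (hs : 0 ≤ s) (t : ℝ)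
    (φ : ℝ → ℝ) : scPt F (π ++ ρ) (scLen π + s) (scLen π + t) φ = scPt F ρ s t φ := by
  induction π with
  | nil => simp [scLen]
  | cons p π ih =>
    have hl := sc_len_nonneg h.of_cons
    have h1 : p.2 ≤ p.2 + scLen π + s := by linarith
    simp only [List.cons_append, scPt, scLen, if_pos h1]
    rw [show p.2 + scLen π + s - p.2 = scLen π + s by ring, show p.2 + scLen π + t - p.2 = scLen π + t by ring]
    exact ih h.of_cons

/-- across the junction -/
theorem sc_app_Pt_cross {F φ : ℝ → ℝ} (hF : ScBI F) (hφ : ScE 0 φ) {π ρ : List (ℝ × ℝ)} (h : ScPos π) (h' : ScPos ρ)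
    {s t : ℝ} (hs : 0 ≤ s) (hsl : s ≤ scLen π) (ht : 0 ≤ t) :
    scPt F (π ++ ρ) s (scLen π + t) φ = scPt (scV F ρ) π s (scLen π) (scPt F ρ 0 t φ) := by
  rw [← sc_Pt_Pt hF hφ (sc_app_pos h h') hsl (by linarith : scLen π ≤ scLen π + t)]
  have e := sc_app_Pt_right F h ρ (le_refl (0 : ℝ)) t φ
  rw [add_zero] at e
  rw [e, sc_app_Pt_left F hs le_rfl]

theorem sc_app_Ex_left (F : ℝ → ℝ) {π ρ : List (ℝ × ℝ)} {t : ℝ} (ht : t ≤ scLen π) (φ : ℝ → ℝ) :
    scEx F (π ++ ρ) t φ = scEx (scV F ρ) π t φ := by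
  unfold scEx; rw [sc_app_Pt_left F le_rfl ht φ]

theorem sc_app_Gam_left (F : ℝ → ℝ) {π ρ : List (ℝ × ℝ)} (h' : ScPos ρ) {t : ℝ} (h0 : 0 ≤ t) (ht : t ≤ scLen π) :
    scGam F (π ++ ρ) t = scGam (scV F ρ) π t := by
  unfold scGam
  rw [sc_app_Ex_left F ht, sc_app_D_left 1 F h' h0 ht]

theorem sc_app_grid (π ρ : List (ℝ × ℝ)) :
    scGrid (π ++ ρ) = scGrid π ∪ (fun x => scLen π + x) '' scGrid ρ := by
  induction π with
  | nil =>
    simp only [List.nil_append, scGrid, scLen, zero_add, image_id']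
    rw [singleton_union, insert_eq_of_mem (sc_grid_zero ρ)]
  | cons p π ih =>
    simp only [List.cons_append, scGrid, scLen, ih, image_union, insert_union, image_image, add_assoc]

/-! ## B. a constant added to the terminal datum; the annealed extension -/

theorem sc_D_add_const {F : ℝ → ℝ} (hF : ScBI F) (c : ℝ) (k : ℕ) (π : List (ℝ × ℝ)) (t : ℝ) :
    scD (k + 1) (fun z => F z + c) π t = scD (k + 1) F π t := by
  unfold scD
  rw [sc_Vt_add_const hF c π t, Function.iterate_succ_apply, Function.iterate_succ_apply]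
  congr 1
  funext z
  exact deriv_add_const c

theorem sc_Ex_add_const {F : ℝ → ℝ} (hF : ScBI F) (c : ℝ) (π : List (ℝ × ℝ)) (t : ℝ) (φ : ℝ → ℝ) :
    scEx (fun z => F z + c) π t φ = scEx F π t φ := by
  unfold scEx
  rw [sc_Pt_add_const hF c π 0 t φ]

theorem sc_Gam_add_const {F : ℝ → ℝ} (hF : ScBI F) (c : ℝ) (π : List (ℝ × ℝ)) (t : ℝ) :
    scGam (fun z => F z + c) π t = scGam F π t := by
  unfold scGam
  rw [sc_Ex_add_const hF c π t, sc_D_add_const hF c 0 π t]

theorem sc_LC_BI (a : ℝ) : ScBI (scLC a) := sc_logcosh_BI a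

theorem sc_ann_step {a : ℝ} (ha : a ≠ 0) {d : ℝ} (hd : 0 ≤ d) : scV (scLC a) [(a, d)] = fun z => scLC a z + a * d / 2 := by
  exact sc_step_logcosh ha hd

theorem sc_ann_V {a : ℝ} (ha : a ≠ 0) {d : ℝ} (hd : 0 ≤ d) (π : List (ℝ × ℝ)) :
    scV (scLC a) (π ++ [(a, d)]) = fun z => scV (scLC a) π z + a * d / 2 := by
  rw [sc_V_append, sc_ann_step ha hd]
  exact sc_V_add_const (sc_LC_BI a) _ π

theorem sc_ann_Vt {a : ℝ} (ha : a ≠ 0) {d : ℝ} (hd : 0 ≤ d) (π : List (ℝ × ℝ)) {t : ℝ} (h0 : 0 ≤ t) (ht : t ≤ scLen π) :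
    scVt (scLC a) (π ++ [(a, d)]) t = fun z => scVt (scLC a) π t z + a * d / 2 := by
  have hp : ScPos [(a, d)] := by
    intro p hp
    simp only [List.mem_singleton] at hp
    subst hp
    exact hd
  rw [sc_app_Vt_left _ hp h0 ht, sc_ann_step ha hd]
  exact sc_Vt_add_const (sc_LC_BI a) _ π t

/-- **horizon independence** of the space derivatives -/
theorem sc_ann_D {a : ℝ} (ha : a ≠ 0) {d : ℝ} (hd : 0 ≤ d) (k : ℕ) (π : List (ℝ × ℝ)) {t : ℝ} (h0 : 0 ≤ t)
    (ht : t ≤ scLen π) :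
    scD (k + 1) (scLC a) (π ++ [(a, d)]) t = scD (k + 1) (scLC a) π t := by
  have hp : ScPos [(a, d)] := by
    intro p hp
    simp only [List.mem_singleton] at hp
    subst hp
    exact hd
  rw [sc_app_D_left _ _ hp h0 ht, sc_ann_step ha hd]
  exact sc_D_add_const (sc_LC_BI a) _ k π t

/-- **horizon independence** of the transition operators -/
theorem sc_ann_Pt {a : ℝ} (ha : a ≠ 0) {d : ℝ} (hd : 0 ≤ d) (π : List (ℝ × ℝ)) {s t : ℝ} (hs : 0 ≤ s)
    (ht : t ≤ scLen π) (φ : ℝ → ℝ) : scPt (scLC a) (π ++ [(a, d)]) s t φ = scPt (scLC a) π s t φ := by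
  rw [sc_app_Pt_left _ hs ht, sc_ann_step ha hd]
  exact sc_Pt_add_const (sc_LC_BI a) _ π s t φ

theorem sc_ann_Ex {a : ℝ} (ha : a ≠ 0) {d : ℝ} (hd : 0 ≤ d) (π : List (ℝ × ℝ)) {t : ℝ} (ht : t ≤ scLen π)
    (φ : ℝ → ℝ) : scEx (scLC a) (π ++ [(a, d)]) t φ = scEx (scLC a) π t φ := by
  unfold scEx
  rw [sc_ann_Pt ha hd π le_rfl ht φ]

theorem sc_ann_Gam {a : ℝ} (ha : a ≠ 0) {d : ℝ} (hd : 0 ≤ d) (π : List (ℝ × ℝ)) {t : ℝ} (h0 : 0 ≤ t) (ht : t ≤ scLen π) :
    scGam (scLC a) (π ++ [(a, d)]) t = scGam (scLC a) π t := by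
  unfold scGam
  rw [sc_ann_Ex ha hd π ht, sc_ann_D ha hd 0 π h0 ht]

/-- on the annealed piece -/
theorem sc_ann_Vt_right {a : ℝ} (ha : a ≠ 0) {d : ℝ} {π : List (ℝ × ℝ)} (h : ScPos π) {t : ℝ} (h0 : 0 ≤ t)
    (ht : t ≤ d) : scVt (scLC a) (π ++ [(a, d)]) (scLen π + t) = fun z => scLC a z + a * (d - t) / 2 := by
  rw [sc_app_Vt_right _ h _ h0]
  by_cases h1 : d ≤ t
  · have e : t = d := le_antisymm ht h1
    subst e
    simp [scVt]
  · simp only [scVt, if_neg h1, scV]
    exact sc_step_logcosh ha (by linarith)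

theorem sc_ann_LC_hasDerivAt {a : ℝ} (ha : a ≠ 0) (z : ℝ) : HasDerivAt (scLC a) (Real.tanh (a * z)) z := by
  have h1 : HasDerivAt (fun z : ℝ => a * z) a z := by
    simpa using (hasDerivAt_id z).const_mul a
  have h2 := (Real.hasDerivAt_cosh (a * z)).comp z h1
  have h3 := (h2.log (Real.cosh_pos _).ne').const_mul a⁻¹
  refine h3.congr_deriv ?_
  have hc : Real.cosh (a * z) ≠ 0 := (Real.cosh_pos _).ne'
  simp only [Function.comp_apply]
  rw [Real.tanh_eq_sinh_div_cosh]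
  field_simp

theorem sc_ann_tanh_hasDerivAt (a z : ℝ) : HasDerivAt (fun z => Real.tanh (a * z)) (a * (1 - Real.tanh (a * z) ^ 2)) z := by
  have h1 : HasDerivAt (fun z : ℝ => a * z) a z := by
    simpa using (hasDerivAt_id z).const_mul a
  have h2 := (sc_hasDerivAt_tanh (a * z)).comp z h1
  refine h2.congr_deriv ?_
  ring

theorem sc_ann_D1_right {a : ℝ} (ha : a ≠ 0) {d : ℝ} {π : List (ℝ × ℝ)} (h : ScPos π) {t : ℝ} (h0 : 0 ≤ t)
    (ht : t ≤ d) : scD 1 (scLC a) (π ++ [(a, d)]) (scLen π + t) = fun z => Real.tanh (a * z) := by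
  rw [sc_D_one, sc_ann_Vt_right ha h h0 ht]
  funext z
  exact ((sc_ann_LC_hasDerivAt ha z).add_const _).deriv

theorem sc_ann_D2_right {a : ℝ} (ha : a ≠ 0) {d : ℝ} {π : List (ℝ × ℝ)} (h : ScPos π) {t : ℝ} (h0 : 0 ≤ t)
    (ht : t ≤ d) :
    scD 2 (scLC a) (π ++ [(a, d)]) (scLen π + t) = fun z => a * (1 - Real.tanh (a * z) ^ 2) := by
  rw [← sc_D_succ, sc_ann_D1_right ha h h0 ht]
  funext z
  exact (sc_ann_tanh_hasDerivAt a z).deriv

theorem sc_ann_Pt_right {a : ℝ} (ha : a ≠ 0) {d : ℝ} {π : List (ℝ × ℝ)} (h : ScPos π) {s t : ℝ} (h0 : 0 ≤ s)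
    (hst : s ≤ t) (ht : t ≤ d) (φ : ℝ → ℝ) :
    scPt (scLC a) (π ++ [(a, d)]) (scLen π + s) (scLen π + t) φ = scTr a (t - s) (scLC a) φ := by
  rw [sc_app_Pt_right _ h _ h0]
  by_cases h1 : d ≤ s
  · have e1 : s = d := le_antisymm (hst.trans ht) h1
    have e2 : t = d := le_antisymm ht (h1.trans hst)
    subst e1
    subst e2
    rw [sc_Pt_self, sc_c1_tr_nonpos a (by simp)]
  · simp only [scPt, if_neg h1, if_pos ht, scV]
    have e : scStep a (d - t) (scLC a) = fun z => scLC a z + a * (d - t) / 2 := sc_step_logcosh ha (by linarith)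
    rw [e, sc_tr_add_const]

/-- the annealed transition, explicitly -/
theorem sc_ann_tr {a : ℝ} (ha : a ≠ 0) {s : ℝ} (hs : 0 ≤ s) (φ : ℝ → ℝ) (z : ℝ) :
    scTr a s (scLC a) φ z =
      scHeat s (fun y => φ y * Real.cosh (a * y)) z / (Real.exp (a ^ 2 * s / 2) * Real.cosh (a * z)) := by
  have e : (fun y => Real.exp (a * scLC a y)) = fun y => Real.cosh (a * y) := by
    funext y
    unfold scLC
    rw [← mul_assoc, mul_inv_cancel₀ ha, one_mul, Real.exp_log (Real.cosh_pos _)]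
  have e' : (fun y => φ y * Real.exp (a * scLC a y)) = fun y => φ y * Real.cosh (a * y) := by
    funext y
    rw [congrFun e y]
  unfold scTr scW
  rw [e, e', sc_heat_cosh hs]

end Claimed.Agent.R286
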