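import Claimed.Agent.R286.Sc.GenP
import Claimed.Agent.R286.Sc.Gen
import Claimed.Agent.R286.Sc.Bound
import Claimed.Agent.R286.Sc.App

/-!
# Row 286, scalar block, layer S4.5 (part C): the transition kernel `scPa` of a GENERAL monotone profile on tests of the class `ScE 0`

OWNER helper230 (types + proves).   Prefix `sgq_`.   Part A = `Sc/Gen.lean` (`scVa`, `scaD`), part B = `Sc/GenP.lean` (helper88: `scPa` on bounded `C²` tests, `sgp_P_mod`).
TEX[FS:lem:diffusion] (law of the planted diffusion for a general coefficient, Ito-free)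

1. uniform exponential moments of the step kernels (`sgq_exp_le`, `sgq_expabs_le`, `sgq_Pt_w`): supersolution `exp (c y + λ (t - r))`;
2. approximation of a test of class `ScE 0` by bounded `C²` tests in a weighted sup norm (`sgq_approx`);
3. master estimate `sgq_P_mod`, existence of the limit (`sgq_P_tendsto`), any approximating sequence, moving tests;
4. algebra of `scPa`: constants, sums, multiples, order, parity, growth, continuity (`sgq_Pa_E`);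
5. Chapman-Kolmogorov `sgq_Pa_Pa`;
6. the law: `scPa F α τ s t · z` is the integral against a probability measure (`sgq_law`, Riesz-Markov-Kakutani).
-/

set_option autoImplicit false

namespace Claimed.Agent.R286

open MeasureTheory ProbabilityTheory Filter Topology Set
open scoped ContDiff Convolution

/-! ## 1. uniform exponential moments -/

theorem sgq_B_id (n : ℕ) : ScB n (fun z : ℝ => z) := by
  cases n with
  | zero => exact continuous_id
  | succ n =>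
    have e : deriv (fun z : ℝ => z) = fun _ => (1 : ℝ) := by funext z; simp
    refine ⟨differentiable_id, ⟨1, fun z => by simp⟩, ?_⟩
    rw [e]
    exact ScB.const n 1

theorem sgq_exp_E (c : ℝ) (n : ℕ) : ScE n (fun y => Real.exp (c * y)) :=
  (ScB.exp (sgq_B_id (n + 1)) c).of_succ

theorem sgq_expabs_E (c : ℝ) : ScE 0 (fun y => Real.exp (c * |y|)) :=
  ⟨by fun_prop, 1, c, fun z => by rw [abs_of_pos (Real.exp_pos _), one_mul]⟩

/-- the rate of the exponential moments -/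
noncomputable def sgqR (a A c : ℝ) : ℝ := c ^ 2 / 2 + a * A * |c|

theorem sgq_R_nonneg {a A : ℝ} (ha : 0 ≤ a) (hA : 0 ≤ A) (c : ℝ) : 0 ≤ sgqR a A c := by
  unfold sgqR; positivity

theorem sgq_R_neg (a A c : ℝ) : sgqR a A (-c) = sgqR a A c := by
  unfold sgqR; rw [abs_neg]; ring

/-- **exponential moments**, uniformly in the partition: supersolution `exp (c y + λ (t - r))` -/
theorem sgq_exp_le {F : ℝ → ℝ} (hF : ScBI F) {A : ℝ} (hA : ∀ z, |deriv F z| ≤ A) {a : ℝ} (ha : 0 ≤ a)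
    {π : List (ℝ × ℝ)} (hπ : ScAdm a π) (c : ℝ) {s t : ℝ} (hs : 0 ≤ s) (hst : s ≤ t) (ht : t ≤ scLen π) (z : ℝ) :
    scPt F π s t (fun y => Real.exp (c * y)) z ≤ Real.exp (c * z + sgqR a A c * (t - s)) := by
  set l := sgqR a A c with hl
  have hT : ScDyn F π s t (fun r _ => Real.exp (l * (t - r))) (fun r _ => -l * Real.exp (l * (t - r))) := by
    refine sc_dyn_time F π (a := fun r => Real.exp (l * (t - r))) (a' := fun r => -l * Real.exp (l * (t - r)))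
      (Continuous.continuousOn (by fun_prop)) ?_ ⟨∅, finite_empty, fun r _ _ => ?_⟩
    · refine ScT.tp (ScT.of_time (Continuous.continuousOn (by fun_prop)) ?_ 0)
      exact (isCompact_Icc.exists_bound_of_continuousOn (f := fun r => -l * Real.exp (l * (t - r)))
        (Continuous.continuousOn (by fun_prop))).imp fun C hC r hr => by
          simpa [Real.norm_eq_abs] using hC r hr
    · have h1 : HasDerivAt (fun r : ℝ => l * (t - r)) (-l) r := by
        simpa using ((hasDerivAt_id r).const_sub t).const_mul l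
      have h2 := h1.exp
      rwa [mul_comm] at h2
  have hS := sc_dyn_space hF hπ.pos hs ht (sgq_exp_E c 2)
  have hD := hT.mul hS
  have d1 : deriv (fun y => Real.exp (c * y)) = fun y => c * Real.exp (c * y) := by
    funext y
    have h1 : HasDerivAt (fun y : ℝ => c * y) c y := by simpa using (hasDerivAt_id y).const_mul c
    rw [h1.exp.deriv, mul_comm]
  have d2 : deriv (deriv (fun y => Real.exp (c * y))) = fun y => c ^ 2 * Real.exp (c * y) := by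
    rw [d1]
    funext y
    have h1 : HasDerivAt (fun y : ℝ => c * y) c y := by simpa using (hasDerivAt_id y).const_mul c
    rw [(h1.exp.const_mul c).deriv]
    ring
  have hsup := scb_super hF hπ.pos hs hst ht hD (fun r _ y => ?_) z
  · simp only [sub_self, mul_zero, Real.exp_zero, one_mul] at hsup
    rw [Real.exp_add, mul_comm]
    exact hsup
  · simp only [d2]
    simp only [d1]
    have hd0 : deriv (fun _ : ℝ => Real.exp (l * (t - r))) y = 0 := by simp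
    rw [hd0]
    have hE1 : 0 < Real.exp (l * (t - r)) := Real.exp_pos _
    have hE2 : 0 < Real.exp (c * y) := Real.exp_pos _
    have h1 := sc_Al_mem ha hπ r
    have h2 := sc_D1_le hF hA π r y
    have hA0 : 0 ≤ A := (abs_nonneg _).trans h2
    have h3 : scAl π r * scD 1 F π r y * c ≤ a * A * |c| := by
      have : |scAl π r * scD 1 F π r y * c| ≤ a * A * |c| := by
        rw [abs_mul, abs_mul, abs_of_nonneg h1.1]
        exact mul_le_mul_of_nonneg_right (mul_le_mul h1.2 h2 (abs_nonneg _) ha) (abs_nonneg _)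
      exact (le_abs_self _).trans this
    have h4 : c ^ 2 / 2 + scAl π r * scD 1 F π r y * c - l ≤ 0 := by
      rw [hl]; unfold sgqR; linarith
    have e : Real.exp (l * (t - r)) * (c ^ 2 * Real.exp (c * y) / 2 + scAl π r * scD 1 F π r y * (c * Real.exp (c * y)))
        + Real.exp (c * y) * (-l * Real.exp (l * (t - r))) + 0 * (c * Real.exp (c * y))
        = (Real.exp (l * (t - r)) * Real.exp (c * y)) * (c ^ 2 / 2 + scAl π r * scD 1 F π r y * c - l) := by ring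
    rw [e]
    exact mul_nonpos_of_nonneg_of_nonpos (mul_pos hE1 hE2).le h4

theorem sgq_expabs_le {F : ℝ → ℝ} (hF : ScBI F) {A : ℝ} (hA : ∀ z, |deriv F z| ≤ A) {a : ℝ} (ha : 0 ≤ a)
    {π : List (ℝ × ℝ)} (hπ : ScAdm a π) {c : ℝ} (hc : 0 ≤ c) {s t : ℝ} (hs : 0 ≤ s) (hst : s ≤ t) (ht : t ≤ scLen π)
    (z : ℝ) :
    scPt F π s t (fun y => Real.exp (c * |y|)) z ≤ 2 * Real.exp (c * |z| + sgqR a A c * (t - s)) := by
  have h1 := sgq_exp_le hF hA ha hπ c hs hst ht z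
  have h2 := sgq_exp_le hF hA ha hπ (-c) hs hst ht z
  rw [sgq_R_neg] at h2
  have h3 : scPt F π s t (fun y => Real.exp (c * |y|)) z
      ≤ scPt F π s t (fun y => Real.exp (c * y) + Real.exp (-c * y)) z := by
    refine sc_Pt_mono hF (sgq_expabs_E c) ((sgq_exp_E c 0).add (sgq_exp_E (-c) 0)) (fun y => ?_) π s t z
    rcases abs_cases y with ⟨e, _⟩ | ⟨e, _⟩
    · rw [e]; linarith [Real.exp_pos (-c * y)]
    · rw [e]
      have : c * -y = -c * y := by ring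
      rw [this]; linarith [Real.exp_pos (c * y)]
  rw [sc_Pt_add hF (sgq_exp_E c 0) (sgq_exp_E (-c) 0)] at h3
  have h4 : Real.exp (c * z + sgqR a A c * (t - s)) ≤ Real.exp (c * |z| + sgqR a A c * (t - s)) :=
    Real.exp_le_exp.2 (by nlinarith [le_abs_self z])
  have h5 : Real.exp (-c * z + sgqR a A c * (t - s)) ≤ Real.exp (c * |z| + sgqR a A c * (t - s)) :=
    Real.exp_le_exp.2 (by nlinarith [neg_abs_le z])
  linarith

/-- the constant of the weighted bounds on `[0, τ]` -/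
noncomputable def sgqK (a A c τ : ℝ) : ℝ := 2 * Real.exp (sgqR a A c * τ)

theorem sgq_K_pos (a A c τ : ℝ) : 0 < sgqK a A c τ := by unfold sgqK; positivity

theorem sgq_K_ge_one {a A : ℝ} (ha : 0 ≤ a) (hA : 0 ≤ A) (c : ℝ) {τ : ℝ} (hτ : 0 ≤ τ) : 1 ≤ sgqK a A c τ := by
  unfold sgqK
  have := Real.one_le_exp (mul_nonneg (sgq_R_nonneg ha hA c) hτ)
  linarith

/-- **weighted contraction**, uniform in the partition -/
theorem sgq_Pt_w {F : ℝ → ℝ} (hF : ScBI F) {A : ℝ} (hA : ∀ z, |deriv F z| ≤ A) {a : ℝ} (ha : 0 ≤ a)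
    {π : List (ℝ × ℝ)} (hπ : ScAdm a π) {c : ℝ} (hc : 0 ≤ c) {φ : ℝ → ℝ} (hφ : ScE 0 φ) {K : ℝ}
    (h : ∀ y, |φ y| ≤ K * Real.exp (c * |y|)) {s t : ℝ} (hs : 0 ≤ s) (hst : s ≤ t) (ht : t ≤ scLen π) (z : ℝ) :
    |scPt F π s t φ z| ≤ K * sgqK a A c (scLen π) * Real.exp (c * |z|) := by
  have hK : 0 ≤ K := by
    have := (abs_nonneg _).trans (h 0)
    simpa using this
  have hA0 : 0 ≤ A := (abs_nonneg _).trans (hA 0)
  have h0 := sgq_expabs_le hF hA ha hπ hc hs hst ht z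
  have h1 : 2 * Real.exp (c * |z| + sgqR a A c * (t - s)) ≤ sgqK a A c (scLen π) * Real.exp (c * |z|) := by
    unfold sgqK
    rw [Real.exp_add]
    have : Real.exp (sgqR a A c * (t - s)) ≤ Real.exp (sgqR a A c * scLen π) :=
      Real.exp_le_exp.2 (mul_le_mul_of_nonneg_left (by linarith) (sgq_R_nonneg ha hA0 c))
    nlinarith [Real.exp_pos (c * |z|)]
  have hE := (sgq_expabs_E c).const_mul K
  have u1 := sc_Pt_mono hF hφ hE (fun y => (le_abs_self _).trans (h y)) π s t z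
  have u2 := sc_Pt_mono hF (hE.neg) hφ (fun y => by linarith [neg_abs_le (φ y), h y]) π s t z
  have e1 : scPt F π s t (fun y => K * Real.exp (c * |y|)) z = K * scPt F π s t (fun y => Real.exp (c * |y|)) z := by
    rw [sc_Pt_const_mul]
  have e2 : scPt F π s t (fun y => -(K * Real.exp (c * |y|))) z = -(K * scPt F π s t (fun y => Real.exp (c * |y|)) z) := by
    have : (fun y => -(K * Real.exp (c * |y|))) = fun y => (-K) * Real.exp (c * |y|) := by funext y; ring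
    rw [this, sc_Pt_const_mul]; ring
  rw [e1] at u1
  rw [e2] at u2
  have h2 : K * scPt F π s t (fun y => Real.exp (c * |y|)) z ≤ K * sgqK a A c (scLen π) * Real.exp (c * |z|) := by
    rw [mul_assoc]
    exact mul_le_mul_of_nonneg_left (h0.trans h1) hK
  rw [abs_le]
  constructor <;> linarith

/-! ## 2. approximation of the tests -/

theorem sgq_N_of_contDiff (n : ℕ) : ∀ {ψ : ℝ → ℝ}, ContDiff ℝ n ψ → HasCompactSupport ψ → ∃ M, ScN n M ψ := by
  induction n with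
  | zero =>
    intro ψ h hc
    obtain ⟨C, hC⟩ := h.continuous.bounded_above_of_compact_support hc
    exact ⟨C, h.continuous, fun z => by simpa using hC z⟩
  | succ n ih =>
    intro ψ h hc
    have h' : ContDiff ℝ ((n : ℕ∞ω) + 1) ψ := by exact_mod_cast h
    rw [contDiff_succ_iff_deriv] at h'
    obtain ⟨M1, h1⟩ := ih h'.2.2 hc.deriv
    obtain ⟨C, hC⟩ := h.continuous.bounded_above_of_compact_support hc
    exact ⟨max C M1, fun z => (by simpa using hC z : |ψ z| ≤ C).trans (le_max_left _ _), h'.1,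
      h1.weaken (le_max_right _ _)⟩

/-- a continuous function with compact support is a uniform limit of `C²` functions with bounded derivatives -/
theorem sgq_approx_cc {f : ℝ → ℝ} (hf : Continuous f) (hc : HasCompactSupport f) {ε : ℝ} (hε : 0 < ε) :
    ∃ (ψ : ℝ → ℝ) (M : ℝ), ScN 2 M ψ ∧ ∀ y, |f y - ψ y| ≤ ε := by
  have hu := hc.uniformContinuous_of_continuous hf
  obtain ⟨δ, hδ, H⟩ := Metric.uniformContinuous_iff.1 hu ε hε
  let b : ContDiffBump (0 : ℝ) := ⟨δ / 2, δ, by positivity, by linarith⟩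
  set ψ : ℝ → ℝ := (b.normed volume ⋆[ContinuousLinearMap.lsmul ℝ ℝ, volume] f) with hψ
  have h1 : ContDiff ℝ (2 : ℕ) ψ :=
    b.hasCompactSupport_normed.contDiff_convolution_left _ (n := 2) b.contDiff_normed hf.locallyIntegrable
  have h2 : HasCompactSupport ψ := b.hasCompactSupport_normed.convolution _ hc
  obtain ⟨M, hM⟩ := sgq_N_of_contDiff 2 h1 h2
  refine ⟨ψ, M, hM, fun y => ?_⟩
  have := b.dist_normed_convolution_le (μ := volume) (g := f) (x₀ := y) (ε := ε) hf.aestronglyMeasurable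
    (fun x hx => (H hx).le)
  rw [Real.dist_eq, abs_sub_comm] at this
  exact this

/-- **weighted approximation**: a continuous test with `|φ| ≤ K e^{c|y|}` is approximated by bounded `C²` tests in the
sup norm with the weight `e^{-(c+1)|y|}` -/
theorem sgq_approx {φ : ℝ → ℝ} (hφ : Continuous φ) {K c : ℝ} (hc : 0 ≤ c) (h : ∀ y, |φ y| ≤ K * Real.exp (c * |y|))
    {ε : ℝ} (hε : 0 < ε) : ∃ (ψ : ℝ → ℝ) (M : ℝ), ScN 2 M ψ ∧ ∀ y, |φ y - ψ y| ≤ ε * Real.exp ((c + 1) * |y|) := by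
  have hK : 0 ≤ K := by
    have := (abs_nonneg _).trans (h 0)
    simpa using this
  obtain ⟨R, hR0, hR⟩ : ∃ R : ℝ, 0 ≤ R ∧ K * Real.exp (-R) ≤ ε / 2 := by
    refine ⟨2 * K / ε, by positivity, ?_⟩
    have h1 := Real.add_one_le_exp (2 * K / ε)
    have h0 : 0 < 2 * K / ε + 1 := by positivity
    rw [Real.exp_neg]
    have h2 : (Real.exp (2 * K / ε))⁻¹ ≤ (2 * K / ε + 1)⁻¹ := inv_anti₀ h0 h1
    refine (mul_le_mul_of_nonneg_left h2 hK).trans ?_
    rw [← div_eq_mul_inv, div_le_iff₀ h0]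
    have : ε / 2 * (2 * K / ε + 1) = K + ε / 2 := by field_simp
    linarith
  set χ : ℝ → ℝ := fun y => max 0 (min 1 (R + 1 - |y|)) with hχ
  have hχc : Continuous χ := by fun_prop
  have hχ0 : ∀ y, 0 ≤ χ y := fun y => le_max_left _ _
  have hχ1 : ∀ y, χ y ≤ 1 := fun y => max_le zero_le_one (min_le_left _ _)
  have hfc : Continuous fun y => χ y * φ y := hχc.mul hφ
  have hcs : HasCompactSupport fun y => χ y * φ y := by
    refine HasCompactSupport.intro (isCompact_Icc (a := -(R + 1)) (b := R + 1)) fun y hy => ?_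
    have : R + 1 < |y| := by
      by_contra hcon
      push Not at hcon
      exact hy (abs_le.1 hcon)
    have e : χ y = 0 := by
      simp only [hχ]
      exact max_eq_left ((min_le_right _ _).trans (by linarith))
    rw [e, zero_mul]
  obtain ⟨ψ, M, hM, hψ⟩ := sgq_approx_cc hfc hcs (half_pos hε)
  refine ⟨ψ, M, hM, fun y => ?_⟩
  have h1 : |φ y - χ y * φ y| ≤ ε / 2 * Real.exp ((c + 1) * |y|) := by
    rcases le_or_gt |y| R with hy | hy
    · have e : χ y = 1 := by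
        simp only [hχ]
        rw [min_eq_left (by linarith), max_eq_right zero_le_one]
      rw [e, one_mul, sub_self, abs_zero]
      positivity
    · have e : φ y - χ y * φ y = (1 - χ y) * φ y := by ring
      rw [e, abs_mul, abs_of_nonneg (by linarith [hχ1 y])]
      have h2 : (1 - χ y) * |φ y| ≤ |φ y| := by
        nlinarith [hχ0 y, abs_nonneg (φ y)]
      refine h2.trans ((h y).trans ?_)
      have e2 : Real.exp (c * |y|) = Real.exp (-|y|) * Real.exp ((c + 1) * |y|) := by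
        rw [← Real.exp_add]; congr 1; ring
      rw [e2, ← mul_assoc]
      refine mul_le_mul_of_nonneg_right ?_ (Real.exp_pos _).le
      refine le_trans (mul_le_mul_of_nonneg_left (Real.exp_le_exp.2 (by linarith)) hK) hR
  have hE1 : 1 ≤ Real.exp ((c + 1) * |y|) := Real.one_le_exp (by positivity)
  have h2 := hψ y
  have h3 : |φ y - ψ y| ≤ |φ y - χ y * φ y| + |χ y * φ y - ψ y| := by
    have e : φ y - ψ y = (φ y - χ y * φ y) + (χ y * φ y - ψ y) := by ring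
    rw [e]
    exact abs_add_le _ _
  nlinarith

/-! ## 3. the master estimate; existence of the limits -/

/-- difference of the kernels of one profile on two tests which are close in a weighted norm -/
theorem sgq_Pt_w_sub {F : ℝ → ℝ} (hF : ScBI F) {A : ℝ} (hA : ∀ z, |deriv F z| ≤ A) {a : ℝ} (ha : 0 ≤ a)
    {π : List (ℝ × ℝ)} (hπ : ScAdm a π) {c : ℝ} (hc : 0 ≤ c) {φ ψ : ℝ → ℝ} (hφ : ScE 0 φ) (hψ : ScE 0 ψ) {K : ℝ}
    (h : ∀ y, |φ y - ψ y| ≤ K * Real.exp (c * |y|)) {s t : ℝ} (hs : 0 ≤ s) (hst : s ≤ t) (ht : t ≤ scLen π) (z : ℝ) :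
    |scPt F π s t φ z - scPt F π s t ψ z| ≤ K * sgqK a A c (scLen π) * Real.exp (c * |z|) := by
  have := sgq_Pt_w hF hA ha hπ hc (hφ.sub hψ) h hs hst ht z
  rwa [sc_Pt_sub hF hφ hψ] at this

/-- **master estimate** (step level): the kernels are uniformly continuous in the `L¹` distance of the profiles, for a
test of class `ScE 0`, uniformly in the times, with an exponential weight in the starting point -/
theorem sgq_P_mod {F : ℝ → ℝ} (hF : ScBI F) {a τ : ℝ} (ha : 0 ≤ a) (hτ : 0 ≤ τ) {φ : ℝ → ℝ} (hφ : ScE 0 φ) {K c : ℝ}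
    (hc : 0 ≤ c) (h : ∀ y, |φ y| ≤ K * Real.exp (c * |y|)) {ε : ℝ} (hε : 0 < ε) :
    ∃ δ > 0, ∀ π π', SgpApx a τ π → SgpApx a τ π' → scDst π π' 0 τ ≤ δ →
      ∀ s t, 0 ≤ s → s ≤ t → t ≤ τ → ∀ z, |scPt F π s t φ z - scPt F π' s t φ z| ≤ ε * Real.exp ((c + 1) * |z|) := by
  obtain ⟨A, hA⟩ := (hF 1).2.1
  have hκ := sgq_K_pos a A (c + 1) τ
  set κ := sgqK a A (c + 1) τ with hκd
  obtain ⟨ψ, M, hM, hψ⟩ := sgq_approx hφ.continuous hc h (ε := ε / (4 * κ)) (by positivity)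
  obtain ⟨δ, hδ, H⟩ := sgp_P_mod hF ha hτ M (half_pos hε)
  refine ⟨δ, hδ, fun π π' hπ hπ' hd s t hs hst ht z => ?_⟩
  have hc1 : 0 ≤ c + 1 := by linarith
  have hψE : ScE 0 ψ := (hM.scB.scE_of_bdd hM.bd).mono (Nat.zero_le 2)
  have h1 := sgq_Pt_w_sub hF hA ha hπ.adm hc1 hφ hψE hψ hs hst (hπ.len ▸ ht) z
  have h2 := sgq_Pt_w_sub hF hA ha hπ'.adm hc1 hφ hψE hψ hs hst (hπ'.len ▸ ht) z
  rw [hπ.len, ← hκd] at h1
  rw [hπ'.len, ← hκd] at h2
  have h3 := H π π' hπ hπ' hd ψ hM s t hs hst ht z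
  have hE1 : 1 ≤ Real.exp ((c + 1) * |z|) := Real.one_le_exp (by positivity)
  have e : ε / (4 * κ) * κ = ε / 4 := by field_simp
  rw [e] at h1 h2
  rw [abs_le] at h1 h2 h3 ⊢
  constructor <;> nlinarith [h1.1, h1.2, h2.1, h2.2, h3.1, h3.2]

theorem sgq_P_cauchy {F : ℝ → ℝ} (hF : ScBI F) {a τ : ℝ} {α : ℝ → ℝ} (hτ : 0 ≤ τ) (hα : ScCoef a τ α)
    {φ : ℝ → ℝ} (hφ : ScE 0 φ) {s t : ℝ} (hs : 0 ≤ s) (hst : s ≤ t) (ht : t ≤ τ) (z : ℝ) :
    CauchySeq (fun n => scPt F (scDy α τ n) s t φ z) := by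
  have ha := hα.a_nonneg hτ
  obtain ⟨K, c, -, hc, h⟩ := hφ.growth.nonneg_consts
  rw [Metric.cauchySeq_iff]
  intro ε hε
  have hE := Real.exp_pos ((c + 1) * |z|)
  obtain ⟨δ, hδ, H⟩ := sgq_P_mod hF ha hτ hφ hc h (ε := ε / (2 * Real.exp ((c + 1) * |z|))) (by positivity)
  have hev := (sgp_da_dy_tendsto hτ hα).eventually (gt_mem_nhds (half_pos hδ))
  obtain ⟨N, hN⟩ := eventually_atTop.mp hev
  refine ⟨N, fun m hm n hn => ?_⟩
  rw [Real.dist_eq]
  have hd : scDst (scDy α τ m) (scDy α τ n) 0 τ ≤ δ := by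
    have := sgp_dst_le_da hτ hα (sc_dy_adm hτ hα m) (sc_dy_adm hτ hα n)
    have h1 := hN m hm
    have h2 := hN n hn
    linarith
  have := H _ _ (sc_dy_apx hτ hα m) (sc_dy_apx hτ hα n) hd s t hs hst ht z
  have e : ε / (2 * Real.exp ((c + 1) * |z|)) * Real.exp ((c + 1) * |z|) = ε / 2 := by field_simp
  rw [e] at this
  linarith

/-- **the limit `scPa` exists** for every test of class `ScE 0` -/
theorem sgq_P_tendsto {F : ℝ → ℝ} (hF : ScBI F) {a τ : ℝ} {α : ℝ → ℝ} (hτ : 0 ≤ τ) (hα : ScCoef a τ α)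
    {φ : ℝ → ℝ} (hφ : ScE 0 φ) {s t : ℝ} (hs : 0 ≤ s) (hst : s ≤ t) (ht : t ≤ τ) (z : ℝ) :
    Tendsto (fun n => scPt F (scDy α τ n) s t φ z) atTop (𝓝 (scPa F α τ s t φ z)) := by
  obtain ⟨l, hl⟩ := cauchySeq_tendsto_of_complete (sgq_P_cauchy hF hτ hα hφ hs hst ht z)
  have : scPa F α τ s t φ z = l := hl.limUnder_eq
  rw [this]
  exact hl

/-- **master estimate**: every admissible step profile which is `L¹`-close to `α` has a kernel close to `scPa`,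
uniformly in `α`, in the times, with an exponential weight in the starting point -/
theorem sgq_P_close {F : ℝ → ℝ} (hF : ScBI F) {a τ : ℝ} (ha : 0 ≤ a) (hτ : 0 ≤ τ) {φ : ℝ → ℝ} (hφ : ScE 0 φ) {K c : ℝ}
    (hc : 0 ≤ c) (h : ∀ y, |φ y| ≤ K * Real.exp (c * |y|)) {ε : ℝ} (hε : 0 < ε) :
    ∃ δ > 0, ∀ α, ScCoef a τ α → ∀ π, SgpApx a τ π → scDa π α τ ≤ δ →
      ∀ s t, 0 ≤ s → s ≤ t → t ≤ τ → ∀ z, |scPt F π s t φ z - scPa F α τ s t φ z| ≤ ε * Real.exp ((c + 1) * |z|) := by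
  obtain ⟨δ, hδ, H⟩ := sgq_P_mod hF ha hτ hφ hc h hε
  refine ⟨δ / 2, half_pos hδ, fun α hα π hπ hd s t hs hst ht z => ?_⟩
  have hlim := sgq_P_tendsto hF hτ hα hφ hs hst ht z
  have hlim2 : Tendsto (fun n => |scPt F π s t φ z - scPt F (scDy α τ n) s t φ z|) atTop
      (𝓝 |scPt F π s t φ z - scPa F α τ s t φ z|) := (tendsto_const_nhds.sub hlim).abs
  refine le_of_tendsto hlim2 ?_
  filter_upwards [(sgp_da_dy_tendsto hτ hα).eventually (gt_mem_nhds (half_pos hδ))] with n hn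
  apply H _ _ hπ (sc_dy_apx hτ hα n) _ s t hs hst ht z
  have := sgp_dst_le_da hτ hα hπ.adm (sc_dy_adm hτ hα n)
  linarith

theorem ScApx.sgp {a τ : ℝ} {α : ℝ → ℝ} {π : ℕ → List (ℝ × ℝ)} (h : ScApx a τ α π) (n : ℕ) : SgpApx a τ (π n) :=
  ⟨h.adm n, h.inc n, h.len n⟩

theorem ScApx.da_tendsto {a τ : ℝ} {α : ℝ → ℝ} {π : ℕ → List (ℝ × ℝ)} (h : ScApx a τ α π) :
    Tendsto (fun n => scDa (π n) α τ) atTop (𝓝 0) := by
  refine h.l1.congr fun n => ?_
  unfold scDa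
  congr 1
  funext r
  exact abs_sub_comm _ _

/-- convergence along ANY approximating sequence, uniform in the times, weighted in the starting point -/
theorem sgq_P_unif {F : ℝ → ℝ} (hF : ScBI F) {a a' τ : ℝ} {α : ℝ → ℝ} (hτ : 0 ≤ τ) (hα : ScCoef a τ α)
    {π : ℕ → List (ℝ × ℝ)} (hπ : ScApx a' τ α π) {φ : ℝ → ℝ} (hφ : ScE 0 φ) {K c : ℝ} (hc : 0 ≤ c)
    (h : ∀ y, |φ y| ≤ K * Real.exp (c * |y|)) {ε : ℝ} (hε : 0 < ε) :
    ∀ᶠ n in atTop, ∀ s t, 0 ≤ s → s ≤ t → t ≤ τ → ∀ z,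
      |scPt F (π n) s t φ z - scPa F α τ s t φ z| ≤ ε * Real.exp ((c + 1) * |z|) := by
  have hα' : ScCoef (max a a') τ α := hα.weaken (le_max_left _ _)
  have hπ' : ScApx (max a a') τ α π := hπ.weaken (le_max_right _ _)
  obtain ⟨δ, hδ, H⟩ := sgq_P_close hF hπ'.nonneg hτ hφ hc h hε
  filter_upwards [hπ'.da_tendsto.eventually (gt_mem_nhds hδ)] with n hn
  exact H α hα' (π n) (hπ'.sgp n) hn.le

/-- any `L¹`-approximating sequence of admissible step profiles gives the same limit -/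
theorem sgq_P_tendsto_apx {F : ℝ → ℝ} (hF : ScBI F) {a a' τ : ℝ} {α : ℝ → ℝ} (hτ : 0 ≤ τ) (hα : ScCoef a τ α)
    {π : ℕ → List (ℝ × ℝ)} (hπ : ScApx a' τ α π) {φ : ℝ → ℝ} (hφ : ScE 0 φ) {s t : ℝ} (hs : 0 ≤ s) (hst : s ≤ t)
    (ht : t ≤ τ) (z : ℝ) : Tendsto (fun n => scPt F (π n) s t φ z) atTop (𝓝 (scPa F α τ s t φ z)) := by
  obtain ⟨K, c, -, hc, h⟩ := hφ.growth.nonneg_consts
  rw [Metric.tendsto_atTop']
  intro ε hε
  have hE := Real.exp_pos ((c + 1) * |z|)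
  obtain ⟨N, hN⟩ := eventually_atTop.mp
    (sgq_P_unif hF hτ hα hπ hφ hc h (ε := ε / (2 * Real.exp ((c + 1) * |z|))) (by positivity))
  refine ⟨N, fun n hn => ?_⟩
  rw [Real.dist_eq]
  have := hN n hn.le s t hs hst ht z
  have e : ε / (2 * Real.exp ((c + 1) * |z|)) * Real.exp ((c + 1) * |z|) = ε / 2 := by field_simp
  rw [e] at this
  linarith

/-- convergence with MOVING tests (convergent in a weighted sup norm), uniform in the times -/
theorem sgq_P_unif_mov {F : ℝ → ℝ} (hF : ScBI F) {a a' τ : ℝ} {α : ℝ → ℝ} (hτ : 0 ≤ τ) (hα : ScCoef a τ α)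
    {π : ℕ → List (ℝ × ℝ)} (hπ : ScApx a' τ α π) {φ : ℝ → ℝ} (hφ : ScE 0 φ) {φn : ℕ → ℝ → ℝ} (hφn : ∀ n, ScE 0 (φn n))
    {c : ℝ} (hc : 0 ≤ c) (hu : ∀ ε > 0, ∀ᶠ n in atTop, ∀ y, |φn n y - φ y| ≤ ε * Real.exp (c * |y|)) :
    ∃ c' : ℝ, 0 ≤ c' ∧ ∀ ε > 0, ∀ᶠ n in atTop, ∀ s t, 0 ≤ s → s ≤ t → t ≤ τ → ∀ z,
      |scPt F (π n) s t (φn n) z - scPa F α τ s t φ z| ≤ ε * Real.exp (c' * |z|) := by
  obtain ⟨K, c0, -, hc0, h⟩ := hφ.growth.nonneg_consts
  obtain ⟨A, hA⟩ := (hF 1).2.1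
  refine ⟨max c (c0 + 1), hc.trans (le_max_left _ _), fun ε hε => ?_⟩
  have hκ := sgq_K_pos a' A c τ
  filter_upwards [sgq_P_unif hF hτ hα hπ hφ hc0 h (half_pos hε),
    hu (ε / (2 * sgqK a' A c τ)) (by positivity)] with n h1 h2 s t hs hst ht z
  have h3 := sgq_Pt_w_sub hF hA hπ.nonneg (hπ.adm n) hc (hφn n) hφ h2 hs hst ((hπ.len n).symm ▸ ht) z
  rw [hπ.len n] at h3
  have e : ε / (2 * sgqK a' A c τ) * sgqK a' A c τ = ε / 2 := by field_simp
  rw [e] at h3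
  have h4 := h1 s t hs hst ht z
  have m1 : Real.exp (c * |z|) ≤ Real.exp (max c (c0 + 1) * |z|) :=
    Real.exp_le_exp.2 (mul_le_mul_of_nonneg_right (le_max_left _ _) (abs_nonneg z))
  have m2 : Real.exp ((c0 + 1) * |z|) ≤ Real.exp (max c (c0 + 1) * |z|) :=
    Real.exp_le_exp.2 (mul_le_mul_of_nonneg_right (le_max_right _ _) (abs_nonneg z))
  rw [abs_le] at h3 h4 ⊢
  constructor <;> nlinarith [h3.1, h3.2, h4.1, h4.2]

theorem sgq_P_tendsto_mov {F : ℝ → ℝ} (hF : ScBI F) {a a' τ : ℝ} {α : ℝ → ℝ} (hτ : 0 ≤ τ) (hα : ScCoef a τ α)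
    {π : ℕ → List (ℝ × ℝ)} (hπ : ScApx a' τ α π) {φ : ℝ → ℝ} (hφ : ScE 0 φ) {φn : ℕ → ℝ → ℝ} (hφn : ∀ n, ScE 0 (φn n))
    {c : ℝ} (hc : 0 ≤ c) (hu : ∀ ε > 0, ∀ᶠ n in atTop, ∀ y, |φn n y - φ y| ≤ ε * Real.exp (c * |y|))
    {s t : ℝ} (hs : 0 ≤ s) (hst : s ≤ t) (ht : t ≤ τ) (z : ℝ) :
    Tendsto (fun n => scPt F (π n) s t (φn n) z) atTop (𝓝 (scPa F α τ s t φ z)) := by
  obtain ⟨c', -, H⟩ := sgq_P_unif_mov hF hτ hα hπ hφ hφn hc hu
  rw [Metric.tendsto_atTop']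
  intro ε hε
  have hE := Real.exp_pos (c' * |z|)
  obtain ⟨N, hN⟩ := eventually_atTop.mp (H (ε / (2 * Real.exp (c' * |z|))) (by positivity))
  refine ⟨N, fun n hn => ?_⟩
  rw [Real.dist_eq]
  have := hN n hn.le s t hs hst ht z
  have e : ε / (2 * Real.exp (c' * |z|)) * Real.exp (c' * |z|) = ε / 2 := by field_simp
  rw [e] at this
  linarith

/-! ## 4. algebra of `scPa` -/

theorem sgq_Pa_self (F : ℝ → ℝ) (α : ℝ → ℝ) (τ s : ℝ) (φ : ℝ → ℝ) : scPa F α τ s s φ = φ := by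
  funext z
  unfold scPa
  simp only [sc_Pt_self]
  exact tendsto_const_nhds.limUnder_eq

theorem sgq_Pa_const {F : ℝ → ℝ} (hF : ScBI F) (α : ℝ → ℝ) (τ s t c : ℝ) : scPa F α τ s t (fun _ => c) = fun _ => c := by
  funext z
  unfold scPa
  simp only [sc_Pt_const hF]
  exact tendsto_const_nhds.limUnder_eq

theorem sgq_Pa_add {F : ℝ → ℝ} (hF : ScBI F) {a τ : ℝ} {α : ℝ → ℝ} (hτ : 0 ≤ τ) (hα : ScCoef a τ α) {φ ψ : ℝ → ℝ}
    (hφ : ScE 0 φ) (hψ : ScE 0 ψ) {s t : ℝ} (hs : 0 ≤ s) (hst : s ≤ t) (ht : t ≤ τ) :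
    scPa F α τ s t (fun y => φ y + ψ y) = fun z => scPa F α τ s t φ z + scPa F α τ s t ψ z := by
  funext z
  refine tendsto_nhds_unique (sgq_P_tendsto hF hτ hα (hφ.add hψ) hs hst ht z) ?_
  refine ((sgq_P_tendsto hF hτ hα hφ hs hst ht z).add (sgq_P_tendsto hF hτ hα hψ hs hst ht z)).congr fun n => ?_
  rw [sc_Pt_add hF hφ hψ]

theorem sgq_Pa_sub {F : ℝ → ℝ} (hF : ScBI F) {a τ : ℝ} {α : ℝ → ℝ} (hτ : 0 ≤ τ) (hα : ScCoef a τ α) {φ ψ : ℝ → ℝ}
    (hφ : ScE 0 φ) (hψ : ScE 0 ψ) {s t : ℝ} (hs : 0 ≤ s) (hst : s ≤ t) (ht : t ≤ τ) :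
    scPa F α τ s t (fun y => φ y - ψ y) = fun z => scPa F α τ s t φ z - scPa F α τ s t ψ z := by
  funext z
  refine tendsto_nhds_unique (sgq_P_tendsto hF hτ hα (hφ.sub hψ) hs hst ht z) ?_
  refine ((sgq_P_tendsto hF hτ hα hφ hs hst ht z).sub (sgq_P_tendsto hF hτ hα hψ hs hst ht z)).congr fun n => ?_
  rw [sc_Pt_sub hF hφ hψ]

theorem sgq_Pa_const_mul {F : ℝ → ℝ} (hF : ScBI F) {a τ : ℝ} {α : ℝ → ℝ} (hτ : 0 ≤ τ) (hα : ScCoef a τ α) (c : ℝ)
    {φ : ℝ → ℝ} (hφ : ScE 0 φ) {s t : ℝ} (hs : 0 ≤ s) (hst : s ≤ t) (ht : t ≤ τ) :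
    scPa F α τ s t (fun y => c * φ y) = fun z => c * scPa F α τ s t φ z := by
  funext z
  refine tendsto_nhds_unique (sgq_P_tendsto hF hτ hα (hφ.const_mul c) hs hst ht z) ?_
  refine ((sgq_P_tendsto hF hτ hα hφ hs hst ht z).const_mul c).congr fun n => ?_
  rw [sc_Pt_const_mul]

theorem sgq_Pa_neg {F : ℝ → ℝ} (hF : ScBI F) {a τ : ℝ} {α : ℝ → ℝ} (hτ : 0 ≤ τ) (hα : ScCoef a τ α)
    {φ : ℝ → ℝ} (hφ : ScE 0 φ) {s t : ℝ} (hs : 0 ≤ s) (hst : s ≤ t) (ht : t ≤ τ) :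
    scPa F α τ s t (fun y => - φ y) = fun z => - scPa F α τ s t φ z := by
  have := sgq_Pa_const_mul hF hτ hα (-1) hφ hs hst ht
  simpa only [neg_one_mul] using this

theorem sgq_Pa_mono {F : ℝ → ℝ} (hF : ScBI F) {a τ : ℝ} {α : ℝ → ℝ} (hτ : 0 ≤ τ) (hα : ScCoef a τ α) {φ ψ : ℝ → ℝ}
    (hφ : ScE 0 φ) (hψ : ScE 0 ψ) (h : ∀ y, φ y ≤ ψ y) {s t : ℝ} (hs : 0 ≤ s) (hst : s ≤ t) (ht : t ≤ τ) (z : ℝ) :
    scPa F α τ s t φ z ≤ scPa F α τ s t ψ z :=
  le_of_tendsto_of_tendsto' (sgq_P_tendsto hF hτ hα hφ hs hst ht z) (sgq_P_tendsto hF hτ hα hψ hs hst ht z)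
    fun _ => sc_Pt_mono hF hφ hψ h _ s t z

theorem sgq_Pa_nonneg {F : ℝ → ℝ} (hF : ScBI F) {a τ : ℝ} {α : ℝ → ℝ} (hτ : 0 ≤ τ) (hα : ScCoef a τ α) {φ : ℝ → ℝ}
    (hφ : ScE 0 φ) (h : ∀ y, 0 ≤ φ y) {s t : ℝ} (hs : 0 ≤ s) (hst : s ≤ t) (ht : t ≤ τ) (z : ℝ) :
    0 ≤ scPa F α τ s t φ z :=
  ge_of_tendsto' (sgq_P_tendsto hF hτ hα hφ hs hst ht z) fun _ => sc_Pt_nonneg hF hφ h _ s t z

theorem sgq_Pa_abs_le {F : ℝ → ℝ} (hF : ScBI F) {a τ : ℝ} {α : ℝ → ℝ} (hτ : 0 ≤ τ) (hα : ScCoef a τ α) {φ : ℝ → ℝ}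
    (hφ : Continuous φ) {C : ℝ} (h : ∀ y, |φ y| ≤ C) {s t : ℝ} (hs : 0 ≤ s) (hst : s ≤ t) (ht : t ≤ τ) (z : ℝ) :
    |scPa F α τ s t φ z| ≤ C :=
  sck_limit_abs_le (sgq_P_tendsto hF hτ hα ⟨hφ, ScG.of_bdd h⟩ hs hst ht z)
    (Eventually.of_forall fun _ => sc_Pt_abs_le hF hφ h _ s t z)

/-- weighted contraction -/
theorem sgq_Pa_w {F : ℝ → ℝ} (hF : ScBI F) {A : ℝ} (hA : ∀ z, |deriv F z| ≤ A) {a τ : ℝ} {α : ℝ → ℝ} (hτ : 0 ≤ τ)
    (hα : ScCoef a τ α) {c : ℝ} (hc : 0 ≤ c) {φ : ℝ → ℝ} (hφ : ScE 0 φ) {K : ℝ}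
    (h : ∀ y, |φ y| ≤ K * Real.exp (c * |y|)) {s t : ℝ} (hs : 0 ≤ s) (hst : s ≤ t) (ht : t ≤ τ) (z : ℝ) :
    |scPa F α τ s t φ z| ≤ K * sgqK a A c τ * Real.exp (c * |z|) :=
  sck_limit_abs_le (sgq_P_tendsto hF hτ hα hφ hs hst ht z) (Eventually.of_forall fun n => by
    have := sgq_Pt_w hF hA (hα.a_nonneg hτ) (sc_dy_adm hτ hα n) hc hφ h hs hst (by rw [sc_dy_len]; exact ht) z
    rwa [sc_dy_len] at this)

theorem sgq_Pa_w_sub {F : ℝ → ℝ} (hF : ScBI F) {A : ℝ} (hA : ∀ z, |deriv F z| ≤ A) {a τ : ℝ} {α : ℝ → ℝ} (hτ : 0 ≤ τ)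
    (hα : ScCoef a τ α) {c : ℝ} (hc : 0 ≤ c) {φ ψ : ℝ → ℝ} (hφ : ScE 0 φ) (hψ : ScE 0 ψ) {K : ℝ}
    (h : ∀ y, |φ y - ψ y| ≤ K * Real.exp (c * |y|)) {s t : ℝ} (hs : 0 ≤ s) (hst : s ≤ t) (ht : t ≤ τ) (z : ℝ) :
    |scPa F α τ s t φ z - scPa F α τ s t ψ z| ≤ K * sgqK a A c τ * Real.exp (c * |z|) := by
  have := sgq_Pa_w hF hA hτ hα hc (hφ.sub hψ) h hs hst ht z
  rwa [sgq_Pa_sub hF hτ hα hφ hψ hs hst ht] at this

theorem sgq_Pa_even {F : ℝ → ℝ} (hF : ScBI F) (he : ∀ z, F (-z) = F z) {a τ : ℝ} {α : ℝ → ℝ} (hτ : 0 ≤ τ)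
    (hα : ScCoef a τ α) {φ : ℝ → ℝ} (hφ : ScE 0 φ) (h : ∀ y, φ (-y) = φ y) {s t : ℝ} (hs : 0 ≤ s) (hst : s ≤ t)
    (ht : t ≤ τ) (z : ℝ) : scPa F α τ s t φ (-z) = scPa F α τ s t φ z :=
  tendsto_nhds_unique (sgq_P_tendsto hF hτ hα hφ hs hst ht (-z))
    ((sgq_P_tendsto hF hτ hα hφ hs hst ht z).congr fun _ => (sc_Pt_even he h _ s t z).symm)

theorem sgq_Pa_odd {F : ℝ → ℝ} (hF : ScBI F) (he : ∀ z, F (-z) = F z) {a τ : ℝ} {α : ℝ → ℝ} (hτ : 0 ≤ τ)
    (hα : ScCoef a τ α) {φ : ℝ → ℝ} (hφ : ScE 0 φ) (h : ∀ y, φ (-y) = - φ y) {s t : ℝ} (hs : 0 ≤ s) (hst : s ≤ t)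
    (ht : t ≤ τ) (z : ℝ) : scPa F α τ s t φ (-z) = - scPa F α τ s t φ z :=
  tendsto_nhds_unique (sgq_P_tendsto hF hτ hα hφ hs hst ht (-z))
    ((sgq_P_tendsto hF hτ hα hφ hs hst ht z).neg.congr fun _ => (sc_Pt_odd he h _ s t z).symm)

/-- Cauchy-Schwarz -/
theorem sgq_Pa_mul_sq_le {F : ℝ → ℝ} (hF : ScBI F) {a τ : ℝ} {α : ℝ → ℝ} (hτ : 0 ≤ τ) (hα : ScCoef a τ α)
    {φ ψ : ℝ → ℝ} (hφ : ScE 0 φ) (hψ : ScE 0 ψ) {s t : ℝ} (hs : 0 ≤ s) (hst : s ≤ t) (ht : t ≤ τ) (z : ℝ) :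
    scPa F α τ s t (fun y => φ y * ψ y) z ^ 2
      ≤ scPa F α τ s t (fun y => φ y ^ 2) z * scPa F α τ s t (fun y => ψ y ^ 2) z :=
  le_of_tendsto_of_tendsto' ((sgq_P_tendsto hF hτ hα (hφ.mul hψ) hs hst ht z).pow 2)
    ((sgq_P_tendsto hF hτ hα (hφ.pow 2) hs hst ht z).mul (sgq_P_tendsto hF hτ hα (hψ.pow 2) hs hst ht z))
    fun _ => sc_Pt_mul_sq_le hF hφ hψ _ s t z

/-- the dyadic profiles are an approximating sequence -/
theorem sgq_dy_apx {a τ : ℝ} {α : ℝ → ℝ} (hτ : 0 ≤ τ) (hα : ScCoef a τ α) : ScApx a τ α (scDy α τ) :=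
  scg_dy_apx hτ hα

/-- a limit, uniform with an exponential weight, of jointly continuous families is jointly continuous -/
theorem sgq_contOn_of_w {I : Set ℝ} {f : ℝ → ℝ → ℝ} {fn : ℕ → ℝ → ℝ → ℝ} {c : ℝ} (hc0 : 0 ≤ c)
    (hc : ∀ n, ContinuousOn (fun p : ℝ × ℝ => fn n p.1 p.2) (I ×ˢ univ))
    (hu : ∀ ε > 0, ∀ᶠ n in atTop, ∀ r ∈ I, ∀ z, |fn n r z - f r z| ≤ ε * Real.exp (c * |z|)) :
    ContinuousOn (fun p : ℝ × ℝ => f p.1 p.2) (I ×ˢ univ) := by
  refine continuousOn_of_locally_uniform_approx_of_continuousWithinAt fun x hx u hu' => ?_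
  obtain ⟨ε, hε, Hε⟩ := Metric.mem_uniformity_dist.1 hu'
  have hE := Real.exp_pos (c * (|x.2| + 1))
  obtain ⟨n, hn⟩ := (hu (ε / (2 * Real.exp (c * (|x.2| + 1)))) (by positivity)).exists
  have hopen : IsOpen {p : ℝ × ℝ | |p.2| < |x.2| + 1} :=
    isOpen_lt (continuous_abs.comp continuous_snd) continuous_const
  refine ⟨(I ×ˢ univ) ∩ {p : ℝ × ℝ | |p.2| < |x.2| + 1},
    inter_mem self_mem_nhdsWithin (mem_nhdsWithin_of_mem_nhds (hopen.mem_nhds (by simp))),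
    fun p => fn n p.1 p.2, (hc n).continuousWithinAt hx, fun y hy => Hε ?_⟩
  rw [Real.dist_eq, abs_sub_comm]
  have h1 := hn y.1 hy.1.1 y.2
  have h2 : Real.exp (c * |y.2|) ≤ Real.exp (c * (|x.2| + 1)) :=
    Real.exp_le_exp.2 (mul_le_mul_of_nonneg_left (le_of_lt hy.2) hc0)
  have h3 : ε / (2 * Real.exp (c * (|x.2| + 1))) * Real.exp (c * |y.2|) ≤ ε / 2 := by
    have e : ε / 2 = ε / (2 * Real.exp (c * (|x.2| + 1))) * Real.exp (c * (|x.2| + 1)) := by field_simp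
    rw [e]
    exact mul_le_mul_of_nonneg_left h2 (by positivity)
  linarith

/-- joint continuity and growth in the backward variable: `r ↦ E[φ(Z_t) | Z_r = z]` -/
theorem sgq_Pa_T {F : ℝ → ℝ} (hF : ScBI F) {a τ : ℝ} {α : ℝ → ℝ} (hτ : 0 ≤ τ) (hα : ScCoef a τ α) {φ : ℝ → ℝ}
    (hφ : ScE 0 φ) {t : ℝ} (ht : t ≤ τ) : ScT (Icc 0 t) 0 (fun r => scPa F α τ r t φ) := by
  obtain ⟨K, c, -, hc, h⟩ := hφ.growth.nonneg_consts
  obtain ⟨A, hA⟩ := (hF 1).2.1
  refine ⟨?_, K * sgqK a A c τ, c, fun r hr z => sgq_Pa_w hF hA hτ hα hc hφ h hr.1 hr.2 ht z⟩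
  have hc1 : 0 ≤ c + 1 := by linarith
  refine sgq_contOn_of_w (f := fun r => scPa F α τ r t φ) (fn := fun n r => scPt F (scDy α τ n) r t φ) hc1
    (fun n => (sc_Pt_T hF hφ (sc_dy_adm hτ hα n).pos t).continuousOn) fun ε hε => ?_
  filter_upwards [sgq_P_unif hF hτ hα (sgq_dy_apx hτ hα) hφ hc h hε] with n hn r hr z
  exact hn r t hr.1 hr.2 ht z

theorem sgq_Pa_E {F : ℝ → ℝ} (hF : ScBI F) {a τ : ℝ} {α : ℝ → ℝ} (hτ : 0 ≤ τ) (hα : ScCoef a τ α) {φ : ℝ → ℝ}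
    (hφ : ScE 0 φ) {s t : ℝ} (hs : 0 ≤ s) (hst : s ≤ t) (ht : t ≤ τ) : ScE 0 (scPa F α τ s t φ) :=
  (sgq_Pa_T hF hτ hα hφ ht).scE ⟨hs, hst⟩

/-! ## 5. Chapman-Kolmogorov -/

/-- **Chapman-Kolmogorov** -/
theorem sgq_Pa_Pa {F : ℝ → ℝ} (hF : ScBI F) {a τ : ℝ} {α : ℝ → ℝ} (hτ : 0 ≤ τ) (hα : ScCoef a τ α) {φ : ℝ → ℝ}
    (hφ : ScE 0 φ) {s r t : ℝ} (hs : 0 ≤ s) (hsr : s ≤ r) (hrt : r ≤ t) (ht : t ≤ τ) :
    scPa F α τ s r (scPa F α τ r t φ) = scPa F α τ s t φ := by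
  funext z
  obtain ⟨K, c, -, hc, h⟩ := hφ.growth.nonneg_consts
  have hap := sgq_dy_apx hτ hα
  have h1 := sgq_P_tendsto_mov hF hτ hα hap (sgq_Pa_E hF hτ hα hφ (hs.trans hsr) hrt ht)
    (φn := fun n => scPt F (scDy α τ n) r t φ) (fun n => sc_Pt_E hF hφ _ r t) (c := c + 1) (by linarith)
    (fun ε hε => by
      filter_upwards [sgq_P_unif hF hτ hα hap hφ hc h hε] with n hn y
      exact hn r t (hs.trans hsr) hrt ht y) hs hsr (hrt.trans ht) z
  refine tendsto_nhds_unique h1 ((sgq_P_tendsto hF hτ hα hφ hs (hsr.trans hrt) ht z).congr fun n => ?_)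
  rw [sc_Pt_Pt hF hφ (sc_dy_adm hτ hα n).pos hsr hrt]

/-! ## 6. complements: all times, all rates; sequences `δ n → 0`; extension of the horizon -/

/-- exponential moments without restriction on the final time -/
theorem sgq_exp_le' {F : ℝ → ℝ} (hF : ScBI F) {A : ℝ} (hA : ∀ z, |deriv F z| ≤ A) {a : ℝ} (ha : 0 ≤ a)
    {π : List (ℝ × ℝ)} (hπ : ScAdm a π) (c : ℝ) {s t : ℝ} (hs : 0 ≤ s) (hst : s ≤ t) (z : ℝ) :
    scPt F π s t (fun y => Real.exp (c * y)) z ≤ Real.exp (c * z + sgqR a A c * (t - s)) := by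
  have hR := sgq_R_nonneg ha ((abs_nonneg _).trans (hA 0)) c
  rcases le_total t (scLen π) with ht | ht
  · exact sgq_exp_le hF hA ha hπ c hs hst ht z
  · rw [sc_Pt_of_len_le F hπ.pos s ht]
    rcases le_total s (scLen π) with hsl | hsl
    · refine (sgq_exp_le hF hA ha hπ c hs hsl le_rfl z).trans (Real.exp_le_exp.2 ?_)
      have := mul_le_mul_of_nonneg_left (sub_le_sub_right ht s) hR
      linarith
    · rw [sc_Pt_of_le F π hsl]
      exact Real.exp_le_exp.2 (by nlinarith [mul_nonneg hR (sub_nonneg.2 hst)])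

/-- weighted contraction: any rate `c` (also negative), any times -/
theorem sgq_Pt_growth {F : ℝ → ℝ} (hF : ScBI F) {A : ℝ} (hA : ∀ z, |deriv F z| ≤ A) {a : ℝ} (ha : 0 ≤ a)
    {π : List (ℝ × ℝ)} (hπ : ScAdm a π) (c : ℝ) {φ : ℝ → ℝ} (hφ : ScE 0 φ) {K : ℝ}
    (h : ∀ y, |φ y| ≤ K * Real.exp (c * |y|)) {s t : ℝ} (hs : 0 ≤ s) (hst : s ≤ t) (z : ℝ) :
    |scPt F π s t φ z| ≤ K * (2 * Real.exp (sgqR a A c * (t - s))) * Real.exp (c * |z|) := by
  have hK : 0 ≤ K := by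
    have := (abs_nonneg _).trans (h 0)
    simpa using this
  have h1 := sgq_exp_le' hF hA ha hπ c hs hst z
  have h2 := sgq_exp_le' hF hA ha hπ (-c) hs hst z
  rw [sgq_R_neg] at h2
  -- the bound of the weight
  have key : scPt F π s t (fun y => Real.exp (c * |y|)) z ≤ 2 * Real.exp (sgqR a A c * (t - s)) * Real.exp (c * |z|) := by
    rcases le_total 0 c with hc | hc
    · have h3 : scPt F π s t (fun y => Real.exp (c * |y|)) z
          ≤ scPt F π s t (fun y => Real.exp (c * y) + Real.exp (-c * y)) z := by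
        refine sc_Pt_mono hF (sgq_expabs_E c) ((sgq_exp_E c 0).add (sgq_exp_E (-c) 0)) (fun y => ?_) π s t z
        rcases abs_cases y with ⟨e, _⟩ | ⟨e, _⟩
        · rw [e]; linarith [Real.exp_pos (-c * y)]
        · rw [e]
          have : c * -y = -c * y := by ring
          rw [this]; linarith [Real.exp_pos (c * y)]
      rw [sc_Pt_add hF (sgq_exp_E c 0) (sgq_exp_E (-c) 0)] at h3
      have h4 : Real.exp (c * z + sgqR a A c * (t - s)) ≤ Real.exp (sgqR a A c * (t - s)) * Real.exp (c * |z|) := by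
        rw [← Real.exp_add]
        exact Real.exp_le_exp.2 (by nlinarith [le_abs_self z])
      have h5 : Real.exp (-c * z + sgqR a A c * (t - s)) ≤ Real.exp (sgqR a A c * (t - s)) * Real.exp (c * |z|) := by
        rw [← Real.exp_add]
        exact Real.exp_le_exp.2 (by nlinarith [neg_abs_le z])
      linarith
    · have hpos : 0 < Real.exp (sgqR a A c * (t - s)) * Real.exp (c * |z|) := by positivity
      rcases le_total 0 z with hz | hz
      · have h3 : scPt F π s t (fun y => Real.exp (c * |y|)) z ≤ scPt F π s t (fun y => Real.exp (c * y)) z :=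
          sc_Pt_mono hF (sgq_expabs_E c) (sgq_exp_E c 0)
            (fun y => Real.exp_le_exp.2 (by nlinarith [le_abs_self y])) π s t z
        have h4 : Real.exp (c * z + sgqR a A c * (t - s)) = Real.exp (sgqR a A c * (t - s)) * Real.exp (c * |z|) := by
          rw [← Real.exp_add, abs_of_nonneg hz, add_comm]
        linarith
      · have h3 : scPt F π s t (fun y => Real.exp (c * |y|)) z ≤ scPt F π s t (fun y => Real.exp (-c * y)) z :=
          sc_Pt_mono hF (sgq_expabs_E c) (sgq_exp_E (-c) 0)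
            (fun y => Real.exp_le_exp.2 (by nlinarith [neg_abs_le y])) π s t z
        have h4 : Real.exp (-c * z + sgqR a A c * (t - s)) = Real.exp (sgqR a A c * (t - s)) * Real.exp (c * |z|) := by
          rw [← Real.exp_add, abs_of_nonpos hz, add_comm]
          congr 1; ring
        linarith
  have hE := (sgq_expabs_E c).const_mul K
  have u1 := sc_Pt_mono hF hφ hE (fun y => (le_abs_self _).trans (h y)) π s t z
  have u2 := sc_Pt_mono hF (hE.neg) hφ (fun y => by linarith [neg_abs_le (φ y), h y]) π s t z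
  have e1 : scPt F π s t (fun y => K * Real.exp (c * |y|)) z = K * scPt F π s t (fun y => Real.exp (c * |y|)) z := by
    rw [sc_Pt_const_mul]
  have e2 : scPt F π s t (fun y => -(K * Real.exp (c * |y|))) z = -(K * scPt F π s t (fun y => Real.exp (c * |y|)) z) := by
    have : (fun y => -(K * Real.exp (c * |y|))) = fun y => (-K) * Real.exp (c * |y|) := by funext y; ring
    rw [this, sc_Pt_const_mul]; ring
  rw [e1] at u1
  rw [e2] at u2
  have h6 : K * scPt F π s t (fun y => Real.exp (c * |y|)) z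
      ≤ K * (2 * Real.exp (sgqR a A c * (t - s))) * Real.exp (c * |z|) := by
    rw [mul_assoc]
    exact mul_le_mul_of_nonneg_left key hK
  rw [abs_le]
  constructor <;> linarith

/-- from "eventually `Q n ε` for every `ε > 0`" to a sequence `δ n → 0` with `Q n (δ n)` for ALL `n` -/
theorem sgq_exists_delta {Q : ℕ → ℝ → Prop} (hmono : ∀ n ε ε', ε ≤ ε' → Q n ε → Q n ε') (hB : ∃ B, ∀ n, Q n B)
    (h : ∀ ε > 0, ∀ᶠ n in atTop, Q n ε) : ∃ δ : ℕ → ℝ, Tendsto δ atTop (𝓝 0) ∧ ∀ n, Q n (δ n) := by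
  obtain ⟨B, hB⟩ := hB
  set S : ℕ → Set ℝ := fun n => {ε | 0 < ε ∧ Q n ε} with hS
  have hne : ∀ n, (S n).Nonempty := fun n =>
    ⟨max B 1, lt_of_lt_of_le one_pos (le_max_right _ _), hmono n B _ (le_max_left _ _) (hB n)⟩
  have hbd : ∀ n, BddBelow (S n) := fun n => ⟨0, fun ε hε => hε.1.le⟩
  have h0 : ∀ n, 0 ≤ sInf (S n) := fun n => le_csInf (hne n) fun ε hε => hε.1.le
  refine ⟨fun n => sInf (S n) + 1 / ((n : ℝ) + 1), ?_, fun n => ?_⟩
  · have h1 : Tendsto (fun n => sInf (S n)) atTop (𝓝 0) := by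
      rw [Metric.tendsto_atTop']
      intro ε hε
      obtain ⟨N, hN⟩ := eventually_atTop.1 (h (ε / 2) (half_pos hε))
      refine ⟨N, fun n hn => ?_⟩
      rw [Real.dist_eq, sub_zero, abs_of_nonneg (h0 n)]
      have : sInf (S n) ≤ ε / 2 := csInf_le (hbd n) ⟨half_pos hε, hN n hn.le⟩
      linarith
    simpa using h1.add tendsto_one_div_add_atTop_nhds_zero_nat
  · have hlt : sInf (S n) < sInf (S n) + 1 / ((n : ℝ) + 1) := by
      have : (0 : ℝ) < 1 / ((n : ℝ) + 1) := by positivity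
      linarith
    obtain ⟨ε, hε, hεlt⟩ := exists_lt_of_csInf_lt (hne n) hlt
    exact hmono n ε _ hεlt.le hε.2

/-- extension of the horizon by a stretch where the coefficient is equal to the maximal mass -/
theorem ScApx.append_top {a R R' : ℝ} {α : ℝ → ℝ} {π : ℕ → List (ℝ × ℝ)} (h : ScApx a R α π) (hR : 0 ≤ R) (hRR : R ≤ R')
    (hA : ∀ r ∈ Ico R R', α r = a) : ScApx a R' α (fun n => π n ++ [(a, R' - R)]) := by
  have hadm : ScAdm a [(a, R' - R)] := by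
    intro p hp
    rw [List.mem_singleton] at hp
    subst hp
    exact ⟨h.nonneg, le_rfl, sub_nonneg.2 hRR⟩
  have hint2 : IntervalIntegrable α volume R R' := by
    refine (intervalIntegrable_const (c := a)).congr_uIoo ?_
    rw [uIoo_of_le hRR]
    exact fun r hr => (hA r ⟨hr.1.le, hr.2⟩).symm
  have hint : IntervalIntegrable α volume 0 R' := h.int.trans hint2
  refine ⟨h.nonneg, fun n => sc_app_adm (h.adm n) hadm, fun n => sc_app_inc (h.inc n) (List.pairwise_singleton _ _) ?_,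
    fun n => ?_, hint, ?_⟩
  · intro p hp q hq
    rw [List.mem_singleton] at hq
    subst hq
    exact (h.adm n p hp).2.1
  · rw [sc_len_append, h.len n]
    simp [scLen]
  · refine h.l1.congr fun n => ?_
    have i1 : IntervalIntegrable (fun r => |scAl (π n ++ [(a, R' - R)]) r - α r|) volume 0 R :=
      ((scg_al_int _ 0 R).sub h.int).abs
    have i2 : IntervalIntegrable (fun r => |scAl (π n ++ [(a, R' - R)]) r - α r|) volume R R' :=
      ((scg_al_int _ R R').sub hint2).abs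
    rw [← intervalIntegral.integral_add_adjacent_intervals i1 i2]
    have e1 : ∫ r in (0 : ℝ)..R, |scAl (π n ++ [(a, R' - R)]) r - α r| = ∫ r in (0 : ℝ)..R, |scAl (π n) r - α r| := by
      refine sc_integral_congr_Ioo hR fun r hr => ?_
      rw [sc_app_Al_left _ _ hr.1.le (by rw [h.len n]; exact hr.2)]
    have e2 : ∫ r in R..R', |scAl (π n ++ [(a, R' - R)]) r - α r| = 0 := by
      rw [sc_integral_congr_Ioo hRR (g := fun _ => (0 : ℝ)) fun r hr => ?_]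
      · simp
      · have e3 := sc_app_Al_right (h.adm n).pos [(a, R' - R)] (t := r - R) (by linarith [hr.1])
        rw [h.len n, add_sub_cancel] at e3
        rw [e3, hA r ⟨hr.1.le, hr.2⟩]
        have : ¬ (R' - R ≤ r - R) := by linarith [hr.2]
        simp [scAl, this]
    rw [e1, e2, add_zero]

end Claimed.Agent.R286
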