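import Claimed.Agent.R286.Sc.GenDefs

/-!
# Row 286 (S0533), BOX-C (scalar block): SMALL CLOCKS      (OWNER helper108; prefix `ss`)

The SCALAR part of PE Lemma 5.4 (`prof:scalar-compactness`, paragraph "The second derivative of the scalar defect", profile.tex l.285-325) and PE Lemma 5.5
(`prof:low-clock-linearization`), on ABSTRACT moment curves in VARIANCE TIME.   No diffusion, no moments of `Z`: only the chain of Dynkin identities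
   `Γ' = M2`,  `M2' = N3 - 2 α M3`,  `N3' = N4 - 6 α M13`   and  `|M3 - M3(0)|, |N4 - N4(0)| ≤ Cb k`,  `|M3|, |N4|, |M13| ≤ Cb`.
* `SsCur`, `SsCur.Ok Cb`      the curves of one scalar system and their properties with ONE constant.
* A (one system, explicit constants): `Ok.N3_exp` (`E V_zzz²(k) = V_zzzz(0,0)² k + O(k² + ε k)`), `Ok.Gam2_le`, `Ok.M2_taylor`, `Ok.Gam_taylor`, `Ok.calib`, `Ok.defect`;
  EXIT `ss_low_clock` = PE Lemma 5.5, non-asymptotic.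
* B (rescaling at the test scale `x`): `SsCur.g, g1, P, Bc, aK` = the scalar fields of `RgDat` (`Rig/Defs.lean`, helper24);  `Ok.g_eq, Ok.g1_eq, Ok.P_cont, Ok.Bc_cont, Ok.aK_mono, Ok.aK_nn`
  have the shapes of the fields of `RgDat.Ok`;   `Ok.P_exp`, `Ok.Bc_exp` quantitative.
* C (limits): `ss_P_lim`, `ss_Bc_lim` = fields `P_lim`, `Bc_lim` of `RgHyp`;   EXIT `ss_rig_lim` : along an ultrafilter, `A = T³ a₄²`, `B = 2 T² a₂³` exist, with two-sided bounds.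
* D (instance): `ssOf a α τ` = the curves `scaGam ..` of `Sc/GenDefs.lean`;   INPUTS as `Prop`s: `SsSupply a Q` (owners: helper197 `Sc/Mom.lean` + helper92 `Sc/Bound.lean`),
  `SsCurvLow a Q` (owner helper141 `Sc/Hopf.lean`, PE Lemma 5.3 strict curvature);   EXIT `ss_rig_of`.
Everything is proved (0 sorry).
-/

set_option autoImplicit false

namespace Claimed.Agent.R286

open MeasureTheory Set Filter Topology

/-- the moment curves of ONE scalar system, in VARIANCE TIME `k ∈ [0,τ]`:   `al` = mass profile, `Gam = E V_z²`, `M2 = E V_zz²`, `M3 = E V_zz³`,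
`N3 = E V_zzz²`, `N4 = E V_zzzz²`, `M13 = E V_zz V_zzz²` -/
structure SsCur where
  τ : ℝ
  al : ℝ → ℝ
  Gam : ℝ → ℝ
  M2 : ℝ → ℝ
  M3 : ℝ → ℝ
  N3 : ℝ → ℝ
  N4 : ℝ → ℝ
  M13 : ℝ → ℝ

/-- Dynkin identities (integrated) and bounds with ONE constant `Cb` -/
structure SsCur.Ok (d : SsCur) (Cb : ℝ) : Prop where
  al_mono : MonotoneOn d.al (Icc 0 d.τ)
  al_nn : ∀ t ∈ Icc 0 d.τ, 0 ≤ d.al t
  Gam_eq : ∀ t ∈ Icc 0 d.τ, d.Gam t = ∫ s in (0:ℝ)..t, d.M2 s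
  M2_eq : ∀ t ∈ Icc 0 d.τ, d.M2 t = d.M2 0 + ∫ s in (0:ℝ)..t, (d.N3 s - 2 * d.al s * d.M3 s)
  N3_eq : ∀ t ∈ Icc 0 d.τ, d.N3 t = ∫ s in (0:ℝ)..t, (d.N4 s - 6 * d.al s * d.M13 s)
  M2_cont : ContinuousOn d.M2 (Icc 0 d.τ)
  M3_cont : ContinuousOn d.M3 (Icc 0 d.τ)
  N3_cont : ContinuousOn d.N3 (Icc 0 d.τ)
  N4_cont : ContinuousOn d.N4 (Icc 0 d.τ)
  M13_cont : ContinuousOn d.M13 (Icc 0 d.τ)
  M3_lip : ∀ t ∈ Icc 0 d.τ, |d.M3 t - d.M3 0| ≤ Cb * t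
  N4_lip : ∀ t ∈ Icc 0 d.τ, |d.N4 t - d.N4 0| ≤ Cb * t
  M3_bd : ∀ t ∈ Icc 0 d.τ, |d.M3 t| ≤ Cb
  N4_bd : ∀ t ∈ Icc 0 d.τ, |d.N4 t| ≤ Cb
  M13_bd : ∀ t ∈ Icc 0 d.τ, |d.M13 t| ≤ Cb

namespace SsCur

variable {d : SsCur} {Cb : ℝ}

theorem Ok.sub {t : ℝ} (ht : t ∈ Icc 0 d.τ) : uIcc 0 t ⊆ Icc 0 d.τ := by
  rw [uIcc_of_le ht.1]; exact Icc_subset_Icc le_rfl ht.2

theorem Ok.al_int (h : d.Ok Cb) {t : ℝ} (ht : t ∈ Icc 0 d.τ) : IntervalIntegrable d.al volume 0 t :=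
  (h.al_mono.mono (Ok.sub ht)).intervalIntegrable

theorem Ok.Cb_nn (h : d.Ok Cb) (hτ : 0 ≤ d.τ) : 0 ≤ Cb := (abs_nonneg _).trans (h.M3_bd 0 ⟨le_rfl, hτ⟩)

/-! ## A. one system, explicit constants -/

/-- `|∫₀ᵗ f| ≤ C t` -/
theorem _root_.Claimed.Agent.R286.ss_int_le {f : ℝ → ℝ} {C t : ℝ} (ht : 0 ≤ t) (hf : ∀ s ∈ Icc 0 t, |f s| ≤ C) :
    |∫ s in (0:ℝ)..t, f s| ≤ C * t := by
  have := intervalIntegral.norm_integral_le_of_norm_le_const (a := 0) (b := t) (f := f) (C := C)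
    (fun s hs => by
      rw [uIoc_of_le ht] at hs
      exact hf s ⟨hs.1.le, hs.2⟩)
  simpa [abs_of_nonneg ht] using this

/-- `|∫₀ᵗ f| ≤ C t²/2` if `|f s| ≤ C s` -/
theorem _root_.Claimed.Agent.R286.ss_int_le_sq {f : ℝ → ℝ} {C t : ℝ} (ht : 0 ≤ t) (hf : ∀ s ∈ Icc 0 t, |f s| ≤ C * s) :
    |∫ s in (0:ℝ)..t, f s| ≤ C * t ^ 2 / 2 := by
  have h1 : ‖∫ s in (0:ℝ)..t, f s‖ ≤ ∫ s in (0:ℝ)..t, C * s := by
    apply intervalIntegral.norm_integral_le_of_norm_le ht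
    · refine Eventually.of_forall fun s hs => ?_
      exact hf s ⟨hs.1.le, hs.2⟩
    · exact (continuous_const.mul continuous_id).intervalIntegrable _ _
  have h2 : (∫ s in (0:ℝ)..t, C * s) = C * t ^ 2 / 2 := by
    rw [intervalIntegral.integral_const_mul, integral_id]; ring
  rw [h2] at h1
  exact h1

/-- **`E V_zzz²(k) = V_zzzz(0,0)² k + O(k² + ε k)`** when the mass is `≤ ε` on `[0,k]` -/
theorem Ok.N3_exp (h : d.Ok Cb) {t ε : ℝ} (ht : t ∈ Icc 0 d.τ) (hε : ∀ s ∈ Icc 0 t, d.al s ≤ ε) :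
    |d.N3 t - d.N4 0 * t| ≤ Cb * t ^ 2 / 2 + 6 * ε * Cb * t := by
  have hsub := Ok.sub ht
  have hsub' : Icc 0 t ⊆ Icc 0 d.τ := Icc_subset_Icc le_rfl ht.2
  have i1 : IntervalIntegrable d.N4 volume 0 t := (h.N4_cont.mono hsub).intervalIntegrable
  have i2 : IntervalIntegrable (fun s => 6 * d.al s * d.M13 s) volume 0 t :=
    ((h.al_int ht).const_mul 6).mul_continuousOn (h.M13_cont.mono hsub)
  have e : d.N3 t - d.N4 0 * t = (∫ s in (0:ℝ)..t, (d.N4 s - d.N4 0)) - ∫ s in (0:ℝ)..t, 6 * d.al s * d.M13 s := by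
    rw [h.N3_eq t ht, intervalIntegral.integral_sub i1 i2, intervalIntegral.integral_sub i1 (by simp)]
    simp
    ring
  rw [e]
  have b1 := ss_int_le_sq (f := fun s => d.N4 s - d.N4 0) ht.1 (fun s hs => h.N4_lip s (hsub' hs))
  have hε0 : 0 ≤ ε := (h.al_nn 0 ⟨le_rfl, ht.1.trans ht.2⟩).trans (hε 0 ⟨le_rfl, ht.1⟩)
  have b2 := ss_int_le (f := fun s => 6 * d.al s * d.M13 s) (C := 6 * ε * Cb) ht.1 (fun s hs => by
    rw [abs_mul, abs_mul, abs_of_nonneg (h.al_nn s (hsub' hs))]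
    have h1 := hε s hs
    have h2 := h.M13_bd s (hsub' hs)
    have h3 := h.al_nn s (hsub' hs)
    calc |(6:ℝ)| * d.al s * |d.M13 s| = 6 * (d.al s * |d.M13 s|) := by norm_num; ring
      _ ≤ 6 * (ε * Cb) := by
          apply mul_le_mul_of_nonneg_left _ (by norm_num)
          exact mul_le_mul h1 h2 (abs_nonneg _) hε0
      _ = 6 * ε * Cb := by ring)
  calc |(∫ s in (0:ℝ)..t, (d.N4 s - d.N4 0)) - ∫ s in (0:ℝ)..t, 6 * d.al s * d.M13 s|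
      ≤ |∫ s in (0:ℝ)..t, (d.N4 s - d.N4 0)| + |∫ s in (0:ℝ)..t, 6 * d.al s * d.M13 s| := abs_sub _ _
    _ ≤ _ := add_le_add b1 b2

/-- crude bound of `E V_zzz²` -/
theorem Ok.N3_le (h : d.Ok Cb) {t ε : ℝ} (ht : t ∈ Icc 0 d.τ) (hε : ∀ s ∈ Icc 0 t, d.al s ≤ ε) :
    |d.N3 t| ≤ Cb * (1 + 6 * ε) * t := by
  have hsub' : Icc 0 t ⊆ Icc 0 d.τ := Icc_subset_Icc le_rfl ht.2
  have hε0 : 0 ≤ ε := (h.al_nn 0 ⟨le_rfl, ht.1.trans ht.2⟩).trans (hε 0 ⟨le_rfl, ht.1⟩)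
  rw [h.N3_eq t ht]
  apply ss_int_le ht.1
  intro s hs
  have h1 := hε s hs
  have h2 := h.M13_bd s (hsub' hs)
  have h3 := h.al_nn s (hsub' hs)
  have h4 := h.N4_bd s (hsub' hs)
  have h5 : |6 * d.al s * d.M13 s| ≤ 6 * (ε * Cb) := by
    rw [abs_mul, abs_mul, abs_of_nonneg h3]
    calc |(6:ℝ)| * d.al s * |d.M13 s| = 6 * (d.al s * |d.M13 s|) := by norm_num; ring
      _ ≤ 6 * (ε * Cb) := by
          apply mul_le_mul_of_nonneg_left _ (by norm_num)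
          exact mul_le_mul h1 h2 (abs_nonneg _) hε0
  calc |d.N4 s - 6 * d.al s * d.M13 s| ≤ |d.N4 s| + |6 * d.al s * d.M13 s| := abs_sub _ _
    _ ≤ Cb + 6 * (ε * Cb) := add_le_add h4 h5
    _ = Cb * (1 + 6 * ε) := by ring

/-- the second derivative of `Γ` on a small clock: `|Γ''| ≤ Cb ((1 + 6 ε) k + 2 ε)` -/
theorem Ok.Gam2_le (h : d.Ok Cb) {t ε : ℝ} (ht : t ∈ Icc 0 d.τ) (hε : ∀ s ∈ Icc 0 t, d.al s ≤ ε) :
    ∀ s ∈ Icc 0 t, |d.N3 s - 2 * d.al s * d.M3 s| ≤ Cb * ((1 + 6 * ε) * t + 2 * ε) := by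
  intro s hs
  have hsub' : Icc 0 t ⊆ Icc 0 d.τ := Icc_subset_Icc le_rfl ht.2
  have hε0 : 0 ≤ ε := (h.al_nn 0 ⟨le_rfl, ht.1.trans ht.2⟩).trans (hε 0 ⟨le_rfl, ht.1⟩)
  have hCb : 0 ≤ Cb := h.Cb_nn (ht.1.trans ht.2)
  have h1 := h.N3_le (hsub' hs) (fun r hr => hε r ⟨hr.1, hr.2.trans hs.2⟩)
  have h2 : Cb * (1 + 6 * ε) * s ≤ Cb * (1 + 6 * ε) * t :=
    mul_le_mul_of_nonneg_left hs.2 (by positivity)
  have h3 : |2 * d.al s * d.M3 s| ≤ 2 * (ε * Cb) := by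
    rw [abs_mul, abs_mul, abs_of_nonneg (h.al_nn s (hsub' hs))]
    calc |(2:ℝ)| * d.al s * |d.M3 s| = 2 * (d.al s * |d.M3 s|) := by norm_num; ring
      _ ≤ 2 * (ε * Cb) := by
          apply mul_le_mul_of_nonneg_left _ (by norm_num)
          exact mul_le_mul (hε s hs) (h.M3_bd s (hsub' hs)) (abs_nonneg _) hε0
  calc |d.N3 s - 2 * d.al s * d.M3 s| ≤ |d.N3 s| + |2 * d.al s * d.M3 s| := abs_sub _ _
    _ ≤ Cb * (1 + 6 * ε) * t + 2 * (ε * Cb) := add_le_add (h1.trans h2) h3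
    _ = _ := by ring

/-- Taylor, first order: `|Γ'(k) - Γ'(0)| ≤ H k` -/
theorem Ok.M2_taylor (h : d.Ok Cb) {t H : ℝ} (ht : t ∈ Icc 0 d.τ)
    (hH : ∀ s ∈ Icc 0 t, |d.N3 s - 2 * d.al s * d.M3 s| ≤ H) : ∀ k ∈ Icc 0 t, |d.M2 k - d.M2 0| ≤ H * k := by
  intro k hk
  rw [h.M2_eq k ⟨hk.1, hk.2.trans ht.2⟩, add_sub_cancel_left]
  exact ss_int_le hk.1 (fun s hs => hH s ⟨hs.1, hs.2.trans hk.2⟩)

/-- Taylor, second order: `|Γ(k) - Γ'(0) k| ≤ H k²/2` -/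
theorem Ok.Gam_taylor (h : d.Ok Cb) {t H : ℝ} (ht : t ∈ Icc 0 d.τ)
    (hH : ∀ s ∈ Icc 0 t, |d.N3 s - 2 * d.al s * d.M3 s| ≤ H) : ∀ k ∈ Icc 0 t, |d.Gam k - d.M2 0 * k| ≤ H * k ^ 2 / 2 := by
  intro k hk
  have hk' : k ∈ Icc 0 d.τ := ⟨hk.1, hk.2.trans ht.2⟩
  have i1 : IntervalIntegrable d.M2 volume 0 k := (h.M2_cont.mono (Ok.sub hk')).intervalIntegrable
  have e : d.Gam k - d.M2 0 * k = ∫ s in (0:ℝ)..k, (d.M2 s - d.M2 0) := by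
    rw [h.Gam_eq k hk', intervalIntegral.integral_sub i1 (by simp)]
    simp
    ring
  rw [e]
  exact ss_int_le_sq hk.1 (fun s hs => h.M2_taylor ht hH s ⟨hs.1, hs.2.trans hk.2⟩)

/-- calibration of the linear term at a positive clock `Kc` -/
theorem Ok.calib (h : d.Ok Cb) {Kc H c : ℝ} (hK : Kc ∈ Icc 0 d.τ) (hK0 : 0 < Kc)
    (hH : ∀ s ∈ Icc 0 Kc, |d.N3 s - 2 * d.al s * d.M3 s| ≤ H) :
    |d.M2 0 - c| ≤ |d.Gam Kc - c * Kc| / Kc + H * Kc / 2 := by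
  have h1 := h.Gam_taylor hK hH Kc ⟨hK0.le, le_rfl⟩
  have h2 : (d.M2 0 - c) * Kc = (d.Gam Kc - c * Kc) - (d.Gam Kc - d.M2 0 * Kc) := by ring
  have h3 : |d.M2 0 - c| * Kc ≤ |d.Gam Kc - c * Kc| + H * Kc ^ 2 / 2 := by
    rw [← abs_of_pos hK0, ← abs_mul, abs_of_pos hK0, h2]
    exact (abs_sub _ _).trans (add_le_add le_rfl h1)
  have h4 : |d.Gam Kc - c * Kc| / Kc + H * Kc / 2 = (|d.Gam Kc - c * Kc| + H * Kc ^ 2 / 2) / Kc := by
    field_simp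
  rw [h4, le_div_iff₀ hK0]
  exact h3

/-- the defect `Γ(k) - c k` below the calibration clock -/
theorem Ok.defect (h : d.Ok Cb) {Kc H c : ℝ} (hK : Kc ∈ Icc 0 d.τ)
    (hH : ∀ s ∈ Icc 0 Kc, |d.N3 s - 2 * d.al s * d.M3 s| ≤ H) :
    ∀ k ∈ Icc 0 Kc, |d.Gam k - c * k| ≤ |d.M2 0 - c| * k + H * k ^ 2 / 2 := by
  intro k hk
  have h1 := h.Gam_taylor hK hH k hk
  have h2 : d.Gam k - c * k = (d.M2 0 - c) * k + (d.Gam k - d.M2 0 * k) := by ring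
  rw [h2]
  refine (abs_add_le _ _).trans (add_le_add ?_ h1)
  rw [abs_mul, abs_of_nonneg hk.1]

end SsCur

/-- **PE Lemma 5.5 (uniform scalar linearization)**, non-asymptotic.   `cT = 1/T`.   `Kc` = calibration clock, `C x ≤ Kc ≤ C2 x`; mass `≤ C3 x` below it;
`|Γ(Kc) - Kc/T| ≤ C4 x³`.   Then `Γ'(0) = 1/T + O(x²)` and `sup_{k ≤ Kc} |Γ(k) - k/T| = O(x³)`, the constant depends only on `Cb, C, C2, C3, C4`.
TEX[PE:prof:low-clock-linearization] -/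
theorem ss_low_clock (Cb C C2 C3 C4 : ℝ) (hC : 0 < C) :
    ∃ C' : ℝ, ∀ (d : SsCur) (x cT Kc : ℝ), d.Ok Cb → 0 < x → x ≤ 1 → Kc ∈ Icc 0 d.τ → C * x ≤ Kc → Kc ≤ C2 * x →
      (∀ s ∈ Icc 0 Kc, d.al s ≤ C3 * x) → |d.Gam Kc - cT * Kc| ≤ C4 * x ^ 3 →
      |d.M2 0 - cT| ≤ C' * x ^ 2 ∧ ∀ k ∈ Icc 0 Kc, |d.Gam k - cT * k| ≤ C' * x ^ 3 := by
  set H0 : ℝ := Cb * ((1 + 6 * C3) * C2 + 2 * C3) with hH0
  set A0 : ℝ := C4 / C + H0 * C2 / 2 with hA0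
  refine ⟨max A0 (A0 * C2 + H0 * C2 ^ 2 / 2), fun d x cT Kc h hx hx1 hK hK1 hK2 hal hcal => ?_⟩
  have hK0 : 0 < Kc := lt_of_lt_of_le (mul_pos hC hx) hK1
  have hCb : 0 ≤ Cb := h.Cb_nn (hK.1.trans hK.2)
  have hC2 : 0 < C2 := by
    by_contra hn
    have : C2 * x ≤ 0 := mul_nonpos_of_nonpos_of_nonneg (not_lt.mp hn) hx.le
    linarith
  have hC3 : 0 ≤ C3 := by
    have h1 := (h.al_nn 0 ⟨le_rfl, hK.1.trans hK.2⟩).trans (hal 0 ⟨le_rfl, hK.1⟩)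
    by_contra hn
    have : C3 * x < 0 := mul_neg_of_neg_of_pos (not_le.mp hn) hx
    linarith
  have hH0nn : 0 ≤ H0 := by rw [hH0]; positivity
  -- the bound of the second derivative
  have hH : ∀ s ∈ Icc 0 Kc, |d.N3 s - 2 * d.al s * d.M3 s| ≤ H0 * x := by
    intro s hs
    refine (h.Gam2_le hK hal s hs).trans ?_
    rw [hH0, mul_assoc]
    apply mul_le_mul_of_nonneg_left _ hCb
    have a1 : (1 + 6 * (C3 * x)) ≤ 1 + 6 * C3 := by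
      have : C3 * x ≤ C3 * 1 := mul_le_mul_of_nonneg_left hx1 hC3
      linarith
    have a2 : (1 + 6 * (C3 * x)) * Kc ≤ (1 + 6 * C3) * (C2 * x) :=
      mul_le_mul a1 hK2 hK0.le (by positivity)
    nlinarith [a2]
  have hcal' : |d.Gam Kc - cT * Kc| / Kc ≤ C4 / C * x ^ 2 := by
    rw [div_le_iff₀ hK0]
    have hC4 : 0 ≤ C4 := by
      have := (abs_nonneg _).trans hcal
      by_contra hn
      have : C4 * x ^ 3 < 0 := mul_neg_of_neg_of_pos (not_le.mp hn) (by positivity)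
      linarith
    have : C4 / C * x ^ 2 * (C * x) ≤ C4 / C * x ^ 2 * Kc :=
      mul_le_mul_of_nonneg_left hK1 (by positivity)
    have e : C4 / C * x ^ 2 * (C * x) = C4 * x ^ 3 := by field_simp
    linarith
  have hA : |d.M2 0 - cT| ≤ A0 * x ^ 2 := by
    refine (h.calib (c := cT) hK hK0 hH).trans ?_
    have : H0 * x * Kc / 2 ≤ H0 * C2 / 2 * x ^ 2 := by
      have : H0 * x * Kc ≤ H0 * x * (C2 * x) := mul_le_mul_of_nonneg_left hK2 (by positivity)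
      nlinarith [this]
    rw [hA0, add_mul]
    exact add_le_add hcal' this
  have hA0nn : 0 ≤ A0 := by
    have := (abs_nonneg _).trans hA
    by_contra hn
    have : A0 * x ^ 2 < 0 := mul_neg_of_neg_of_pos (not_le.mp hn) (by positivity)
    linarith
  refine ⟨hA.trans (mul_le_mul_of_nonneg_right (le_max_left _ _) (by positivity)), fun k hk => ?_⟩
  refine (h.defect (c := cT) hK hH k hk).trans ?_
  have hkx : k ≤ C2 * x := hk.2.trans hK2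
  have b1 : |d.M2 0 - cT| * k ≤ A0 * x ^ 2 * (C2 * x) := mul_le_mul hA hkx hk.1 (by positivity)
  have b2 : H0 * x * k ^ 2 / 2 ≤ H0 * x * (C2 * x) ^ 2 / 2 := by
    have : k ^ 2 ≤ (C2 * x) ^ 2 := pow_le_pow_left₀ hk.1 hkx 2
    have := mul_le_mul_of_nonneg_left this (by positivity : 0 ≤ H0 * x)
    linarith
  have b3 : A0 * x ^ 2 * (C2 * x) + H0 * x * (C2 * x) ^ 2 / 2 = (A0 * C2 + H0 * C2 ^ 2 / 2) * x ^ 3 := by ring
  calc |d.M2 0 - cT| * k + H0 * x * k ^ 2 / 2 ≤ (A0 * C2 + H0 * C2 ^ 2 / 2) * x ^ 3 := by linarith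
    _ ≤ _ := mul_le_mul_of_nonneg_right (le_max_right _ _) (by positivity)

/-! ## B. rescaling at the test scale `x` (the scalar fields of `RgDat`, `Rig/Defs.lean`) -/

namespace SsCur

/-- `g t = (Γ(T x t) - x t)/x³` -/
noncomputable def g (d : SsCur) (T x t : ℝ) : ℝ := (d.Gam (T * x * t) - x * t) / x ^ 3
/-- `g' = (T Γ'(T x t) - 1)/x²` -/
noncomputable def g1 (d : SsCur) (T x t : ℝ) : ℝ := (T * d.M2 (T * x * t) - 1) / x ^ 2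
/-- `P = T² E V_zzz²(T x t)/x` -/
noncomputable def P (d : SsCur) (T x t : ℝ) : ℝ := T ^ 2 * d.N3 (T * x * t) / x
/-- `Bc = 2 T² E V_zz³(T x t)` -/
noncomputable def Bc (d : SsCur) (T x t : ℝ) : ℝ := 2 * T ^ 2 * d.M3 (T * x * t)
/-- `aK = α_K(x t)/x` (scalar time `q = k/T`) -/
noncomputable def aK (d : SsCur) (T x t : ℝ) : ℝ := d.al (T * x * t) / x

variable {d : SsCur} {Cb T x R : ℝ}

theorem Ok.mem (hT : 0 < T) (hx : 0 < x) (hR : T * x * R ≤ d.τ) {t : ℝ} (ht0 : 0 ≤ t) (htR : t ≤ R) :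
    T * x * t ∈ Icc 0 d.τ :=
  ⟨by positivity, (mul_le_mul_of_nonneg_left htR (by positivity)).trans hR⟩

theorem Ok.g_eq (h : d.Ok Cb) (hT : 0 < T) (hx : 0 < x) (hR : T * x * R ≤ d.τ) :
    ∀ t, 0 ≤ t → t ≤ R → d.g T x t = ∫ s in (0:ℝ)..t, d.g1 T x s := by
  intro t ht0 htR
  have hm := Ok.mem hT hx hR ht0 htR
  have hc : T * x ≠ 0 := (mul_pos hT hx).ne'
  have i1 : IntervalIntegrable (fun s => d.M2 (T * x * s)) volume 0 t := by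
    apply ContinuousOn.intervalIntegrable
    rw [uIcc_of_le ht0]
    apply h.M2_cont.comp (by fun_prop)
    intro s hs
    exact Ok.mem hT hx hR hs.1 (hs.2.trans htR)
  have e1 : (∫ s in (0:ℝ)..t, d.M2 (T * x * s)) = (T * x)⁻¹ * d.Gam (T * x * t) := by
    rw [intervalIntegral.integral_comp_mul_left _ hc, h.Gam_eq _ hm]
    simp
  unfold g g1
  rw [intervalIntegral.integral_div, intervalIntegral.integral_sub (i1.const_mul T) (by simp),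
    intervalIntegral.integral_const_mul, e1]
  simp only [intervalIntegral.integral_const, sub_zero, smul_eq_mul, mul_one]
  field_simp

theorem Ok.g1_eq (h : d.Ok Cb) (hT : 0 < T) (hx : 0 < x) (hR : T * x * R ≤ d.τ) :
    ∀ t, 0 ≤ t → t ≤ R → d.g1 T x t = d.g1 T x 0 + ∫ s in (0:ℝ)..t, (d.P T x s - d.Bc T x s * d.aK T x s) := by
  intro t ht0 htR
  have hm := Ok.mem hT hx hR ht0 htR
  have hc : T * x ≠ 0 := (mul_pos hT hx).ne'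
  have e0 : ∀ s, d.P T x s - d.Bc T x s * d.aK T x s =
      T ^ 2 / x * (fun k => d.N3 k - 2 * d.al k * d.M3 k) (T * x * s) := by
    intro s
    unfold P Bc aK
    field_simp
  simp only [e0]
  rw [intervalIntegral.integral_const_mul,
    intervalIntegral.integral_comp_mul_left (fun k => d.N3 k - 2 * d.al k * d.M3 k) hc]
  have e1 := h.M2_eq _ hm
  simp only [mul_zero, smul_eq_mul]
  have e2 : (∫ k in (0:ℝ)..T * x * t, (d.N3 k - 2 * d.al k * d.M3 k)) = d.M2 (T * x * t) - d.M2 0 := by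
    rw [e1]; ring
  rw [e2]
  unfold g1
  simp only [mul_zero]
  field_simp
  ring

theorem Ok.P_cont (h : d.Ok Cb) (hT : 0 < T) (hx : 0 < x) (hR : T * x * R ≤ d.τ) :
    ContinuousOn (d.P T x) (Icc 0 R) := by
  unfold P
  apply ContinuousOn.div_const
  apply ContinuousOn.mul continuousOn_const
  apply h.N3_cont.comp (by fun_prop)
  intro s hs
  exact Ok.mem hT hx hR hs.1 hs.2

theorem Ok.Bc_cont (h : d.Ok Cb) (hT : 0 < T) (hx : 0 < x) (hR : T * x * R ≤ d.τ) :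
    ContinuousOn (d.Bc T x) (Icc 0 R) := by
  unfold Bc
  apply ContinuousOn.mul continuousOn_const
  apply h.M3_cont.comp (by fun_prop)
  intro s hs
  exact Ok.mem hT hx hR hs.1 hs.2

theorem Ok.aK_mono (h : d.Ok Cb) (hT : 0 < T) (hx : 0 < x) (hR : T * x * R ≤ d.τ) :
    MonotoneOn (d.aK T x) (Icc 0 R) := by
  intro s hs t ht hst
  unfold aK
  apply div_le_div_of_nonneg_right _ hx.le
  exact h.al_mono (Ok.mem hT hx hR hs.1 hs.2) (Ok.mem hT hx hR ht.1 ht.2)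
    (mul_le_mul_of_nonneg_left hst (by positivity))

theorem Ok.aK_nn (h : d.Ok Cb) (hT : 0 < T) (hx : 0 < x) (hR : T * x * R ≤ d.τ) :
    ∀ t ∈ Icc 0 R, 0 ≤ d.aK T x t := by
  intro t ht
  unfold aK
  exact div_nonneg (h.al_nn _ (Ok.mem hT hx hR ht.1 ht.2)) hx.le

/-- quantitative form of `P → A t`: `|P(t) - T³ N4(0) t| ≤ Cb T³ x (T t²/2 + 6 C' t)` when `aK ≤ C'` on `[0,t]` -/
theorem Ok.P_exp (h : d.Ok Cb) (hT : 0 < T) (hx : 0 < x) (hR : T * x * R ≤ d.τ) {t C' : ℝ} (ht0 : 0 ≤ t) (htR : t ≤ R)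
    (hC' : ∀ s ∈ Icc 0 t, d.aK T x s ≤ C') :
    |d.P T x t - T ^ 3 * d.N4 0 * t| ≤ Cb * T ^ 3 * x * (T * t ^ 2 / 2 + 6 * C' * t) := by
  have hm := Ok.mem hT hx hR ht0 htR
  have hTx : 0 < T * x := mul_pos hT hx
  have hal : ∀ k ∈ Icc 0 (T * x * t), d.al k ≤ C' * x := by
    intro k hk
    have hs : k / (T * x) ∈ Icc 0 t := ⟨div_nonneg hk.1 hTx.le, by rw [div_le_iff₀ hTx]; linarith [hk.2]⟩
    have := hC' _ hs
    unfold aK at this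
    rw [mul_div_cancel₀ _ hTx.ne', div_le_iff₀ hx] at this
    exact this
  have h1 := h.N3_exp hm hal
  have e : d.P T x t - T ^ 3 * d.N4 0 * t = T ^ 2 / x * (d.N3 (T * x * t) - d.N4 0 * (T * x * t)) := by
    unfold P; field_simp
  rw [e, abs_mul, abs_of_pos (by positivity : 0 < T ^ 2 / x)]
  have h2 := mul_le_mul_of_nonneg_left h1 (by positivity : 0 ≤ T ^ 2 / x)
  refine h2.trans (le_of_eq ?_)
  field_simp

/-- quantitative form of `Bc → B` -/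
theorem Ok.Bc_exp (h : d.Ok Cb) (hT : 0 < T) (hx : 0 < x) (hR : T * x * R ≤ d.τ) {t : ℝ} (ht0 : 0 ≤ t) (htR : t ≤ R) :
    |d.Bc T x t - 2 * T ^ 2 * d.M3 0| ≤ 2 * T ^ 3 * Cb * x * t := by
  have hm := Ok.mem hT hx hR ht0 htR
  have h1 := h.M3_lip _ hm
  have e : d.Bc T x t - 2 * T ^ 2 * d.M3 0 = 2 * T ^ 2 * (d.M3 (T * x * t) - d.M3 0) := by
    unfold Bc; ring
  rw [e, abs_mul, abs_of_pos (by positivity : 0 < 2 * T ^ 2)]
  have h2 := mul_le_mul_of_nonneg_left h1 (by positivity : 0 ≤ 2 * T ^ 2)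
  refine h2.trans (le_of_eq ?_)
  ring

end SsCur

/-! ## C. limits along a filter (the fields `P_lim`, `Bc_lim` of `RgHyp`) -/

section lim

variable {ι : Type*} {l : Filter ι} (D : ι → SsCur) (Tn xn Rn : ι → ℝ) {Cb T a4 a2 : ℝ}

/-- **PE Lemma 5.4, "the second derivative of the scalar defect", first limit**:   `T² E V_zzz²(x t)/x → T³ a₄² t` locally uniformly.
`a4` = limit of `N4 0 = V_zzzz(0,0)²`.   TEX[PE:prof:scalar-compactness] (l.285-325) -/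
theorem ss_P_lim (hok : ∀ᶠ n in l, (D n).Ok Cb) (hT : 0 < T) (hTl : Tendsto Tn l (𝓝 T)) (hx : ∀ᶠ n in l, 0 < xn n)
    (hxl : Tendsto xn l (𝓝 0)) (hR : ∀ᶠ n in l, Tn n * xn n * Rn n ≤ (D n).τ) (hRl : Tendsto Rn l atTop)
    (hbd : ∀ C : ℝ, ∃ C' : ℝ, ∀ᶠ n in l, ∀ t ∈ Icc 0 C, (D n).aK (Tn n) (xn n) t ≤ C')
    (h4 : Tendsto (fun n => (D n).N4 0) l (𝓝 a4)) (C : ℝ) :
    TendstoUniformlyOn (fun n => (D n).P (Tn n) (xn n)) (fun t => T ^ 3 * a4 * t) l (Icc 0 C) := by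
  rw [Metric.tendstoUniformlyOn_iff]
  intro ε hε
  obtain ⟨C', hC'⟩ := hbd C
  set C1 := max C' 0 with hC1
  have hlim : Tendsto (fun n => Cb * Tn n ^ 3 * xn n * (Tn n * C ^ 2 / 2 + 6 * C1 * C) +
      |Tn n ^ 3 * (D n).N4 0 - T ^ 3 * a4| * C) l (𝓝 (Cb * T ^ 3 * 0 * (T * C ^ 2 / 2 + 6 * C1 * C) +
      |T ^ 3 * a4 - T ^ 3 * a4| * C)) := by
    apply Tendsto.add
    · exact ((tendsto_const_nhds.mul (hTl.pow 3)).mul hxl).mul
        (((hTl.mul_const _).div_const _).add tendsto_const_nhds)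
    · exact ((((hTl.pow 3).mul h4).sub tendsto_const_nhds).abs).mul_const _
  simp only [mul_zero, zero_mul, sub_self, abs_zero, add_zero] at hlim
  have hTpos : ∀ᶠ n in l, 0 < Tn n := hTl.eventually (lt_mem_nhds hT)
  filter_upwards [hok, hx, hR, hC', hlim.eventually (gt_mem_nhds hε), hTpos,
    hRl.eventually (eventually_ge_atTop C)] with n hok hx hR hC' hlt hTn hRC t ht
  have hτ : 0 ≤ (D n).τ := (SsCur.Ok.mem hTn hx hR ht.1 (ht.2.trans hRC)).1.trans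
    (SsCur.Ok.mem hTn hx hR ht.1 (ht.2.trans hRC)).2
  have hCb : 0 ≤ Cb := hok.Cb_nn hτ
  have h1 := hok.P_exp hTn hx hR (t := t) (C' := C1) ht.1 (ht.2.trans hRC)
    (fun s hs => (hC' s ⟨hs.1, hs.2.trans ht.2⟩).trans (le_max_left _ _))
  have hC10 : 0 ≤ C1 := le_max_right _ _
  have hC0 : 0 ≤ C := ht.1.trans ht.2
  have h2 : Cb * Tn n ^ 3 * xn n * (Tn n * t ^ 2 / 2 + 6 * C1 * t) ≤
      Cb * Tn n ^ 3 * xn n * (Tn n * C ^ 2 / 2 + 6 * C1 * C) := by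
    apply mul_le_mul_of_nonneg_left _ (by positivity)
    have a1 : t ^ 2 ≤ C ^ 2 := pow_le_pow_left₀ ht.1 ht.2 2
    have a2 := mul_le_mul_of_nonneg_left a1 hTn.le
    have a3 := mul_le_mul_of_nonneg_left ht.2 (by positivity : 0 ≤ 6 * C1)
    linarith
  have h3 : |Tn n ^ 3 * (D n).N4 0 * t - T ^ 3 * a4 * t| ≤ |Tn n ^ 3 * (D n).N4 0 - T ^ 3 * a4| * C := by
    rw [← sub_mul, abs_mul, abs_of_nonneg ht.1]
    exact mul_le_mul_of_nonneg_left ht.2 (abs_nonneg _)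
  rw [Real.dist_eq, abs_sub_comm]
  have e : (D n).P (Tn n) (xn n) t - T ^ 3 * a4 * t = ((D n).P (Tn n) (xn n) t - Tn n ^ 3 * (D n).N4 0 * t) +
      (Tn n ^ 3 * (D n).N4 0 * t - T ^ 3 * a4 * t) := by ring
  rw [e]
  calc _ ≤ |(D n).P (Tn n) (xn n) t - Tn n ^ 3 * (D n).N4 0 * t| + |Tn n ^ 3 * (D n).N4 0 * t - T ^ 3 * a4 * t| :=
        abs_add_le _ _
    _ ≤ _ := add_le_add (h1.trans h2) h3
    _ < ε := hlt

/-- **second limit**:   `2 T² E V_zz³(x t) → 2 T² a₂³` locally uniformly.   `a2` = limit of `M3 0 = V_zz(0,0)³`. -/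
theorem ss_Bc_lim (hok : ∀ᶠ n in l, (D n).Ok Cb) (hT : 0 < T) (hTl : Tendsto Tn l (𝓝 T)) (hx : ∀ᶠ n in l, 0 < xn n)
    (hxl : Tendsto xn l (𝓝 0)) (hR : ∀ᶠ n in l, Tn n * xn n * Rn n ≤ (D n).τ) (hRl : Tendsto Rn l atTop)
    (h2 : Tendsto (fun n => (D n).M3 0) l (𝓝 a2)) (C : ℝ) :
    TendstoUniformlyOn (fun n => (D n).Bc (Tn n) (xn n)) (fun _ => 2 * T ^ 2 * a2) l (Icc 0 C) := by
  rw [Metric.tendstoUniformlyOn_iff]
  intro ε hε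
  have hlim : Tendsto (fun n => 2 * Tn n ^ 3 * Cb * xn n * C + |2 * Tn n ^ 2 * (D n).M3 0 - 2 * T ^ 2 * a2|) l
      (𝓝 (2 * T ^ 3 * Cb * 0 * C + |2 * T ^ 2 * a2 - 2 * T ^ 2 * a2|)) := by
    apply Tendsto.add
    · exact ((((hTl.pow 3).const_mul 2).mul_const Cb).mul hxl).mul_const C
    · exact ((((hTl.pow 2).const_mul 2).mul h2).sub tendsto_const_nhds).abs
  simp only [mul_zero, zero_mul, sub_self, abs_zero, add_zero] at hlim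
  have hTpos : ∀ᶠ n in l, 0 < Tn n := hTl.eventually (lt_mem_nhds hT)
  filter_upwards [hok, hx, hR, hlim.eventually (gt_mem_nhds hε), hTpos,
    hRl.eventually (eventually_ge_atTop C)] with n hok hx hR hlt hTn hRC t ht
  have hτ : 0 ≤ (D n).τ := (SsCur.Ok.mem hTn hx hR ht.1 (ht.2.trans hRC)).1.trans
    (SsCur.Ok.mem hTn hx hR ht.1 (ht.2.trans hRC)).2
  have hCb : 0 ≤ Cb := hok.Cb_nn hτ
  have h1 := hok.Bc_exp hTn hx hR (t := t) ht.1 (ht.2.trans hRC)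
  have h2' : 2 * Tn n ^ 3 * Cb * xn n * t ≤ 2 * Tn n ^ 3 * Cb * xn n * C :=
    mul_le_mul_of_nonneg_left ht.2 (by positivity)
  rw [Real.dist_eq, abs_sub_comm]
  have e : (D n).Bc (Tn n) (xn n) t - 2 * T ^ 2 * a2 = ((D n).Bc (Tn n) (xn n) t - 2 * Tn n ^ 2 * (D n).M3 0) +
      (2 * Tn n ^ 2 * (D n).M3 0 - 2 * T ^ 2 * a2) := by ring
  rw [e]
  calc _ ≤ |(D n).Bc (Tn n) (xn n) t - 2 * Tn n ^ 2 * (D n).M3 0| + |2 * Tn n ^ 2 * (D n).M3 0 - 2 * T ^ 2 * a2| :=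
        abs_add_le _ _
    _ ≤ _ := add_le_add (h1.trans h2') le_rfl
    _ < ε := hlt

end lim

/-- a bounded real sequence converges along an ultrafilter, the limit obeys the same bounds -/
theorem ss_ultra_lim {ι : Type*} (𝒰 : Ultrafilter ι) (f : ι → ℝ) {c C : ℝ} (h : ∀ᶠ n in (𝒰 : Filter ι), f n ∈ Icc c C) :
    ∃ a ∈ Icc c C, Tendsto f (𝒰 : Filter ι) (𝓝 a) := by
  have h1 : Icc c C ∈ 𝒰.map f := h
  obtain ⟨a, ha, hle⟩ := isCompact_Icc.ultrafilter_le_nhds' (𝒰.map f) h1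
  exact ⟨a, ha, hle⟩

/-- **THE SCALAR SUPPLY OF `RgHyp`** (fields `A_pos`, `B_pos`, `P_lim`, `Bc_lim`), along an ultrafilter.   `c` = strict curvature of PE Lemma 5.3
(`c ≤ V_zzzz(0,0)²`, `c ≤ V_zz(0,0)³`).   The bounds on `A, B` depend only on `T, c, Cb`. -/
theorem ss_rig_lim {ι : Type*} (𝒰 : Ultrafilter ι) (D : ι → SsCur) (Tn xn Rn : ι → ℝ) {Cb T c : ℝ}
    (hok : ∀ᶠ n in (𝒰 : Filter ι), (D n).Ok Cb) (hT : 0 < T) (hTl : Tendsto Tn (𝒰 : Filter ι) (𝓝 T))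
    (hx : ∀ᶠ n in (𝒰 : Filter ι), 0 < xn n) (hxl : Tendsto xn (𝒰 : Filter ι) (𝓝 0))
    (hR : ∀ᶠ n in (𝒰 : Filter ι), Tn n * xn n * Rn n ≤ (D n).τ) (hRl : Tendsto Rn (𝒰 : Filter ι) atTop)
    (hbd : ∀ C : ℝ, ∃ C' : ℝ, ∀ᶠ n in (𝒰 : Filter ι), ∀ t ∈ Icc 0 C, (D n).aK (Tn n) (xn n) t ≤ C')
    (hc : 0 < c) (hcurv : ∀ᶠ n in (𝒰 : Filter ι), c ≤ (D n).N4 0 ∧ c ≤ (D n).M3 0) :
    ∃ A B : ℝ, T ^ 3 * c ≤ A ∧ A ≤ T ^ 3 * Cb ∧ 2 * T ^ 2 * c ≤ B ∧ B ≤ 2 * T ^ 2 * Cb ∧ 0 < A ∧ 0 < B ∧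
      (∀ C : ℝ, TendstoUniformlyOn (fun n => (D n).P (Tn n) (xn n)) (fun t => A * t) (𝒰 : Filter ι) (Icc 0 C)) ∧
      (∀ C : ℝ, TendstoUniformlyOn (fun n => (D n).Bc (Tn n) (xn n)) (fun _ => B) (𝒰 : Filter ι) (Icc 0 C)) := by
  have hTpos : ∀ᶠ n in (𝒰 : Filter ι), 0 < Tn n := hTl.eventually (lt_mem_nhds hT)
  have hτ : ∀ᶠ n in (𝒰 : Filter ι), (0:ℝ) ∈ Icc 0 (D n).τ := by
    filter_upwards [hx, hR, hTpos, hRl.eventually (eventually_ge_atTop 0)] with n hx hR hTn hR0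
    have := SsCur.Ok.mem hTn hx hR le_rfl hR0
    exact ⟨le_rfl, this.1.trans this.2⟩
  obtain ⟨a4, ha4, l4⟩ := ss_ultra_lim 𝒰 (fun n => (D n).N4 0) (c := c) (C := Cb) (by
    filter_upwards [hok, hcurv, hτ] with n hok hcv hτ
    exact ⟨hcv.1, (le_abs_self _).trans (hok.N4_bd 0 hτ)⟩)
  obtain ⟨a2, ha2, l2⟩ := ss_ultra_lim 𝒰 (fun n => (D n).M3 0) (c := c) (C := Cb) (by
    filter_upwards [hok, hcurv, hτ] with n hok hcv hτ
    exact ⟨hcv.2, (le_abs_self _).trans (hok.M3_bd 0 hτ)⟩)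
  have p4 : 0 < a4 := lt_of_lt_of_le hc ha4.1
  have p2 : 0 < a2 := lt_of_lt_of_le hc ha2.1
  refine ⟨T ^ 3 * a4, 2 * T ^ 2 * a2, mul_le_mul_of_nonneg_left ha4.1 (by positivity),
    mul_le_mul_of_nonneg_left ha4.2 (by positivity), mul_le_mul_of_nonneg_left ha2.1 (by positivity),
    mul_le_mul_of_nonneg_left ha2.2 (by positivity), by positivity, by positivity,
    ss_P_lim D Tn xn Rn hok hT hTl hx hxl hR hRl hbd l4, ss_Bc_lim D Tn xn Rn hok hT hTl hx hxl hR hRl l2⟩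

/-! ## D. the instance on the official definitions -/

/-- the moment curves of the general profile `α` on `[0,τ]`, terminal datum `a⁻¹ log cosh (a z)` (variance time) -/
noncomputable def ssOf (a : ℝ) (α : ℝ → ℝ) (τ : ℝ) : SsCur where
  τ := τ
  al := α
  Gam := scaGam (scLC a) α τ
  M2 := scaM2 (scLC a) α τ
  M3 := scaM3 (scLC a) α τ
  N3 := scaN3 (scLC a) α τ
  N4 := scaN4 (scLC a) α τ
  M13 := scaM13 (scLC a) α τ

/-- INPUT (S5 moment curves + S3 bounds; PE Lemma 5.3, first half): the Dynkin chain with a constant which depends only on the terminal mass and on the bound `Q` of the total variance.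
`M3' = 3 M13 - 3 α M4`,  `N4' = E V₅² - α E[8 V₂ V₄² + 6 V₃² V₄]`. -/
def SsSupply (a Q : ℝ) : Prop :=
  ∃ Cb : ℝ, ∀ (α : ℝ → ℝ) (τ : ℝ), 0 ≤ τ → τ ≤ Q → ScCoef a τ α → (ssOf a α τ).Ok Cb

/-- INPUT (S6; PE Lemma 5.3, second half): `V_zz(0,0) ≥ c`, `-V_zzzz(0,0) ≥ c`, in the form `E V_zz³(0) ≥ c`, `E V_zzzz²(0) ≥ c` -/
def SsCurvLow (a Q : ℝ) : Prop :=
  ∃ c : ℝ, 0 < c ∧ ∀ (α : ℝ → ℝ) (τ : ℝ), 0 ≤ τ → τ ≤ Q → ScCoef a τ α →
    c ≤ (ssOf a α τ).N4 0 ∧ c ≤ (ssOf a α τ).M3 0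

/-- **the scalar supply of `RgHyp` for the official scalar objects.**   `αn n` = mass profile (variance time) of the scalar clock of the `n`-th system, horizon `τn n ≤ Q`. -/
theorem ss_rig_of {ι : Type*} (𝒰 : Ultrafilter ι) {a Q T : ℝ} (hS : SsSupply a Q) (hL : SsCurvLow a Q)
    (αn : ι → ℝ → ℝ) (τn Tn xn Rn : ι → ℝ)
    (hα : ∀ᶠ n in (𝒰 : Filter ι), 0 ≤ τn n ∧ τn n ≤ Q ∧ ScCoef a (τn n) (αn n))
    (hT : 0 < T) (hTl : Tendsto Tn (𝒰 : Filter ι) (𝓝 T))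
    (hx : ∀ᶠ n in (𝒰 : Filter ι), 0 < xn n) (hxl : Tendsto xn (𝒰 : Filter ι) (𝓝 0))
    (hR : ∀ᶠ n in (𝒰 : Filter ι), Tn n * xn n * Rn n ≤ τn n) (hRl : Tendsto Rn (𝒰 : Filter ι) atTop)
    (hbd : ∀ C : ℝ, ∃ C' : ℝ, ∀ᶠ n in (𝒰 : Filter ι), ∀ t ∈ Icc 0 C, αn n (Tn n * xn n * t) / xn n ≤ C') :
    ∃ A B : ℝ, 0 < A ∧ 0 < B ∧
      (∀ C : ℝ, TendstoUniformlyOn (fun n => (ssOf a (αn n) (τn n)).P (Tn n) (xn n)) (fun t => A * t) (𝒰 : Filter ι) (Icc 0 C)) ∧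
      (∀ C : ℝ, TendstoUniformlyOn (fun n => (ssOf a (αn n) (τn n)).Bc (Tn n) (xn n)) (fun _ => B) (𝒰 : Filter ι) (Icc 0 C)) := by
  obtain ⟨Cb, hCb⟩ := hS
  obtain ⟨c, hc, hcv⟩ := hL
  obtain ⟨A, B, _, _, _, _, hA, hB, h1, h2⟩ := ss_rig_lim 𝒰 (fun n => ssOf a (αn n) (τn n)) Tn xn Rn (Cb := Cb) (T := T) (c := c)
    (by filter_upwards [hα] with n h using hCb _ _ h.1 h.2.1 h.2.2) hT hTl hx hxl hR hRl hbd hc
    (by filter_upwards [hα] with n h using hcv _ _ h.1 h.2.1 h.2.2)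
  exact ⟨A, B, hA, hB, h1, h2⟩

end Claimed.Agent.R286
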