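import Mathlib

/-!
# Row 286, scalar block, unit UQ (uniqueness + coercivity of the scalar Parisi functional), file 1: KIT      (owner helper141; prefix `sku_`; 0 sorry)

Ito-free route to the quantitative strict convexity of `α ↦ V_α(0,0)` (PE Lemma 5.8 first half, LL (G2) core; Auffinger-Chen).
## 1. maximum principle
* `sku_min_second`   second order necessary condition at a global minimum in one variable
* `sku_min_right`    first order necessary condition along a one-sided curve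
* `sku_curve`        derivative of `s ↦ V (t+s) (z+b s)` from the right time derivative, the space derivative and joint continuity of the latter
* `skuReg T`         the forward invariant region `0 ≤ t ≤ 1`, `|δ| ≤ (T/2) t` of the characteristic `δ' = (T/2) η m`, `|η m| ≤ 1`
* `sku_mp`           **weak minimum principle** on `skuReg T` for the degenerate backward operator `∂_t + b ∂_δ + (T/2) ∂_zz + μ ∂_z`
## 2. jets
`SkuJet T b μ F t z δ p g` : at the point `(t, z, δ)` the function `F` has the `z`-derivative `p` and the value `g` of the operator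
`𝓐 = (∂_t + b ∂_δ) + (T/2) ∂_zz + μ ∂_z`  (time derivative from the right, along the characteristic `δ + b s`).
Calculus: `add`, `sub`, `const_mul`, `mul` (`𝓐(FG) = F 𝓐G + G 𝓐F + T F_z G_z`), base jets (`time`, `delta`, `tz`, `shift`).
## 3. explicit weights
`skuL = log cosh`, `skuG K k t z = e^{-K(1-t)} / cosh^k z` (`𝓐 G ≥ (K - (3/2) T k) G`), barrier `skuB T t z = e^{3T(1-t)} (1 + z²)` (`𝓐 B < 0`).
-/

set_option autoImplicit false

namespace Claimed.Agent.R286

open Set Filter Topology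

/-- second order necessary condition at a global minimum -/
theorem sku_min_second {f f' : ℝ → ℝ} {c x0 : ℝ} (hf : ∀ x, HasDerivAt f (f' x) x) (hf' : HasDerivAt f' c x0)
    (hmin : ∀ x, f x0 ≤ f x) : f' x0 = 0 ∧ 0 ≤ c := by
  have h0 : f' x0 = 0 := by
    have : IsLocalMin f x0 := Filter.Eventually.of_forall hmin
    exact this.hasDerivAt_eq_zero (hf x0)
  refine ⟨h0, ?_⟩
  by_contra hc
  rw [not_le] at hc
  have hs := hasDerivAt_iff_tendsto_slope.1 hf'
  have hev : ∀ᶠ x in 𝓝[≠] x0, slope f' x0 x < 0 := hs.eventually (gt_mem_nhds hc)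
  rw [eventually_nhdsWithin_iff, Metric.eventually_nhds_iff] at hev
  obtain ⟨r, hr, hev⟩ := hev
  have hneg : ∀ x, x0 < x → x < x0 + r → f' x < 0 := by
    intro x h1 h2
    have h3 := hev (y := x) (by rw [Real.dist_eq, abs_of_pos (by linarith)]; linarith) (ne_of_gt h1)
    rw [slope_def_field, h0, sub_zero] at h3
    by_contra h4
    rw [not_lt] at h4
    exact absurd h3 (not_lt.2 (div_nonneg h4 (by linarith)))
  obtain ⟨ξ, hξ, he⟩ := exists_hasDerivAt_eq_slope f f' (a := x0) (b := x0 + r / 2) (by linarith)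
    (fun x _ => (hf x).continuousAt.continuousWithinAt) (fun x _ => hf x)
  have h5 := hneg ξ hξ.1 (by linarith [hξ.2])
  rw [he] at h5
  have h6 := hmin (x0 + r / 2)
  exact absurd h5 (not_lt.2 (div_nonneg (by linarith) (by linarith)))

/-- first order necessary condition along a one-sided curve -/
theorem sku_min_right {g : ℝ → ℝ} {d s0 : ℝ} (hg : HasDerivWithinAt g d (Ici 0) 0) (hs0 : 0 < s0)
    (hmin : ∀ s, 0 ≤ s → s < s0 → g 0 ≤ g s) : 0 ≤ d := by
  have hs := hasDerivWithinAt_iff_tendsto_slope.1 hg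
  have hset : Ici (0 : ℝ) \ {0} = Ioi 0 := by
    ext x
    simp only [Set.mem_sdiff, mem_Ici, mem_singleton_iff, mem_Ioi]
    constructor
    · rintro ⟨h1, h2⟩
      exact lt_of_le_of_ne h1 (Ne.symm h2)
    · intro h
      exact ⟨h.le, ne_of_gt h⟩
  rw [hset] at hs
  refine ge_of_tendsto hs ?_
  have : ∀ᶠ x in 𝓝[>] (0 : ℝ), x < s0 := by
    have := (gt_mem_nhds hs0 : ∀ᶠ x in 𝓝 (0 : ℝ), x < s0)
    exact this.filter_mono nhdsWithin_le_nhds
  filter_upwards [this, self_mem_nhdsWithin] with x hx hx0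
  rw [slope_def_field, sub_zero]
  exact div_nonneg (by linarith [hmin x (le_of_lt hx0) hx]) (le_of_lt hx0)

/-- derivative along a curve from the right time derivative, the space derivative and the joint continuity of the space derivative -/
theorem sku_curve {V V1 : ℝ → ℝ → ℝ} {t z b vt : ℝ} (ht : t ∈ Ico (0 : ℝ) 1)
    (hd1 : ∀ t' ∈ Ico (0 : ℝ) 1, ∀ z', HasDerivAt (V t') (V1 t' z') z')
    (hc1 : ContinuousOn (fun p : ℝ × ℝ => V1 p.1 p.2) (Icc (0 : ℝ) 1 ×ˢ univ))
    (hdt : HasDerivWithinAt (fun s => V s z) vt (Ici t) t) :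
    HasDerivWithinAt (fun s => V (t + s) (z + b * s)) (vt + b * V1 t z) (Ici 0) 0 := by
  have h2 : HasDerivWithinAt (fun s => V (t + s) z) vt (Ici 0) 0 := by
    have hin : HasDerivWithinAt (fun s : ℝ => t + s) 1 (Ici 0) 0 := ((hasDerivAt_id (0 : ℝ)).const_add t).hasDerivWithinAt
    have hdt' : HasDerivWithinAt (fun s => V s z) vt (Ici t) (t + 0) := by rwa [add_zero]
    have := HasDerivWithinAt.scomp (0 : ℝ) hdt' hin (fun s hs => by
      simp only [mem_Ici] at hs ⊢
      linarith)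
    have e : ((fun s => V s z) ∘ fun s : ℝ => t + s) = fun s => V (t + s) z := rfl
    rw [e] at this
    simpa using this
  have h1 : HasDerivWithinAt (fun s => V (t + s) (z + b * s) - V (t + s) z) (b * V1 t z) (Ici 0) 0 := by
    rw [hasDerivWithinAt_iff_isLittleO, Asymptotics.isLittleO_iff]
    intro c hc
    -- continuity of `V1` at `(t, z)`
    have hmem : ((t, z) : ℝ × ℝ) ∈ Icc (0 : ℝ) 1 ×ˢ (univ : Set ℝ) := ⟨⟨ht.1, ht.2.le⟩, mem_univ _⟩
    have hcw := hc1 (t, z) hmem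
    rw [Metric.continuousWithinAt_iff] at hcw
    obtain ⟨r, hr, hcw⟩ := hcw (c / (|b| + 1)) (by positivity)
    have hb1 : 0 < |b| + 1 := by positivity
    have hev : ∀ᶠ s in 𝓝[Ici (0 : ℝ)] 0, s < min (min (1 - t) r) (r / (|b| + 1)) := by
      have hpos : 0 < min (min (1 - t) r) (r / (|b| + 1)) := by
        refine lt_min (lt_min (by linarith [ht.2]) hr) (by positivity)
      exact (gt_mem_nhds hpos : ∀ᶠ s in 𝓝 (0 : ℝ), s < _).filter_mono nhdsWithin_le_nhds
    filter_upwards [hev, self_mem_nhdsWithin] with s hs hs0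
    simp only [mem_Ici] at hs0
    have hs1 : s < 1 - t := lt_of_lt_of_le hs ((min_le_left _ _).trans (min_le_left _ _))
    have hs2 : s < r := lt_of_lt_of_le hs ((min_le_left _ _).trans (min_le_right _ _))
    have hs3 : s < r / (|b| + 1) := lt_of_lt_of_le hs (min_le_right _ _)
    have hts : t + s ∈ Ico (0 : ℝ) 1 := ⟨by linarith [ht.1], by linarith⟩
    have hbs : |b * s| < r := by
      rw [abs_mul, abs_of_nonneg hs0]
      rw [lt_div_iff₀ hb1] at hs3
      nlinarith [abs_nonneg b]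
    have key := Convex.norm_image_sub_le_of_norm_hasDerivWithin_le (f := fun ζ => V (t + s) ζ - ζ * V1 t z)
      (f' := fun ζ => V1 (t + s) ζ - V1 t z) (C := c / (|b| + 1)) (s := Metric.ball z r) (x := z) (y := z + b * s)
      (fun ζ _ => by
        have := ((hd1 _ hts ζ).sub ((hasDerivAt_id ζ).mul_const (V1 t z))).hasDerivWithinAt (s := Metric.ball z r)
        have e : (V (t + s) - fun y => id y * V1 t z) = fun ζ => V (t + s) ζ - ζ * V1 t z := rfl
        rw [e] at this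
        simpa using this)
      (fun ζ hζ => by
        have hd : dist ((t + s, ζ) : ℝ × ℝ) (t, z) < r := by
          rw [Prod.dist_eq]
          refine max_lt ?_ hζ
          rw [Real.dist_eq]
          simp only [add_sub_cancel_left]
          rwa [abs_of_nonneg hs0]
        have := hcw (x := (t + s, ζ)) ⟨⟨hts.1, hts.2.le⟩, mem_univ _⟩ hd
        rw [Real.dist_eq] at this
        exact this.le)
      (convex_ball z r) (Metric.mem_ball_self hr)
      (by rw [Metric.mem_ball, Real.dist_eq]; simpa using hbs)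
    simp only [add_zero, mul_zero, sub_self, sub_zero, smul_eq_mul, Real.norm_eq_abs] at key ⊢
    have e : V (t + s) (z + b * s) - V (t + s) z - s * (b * V1 t z)
        = V (t + s) (z + b * s) - (z + b * s) * V1 t z - (V (t + s) z - z * V1 t z) := by ring
    rw [e]
    refine key.trans ?_
    have e2 : z + b * s - z = b * s := by ring
    rw [e2, abs_mul, div_mul_eq_mul_div, div_le_iff₀ hb1]
    have : 0 ≤ c * |s| := by positivity
    nlinarith [abs_nonneg b]
  have := h1.add h2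
  refine (this.congr_deriv (by ring)).congr (fun s _ => by simp) (by simp)

/-- the forward invariant region -/
def skuReg (T : ℝ) : Set (ℝ × ℝ × ℝ) := {p | 0 ≤ p.1 ∧ p.1 ≤ 1 ∧ |p.2.2| ≤ T / 2 * p.1}

/-- **weak minimum principle** on `skuReg T` for `∂_t + b ∂_δ + (T/2) ∂_zz + μ ∂_z` (backward in time, degenerate) -/
theorem sku_mp {T : ℝ} (hT : 0 < T) (w : ℝ → ℝ → ℝ → ℝ)
    (hcont : ContinuousOn (fun p : ℝ × ℝ × ℝ => w p.1 p.2.1 p.2.2) (skuReg T))
    (hcoer : ∃ R : ℝ, ∀ t z δ, (t, z, δ) ∈ skuReg T → R ≤ |z| → 0 ≤ w t z δ)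
    (hterm : ∀ z δ, (1, z, δ) ∈ skuReg T → 0 ≤ w 1 z δ)
    (hgen : ∀ t z δ, (t, z, δ) ∈ skuReg T → t < 1 → ∃ (b d w2 μ : ℝ) (w1 : ℝ → ℝ), |b| ≤ T / 2 ∧
      HasDerivWithinAt (fun s => w (t + s) z (δ + b * s)) d (Ici 0) 0 ∧ (∀ z', HasDerivAt (fun z' => w t z' δ) (w1 z') z') ∧
      HasDerivAt w1 w2 z ∧ d + T / 2 * w2 + μ * w1 z < 0) :
    ∀ t z δ, (t, z, δ) ∈ skuReg T → 0 ≤ w t z δ := by
  intro t0 z0 δ0 h0
  by_contra hneg
  rw [not_le] at hneg
  obtain ⟨R, hR⟩ := hcoer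
  -- the compact part
  set K : Set (ℝ × ℝ × ℝ) := skuReg T ∩ (Icc 0 1 ×ˢ (Icc (-R) R ×ˢ Icc (-(T / 2)) (T / 2))) with hK
  have hKc : IsCompact K := by
    have hcl : IsClosed (skuReg T) := by
      have e : skuReg T = {p : ℝ × ℝ × ℝ | 0 ≤ p.1} ∩ ({p : ℝ × ℝ × ℝ | p.1 ≤ 1} ∩ {p : ℝ × ℝ × ℝ | |p.2.2| ≤ T / 2 * p.1}) := rfl
      rw [e]
      refine (isClosed_le continuous_const continuous_fst).inter ((isClosed_le continuous_fst continuous_const).inter ?_)
      exact isClosed_le (continuous_abs.comp (continuous_snd.comp continuous_snd)) (continuous_const.mul continuous_fst)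
    exact (isCompact_Icc.prod (isCompact_Icc.prod isCompact_Icc)).inter_left hcl
  have hin : ∀ t z δ, (t, z, δ) ∈ skuReg T → w t z δ < 0 → (t, z, δ) ∈ K := by
    intro t z δ h hw
    refine ⟨h, ⟨h.1, h.2.1⟩, ?_, ?_⟩
    · have : |z| < R := by
        by_contra hc
        exact absurd (hR t z δ h (not_lt.1 hc)) (not_le.2 hw)
      exact ⟨(abs_lt.1 this).1.le, (abs_lt.1 this).2.le⟩
    · have h3 : |δ| ≤ T / 2 := h.2.2.trans (by
        have : t ≤ 1 := h.2.1
        have : T / 2 * t ≤ T / 2 * 1 := mul_le_mul_of_nonneg_left this (by positivity)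
        simpa using this)
      exact ⟨(abs_le.1 h3).1, (abs_le.1 h3).2⟩
  obtain ⟨p, hpK, hpmin⟩ := hKc.exists_isMinOn ⟨_, hin t0 z0 δ0 h0 hneg⟩ (hcont.mono inter_subset_left)
  obtain ⟨t, z, δ⟩ := p
  have hp : (t, z, δ) ∈ skuReg T := hpK.1
  have hwp : w t z δ < 0 := lt_of_le_of_lt (hpmin (hin t0 z0 δ0 h0 hneg)) hneg
  have hglob : ∀ t' z' δ', (t', z', δ') ∈ skuReg T → w t z δ ≤ w t' z' δ' := by
    intro t' z' δ' h'
    by_cases hc : w t' z' δ' < 0
    · exact hpmin (hin t' z' δ' h' hc)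
    · exact hwp.le.trans (not_lt.1 hc)
  have ht1 : t < 1 := by
    rcases lt_or_eq_of_le hp.2.1 with h | h
    · exact h
    · exfalso
      have h' : t = 1 := h
      subst h'
      exact absurd (hterm z δ hp) (not_le.2 hwp)
  obtain ⟨b, d, w2, μ, w1, hb, hd, hw1, hw2, hlt⟩ := hgen t z δ hp ht1
  have hz := sku_min_second hw1 hw2 (fun z' => hglob t z' δ ⟨hp.1, hp.2.1, hp.2.2⟩)
  have hd0 : 0 ≤ d := by
    refine sku_min_right hd (s0 := 1 - t) (by linarith) ?_
    intro s hs hs1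
    simp only [add_zero, mul_zero]
    refine hglob _ _ _ ⟨?_, ?_, ?_⟩
    · show 0 ≤ t + s
      linarith [hp.1]
    · show t + s ≤ 1
      linarith
    · show |δ + b * s| ≤ T / 2 * (t + s)
      have h1 : |δ| ≤ T / 2 * t := hp.2.2
      have h2 : |b * s| ≤ T / 2 * s := by
        rw [abs_mul, abs_of_nonneg hs]
        exact mul_le_mul_of_nonneg_right hb hs
      calc |δ + b * s| ≤ |δ| + |b * s| := abs_add_le _ _
        _ ≤ T / 2 * (t + s) := by linarith
  rw [hz.1, mul_zero, add_zero] at hlt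
  have : 0 ≤ T / 2 * w2 := mul_nonneg (by positivity) hz.2
  linarith

/-! ## 2. jets -/

/-- first `z`-derivative `p` and generator value `g` of `F` at `(t, z, δ)` -/
def SkuJet (T b μ : ℝ) (F : ℝ → ℝ → ℝ → ℝ) (t z δ p g : ℝ) : Prop :=
  ∃ (d w2 : ℝ) (w1 : ℝ → ℝ), HasDerivWithinAt (fun s => F (t + s) z (δ + b * s)) d (Ici 0) 0 ∧
    (∀ z', HasDerivAt (fun z' => F t z' δ) (w1 z') z') ∧ HasDerivAt w1 w2 z ∧ w1 z = p ∧ d + T / 2 * w2 + μ * p = g

variable {T b μ t z δ : ℝ}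

theorem SkuJet.add {F G : ℝ → ℝ → ℝ → ℝ} {p g p' g' : ℝ} (hF : SkuJet T b μ F t z δ p g) (hG : SkuJet T b μ G t z δ p' g') :
    SkuJet T b μ (fun t z δ => F t z δ + G t z δ) t z δ (p + p') (g + g') := by
  obtain ⟨d, w2, w1, h1, h2, h3, h4, h5⟩ := hF
  obtain ⟨d', w2', w1', h1', h2', h3', h4', h5'⟩ := hG
  refine ⟨d + d', w2 + w2', fun x => w1 x + w1' x, h1.add h1', fun z' => (h2 z').add (h2' z'), h3.add h3', by simp only [h4, h4'], ?_⟩
  rw [← h5, ← h5']
  ring

theorem SkuJet.const_mul {F : ℝ → ℝ → ℝ → ℝ} {p g : ℝ} (c : ℝ) (hF : SkuJet T b μ F t z δ p g) :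
    SkuJet T b μ (fun t z δ => c * F t z δ) t z δ (c * p) (c * g) := by
  obtain ⟨d, w2, w1, h1, h2, h3, h4, h5⟩ := hF
  refine ⟨c * d, c * w2, fun x => c * w1 x, h1.const_mul c, fun z' => (h2 z').const_mul c, h3.const_mul c, by simp only [h4], ?_⟩
  rw [← h5]
  ring

theorem SkuJet.sub {F G : ℝ → ℝ → ℝ → ℝ} {p g p' g' : ℝ} (hF : SkuJet T b μ F t z δ p g) (hG : SkuJet T b μ G t z δ p' g') :
    SkuJet T b μ (fun t z δ => F t z δ - G t z δ) t z δ (p - p') (g - g') := by
  obtain ⟨d, w2, w1, h1, h2, h3, h4, h5⟩ := hF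
  obtain ⟨d', w2', w1', h1', h2', h3', h4', h5'⟩ := hG
  refine ⟨d - d', w2 - w2', fun x => w1 x - w1' x, h1.sub h1', fun z' => (h2 z').sub (h2' z'), h3.sub h3', by simp only [h4, h4'], ?_⟩
  rw [← h5, ← h5']
  ring

/-- `𝓐(FG) = F 𝓐G + G 𝓐F + T F_z G_z` -/
theorem SkuJet.mul {F G : ℝ → ℝ → ℝ → ℝ} {p g p' g' : ℝ} (hF : SkuJet T b μ F t z δ p g) (hG : SkuJet T b μ G t z δ p' g') :
    SkuJet T b μ (fun t z δ => F t z δ * G t z δ) t z δ (p * G t z δ + F t z δ * p')
      (g * G t z δ + F t z δ * g' + T * p * p') := by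
  obtain ⟨d, w2, w1, h1, h2, h3, h4, h5⟩ := hF
  obtain ⟨d', w2', w1', h1', h2', h3', h4', h5'⟩ := hG
  refine ⟨d * G t z δ + F t z δ * d', (w2 * G t z δ + w1 z * w1' z) + (w1 z * w1' z + F t z δ * w2'),
    fun x => w1 x * G t x δ + F t x δ * w1' x, ?_, fun z' => (h2 z').mul (h2' z'), ?_, by simp only [h4, h4'], ?_⟩
  · have := h1.mul h1'
    have e : ((fun s => F (t + s) z (δ + b * s)) * fun s => G (t + s) z (δ + b * s))
        = fun s => F (t + s) z (δ + b * s) * G (t + s) z (δ + b * s) := rfl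
    rw [e] at this
    simpa using this
  · exact (h3.mul (h2' z)).add ((h2 z).mul h3')
  · rw [← h5, ← h5', h4, h4']
    ring

/-- a function of time only -/
theorem sku_jet_time {f : ℝ → ℝ} {f' : ℝ} (hf : HasDerivWithinAt f f' (Ici t) t) :
    SkuJet T b μ (fun t _ _ => f t) t z δ 0 f' := by
  refine ⟨f', 0, fun _ => 0, ?_, fun z' => hasDerivAt_const _ _, hasDerivAt_const _ _, rfl, by ring⟩
  have hin : HasDerivWithinAt (fun s : ℝ => t + s) 1 (Ici 0) 0 := ((hasDerivAt_id (0 : ℝ)).const_add t).hasDerivWithinAt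
  have hf' : HasDerivWithinAt f f' (Ici t) (t + 0) := by rwa [add_zero]
  have := HasDerivWithinAt.scomp (0 : ℝ) hf' hin (fun s hs => by
    simp only [mem_Ici] at hs ⊢
    linarith)
  have e : (f ∘ fun s : ℝ => t + s) = fun s => f (t + s) := rfl
  rw [e] at this
  simpa using this

/-- the coordinate `δ` -/
theorem sku_jet_delta : SkuJet T b μ (fun _ _ δ => δ) t z δ 0 b := by
  refine ⟨b, 0, fun _ => 0, ?_, fun z' => hasDerivAt_const _ _, hasDerivAt_const _ _, rfl, by ring⟩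
  have := (((hasDerivAt_id (0 : ℝ)).const_mul b).const_add δ).hasDerivWithinAt (s := Ici (0 : ℝ))
  simpa using this

/-- a function of `(t, z)` -/
theorem sku_jet_tz {U : ℝ → ℝ → ℝ} {U1 : ℝ → ℝ} {U2 Ut : ℝ} (h1 : ∀ z', HasDerivAt (U t) (U1 z') z') (h2 : HasDerivAt U1 U2 z)
    (ht : HasDerivWithinAt (fun s => U s z) Ut (Ici t) t) :
    SkuJet T b μ (fun t z _ => U t z) t z δ (U1 z) (Ut + T / 2 * U2 + μ * U1 z) := by
  refine ⟨Ut, U2, U1, ?_, h1, h2, rfl, rfl⟩
  have hin : HasDerivWithinAt (fun s : ℝ => t + s) 1 (Ici 0) 0 := ((hasDerivAt_id (0 : ℝ)).const_add t).hasDerivWithinAt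
  have ht' : HasDerivWithinAt (fun s => U s z) Ut (Ici t) (t + 0) := by rwa [add_zero]
  have := HasDerivWithinAt.scomp (0 : ℝ) ht' hin (fun s hs => by
    simp only [mem_Ici] at hs ⊢
    linarith)
  have e : ((fun s => U s z) ∘ fun s : ℝ => t + s) = fun s => U (t + s) z := rfl
  rw [e] at this
  simpa using this

/-- a function of `(t, z + σ δ)` -/
theorem sku_jet_shift {V V1 V2 : ℝ → ℝ → ℝ} {vt : ℝ} (σ : ℝ) (ht : t ∈ Ico (0 : ℝ) 1)
    (hd1 : ∀ t' ∈ Ico (0 : ℝ) 1, ∀ z', HasDerivAt (V t') (V1 t' z') z')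
    (hd2 : ∀ t' ∈ Ico (0 : ℝ) 1, ∀ z', HasDerivAt (V1 t') (V2 t' z') z')
    (hc1 : ContinuousOn (fun p : ℝ × ℝ => V1 p.1 p.2) (Icc (0 : ℝ) 1 ×ˢ univ))
    (hdt : HasDerivWithinAt (fun s => V s (z + σ * δ)) vt (Ici t) t) :
    SkuJet T b μ (fun t z δ => V t (z + σ * δ)) t z δ (V1 t (z + σ * δ))
      (vt + σ * b * V1 t (z + σ * δ) + T / 2 * V2 t (z + σ * δ) + μ * V1 t (z + σ * δ)) := by
  refine ⟨vt + σ * b * V1 t (z + σ * δ), V2 t (z + σ * δ), fun z' => V1 t (z' + σ * δ), ?_, ?_, ?_, rfl, rfl⟩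
  · have := sku_curve (b := σ * b) ht hd1 hc1 hdt
    refine this.congr (fun s _ => ?_) ?_
    · show V (t + s) (z + σ * (δ + b * s)) = V (t + s) (z + σ * δ + σ * b * s)
      rw [show z + σ * (δ + b * s) = z + σ * δ + σ * b * s by ring]
    · show V (t + 0) (z + σ * (δ + b * 0)) = V (t + 0) (z + σ * δ + σ * b * 0)
      rw [show z + σ * (δ + b * 0) = z + σ * δ + σ * b * 0 by ring]
  · intro z'
    have := (hd1 t ht (z' + σ * δ)).comp_add_const z' (σ * δ)
    exact this
  · have := (hd2 t ht (z + σ * δ)).comp_add_const z (σ * δ)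
    exact this

/-! ## explicit weights -/

theorem sku_tanh_deriv (z : ℝ) : HasDerivAt Real.tanh (1 - Real.tanh z ^ 2) z := by
  have hc : Real.cosh z ≠ 0 := (Real.cosh_pos z).ne'
  have h := (Real.hasDerivAt_sinh z).div (Real.hasDerivAt_cosh z) hc
  have e : Real.tanh = fun x => Real.sinh x / Real.cosh x := by
    funext x
    exact Real.tanh_eq_sinh_div_cosh x
  rw [e]
  refine h.congr_deriv ?_
  field_simp

/-- `log cosh` -/
noncomputable def skuL (z : ℝ) : ℝ := Real.log (Real.cosh z)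

theorem sku_L_deriv (z : ℝ) : HasDerivAt skuL (Real.tanh z) z := by
  have h := (Real.hasDerivAt_cosh z).log (Real.cosh_pos z).ne'
  rw [← Real.tanh_eq_sinh_div_cosh] at h
  exact h

theorem sku_L_nonneg (z : ℝ) : 0 ≤ skuL z := Real.log_nonneg (Real.one_le_cosh z)

theorem sku_L_cont : Continuous skuL := continuous_iff_continuousAt.2 fun z => (sku_L_deriv z).continuousAt

/-- the weight `e^{-K (1 - t)} / cosh^k z` -/
noncomputable def skuG (K k t z : ℝ) : ℝ := Real.exp (-(K * (1 - t)) - k * skuL z)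

theorem sku_G_pos (K k t z : ℝ) : 0 < skuG K k t z := Real.exp_pos _

theorem sku_G_cont (K k : ℝ) : Continuous (fun p : ℝ × ℝ => skuG K k p.1 p.2) := by
  unfold skuG
  have := sku_L_cont
  fun_prop

theorem sku_G_mul (K k K' k' t z : ℝ) : skuG K k t z * skuG K' k' t z = skuG (K + K') (k + k') t z := by
  unfold skuG
  rw [← Real.exp_add]
  congr 1
  ring

theorem sku_G_le_one {K k t : ℝ} (hK : 0 ≤ K) (hk : 0 ≤ k) (ht : t ≤ 1) (z : ℝ) : skuG K k t z ≤ 1 := by
  unfold skuG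
  apply Real.exp_le_one_iff.2
  have h1 : 0 ≤ K * (1 - t) := mul_nonneg hK (by linarith)
  have h2 : 0 ≤ k * skuL z := mul_nonneg hk (sku_L_nonneg z)
  linarith

theorem sku_G_one (K : ℝ) (k : ℕ) (z : ℝ) : skuG K k 1 z = 1 / Real.cosh z ^ k := by
  unfold skuG skuL
  rw [sub_self, mul_zero, neg_zero, zero_sub, Real.exp_neg, ← Real.log_pow, Real.exp_log (pow_pos (Real.cosh_pos z) k), one_div]

theorem sku_G_zero (K k : ℝ) : skuG K k 0 0 = Real.exp (-K) := by
  unfold skuG skuL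
  simp

/-- comparison of two weights with the same power -/
theorem sku_G_mono {K K' T k t : ℝ} (h : K ≤ K' + T) (hT : 0 ≤ K - K') (ht0 : 0 ≤ t) (z : ℝ) :
    Real.exp (-T) * skuG K' k t z ≤ skuG K k t z := by
  unfold skuG
  rw [← Real.exp_add]
  apply Real.exp_le_exp.2
  nlinarith

theorem sku_G_dt (K k t z : ℝ) : HasDerivAt (fun s => skuG K k s z) (K * skuG K k t z) t := by
  unfold skuG
  have h1 : HasDerivAt (fun s : ℝ => -(K * (1 - s)) - k * skuL z) K t := by
    have := ((((hasDerivAt_id t).const_sub 1).const_mul K).neg).sub_const (k * skuL z)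
    simpa using this
  exact h1.exp.congr_deriv (mul_comm _ _)

theorem sku_G_dz (K k t z : ℝ) : HasDerivAt (skuG K k t) (-k * Real.tanh z * skuG K k t z) z := by
  have h1 : HasDerivAt (fun y : ℝ => -(K * (1 - t)) - k * skuL y) (-k * Real.tanh z) z := by
    have := ((sku_L_deriv z).const_mul k).const_sub (-(K * (1 - t)))
    simpa using this
  exact h1.exp.congr_deriv (mul_comm _ _)

theorem sku_G_dzz (K k t z : ℝ) : HasDerivAt (fun y => -k * Real.tanh y * skuG K k t y)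
    (((k ^ 2 + k) * Real.tanh z ^ 2 - k) * skuG K k t z) z := by
  have h := ((sku_tanh_deriv z).const_mul (-k)).mul (sku_G_dz K k t z)
  refine h.congr_deriv ?_
  ring

/-- jet of the weight: `𝓐 G ≥ (K - (3/2) T k) G` -/
theorem sku_jet_G {K k : ℝ} (hT : 0 < T) (hk : 0 ≤ k) (hμ : |μ| ≤ T) :
    ∃ g, SkuJet T b μ (fun t z _ => skuG K k t z) t z δ (-k * Real.tanh z * skuG K k t z) g ∧
      (K - 3 / 2 * T * k) * skuG K k t z ≤ g := by
  refine ⟨_, sku_jet_tz (U := skuG K k) (fun z' => sku_G_dz K k t z') (sku_G_dzz K k t z) (sku_G_dt K k t z).hasDerivWithinAt, ?_⟩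
  have hG := sku_G_pos K k t z
  have hτ := Real.abs_tanh_lt_one z
  have h1 : |μ * Real.tanh z| ≤ T := by
    rw [abs_mul]
    calc |μ| * |Real.tanh z| ≤ T * 1 := mul_le_mul hμ hτ.le (abs_nonneg _) hT.le
      _ = T := mul_one T
  have h2 := (abs_le.1 h1).2
  have e : K * skuG K k t z + T / 2 * (((k ^ 2 + k) * Real.tanh z ^ 2 - k) * skuG K k t z) + μ * (-k * Real.tanh z * skuG K k t z)
      - (K - 3 / 2 * T * k) * skuG K k t z
      = (T / 2 * (k ^ 2 + k) * Real.tanh z ^ 2 + k * (T - μ * Real.tanh z)) * skuG K k t z := by ring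
  have h3 : 0 ≤ (T / 2 * (k ^ 2 + k) * Real.tanh z ^ 2 + k * (T - μ * Real.tanh z)) * skuG K k t z := by
    apply mul_nonneg _ hG.le
    have : 0 ≤ k * (T - μ * Real.tanh z) := mul_nonneg hk (by linarith)
    have : 0 ≤ T / 2 * (k ^ 2 + k) * Real.tanh z ^ 2 := by positivity
    linarith
  linarith

/-- the barrier `e^{3 T (1 - t)} (1 + z²)` -/
noncomputable def skuB (T t z : ℝ) : ℝ := Real.exp (3 * T * (1 - t)) * (1 + z ^ 2)

theorem sku_B_cont (T : ℝ) : Continuous (fun p : ℝ × ℝ => skuB T p.1 p.2) := by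
  unfold skuB
  fun_prop

theorem sku_B_ge {T t : ℝ} (hT : 0 ≤ T) (ht : t ≤ 1) (z : ℝ) : 1 + z ^ 2 ≤ skuB T t z := by
  unfold skuB
  have h1 : 1 ≤ Real.exp (3 * T * (1 - t)) := by
    apply Real.one_le_exp
    have : 0 ≤ T * (1 - t) := mul_nonneg hT (by linarith)
    linarith
  nlinarith [sq_nonneg z]

theorem sku_jet_B (hT : 0 < T) (hμ : |μ| ≤ T) :
    ∃ p g, SkuJet T b μ (fun t z _ => skuB T t z) t z δ p g ∧ g < 0 := by
  have hdt : HasDerivAt (fun s => skuB T s z) (-(3 * T) * skuB T t z) t := by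
    unfold skuB
    have h1 : HasDerivAt (fun s : ℝ => 3 * T * (1 - s)) (-(3 * T)) t := by
      have := ((hasDerivAt_id t).const_sub 1).const_mul (3 * T)
      simpa using this
    have := (h1.exp).mul_const (1 + z ^ 2)
    refine this.congr_deriv ?_
    ring
  have hdz : ∀ z', HasDerivAt (skuB T t) (Real.exp (3 * T * (1 - t)) * (2 * z')) z' := by
    intro z'
    have h1 : HasDerivAt (fun y : ℝ => 1 + y ^ 2) (2 * z') z' := by
      simpa using ((hasDerivAt_pow 2 z').const_add 1)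
    exact h1.const_mul _
  have hdzz : HasDerivAt (fun z' => Real.exp (3 * T * (1 - t)) * (2 * z')) (Real.exp (3 * T * (1 - t)) * 2) z := by
    have h1 : HasDerivAt (fun y : ℝ => 2 * y) 2 z := by
      simpa using (hasDerivAt_id z).const_mul 2
    exact h1.const_mul _
  refine ⟨_, _, sku_jet_tz (U := skuB T) hdz hdzz hdt.hasDerivWithinAt, ?_⟩
  have hE : 0 < Real.exp (3 * T * (1 - t)) := Real.exp_pos _
  have h1 : μ * (2 * z) ≤ T * (1 + z ^ 2) := by
    have h2 : μ * (2 * z) ≤ |μ * (2 * z)| := le_abs_self _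
    have h3 : |μ * (2 * z)| = |μ| * (2 * |z|) := by
      rw [abs_mul, abs_mul]
      norm_num
    have h4 : 2 * |z| ≤ 1 + z ^ 2 := by nlinarith [sq_abs z, sq_nonneg (|z| - 1)]
    have h5 : |μ| * (2 * |z|) ≤ T * (1 + z ^ 2) := mul_le_mul hμ h4 (by positivity) hT.le
    linarith
  unfold skuB
  have e : -(3 * T) * (Real.exp (3 * T * (1 - t)) * (1 + z ^ 2)) + T / 2 * (Real.exp (3 * T * (1 - t)) * 2)
      + μ * (Real.exp (3 * T * (1 - t)) * (2 * z))
      = Real.exp (3 * T * (1 - t)) * (-(3 * T) * (1 + z ^ 2) + T + μ * (2 * z)) := by ring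
  rw [e]
  apply mul_neg_of_pos_of_neg hE
  nlinarith [sq_nonneg z]

end Claimed.Agent.R286
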