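import Claimed.Agent.R286.Sc.Gen
import Claimed.Agent.R286.Sc.Small
import Claimed.Agent.R286.Sc.MaxP2
import Claimed.Agent.R286.Sc.UqKit

/-!
# Row 286, scalar block, unit C8 (S6): STRICT CURVATURE AT THE ORIGIN (Hopf bound)      (owner helper141; prefix `sch_`)

TEX[PE:prof:scalar-derivatives] (PE Lemma 5.3, second half: `V_zz(0,0) ≥ c`, `-V_zzzz(0,0) ≥ c`, uniformly on bounded clocks).
TEXDROP[killed diffusion, Feynman-Kac, Bessel h-transform (note B03 S6.3)]: replaced by ONE comparison on the half line, step by step: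
`y = -V_zzz` solves `y_σ = y_zz / 2 + m V_z y_z + 3 m V_zz y` (σ = variance), `y(σ,0) = 0`, and `φ = c e^{-7 a² σ} tanh(a z) sech²(a z)` is a subsolution on `z ≥ 0`.
* `sch_step`      one step: `-F''' ≥ c H_a` on `z ≥ 0`  ⟹  `-(scStep m s F)''' ≥ c e^{-7 a² s} H_a` on `z ≥ 0`      (`H_a = schH a = tanh(a z) sech²(a z)`)
* `sch_V3`, `sch_D3`      whole profile;   `sch_V3_nonpos` : `V_zzz ≤ 0` on `z ≥ 0` (S6.2)
* `sch_V4`, `sch_D4`      `-V_zzzz(t,0) ≥ 2 a³ e^{-7 a² (len - t)}`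
* `sch_aD4`, `sch_aD2`      general coefficients;      EXIT `sch_curv_low : 0 < a → SsCurvLow a Q`
-/

set_option autoImplicit false

namespace Claimed.Agent.R286

open MeasureTheory Set Filter Topology

/-! ## 1. the profile `H_a(z) = tanh(a z) sech²(a z)` -/

noncomputable def schH (a y : ℝ) : ℝ := Real.tanh (a * y) * scSech a y

theorem sch_H_d1 (a y : ℝ) : HasDerivAt (schH a) (a * scSech a y * (1 - 3 * Real.tanh (a * y) ^ 2)) y := by
  have h := (sc_hasDerivAt_tanh_mul a y).mul (scSech_hasDerivAt a y)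
  refine h.congr_deriv ?_
  unfold scSech
  ring

theorem sch_H_d2 (a y : ℝ) : HasDerivAt (fun y => a * scSech a y * (1 - 3 * Real.tanh (a * y) ^ 2))
    (a ^ 2 * (12 * Real.tanh (a * y) ^ 2 - 8) * schH a y) y := by
  have h1 := ((sc_hasDerivAt_tanh_mul a y).pow 2).const_mul 3
  have h := ((scSech_hasDerivAt a y).const_mul a).mul (h1.const_sub 1)
  refine h.congr_deriv ?_
  unfold schH scSech
  simp
  ring

theorem sch_H_zero (a : ℝ) : schH a 0 = 0 := by simp [schH]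

theorem sch_tanh_nonneg {x : ℝ} (hx : 0 ≤ x) : 0 ≤ Real.tanh x := by
  rw [Real.tanh_eq_sinh_div_cosh]
  exact div_nonneg (Real.sinh_nonneg_iff.2 hx) (Real.cosh_pos x).le

theorem sch_H_nonneg {a y : ℝ} (ha : 0 ≤ a) (hy : 0 ≤ y) : 0 ≤ schH a y :=
  mul_nonneg (sch_tanh_nonneg (mul_nonneg ha hy)) (scSech_pos a y).le

theorem sch_H_le_one (a y : ℝ) : |schH a y| ≤ 1 := by
  unfold schH
  rw [abs_mul, abs_of_pos (scSech_pos a y)]
  exact mul_le_one₀ (Real.abs_tanh_lt_one _).le (scSech_pos a y).le (scSech_le_one a y)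

theorem sch_H_cont (a : ℝ) : Continuous (schH a) := continuous_iff_continuousAt.2 fun y => (sch_H_d1 a y).continuousAt

/-! ## 2. derivatives of a smooth function -/

theorem sch_iter_hasDerivAt {G : ℝ → ℝ} (hG : ScBI G) (k : ℕ) (z : ℝ) : HasDerivAt (deriv^[k] G) (deriv^[k + 1] G z) z := by
  rw [Function.iterate_succ_apply']
  exact ((sc_D_hasDerivAt_aux_BI hG k 1).1 z).hasDerivAt

/-- three derivatives of the right side of the Parisi equation -/
theorem sch_rhs3 {G : ℝ → ℝ} (hG : ScBI G) (m : ℝ) :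
    deriv^[3] (fun y => -(deriv (deriv G) y + m * deriv G y ^ 2) / 2) = fun y =>
      -(deriv^[5] G y + 2 * m * (3 * deriv^[2] G y * deriv^[3] G y + deriv^[1] G y * deriv^[4] G y)) / 2 := by
  have d1 := sch_iter_hasDerivAt hG 1
  have d2 := sch_iter_hasDerivAt hG 2
  have d3 := sch_iter_hasDerivAt hG 3
  have d4 := sch_iter_hasDerivAt hG 4
  have e1 : deriv (fun y => -(deriv^[2] G y + m * deriv^[1] G y ^ 2) / 2)
      = fun y => -(deriv^[3] G y + 2 * m * (deriv^[1] G y * deriv^[2] G y)) / 2 := by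
    funext y
    have := (((d2 y).fun_add (((d1 y).fun_pow 2).const_mul m)).fun_neg).div_const 2
    rw [this.deriv]
    simp only [Nat.cast_ofNat, Nat.add_one_sub_one, pow_one]
    ring
  have e2 : deriv (fun y => -(deriv^[3] G y + 2 * m * (deriv^[1] G y * deriv^[2] G y)) / 2)
      = fun y => -(deriv^[4] G y + 2 * m * (deriv^[2] G y ^ 2 + deriv^[1] G y * deriv^[3] G y)) / 2 := by
    funext y
    have := (((d3 y).fun_add (((d1 y).fun_mul (d2 y)).const_mul (2 * m))).fun_neg).div_const 2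
    rw [this.deriv]
    ring
  have e3 : deriv (fun y => -(deriv^[4] G y + 2 * m * (deriv^[2] G y ^ 2 + deriv^[1] G y * deriv^[3] G y)) / 2)
      = fun y => -(deriv^[5] G y + 2 * m * (3 * deriv^[2] G y * deriv^[3] G y + deriv^[1] G y * deriv^[4] G y)) / 2 := by
    funext y
    have := (((d4 y).fun_add ((((d2 y).fun_pow 2).fun_add ((d1 y).fun_mul (d3 y))).const_mul (2 * m))).fun_neg).div_const 2
    rw [this.deriv]
    simp only [Nat.cast_ofNat, Nat.add_one_sub_one, pow_one]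
    ring
  show deriv (deriv (deriv (fun y => -(deriv^[2] G y + m * deriv^[1] G y ^ 2) / 2))) = _
  rw [e1, e2, e3]

/-- the equation of `V_zzz` inside a step, FORWARD in the variance `σ` -/
theorem sch_time {F : ℝ → ℝ} (hF : ScBI F) (m : ℝ) {σ : ℝ} (hσ : 0 < σ) (z : ℝ) :
    HasDerivAt (fun σ => deriv^[3] (scStep m σ F) z)
      ((deriv^[5] (scStep m σ F) z + 2 * m * (3 * deriv^[2] (scStep m σ F) z * deriv^[3] (scStep m σ F) z
        + deriv^[1] (scStep m σ F) z * deriv^[4] (scStep m σ F) z)) / 2) σ := by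
  have h := sc_step_pde_iter 3 (hF 6) m (t₁ := σ) (r := 0) hσ z
  rw [sub_zero, sch_rhs3 (sc_step_BI hF m σ) m] at h
  have h' : HasDerivAt (fun r => deriv^[3] (scStep m (σ - r) F) z)
      (-(deriv^[5] (scStep m σ F) z + 2 * m * (3 * deriv^[2] (scStep m σ F) z * deriv^[3] (scStep m σ F) z
        + deriv^[1] (scStep m σ F) z * deriv^[4] (scStep m σ F) z)) / 2) (σ - σ) := by
    rw [sub_self]
    exact h
  have hin : HasDerivAt (fun s : ℝ => σ - s) (-1) σ := by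
    simpa using (hasDerivAt_id σ).const_sub σ
  have := h'.comp σ hin
  have e : ((fun r => deriv^[3] (scStep m (σ - r) F) z) ∘ fun s : ℝ => σ - s) = fun s => deriv^[3] (scStep m s F) z := by
    funext s
    simp only [Function.comp_apply, sub_sub_cancel]
  rw [e] at this
  refine this.congr_deriv ?_
  ring

/-! ## 3. one step -/

theorem sch_step_cont {F : ℝ → ℝ} (hF : ScBI F) (m s : ℝ) (k : ℕ) :
    ContinuousOn (fun p : ℝ × ℝ => deriv^[k] (scStep m p.1 F) p.2) (Icc 0 s ×ˢ univ) := by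
  have h1 : ScT (Icc 0 s) (0 + k + 1) (fun r => scStep m (s - r) F) := sc_step_T (n := 0 + k) (hF (0 + k + 1)) m 0 s
  have h2 : ScT (Icc 0 s) 0 (fun r => deriv^[k] (scStep m (s - r) F)) := sc_T_iter k h1.of_succ
  have h3 := sc_T_comp_time h2 (τ := fun σ => s - σ) (J := Icc 0 s) (Continuous.continuousOn (by fun_prop))
    (fun σ hσ => ⟨by linarith [hσ.2], by linarith [hσ.1]⟩)
  simp only [sub_sub_cancel] at h3
  exact h3.continuousOn

theorem sch_odd_zero {G : ℝ → ℝ} (h : ∀ z, G (-z) = G z) : deriv^[3] G 0 = 0 := by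
  have := sc_D_parity_aux h 3 0
  rw [neg_zero] at this
  linarith

/-- **one step of the Hopf bound** -/
theorem sch_step {a : ℝ} {F : ℝ → ℝ} (h : ScAd a F) {m : ℝ} (hm0 : 0 ≤ m) (hma : m ≤ a) {s : ℝ} (hs : 0 ≤ s) {c : ℝ} (hc : 0 ≤ c)
    (hF : ∀ z, 0 ≤ z → c * schH a z ≤ -(deriv^[3] F z)) {z : ℝ} (hz : 0 ≤ z) :
    c * Real.exp (-(7 * a ^ 2 * s)) * schH a z ≤ -(deriv^[3] (scStep m s F) z) := by
  have ha : 0 < a := h.mass_pos
  have hBI : ScBI F := h.B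
  have hAd : ∀ σ, ScAd a (scStep m σ F) := fun σ => h.step hm0 hma σ
  have hSB : ∀ σ, ScBI (scStep m σ F) := fun σ => sc_step_BI hBI m σ
  obtain ⟨C3, hC3⟩ := sc_step_deriv_bdd (n := 2) (hBI 3) m s 3 (by norm_num) (by norm_num)
  have hC30 : 0 ≤ C3 := (abs_nonneg _).trans (hC3 0 ⟨le_rfl, hs⟩ 0)
  have main := sc_mpg_halfline
    (u := fun σ x => -(deriv^[3] (scStep m σ F) x) - c * Real.exp (-(7 * a ^ 2 * σ)) * schH a x)
    (ut := fun σ x => -((deriv^[5] (scStep m σ F) x + 2 * m * (3 * deriv^[2] (scStep m σ F) x * deriv^[3] (scStep m σ F) x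
        + deriv^[1] (scStep m σ F) x * deriv^[4] (scStep m σ F) x)) / 2)
        - c * (Real.exp (-(7 * a ^ 2 * σ)) * (-(7 * a ^ 2))) * schH a x)
    (ux := fun σ x => -(deriv^[4] (scStep m σ F) x)
        - c * Real.exp (-(7 * a ^ 2 * σ)) * (a * scSech a x * (1 - 3 * Real.tanh (a * x) ^ 2)))
    (uxx := fun σ x => -(deriv^[5] (scStep m σ F) x)
        - c * Real.exp (-(7 * a ^ 2 * σ)) * (a ^ 2 * (12 * Real.tanh (a * x) ^ 2 - 8) * schH a x))
    (A := fun _ _ => 1 / 2) (B := fun σ x => m * deriv^[1] (scStep m σ F) x) (c := fun σ x => 3 * m * deriv^[2] (scStep m σ F) x)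
    (t0 := 0) (t1 := s) (C := 3 * a ^ 2) (A0 := 1 / 2) (B0 := a) (M0 := C3 + c) ?_ ?_ ?_ ?_ ?_ ?_ ?_ ?_ ?_ ?_ ?_ ?_
  · have := main s ⟨hs, le_rfl⟩ z hz
    linarith
  · -- continuity
    have h1 := (sch_step_cont hBI m s 3).mono (prod_mono (subset_refl (Icc 0 s)) (subset_univ (Ici (0 : ℝ))))
    have h2 : Continuous (fun p : ℝ × ℝ => c * Real.exp (-(7 * a ^ 2 * p.1)) * schH a p.2) := by
      have := sch_H_cont a
      fun_prop
    exact h1.neg.sub h2.continuousOn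
  · -- time derivative
    intro σ hσ x _
    have h1 := (sch_time hBI m hσ.1 x).neg
    have h2 : HasDerivAt (fun σ : ℝ => c * Real.exp (-(7 * a ^ 2 * σ)) * schH a x)
        (c * (Real.exp (-(7 * a ^ 2 * σ)) * (-(7 * a ^ 2))) * schH a x) σ := by
      have h3 : HasDerivAt (fun σ : ℝ => -(7 * a ^ 2 * σ)) (-(7 * a ^ 2)) σ := by
        simpa using ((hasDerivAt_id σ).const_mul (7 * a ^ 2)).fun_neg
      exact (h3.exp.const_mul c).mul_const _
    exact (h1.sub h2).hasDerivWithinAt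
  · intro σ _ x _
    exact (sch_iter_hasDerivAt (hSB σ) 3 x).neg.sub ((sch_H_d1 a x).const_mul _)
  · intro σ _ x _
    exact (sch_iter_hasDerivAt (hSB σ) 4 x).neg.sub ((sch_H_d2 a x).const_mul _)
  · intro _ _ _ _
    norm_num
  · intro _ _ _ _
    exact le_rfl
  · -- drift
    intro σ _ x hx
    have hx0 : (0 : ℝ) < x := hx
    have h1 := abs_le.1 ((hAd σ).lip x)
    have h2 : m * deriv^[1] (scStep m σ F) x ≤ a := by
      have h3 : deriv^[1] (scStep m σ F) x ≤ 1 := h1.2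
      calc m * deriv^[1] (scStep m σ F) x ≤ m * 1 := mul_le_mul_of_nonneg_left h3 hm0
        _ ≤ a := by linarith
    calc m * deriv^[1] (scStep m σ F) x * x ≤ a * x := mul_le_mul_of_nonneg_right h2 hx0.le
      _ ≤ a * (1 + x ^ 2) := mul_le_mul_of_nonneg_left (by nlinarith [sq_nonneg (x - 1)]) ha.le
  · -- zeroth order coefficient
    intro σ _ x _
    have h1 : deriv^[2] (scStep m σ F) x ≤ a := (hAd σ).hess_le x
    have h2 : 0 < deriv^[2] (scStep m σ F) x := (hAd σ).pos x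
    nlinarith
  · -- the differential inequality
    intro σ _ x hx
    have hx0 : (0 : ℝ) < x := hx
    obtain ⟨g1, hg1⟩ : ∃ g1, g1 = deriv^[1] (scStep m σ F) x := ⟨_, rfl⟩
    obtain ⟨g2, hg2⟩ : ∃ g2, g2 = deriv^[2] (scStep m σ F) x := ⟨_, rfl⟩
    obtain ⟨E, hE⟩ : ∃ E, E = Real.exp (-(7 * a ^ 2 * σ)) := ⟨_, rfl⟩
    obtain ⟨τ, hτ⟩ : ∃ τ, τ = Real.tanh (a * x) := ⟨_, rfl⟩
    obtain ⟨S, hS⟩ : ∃ S, S = scSech a x := ⟨_, rfl⟩
    have hE0 : 0 < E := by rw [hE]; exact Real.exp_pos _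
    have hS0 : 0 < S := by rw [hS]; exact scSech_pos a x
    have hτ0 : 0 ≤ τ := by rw [hτ]; exact sch_tanh_nonneg (mul_nonneg ha.le hx0.le)
    have hτ1 : τ ≤ 1 := by rw [hτ]; exact (abs_le.1 (Real.abs_tanh_lt_one _).le).2
    have hg10 : 0 ≤ g1 := by rw [hg1]; exact ((hAd σ).deriv_pos hx0).le
    have hg11 : g1 ≤ 1 := by rw [hg1]; exact (abs_le.1 ((hAd σ).lip x)).2
    have hg20 : 0 < g2 := by rw [hg2]; exact (hAd σ).pos x
    simp only [schH]
    rw [← hg1, ← hg2, ← hE, ← hτ, ← hS]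
    have hprod : m * g1 * τ ≤ a := by
      have h1 : g1 * τ ≤ 1 := mul_le_one₀ hg11 hτ0 hτ1
      have h2 : 0 ≤ g1 * τ := mul_nonneg hg10 hτ0
      calc m * g1 * τ = m * (g1 * τ) := by ring
        _ ≤ a * 1 := mul_le_mul hma h1 h2 ha.le
        _ = a := mul_one a
    have key : 0 ≤ c * E * (τ * S * (3 * a * (a - m * g1 * τ)) + 6 * a ^ 2 * τ ^ 2 * (τ * S) + m * g1 * a * S + 3 * m * g2 * (τ * S)) := by
      have t1 : 0 ≤ τ * S * (3 * a * (a - m * g1 * τ)) :=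
        mul_nonneg (mul_nonneg hτ0 hS0.le) (mul_nonneg (by positivity) (by linarith))
      have t2 : 0 ≤ 6 * a ^ 2 * τ ^ 2 * (τ * S) := by positivity
      have t3 : 0 ≤ m * g1 * a * S := by positivity
      have t4 : 0 ≤ 3 * m * g2 * (τ * S) := by positivity
      have : 0 ≤ c * E := by positivity
      exact mul_nonneg this (by linarith)
    refine le_of_le_of_eq key ?_
    ring
  · -- initial datum
    intro x hx
    simp only [sc_step_var_zero, mul_zero, neg_zero, Real.exp_zero, mul_one]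
    linarith [hF x hx]
  · -- boundary
    intro σ _
    simp only [sch_H_zero, mul_zero, sub_zero]
    rw [sch_odd_zero (hAd σ).even]
    simp
  · -- growth
    intro σ hσ x hx
    have hx0 : (0 : ℝ) ≤ x := hx
    have h1 := abs_le.1 (hC3 σ hσ x)
    have h2 := abs_le.1 (sch_H_le_one a x)
    have hE1 : Real.exp (-(7 * a ^ 2 * σ)) ≤ 1 := by
      apply Real.exp_le_one_iff.2
      have : 0 ≤ a ^ 2 * σ := mul_nonneg (sq_nonneg a) hσ.1
      linarith
    have hE0 : 0 < Real.exp (-(7 * a ^ 2 * σ)) := Real.exp_pos _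
    have h3 : c * Real.exp (-(7 * a ^ 2 * σ)) * schH a x ≤ c := by
      calc c * Real.exp (-(7 * a ^ 2 * σ)) * schH a x ≤ c * Real.exp (-(7 * a ^ 2 * σ)) * 1 :=
            mul_le_mul_of_nonneg_left h2.2 (by positivity)
        _ ≤ c * 1 * 1 := by
            apply mul_le_mul_of_nonneg_right _ zero_le_one
            exact mul_le_mul_of_nonneg_left hE1 hc
        _ = c := by ring
    have h4 : (C3 + c) * 1 ≤ (C3 + c) * (1 + x) := mul_le_mul_of_nonneg_left (by linarith) (by linarith)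
    linarith [h1.2]

/-! ## 4. whole profiles -/

theorem sch_V3 {a : ℝ} {F : ℝ → ℝ} {π : List (ℝ × ℝ)} (h : ScAd a F) (hπ : ScAdm a π) {c : ℝ} (hc : 0 ≤ c)
    (hF : ∀ z, 0 ≤ z → c * schH a z ≤ -(deriv^[3] F z)) {z : ℝ} (hz : 0 ≤ z) :
    c * Real.exp (-(7 * a ^ 2 * scLen π)) * schH a z ≤ -(deriv^[3] (scV F π) z) := by
  induction π generalizing z with
  | nil => simpa [scLen, Claimed.Agent.R286.scV] using hF z hz
  | cons p π ih =>
    have hp := hπ p (by simp)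
    have hπ1 : ScAdm a π := fun q hq => hπ q (by simp [hq])
    have := sch_step (h.scV hπ1) hp.1 hp.2.1 hp.2.2 (c := c * Real.exp (-(7 * a ^ 2 * scLen π)))
      (by positivity) (fun z hz => ih hπ1 hz) hz
    have e : c * Real.exp (-(7 * a ^ 2 * scLen (p :: π)))
        = c * Real.exp (-(7 * a ^ 2 * scLen π)) * Real.exp (-(7 * a ^ 2 * p.2)) := by
      rw [mul_assoc c, ← Real.exp_add]
      congr 2
      simp only [scLen]
      ring
    rw [e]
    exact this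

/-- the Hopf bound at the time `t` -/
theorem sch_D3 {a : ℝ} {F : ℝ → ℝ} {π : List (ℝ × ℝ)} (h : ScAd a F) (hπ : ScAdm a π) {c : ℝ} (hc : 0 ≤ c)
    (hF : ∀ z, 0 ≤ z → c * schH a z ≤ -(deriv^[3] F z)) {t : ℝ} (h0 : 0 ≤ t) (ht : t ≤ scLen π) {z : ℝ} (hz : 0 ≤ z) :
    c * Real.exp (-(7 * a ^ 2 * (scLen π - t))) * schH a z ≤ -(scD 3 F π t z) := by
  have := sch_V3 h (sc_after_adm hπ t) hc hF hz
  rw [sc_len_after hπ.pos h0 ht] at this
  unfold scD
  rw [sc_Vt_after]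
  exact this

/-- derivative at the boundary point of a nonnegative function which vanishes there -/
theorem sch_boundary {y : ℝ → ℝ} {d : ℝ} (hy : HasDerivAt y d 0) (h0 : y 0 = 0) (hpos : ∀ z, 0 ≤ z → 0 ≤ y z) : 0 ≤ d :=
  sku_min_right hy.hasDerivWithinAt zero_lt_one (fun s hs _ => by rw [h0]; exact hpos s hs)

theorem sch_V4 {a : ℝ} {F : ℝ → ℝ} {π : List (ℝ × ℝ)} (h : ScAd a F) (hπ : ScAdm a π) {c : ℝ} (hc : 0 ≤ c)
    (hF : ∀ z, 0 ≤ z → c * schH a z ≤ -(deriv^[3] F z)) :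
    c * Real.exp (-(7 * a ^ 2 * scLen π)) * a ≤ -(deriv^[4] (scV F π) 0) := by
  have hV := h.scV hπ
  have hd := (sch_iter_hasDerivAt hV.B 3 0).neg.sub ((sch_H_d1 a 0).const_mul (c * Real.exp (-(7 * a ^ 2 * scLen π))))
  have := sch_boundary hd (by
    simp only [Pi.sub_apply, Pi.neg_apply, sch_H_zero, mul_zero, sub_zero]
    rw [sch_odd_zero hV.even]
    simp) (fun z hz => by
    have := sch_V3 h hπ hc hF hz
    simp only [Pi.sub_apply, Pi.neg_apply]
    linarith)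
  simp only [scSech, mul_zero, Real.tanh_zero] at this
  norm_num at this
  exact this

theorem sch_D4 {a : ℝ} {F : ℝ → ℝ} {π : List (ℝ × ℝ)} (h : ScAd a F) (hπ : ScAdm a π) {c : ℝ} (hc : 0 ≤ c)
    (hF : ∀ z, 0 ≤ z → c * schH a z ≤ -(deriv^[3] F z)) {t : ℝ} (h0 : 0 ≤ t) (ht : t ≤ scLen π) :
    c * Real.exp (-(7 * a ^ 2 * (scLen π - t))) * a ≤ -(scD 4 F π t 0) := by
  have := sch_V4 h (sc_after_adm hπ t) hc hF
  rw [sc_len_after hπ.pos h0 ht] at this
  unfold scD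
  rw [sc_Vt_after]
  exact this

/-! ## 5. the terminal datum `a⁻¹ log cosh (a z)` -/

theorem sch_LC_ad {a : ℝ} (ha : 0 < a) : ScAd a (scLC a) := ScAd.logcosh ha

theorem sch_LC_d2 {a : ℝ} (ha : 0 < a) : deriv (deriv (scLC a)) = fun z => a * scSech a z :=
  funext fun z => sc_logcosh_deriv2 ha.ne' z

theorem sch_LC_d3 {a : ℝ} (ha : 0 < a) (z : ℝ) : -(deriv^[3] (scLC a) z) = 2 * a ^ 2 * schH a z := by
  show -(deriv (deriv (deriv (scLC a))) z) = _
  rw [sch_LC_d2 ha, ((scSech_hasDerivAt a z).const_mul a).deriv]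
  unfold schH
  ring

/-- S6.2: `V_zzz ≤ 0` on `z ≥ 0` -/
theorem sch_V3_nonpos {a : ℝ} (ha : 0 < a) {π : List (ℝ × ℝ)} (hπ : ScAdm a π) {t : ℝ} (h0 : 0 ≤ t) (ht : t ≤ scLen π) {z : ℝ}
    (hz : 0 ≤ z) : scD 3 (scLC a) π t z ≤ 0 := by
  have := sch_D3 (sch_LC_ad ha) hπ (c := 2 * a ^ 2) (by positivity) (fun z _ => (sch_LC_d3 ha z).ge) h0 ht hz
  have h2 : 0 ≤ 2 * a ^ 2 * Real.exp (-(7 * a ^ 2 * (scLen π - t))) * schH a z :=
    mul_nonneg (by positivity) (sch_H_nonneg ha.le hz)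
  linarith

/-- S6.3: `-V_zzzz(t,0) ≥ 2 a³ e^{-7 a² (len - t)}` -/
theorem sch_LC_D4 {a : ℝ} (ha : 0 < a) {π : List (ℝ × ℝ)} (hπ : ScAdm a π) {t : ℝ} (h0 : 0 ≤ t) (ht : t ≤ scLen π) :
    2 * a ^ 3 * Real.exp (-(7 * a ^ 2 * (scLen π - t))) ≤ -(scD 4 (scLC a) π t 0) := by
  have := sch_D4 (sch_LC_ad ha) hπ (c := 2 * a ^ 2) (by positivity) (fun z _ => (sch_LC_d3 ha z).ge) h0 ht
  calc 2 * a ^ 3 * Real.exp (-(7 * a ^ 2 * (scLen π - t))) = 2 * a ^ 2 * Real.exp (-(7 * a ^ 2 * (scLen π - t))) * a := by ring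
    _ ≤ _ := this

/-- S6.1: `V_zz(t,0) ≥ a e^{-3 a² (len - t)}` -/
theorem sch_LC_D2 {a : ℝ} (ha : 0 < a) {π : List (ℝ × ℝ)} (hπ : ScAdm a π) {t : ℝ} (ht : t ≤ scLen π) :
    a * Real.exp (-(3 * a ^ 2 * (scLen π - t))) ≤ scD 2 (scLC a) π t 0 := by
  have := scb_w_ge (sch_LC_ad ha) hπ (c := a) ha.le (fun z => by rw [sch_LC_d2 ha]) ht 0
  simpa [scSech] using this

/-! ## 6. general coefficients -/

theorem sch_aD4 {a τ : ℝ} {α : ℝ → ℝ} (ha : 0 < a) (hτ : 0 ≤ τ) (hα : ScCoef a τ α) :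
    2 * a ^ 3 * Real.exp (-(7 * a ^ 2 * τ)) ≤ -(scaD 4 (scLC a) α τ 0 0) := by
  have hapx := scg_dy_apx hτ hα
  have hl := (scg_D_tendsto (sch_LC_ad ha).B hτ hα hapx 4 le_rfl 0).neg
  refine ge_of_tendsto' hl (fun n => ?_)
  have := sch_LC_D4 ha (hapx.adm n) (t := 0) le_rfl (by rw [hapx.len n]; exact hτ)
  rwa [hapx.len n, sub_zero] at this

theorem sch_aD2 {a τ : ℝ} {α : ℝ → ℝ} (ha : 0 < a) (hτ : 0 ≤ τ) (hα : ScCoef a τ α) :
    a * Real.exp (-(3 * a ^ 2 * τ)) ≤ scaD 2 (scLC a) α τ 0 0 := by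
  have hapx := scg_dy_apx hτ hα
  have hl := scg_D_tendsto (sch_LC_ad ha).B hτ hα hapx 2 le_rfl 0
  refine ge_of_tendsto' hl (fun n => ?_)
  have := sch_LC_D2 ha (hapx.adm n) (t := 0) (by rw [hapx.len n]; exact hτ)
  rwa [hapx.len n, sub_zero] at this

/-- expectation at the time `0` -/
theorem sch_aEx_zero (F : ℝ → ℝ) (α : ℝ → ℝ) (τ : ℝ) (φ : ℝ → ℝ) : scaEx F α τ 0 φ = φ 0 := by
  unfold scaEx scPa
  simp only [sc_Pt_of_le F _ (le_refl (0 : ℝ))]
  exact tendsto_const_nhds.limUnder_eq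

/-- **EXIT**: PE Lemma 5.3, strict curvature, uniformly on bounded clocks.      TEX[PE:prof:scalar-derivatives] -/
theorem sch_curv_low {a : ℝ} (ha : 0 < a) (Q : ℝ) : SsCurvLow a Q := by
  refine ⟨min ((2 * a ^ 3 * Real.exp (-(7 * a ^ 2 * Q))) ^ 2) ((a * Real.exp (-(3 * a ^ 2 * Q))) ^ 3), lt_min (by positivity) (by positivity), ?_⟩
  intro α τ hτ hτQ hα
  have e4 : Real.exp (-(7 * a ^ 2 * Q)) ≤ Real.exp (-(7 * a ^ 2 * τ)) := by
    apply Real.exp_le_exp.2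
    have : a ^ 2 * τ ≤ a ^ 2 * Q := mul_le_mul_of_nonneg_left hτQ (sq_nonneg a)
    linarith
  have e2 : Real.exp (-(3 * a ^ 2 * Q)) ≤ Real.exp (-(3 * a ^ 2 * τ)) := by
    apply Real.exp_le_exp.2
    have : a ^ 2 * τ ≤ a ^ 2 * Q := mul_le_mul_of_nonneg_left hτQ (sq_nonneg a)
    linarith
  constructor
  · refine (min_le_left _ _).trans ?_
    show _ ≤ scaN4 (scLC a) α τ 0
    unfold scaN4
    rw [sch_aEx_zero]
    have h1 := sch_aD4 ha hτ hα
    have h2 : 2 * a ^ 3 * Real.exp (-(7 * a ^ 2 * Q)) ≤ -(scaD 4 (scLC a) α τ 0 0) :=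
      (mul_le_mul_of_nonneg_left e4 (by positivity)).trans h1
    have h3 : (0 : ℝ) ≤ 2 * a ^ 3 * Real.exp (-(7 * a ^ 2 * Q)) := by positivity
    calc (2 * a ^ 3 * Real.exp (-(7 * a ^ 2 * Q))) ^ 2 ≤ (-(scaD 4 (scLC a) α τ 0 0)) ^ 2 := pow_le_pow_left₀ h3 h2 2
      _ = scaD 4 (scLC a) α τ 0 0 ^ 2 := neg_sq _
  · refine (min_le_right _ _).trans ?_
    show _ ≤ scaM3 (scLC a) α τ 0
    unfold scaM3
    rw [sch_aEx_zero]
    have h1 := sch_aD2 ha hτ hα
    have h2 : a * Real.exp (-(3 * a ^ 2 * Q)) ≤ scaD 2 (scLC a) α τ 0 0 :=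
      (mul_le_mul_of_nonneg_left e2 ha.le).trans h1
    exact pow_le_pow_left₀ (by positivity) h2 3

end Claimed.Agent.R286
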