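import Claimed.Agent.R286.Sc.Hopf
import Claimed.Agent.R286.Sc.GenP
import Claimed.Agent.R286.Sc.Bound2

/-!
# Row 286 (S0533), BOX-C (scalar block), unit S6 (part 2): positivity of the moment curves of a GENERAL coefficient      (owner helper141; prefix `shx_`)

Consumers: `Sc/Pkg.lean` (229: `pk_t_sech`, `pk_t_N4`), `Sc/Contract.lean` sec. 4-5 (183: `sc_x_zero`, `sc_x_Gam_mem`, `sc_x_hopf`, `sc_x_pos`).
* `shx_lim, shx_mono, shx_const_mul, shx_sub, shx_const` : the functional `scaEx` on bounded `C²` tests (limits of `scPt`).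
* `shx_sech_pow` : `E sech^{2p}(a Z_t) ≥ e^{-3 p a² t}`.
* `shx_w_pow` : `E V_zz(t,Z_t)^p ≥ (a e^{-3 a² τ})^p`;   `shx_Gam_end` : `Γ(τ) ≤ 1 - e^{-3 a² τ}`.
* `shxG l y = e^{-l y²}`, `shx_gauss_T`, `shx_gauss_dyn` (Dynkin data of `A(r) e^{-l(r) y²}`), `shx_ball_step`, `shx_ball` : SMALL BALL estimate `E exp(-(1/ε + a²) Z_t²) ≥ ε/(2t+ε) e^{-a² t}`.
* **EXITS** `shx_sech`, `shx_N4_zero`, `shx_hopf`, `shx_N4`, `shx_pos`, `shx_Gam_mem`.      TEX[PE:prof:scalar-derivatives]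
-/

set_option autoImplicit false

namespace Claimed.Agent.R286

open MeasureTheory Set Filter Topology

/-! ## 1. the functional `scaEx` on bounded `C²` tests -/

theorem shx_lim {F : ℝ → ℝ} (hF : ScBI F) {a τ : ℝ} {α : ℝ → ℝ} (hτ : 0 ≤ τ) (hα : ScCoef a τ α) {φ : ℝ → ℝ}
    (hφ : ScBd 2 φ) {t : ℝ} (h0 : 0 ≤ t) (ht : t ≤ τ) :
    Tendsto (fun n => scEx F (scDy α τ n) t φ) atTop (𝓝 (scaEx F α τ t φ)) := by
  obtain ⟨M, hM⟩ := hφ.scN
  exact sgp_P_tendsto_bd hF hτ hα hM le_rfl h0 ht 0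

theorem shx_mono {F : ℝ → ℝ} (hF : ScBI F) {a τ : ℝ} {α : ℝ → ℝ} (hτ : 0 ≤ τ) (hα : ScCoef a τ α) {φ ψ : ℝ → ℝ}
    (hφ : ScBd 2 φ) (hψ : ScBd 2 ψ) (h : ∀ z, φ z ≤ ψ z) {t : ℝ} (h0 : 0 ≤ t) (ht : t ≤ τ) :
    scaEx F α τ t φ ≤ scaEx F α τ t ψ :=
  le_of_tendsto_of_tendsto' (shx_lim hF hτ hα hφ h0 ht) (shx_lim hF hτ hα hψ h0 ht)
    fun _ => sc_Pt_mono hF hφ.of_succ.of_succ.scE hψ.of_succ.of_succ.scE h _ 0 t 0

theorem shx_const_mul {F : ℝ → ℝ} (hF : ScBI F) {a τ : ℝ} {α : ℝ → ℝ} (hτ : 0 ≤ τ) (hα : ScCoef a τ α) (c : ℝ)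
    {φ : ℝ → ℝ} (hφ : ScBd 2 φ) {t : ℝ} (h0 : 0 ≤ t) (ht : t ≤ τ) :
    scaEx F α τ t (fun z => c * φ z) = c * scaEx F α τ t φ := by
  refine tendsto_nhds_unique (shx_lim hF hτ hα (hφ.const_mul c) h0 ht)
    (((shx_lim hF hτ hα hφ h0 ht).const_mul c).congr fun n => ?_)
  simp only [scEx]
  rw [sc_Pt_const_mul]

theorem shx_sub {F : ℝ → ℝ} (hF : ScBI F) {a τ : ℝ} {α : ℝ → ℝ} (hτ : 0 ≤ τ) (hα : ScCoef a τ α)
    {φ ψ : ℝ → ℝ} (hφ : ScBd 2 φ) (hψ : ScBd 2 ψ) {t : ℝ} (h0 : 0 ≤ t) (ht : t ≤ τ) :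
    scaEx F α τ t (fun z => φ z - ψ z) = scaEx F α τ t φ - scaEx F α τ t ψ := by
  refine tendsto_nhds_unique (shx_lim hF hτ hα (hφ.sub hψ) h0 ht)
    (((shx_lim hF hτ hα hφ h0 ht).sub (shx_lim hF hτ hα hψ h0 ht)).congr fun n => ?_)
  simp only [scEx]
  rw [sc_Pt_sub hF hφ.of_succ.of_succ.scE hψ.of_succ.of_succ.scE]

theorem shx_const {F : ℝ → ℝ} (hF : ScBI F) {a τ : ℝ} {α : ℝ → ℝ} (hτ : 0 ≤ τ) (hα : ScCoef a τ α) (c : ℝ)
    {t : ℝ} (h0 : 0 ≤ t) (ht : t ≤ τ) : scaEx F α τ t (fun _ => c) = c := by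
  refine tendsto_nhds_unique (shx_lim hF hτ hα (ScBd.const 2 c) h0 ht) (tendsto_const_nhds.congr fun n => ?_)
  simp only [scEx]
  rw [sc_Pt_const hF]

/-! ## 2. the moments of `sech²` and of `V_zz` -/

/-- **R15** for a general coefficient: `E sech^{2p}(a Z_t) ≥ e^{-3 p a² t}` -/
theorem shx_sech_pow {a τ : ℝ} (ha : 0 < a) {α : ℝ → ℝ} (hτ : 0 ≤ τ) (hα : ScCoef a τ α) (p : ℕ) {t : ℝ} (h0 : 0 ≤ t)
    (ht : t ≤ τ) : Real.exp (-(3 * p * a ^ 2 * t)) ≤ scaEx (scLC a) α τ t (fun y => scSech a y ^ p) := by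
  refine ge_of_tendsto' (shx_lim (sch_LC_ad ha).B hτ hα (scSech_pow_Bd 2 a p) h0 ht) fun n => ?_
  have h2 := scb_Pt_sech_pow_ge (sch_LC_ad ha) (sc_dy_adm hτ hα n) p h0 0
  have e0 : scSech a 0 = 1 := by simp [scSech]
  rwa [e0, one_pow, mul_one, sub_zero] at h2

theorem shx_LC_low {a : ℝ} (ha : 0 < a) (z : ℝ) : a * scSech a z ≤ deriv (deriv (scLC a)) z := by
  rw [sch_LC_d2 ha]

/-- `E V_zz(t, Z_t)^p ≥ (a e^{-3 a² τ})^p` -/
theorem shx_w_pow {a τ : ℝ} (ha : 0 < a) {α : ℝ → ℝ} (hτ : 0 ≤ τ) (hα : ScCoef a τ α) (p : ℕ) {t : ℝ} (h0 : 0 ≤ t)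
    (ht : t ≤ τ) :
    (a * Real.exp (-(3 * a ^ 2 * τ))) ^ p ≤ scaEx (scLC a) α τ t (fun z => scaD 2 (scLC a) α τ t z ^ p) := by
  have hB := (sch_LC_ad ha).B
  have hw : ∀ z, (a * Real.exp (-(3 * a ^ 2 * (τ - t)))) ^ p * scSech a z ^ p ≤ scaD 2 (scLC a) α τ t z ^ p := by
    intro z
    rw [← mul_pow]
    exact pow_le_pow_left₀ (by have := scSech_pos a z; positivity)
      (scg_w_ge (sch_LC_ad ha) ha.le (shx_LC_low ha) hτ hα h0 ht z) p
  have h1 := shx_mono hB hτ hα ((scSech_pow_Bd 2 a p).const_mul _) ((scg_aD_Bd hB hτ hα 1 2 h0).pow p) hw h0 ht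
  rw [shx_const_mul hB hτ hα _ (scSech_pow_Bd 2 a p) h0 ht] at h1
  have h3 := mul_le_mul_of_nonneg_left (shx_sech_pow ha hτ hα p h0 ht)
    (by positivity : 0 ≤ (a * Real.exp (-(3 * a ^ 2 * (τ - t)))) ^ p)
  have e : (a * Real.exp (-(3 * a ^ 2 * τ))) ^ p
      = (a * Real.exp (-(3 * a ^ 2 * (τ - t)))) ^ p * Real.exp (-(3 * p * a ^ 2 * t)) := by
    rw [mul_pow, mul_pow, ← Real.exp_nat_mul, ← Real.exp_nat_mul, mul_assoc (a ^ p), ← Real.exp_add]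
    congr 2
    ring
  rw [e]
  exact h3.trans h1

/-- `Γ(τ) = 1 - E sech²(a Z_τ) ≤ 1 - e^{-3 a² τ}` -/
theorem shx_Gam_end {a τ : ℝ} (ha : 0 < a) {α : ℝ → ℝ} (hτ : 0 ≤ τ) (hα : ScCoef a τ α) :
    scaGam (scLC a) α τ τ ≤ 1 - Real.exp (-(3 * a ^ 2 * τ)) := by
  have hB := (sch_LC_ad ha).B
  have hu : scaD 1 (scLC a) α τ τ = fun z => Real.tanh (a * z) := by
    rw [scg_aD_of_le 1 _ α hτ le_rfl]
    exact scb_LC_deriv ha.ne'
  have e1 : (fun z => scaD 1 (scLC a) α τ τ z ^ 2) = fun z => (fun _ : ℝ => (1 : ℝ)) z - scSech a z ^ 1 := by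
    funext z
    rw [hu]
    simp only [scSech, pow_one]
    ring
  have h2 := shx_sech_pow ha hτ hα 1 hτ le_rfl
  unfold scaGam
  rw [e1, shx_sub hB hτ hα (ScBd.const 2 1) (scSech_pow_Bd 2 a 1) hτ le_rfl, shx_const hB hτ hα 1 hτ le_rfl]
  have e : -(3 * ((1 : ℕ) : ℝ) * a ^ 2 * τ) = -(3 * a ^ 2 * τ) := by push_cast; ring
  rw [e] at h2
  linarith

/-! ## 3. exits -/

/-- **EXIT** (for `pk_t_sech` of `Sc/Pkg.lean`).   `E V_zz(t, Z_t) ≥ c(a,τ) > 0`, and `1 - Γ(τ) ≥ c`. -/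
theorem shx_sech {a τ : ℝ} (ha : 0 < a) (hτ : 0 ≤ τ) : ∃ c > 0, ∀ α, ScCoef a τ α →
    (∀ t ∈ Icc 0 τ, c ≤ scaEx (scLC a) α τ t (scaD 2 (scLC a) α τ t)) ∧ scaGam (scLC a) α τ τ ≤ 1 - c := by
  refine ⟨min (a * Real.exp (-(3 * a ^ 2 * τ))) (Real.exp (-(3 * a ^ 2 * τ))), lt_min (by positivity) (by positivity),
    fun α hα => ⟨fun t ht => ?_, ?_⟩⟩
  · have := shx_w_pow ha hτ hα 1 ht.1 ht.2
    simp only [pow_one] at this
    exact (min_le_left _ _).trans this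
  · have := shx_Gam_end ha hτ hα
    have h2 := min_le_right (a * Real.exp (-(3 * a ^ 2 * τ))) (Real.exp (-(3 * a ^ 2 * τ)))
    linarith

/-- **EXIT** (for `pk_t_N4` of `Sc/Pkg.lean`).   `E V_zzzz(0, Z_0)² = V_zzzz(0,0)² > 0`.      TEX[PE:prof:scalar-derivatives] -/
theorem shx_N4_zero {a τ : ℝ} (ha : 0 < a) (hτ : 0 ≤ τ) {α : ℝ → ℝ} (hα : ScCoef a τ α) :
    (2 * a ^ 3 * Real.exp (-(7 * a ^ 2 * τ))) ^ 2 ≤ scaN4 (scLC a) α τ 0 := by
  unfold scaN4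
  rw [sch_aEx_zero]
  have h := sch_aD4 ha hτ hα
  have h0 : 0 ≤ 2 * a ^ 3 * Real.exp (-(7 * a ^ 2 * τ)) := by positivity
  nlinarith

/-! ## 4. the small ball estimate (Gaussian subsolution with moving width) -/

/-- the Gaussian weight `e^{-l y²}` -/
noncomputable def shxG (l y : ℝ) : ℝ := Real.exp (-(l * y ^ 2))

theorem shx_G_pos (l y : ℝ) : 0 < shxG l y := Real.exp_pos _

theorem shx_G_le_one {l : ℝ} (hl : 0 ≤ l) (y : ℝ) : shxG l y ≤ 1 := by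
  unfold shxG
  rw [Real.exp_le_one_iff]
  have := mul_nonneg hl (sq_nonneg y)
  linarith

theorem shx_G_dy (l y : ℝ) : HasDerivAt (shxG l) (-(2 * l * y) * shxG l y) y := by
  have h1 : HasDerivAt (fun y : ℝ => -(l * y ^ 2)) (-(2 * l * y)) y := by
    have := (((hasDerivAt_id y).pow 2).const_mul l).neg
    refine this.congr_deriv ?_
    simp only [id, Nat.cast_ofNat, Nat.add_one_sub_one, pow_one]
    ring
  have := h1.exp
  rwa [mul_comm] at this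

theorem shx_time {s t : ℝ} {A : ℝ → ℝ} (hc : ContinuousOn A (Icc s t)) (n : ℕ) : ScT (Icc s t) n (fun r _ => A r) := by
  refine ScT.of_time hc ?_ n
  obtain ⟨C, hC⟩ := isCompact_Icc.exists_bound_of_continuousOn hc
  exact ⟨C, fun r hr => by simpa using hC r hr⟩

/-- multiplication by a Gaussian weight with a time dependent width keeps the classes `ScT` -/
theorem shx_gauss_T {s t : ℝ} {l : ℝ → ℝ} (hl : ContinuousOn l (Icc s t)) (hl0 : ∀ r ∈ Icc s t, 0 ≤ l r) (n : ℕ) :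
    ∀ {ψ : ℝ → ℝ → ℝ}, ScT (Icc s t) n ψ → ScT (Icc s t) n (fun r y => ψ r y * shxG (l r) y) := by
  have base : ∀ {ψ : ℝ → ℝ → ℝ}, ScT (Icc s t) 0 ψ → ScT (Icc s t) 0 (fun r y => ψ r y * shxG (l r) y) := by
    intro ψ hψ
    refine ⟨hψ.1.mul ?_, hψ.2.of_le fun r hr z => ?_⟩
    · unfold shxG
      have h1 : ContinuousOn (fun p : ℝ × ℝ => l p.1) (Icc s t ×ˢ univ) := hl.comp continuousOn_fst fun p hp => hp.1
      exact ((h1.mul (continuous_snd.pow 2).continuousOn).neg).rexp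
    · rw [abs_mul, abs_of_pos (shx_G_pos _ _)]
      exact mul_le_of_le_one_right (abs_nonneg _) (shx_G_le_one (hl0 r hr) z)
  induction n with
  | zero => exact base
  | succ n ih =>
    intro ψ hψ
    have h0 := base (hψ.mono (Nat.zero_le _))
    refine ⟨h0.1, h0.2, fun r hr y => ((hψ.2.2.1 r hr y).hasDerivAt.mul (shx_G_dy (l r) y)).differentiableAt, ?_⟩
    have h1 : ScT (Icc s t) n (fun r y => deriv (ψ r) y - 2 * l r * y * ψ r y) :=
      hψ.2.2.2.sub ((((shx_time hl n).const_mul 2).mul ((ScE.id n).scT _)).mul hψ.of_succ)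
    refine (ih h1).congr' fun r hr => ?_
    funext y
    exact (((hψ.2.2.1 r hr y).hasDerivAt.fun_mul (shx_G_dy (l r) y)).congr_deriv (by ring)).deriv

/-- **Dynkin data of a Gaussian with moving width and amplitude** -/
theorem shx_gauss_dyn {F : ℝ → ℝ} (hF : ScBI F) {π : List (ℝ × ℝ)} (hπ : ScPos π) {s t : ℝ} (h0 : 0 ≤ s) (ht : t ≤ scLen π)
    {A A' l l' : ℝ → ℝ} (hA : ContinuousOn A (Icc s t)) (hA' : ContinuousOn A' (Icc s t)) (hl : ContinuousOn l (Icc s t))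
    (hl' : ContinuousOn l' (Icc s t)) (hl0 : ∀ r ∈ Icc s t, 0 ≤ l r) (hdA : ∀ r ∈ Ioo s t, HasDerivAt A (A' r) r)
    (hdl : ∀ r ∈ Ioo s t, HasDerivAt l (l' r) r) :
    ScDyn F π s t (fun r y => A r * shxG (l r) y)
      (fun r y => (A' r - A r * l' r * y ^ 2 + A r * (2 * l r ^ 2 * y ^ 2 - l r)
        - scAl π r * scD 1 F π r y * (2 * l r * y * A r)) * shxG (l r) y) := by
  have tA := fun n => shx_time hA n
  have tA' := fun n => shx_time hA' n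
  have tl := fun n => shx_time hl n
  have tl' := fun n => shx_time hl' n
  have ty := fun n => (ScE.id n).scT (Icc s t)
  have d1 : ∀ r y, HasDerivAt (fun y => A r * shxG (l r) y) (-(2 * l r * y * A r) * shxG (l r) y) y := fun r y =>
    ((shx_G_dy (l r) y).const_mul (A r)).congr_deriv (by ring)
  have e1 : ∀ r, deriv (fun y => A r * shxG (l r) y) = fun y => -(2 * l r * y * A r) * shxG (l r) y := fun r =>
    funext fun y => (d1 r y).deriv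
  have d2 : ∀ r y, HasDerivAt (fun y => -(2 * l r * y * A r) * shxG (l r) y)
      (A r * (4 * l r ^ 2 * y ^ 2 - 2 * l r) * shxG (l r) y) y := fun r y => by
    have h1 : HasDerivAt (fun y : ℝ => -(2 * l r * y * A r)) (-(2 * l r * A r)) y := by
      have := (((hasDerivAt_id y).const_mul (2 * l r)).mul_const (A r)).fun_neg
      simpa using this
    exact (h1.fun_mul (shx_G_dy (l r) y)).congr_deriv (by ring)
  refine ⟨shx_gauss_T hl hl0 2 (tA 2), ?_, ∅, finite_empty, fun r hr _ y => ?_⟩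
  · have g1 : ScTP s t (fun r y => (A' r - A r * l' r * y ^ 2 + A r * (2 * l r ^ 2 * y ^ 2 - l r)) * shxG (l r) y) :=
      (shx_gauss_T hl hl0 0 (((tA' 0).sub (((tA 0).mul (tl' 0)).mul ((ty 0).pow 2))).add
        ((tA 0).mul (((((tl 0).pow 2).const_mul 2).mul ((ty 0).pow 2)).sub (tl 0))))).tp
    have g2 : ScTP s t (fun r y => scAl π r * (scD 1 F π r y * ((2 * l r * y * A r) * shxG (l r) y))) :=
      (ScT.tp ((sc_dyn_space_DT hF hπ h0 ht 1 0).mul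
        (shx_gauss_T hl hl0 0 ((((tl 0).const_mul 2).mul (ty 0)).mul (tA 0))))).al_mul hπ
    refine (g1.sub g2).congr fun r _ => ?_
    funext y
    ring
  · rw [e1 r, (d2 r y).deriv]
    have h1 : HasDerivAt (fun r => -(l r * y ^ 2)) (-(l' r * y ^ 2)) r := ((hdl r hr).mul_const (y ^ 2)).neg
    have h2 : HasDerivAt (fun r => shxG (l r) y) (Real.exp (-(l r * y ^ 2)) * -(l' r * y ^ 2)) r := h1.exp
    refine ((hdA r hr).fun_mul h2).congr_deriv ?_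
    simp only [shxG]
    ring

/-- **small ball estimate, step level**: `E exp(-(1/ε + a²) Z_t²) ≥ ε/(2t+ε) e^{-a² t}` (polynomial loss in `ε`).
Subsolution `A(r) exp(-l(r) y²)`, `D = 2 (t - r) + ε`, `l = 1/D + a²`, `A = (ε/D) e^{-a² (t-r)}`; the drift is absorbed by `α u y ≤ a² y²`. -/
theorem shx_ball_step {a : ℝ} {F : ℝ → ℝ} (h : ScAd a F) {π : List (ℝ × ℝ)} (hπ : ScAdm a π) {ε : ℝ} (hε : 0 < ε) {t : ℝ}
    (h0 : 0 ≤ t) (ht : t ≤ scLen π) :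
    ε / (2 * t + ε) * Real.exp (-(a ^ 2 * t)) ≤ scEx F π t (shxG (1 / ε + a ^ 2)) := by
  have ha : 0 < a := h.mass_pos
  have hD : ∀ r ∈ Icc 0 t, 0 < 2 * (t - r) + ε := fun r hr => by linarith [hr.2]
  have cD : Continuous (fun r : ℝ => 2 * (t - r) + ε) := by fun_prop
  have cE : Continuous (fun r : ℝ => Real.exp (-(a ^ 2 * (t - r)))) := by fun_prop
  have dD : ∀ r : ℝ, HasDerivAt (fun r : ℝ => 2 * (t - r) + ε) (-2) r := fun r => by
    have := (((hasDerivAt_id r).const_sub t).const_mul 2).add_const ε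
    simpa using this
  have cI : ContinuousOn (fun r : ℝ => (2 * (t - r) + ε)⁻¹) (Icc 0 t) := cD.continuousOn.inv₀ fun r hr => (hD r hr).ne'
  have dI : ∀ r ∈ Ioo 0 t, HasDerivAt (fun r : ℝ => (2 * (t - r) + ε)⁻¹) (2 * ((2 * (t - r) + ε)⁻¹) ^ 2) r := fun r hr => by
    have hne := (hD r (Ioo_subset_Icc_self hr)).ne'
    refine ((dD r).fun_inv hne).congr_deriv ?_
    field_simp
  have dE : ∀ r : ℝ, HasDerivAt (fun r : ℝ => Real.exp (-(a ^ 2 * (t - r)))) (a ^ 2 * Real.exp (-(a ^ 2 * (t - r)))) r := fun r => by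
    have h1 : HasDerivAt (fun r : ℝ => -(a ^ 2 * (t - r))) (a ^ 2) r := by
      have := (((hasDerivAt_id r).const_sub t).const_mul (a ^ 2)).fun_neg
      simpa using this
    have := h1.exp
    rwa [mul_comm] at this
  have hdyn := shx_gauss_dyn h.B hπ.pos (s := 0) (t := t) le_rfl ht
    (A := fun r => ε * (2 * (t - r) + ε)⁻¹ * Real.exp (-(a ^ 2 * (t - r))))
    (A' := fun r => ε * (2 * ((2 * (t - r) + ε)⁻¹) ^ 2) * Real.exp (-(a ^ 2 * (t - r)))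
      + ε * (2 * (t - r) + ε)⁻¹ * (a ^ 2 * Real.exp (-(a ^ 2 * (t - r)))))
    (l := fun r => (2 * (t - r) + ε)⁻¹ + a ^ 2) (l' := fun r => 2 * ((2 * (t - r) + ε)⁻¹) ^ 2)
    ((continuousOn_const.mul cI).mul cE.continuousOn)
    (((continuousOn_const.mul (continuousOn_const.mul (cI.pow 2))).mul cE.continuousOn).add
      ((continuousOn_const.mul cI).mul (continuousOn_const.mul cE.continuousOn)))
    (cI.add continuousOn_const) (continuousOn_const.mul (cI.pow 2))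
    (fun r hr => by have := inv_pos.2 (hD r hr); positivity)
    (fun r hr => ((dI r hr).const_mul ε).fun_mul (dE r))
    (fun r hr => (dI r hr).add_const (a ^ 2))
  have hsub := scb_sub h.B hπ.pos le_rfl h0 ht hdyn (fun r hr y => ?_) 0
  · simp only [sub_self, mul_zero, zero_add, sub_zero, neg_zero, Real.exp_zero, mul_one] at hsub
    rw [mul_inv_cancel₀ hε.ne'] at hsub
    simp only [one_mul] at hsub
    have e0 : shxG ((2 * t + ε)⁻¹ + a ^ 2) 0 = 1 := by simp [shxG]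
    rw [e0, mul_one] at hsub
    have e1 : (fun y => shxG (ε⁻¹ + a ^ 2) y) = shxG (1 / ε + a ^ 2) := by rw [one_div]
    rw [e1] at hsub
    rw [div_eq_mul_inv]
    exact hsub
  · refine mul_nonneg ?_ (shx_G_pos _ _).le
    obtain ⟨i, hi⟩ : ∃ i, i = (2 * (t - r) + ε)⁻¹ := ⟨_, rfl⟩
    obtain ⟨E, hE⟩ : ∃ E, E = Real.exp (-(a ^ 2 * (t - r))) := ⟨_, rfl⟩
    obtain ⟨w, hw⟩ : ∃ w, w = scAl π r * scD 1 F π r y * y := ⟨_, rfl⟩
    have hi0 : 0 < i := hi ▸ inv_pos.2 (hD r (Ioo_subset_Icc_self hr))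
    have hE0 : 0 < E := hE ▸ Real.exp_pos _
    have hwle : w ≤ a ^ 2 * y ^ 2 := by
      have hα := sc_Al_mem ha.le hπ r
      have hu := scb_u_abs_le_mul h hπ r y
      calc w ≤ |w| := le_abs_self _
        _ = scAl π r * |scD 1 F π r y| * |y| := by rw [hw, abs_mul, abs_mul, abs_of_nonneg hα.1]
        _ ≤ a * (a * |y|) * |y| := by
            refine mul_le_mul_of_nonneg_right (mul_le_mul hα.2 hu (abs_nonneg _) ha.le) (abs_nonneg _)
        _ = a ^ 2 * y ^ 2 := by rw [← sq_abs y]; ring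
    rw [← hi, ← hE]
    have e : ε * (2 * i ^ 2) * E + ε * i * (a ^ 2 * E) - ε * i * E * (2 * i ^ 2) * y ^ 2
        + ε * i * E * (2 * (i + a ^ 2) ^ 2 * y ^ 2 - (i + a ^ 2))
        - scAl π r * scD 1 F π r y * (2 * (i + a ^ 2) * y * (ε * i * E))
        = ε * i * E * (i + 2 * a ^ 2 * i * y ^ 2 + 2 * (i + a ^ 2) * (a ^ 2 * y ^ 2 - w)) := by
      rw [hw]; ring
    rw [e]
    have : 0 ≤ a ^ 2 * y ^ 2 - w := by linarith
    positivity

theorem shx_G_sq_le {l : ℝ} (hl : 0 < l) (y : ℝ) : y ^ 2 * shxG l y ≤ 1 / l := by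
  have h1 : l * y ^ 2 ≤ Real.exp (l * y ^ 2) := by linarith [Real.add_one_le_exp (l * y ^ 2)]
  have h2 : l * y ^ 2 * shxG l y ≤ 1 := by
    unfold shxG
    rw [Real.exp_neg]
    have := Real.exp_pos (l * y ^ 2)
    rw [← div_eq_mul_inv, div_le_one this]
    exact h1
  rw [le_div_iff₀ hl]
  linarith

theorem shx_G_abs_le {l : ℝ} (hl : 0 < l) (y : ℝ) : |y| * shxG l y ≤ 1 + 1 / l := by
  have h1 := shx_G_sq_le hl y
  have h2 := shx_G_le_one hl.le y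
  have h3 := shx_G_pos l y
  have h4 : |y| ≤ 1 + y ^ 2 := by
    rw [← sq_abs y]
    nlinarith [sq_nonneg (|y| - 1), abs_nonneg y]
  calc |y| * shxG l y ≤ (1 + y ^ 2) * shxG l y := mul_le_mul_of_nonneg_right h4 h3.le
    _ = shxG l y + y ^ 2 * shxG l y := by ring
    _ ≤ 1 + 1 / l := add_le_add h2 h1

theorem shx_G_Bd {l : ℝ} (hl : 0 < l) : ScBd 2 (shxG l) := by
  have e1 : deriv (shxG l) = fun y => -(2 * l * y) * shxG l y := funext fun y => (shx_G_dy l y).deriv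
  have d2 : ∀ y, HasDerivAt (fun y => -(2 * l * y) * shxG l y) ((4 * l ^ 2 * y ^ 2 - 2 * l) * shxG l y) y := fun y => by
    have h1 : HasDerivAt (fun y : ℝ => -(2 * l * y)) (-(2 * l)) y := by
      have := ((hasDerivAt_id y).const_mul (2 * l)).fun_neg
      simpa using this
    exact (h1.fun_mul (shx_G_dy l y)).congr_deriv (by ring)
  have e2 : deriv (fun y => -(2 * l * y) * shxG l y) = fun y => (4 * l ^ 2 * y ^ 2 - 2 * l) * shxG l y :=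
    funext fun y => (d2 y).deriv
  have cG : Continuous (shxG l) := continuous_iff_continuousAt.2 fun y => (shx_G_dy l y).continuousAt
  refine ⟨⟨1, fun z => by rw [abs_of_pos (shx_G_pos l z)]; exact shx_G_le_one hl.le z⟩,
    fun y => (shx_G_dy l y).differentiableAt, ⟨2 * l * (1 + 1 / l), fun z => ?_⟩, ?_⟩
  · rw [e1]
    simp only [abs_mul, abs_neg, abs_of_pos (shx_G_pos l z), abs_of_pos hl, abs_two]
    have := shx_G_abs_le hl z
    calc 2 * l * |z| * shxG l z = 2 * l * (|z| * shxG l z) := by ring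
      _ ≤ 2 * l * (1 + 1 / l) := mul_le_mul_of_nonneg_left this (by positivity)
  · rw [e1]
    refine ⟨fun y => (d2 y).differentiableAt, ⟨4 * l ^ 2 * (1 / l) + 2 * l, fun z => ?_⟩, ?_⟩
    · rw [e2]
      have h1 := shx_G_sq_le hl z
      have h2 := shx_G_le_one hl.le z
      have h3 := shx_G_pos l z
      have e : (4 * l ^ 2 * z ^ 2 - 2 * l) * shxG l z = 4 * l ^ 2 * (z ^ 2 * shxG l z) - 2 * l * shxG l z := by ring
      have h4 : 0 ≤ z ^ 2 * shxG l z := by positivity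
      have h5 : 4 * l ^ 2 * (z ^ 2 * shxG l z) ≤ 4 * l ^ 2 * (1 / l) := mul_le_mul_of_nonneg_left h1 (by positivity)
      have h6 : 2 * l * shxG l z ≤ 2 * l := by nlinarith
      have h7 : 0 ≤ 4 * l ^ 2 * (z ^ 2 * shxG l z) := by positivity
      have h8 : 0 ≤ 2 * l * shxG l z := by positivity
      show |(4 * l ^ 2 * z ^ 2 - 2 * l) * shxG l z| ≤ _
      rw [e, abs_le]
      constructor <;> linarith
    · rw [e2]
      show Continuous _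
      exact (by fun_prop : Continuous fun y : ℝ => 4 * l ^ 2 * y ^ 2 - 2 * l).mul cG

/-- **small ball estimate** for a general coefficient -/
theorem shx_ball {a τ : ℝ} (ha : 0 < a) {α : ℝ → ℝ} (hτ : 0 ≤ τ) (hα : ScCoef a τ α) {ε : ℝ} (hε : 0 < ε) {t : ℝ} (h0 : 0 ≤ t)
    (ht : t ≤ τ) : ε / (2 * t + ε) * Real.exp (-(a ^ 2 * t)) ≤ scaEx (scLC a) α τ t (shxG (1 / ε + a ^ 2)) := by
  refine ge_of_tendsto' (shx_lim (sch_LC_ad ha).B hτ hα (shx_G_Bd (by positivity)) h0 ht) fun n => ?_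
  exact shx_ball_step (sch_LC_ad ha) (sc_dy_adm hτ hα n) hε h0 (by rw [sc_dy_len]; exact ht)

/-! ## 5. Hopf bounds at every time, positivity of `E V_zzzz²` -/

/-- S6.3 at every time -/
theorem shx_aD4 {a τ : ℝ} {α : ℝ → ℝ} (ha : 0 < a) (hτ : 0 ≤ τ) (hα : ScCoef a τ α) {t : ℝ} (h0 : 0 ≤ t) (ht : t ≤ τ) :
    2 * a ^ 3 * Real.exp (-(7 * a ^ 2 * (τ - t))) ≤ -(scaD 4 (scLC a) α τ t 0) := by
  have hapx := scg_dy_apx hτ hα
  have hl := (scg_D_tendsto (sch_LC_ad ha).B hτ hα hapx 4 h0 0).neg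
  refine ge_of_tendsto' hl (fun n => ?_)
  have := sch_LC_D4 ha (hapx.adm n) (t := t) h0 (by rw [hapx.len n]; exact ht)
  rwa [hapx.len n] at this

/-- S6.1 at every time -/
theorem shx_aD2 {a τ : ℝ} {α : ℝ → ℝ} (ha : 0 < a) (hτ : 0 ≤ τ) (hα : ScCoef a τ α) {t : ℝ} (h0 : 0 ≤ t) (ht : t ≤ τ) :
    a * Real.exp (-(3 * a ^ 2 * (τ - t))) ≤ scaD 2 (scLC a) α τ t 0 := by
  have hapx := scg_dy_apx hτ hα
  have hl := scg_D_tendsto (sch_LC_ad ha).B hτ hα hapx 2 h0 0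
  refine ge_of_tendsto' hl (fun n => ?_)
  have := sch_LC_D2 ha (hapx.adm n) (t := t) (by rw [hapx.len n]; exact ht)
  rwa [hapx.len n] at this

/-- **EXIT** (= `sc_x_hopf` of `Sc/Contract.lean`).      TEX[PE:prof:scalar-derivatives] `c ≤ V_zz(t,0) ≤ C`, `c ≤ -V_zzzz(t,0) ≤ C`, uniformly in the horizon `τ' ≤ τ` -/
theorem shx_hopf {a τ : ℝ} (ha : 0 < a) :
    ∃ c C : ℝ, 0 < c ∧ ∀ τ' : ℝ, 0 < τ' → τ' ≤ τ → ∀ α : ℝ → ℝ, ScCoef a τ' α → ∀ t ∈ Icc 0 τ',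
      c ≤ scaD 2 (scLC a) α τ' t 0 ∧ scaD 2 (scLC a) α τ' t 0 ≤ C ∧ c ≤ -scaD 4 (scLC a) α τ' t 0 ∧ -scaD 4 (scLC a) α τ' t 0 ≤ C := by
  obtain ⟨C, hC0, _, hC⟩ := scg_aD_bound ha.le (sch_LC_ad ha).B
  refine ⟨min (a * Real.exp (-(3 * a ^ 2 * τ))) (2 * a ^ 3 * Real.exp (-(7 * a ^ 2 * τ))), max (C 2) (C 4),
    lt_min (by positivity) (by positivity), fun τ' hτ' hττ α hα t ht => ?_⟩
  have h2 := shx_aD2 ha hτ'.le hα ht.1 ht.2
  have h4 := shx_aD4 ha hτ'.le hα ht.1 ht.2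
  have b2 := abs_le.1 (hC τ' α hτ'.le hα 2 (by norm_num) t ht.1 0)
  have b4 := abs_le.1 (hC τ' α hτ'.le hα 4 (by norm_num) t ht.1 0)
  have ha2 : 0 ≤ a ^ 2 := by positivity
  have m2 : a * Real.exp (-(3 * a ^ 2 * τ)) ≤ a * Real.exp (-(3 * a ^ 2 * (τ' - t))) :=
    mul_le_mul_of_nonneg_left (Real.exp_le_exp.2 (by nlinarith [ht.1])) ha.le
  have m4 : 2 * a ^ 3 * Real.exp (-(7 * a ^ 2 * τ)) ≤ 2 * a ^ 3 * Real.exp (-(7 * a ^ 2 * (τ' - t))) :=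
    mul_le_mul_of_nonneg_left (Real.exp_le_exp.2 (by nlinarith [ht.1])) (by positivity)
  exact ⟨(min_le_left _ _).trans (m2.trans h2), b2.2.trans (le_max_left _ _), (min_le_right _ _).trans (m4.trans h4),
    (by linarith [b4.1] : -scaD 4 (scLC a) α τ' t 0 ≤ C 4).trans (le_max_right _ _)⟩

theorem shx_G_anti {l : ℝ} (hl : 0 ≤ l) {x y : ℝ} (h : |x| ≤ |y|) : shxG l y ≤ shxG l x := by
  unfold shxG
  refine Real.exp_le_exp.2 (neg_le_neg (mul_le_mul_of_nonneg_left ?_ hl))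
  rw [← sq_abs x, ← sq_abs y]
  exact pow_le_pow_left₀ (abs_nonneg _) h 2

/-- `e^{-x} ≤ 2 / x²` -/
theorem shx_exp_neg_le {x : ℝ} (hx : 0 < x) : Real.exp (-x) ≤ 2 / x ^ 2 := by
  have h1 := Real.quadratic_le_exp_of_nonneg hx.le
  have h2 : x ^ 2 / 2 ≤ Real.exp x := by linarith
  rw [Real.exp_neg, le_div_iff₀ (by positivity), inv_mul_le_iff₀ (Real.exp_pos x)]
  linarith

/-- **positivity of `E V_zzzz(t, Z_t)²` at EVERY time**, uniformly in the coefficient:  Hopf bound at `z = 0`, Lipschitz bound of `V_zzzz`, small ball estimate -/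
theorem shx_N4 {a τ : ℝ} (ha : 0 < a) (hτ : 0 ≤ τ) :
    ∃ c : ℝ, 0 < c ∧ ∀ α : ℝ → ℝ, ScCoef a τ α → ∀ t ∈ Icc 0 τ, c ≤ scaN4 (scLC a) α τ t := by
  have hB := (sch_LC_ad ha).B
  obtain ⟨C, hC0, _, hC⟩ := scg_aD_bound ha.le hB
  obtain ⟨c4, hc4⟩ : ∃ c4, c4 = 2 * a ^ 3 * Real.exp (-(7 * a ^ 2 * τ)) := ⟨_, rfl⟩
  have hc4p : 0 < c4 := by rw [hc4]; positivity
  obtain ⟨δ, hδ⟩ : ∃ δ, δ = c4 / (2 * (C 5 + 1)) := ⟨_, rfl⟩
  have hC5 : 0 < C 5 + 1 := by linarith [hC0 5]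
  have hδp : 0 < δ := by rw [hδ]; positivity
  obtain ⟨E, hE⟩ : ∃ E, E = Real.exp (-(a ^ 2 * τ)) := ⟨_, rfl⟩
  have hEp : 0 < E := by rw [hE]; positivity
  obtain ⟨ε, hε⟩ : ∃ ε, ε = min 1 (δ ^ 4 * E / (4 * (2 * τ + 1))) := ⟨_, rfl⟩
  have hεp : 0 < ε := by rw [hε]; exact lt_min one_pos (by positivity)
  have hε1 : ε ≤ 1 := by rw [hε]; exact min_le_left _ _
  have hε2 : ε ≤ δ ^ 4 * E / (4 * (2 * τ + 1)) := by rw [hε]; exact min_le_right _ _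
  obtain ⟨Λ, hΛ⟩ : ∃ Λ, Λ = 1 / ε + a ^ 2 := ⟨_, rfl⟩
  have hΛp : 0 < Λ := by rw [hΛ]; positivity
  -- the level at the radius `δ` is much smaller than the small ball probability
  have hlev : shxG Λ δ ≤ ε * E / (2 * (2 * τ + 1)) := by
    have h1 : shxG Λ δ ≤ Real.exp (-(δ ^ 2 / ε)) := by
      unfold shxG
      refine Real.exp_le_exp.2 (neg_le_neg ?_)
      rw [hΛ]
      have : 0 ≤ a ^ 2 * δ ^ 2 := by positivity
      have e : (1 / ε + a ^ 2) * δ ^ 2 = δ ^ 2 / ε + a ^ 2 * δ ^ 2 := by ring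
      linarith
    have h2 := shx_exp_neg_le (x := δ ^ 2 / ε) (by positivity)
    have h3 : 2 / (δ ^ 2 / ε) ^ 2 = ε * (2 * ε / δ ^ 4) := by
      field_simp
    have h4 : 2 * ε / δ ^ 4 ≤ E / (2 * (2 * τ + 1)) := by
      rw [div_le_iff₀ (by positivity)]
      have : ε * (4 * (2 * τ + 1)) ≤ δ ^ 4 * E := by rwa [le_div_iff₀ (by positivity)] at hε2
      have e : E / (2 * (2 * τ + 1)) * δ ^ 4 = δ ^ 4 * E / (2 * (2 * τ + 1)) := by ring
      rw [e, le_div_iff₀ (by positivity)]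
      linarith
    calc shxG Λ δ ≤ ε * (2 * ε / δ ^ 4) := by rw [← h3]; exact h1.trans h2
      _ ≤ ε * (E / (2 * (2 * τ + 1))) := mul_le_mul_of_nonneg_left h4 hεp.le
      _ = _ := by ring
  refine ⟨c4 ^ 2 / 4 * (ε * E / (2 * (2 * τ + 1))), by positivity, fun α hα t ht => ?_⟩
  -- pointwise lower bound of `V_zzzz²`
  have h40 : c4 ≤ -(scaD 4 (scLC a) α τ t 0) := by
    refine le_trans ?_ (shx_aD4 ha hτ hα ht.1 ht.2)
    rw [hc4]
    have ha2 : 0 ≤ a ^ 2 := by positivity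
    exact mul_le_mul_of_nonneg_left (Real.exp_le_exp.2 (by nlinarith [ht.1])) (by positivity)
  have hlip : ∀ z, |scaD 4 (scLC a) α τ t z - scaD 4 (scLC a) α τ t 0| ≤ (C 5 + 1) * |z| := by
    intro z
    have := Convex.norm_image_sub_le_of_norm_hasDerivWithin_le (f := scaD 4 (scLC a) α τ t)
      (f' := scaD 5 (scLC a) α τ t) (C := C 5 + 1) (s := univ) (x := 0) (y := z)
      (fun x _ => (scg_aD_hasDerivAt hB hτ hα 4 ht.1 x).hasDerivWithinAt)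
      (fun x _ => by rw [Real.norm_eq_abs]; linarith [hC τ α hτ hα 5 (by norm_num) t ht.1 x]) convex_univ (mem_univ _) (mem_univ _)
    simpa [Real.norm_eq_abs] using this
  have hpt : ∀ z, c4 ^ 2 / 4 * (shxG Λ z - (fun _ : ℝ => shxG Λ δ) z) ≤ scaD 4 (scLC a) α τ t z ^ 2 := by
    intro z
    rcases le_or_gt |z| δ with hz | hz
    · have h1 := abs_le.1 (hlip z)
      have h2 : (C 5 + 1) * |z| ≤ c4 / 2 := by
        calc (C 5 + 1) * |z| ≤ (C 5 + 1) * δ := mul_le_mul_of_nonneg_left hz hC5.le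
          _ = c4 / 2 := by rw [hδ]; field_simp
      have h3 : c4 / 2 ≤ -(scaD 4 (scLC a) α τ t z) := by linarith [h1.2]
      have h4 : (c4 / 2) ^ 2 ≤ (-(scaD 4 (scLC a) α τ t z)) ^ 2 := pow_le_pow_left₀ (by positivity) h3 2
      have h5 : shxG Λ z - shxG Λ δ ≤ 1 := by linarith [shx_G_le_one hΛp.le z, shx_G_pos Λ δ]
      have h6 : c4 ^ 2 / 4 * (shxG Λ z - shxG Λ δ) ≤ c4 ^ 2 / 4 * 1 := mul_le_mul_of_nonneg_left h5 (by positivity)
      calc c4 ^ 2 / 4 * (shxG Λ z - shxG Λ δ) ≤ (c4 / 2) ^ 2 := by rw [mul_one] at h6; linarith [h6, (by ring : (c4 / 2) ^ 2 = c4 ^ 2 / 4)]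
        _ ≤ _ := by rw [neg_sq] at h4; exact h4
    · have h1 : shxG Λ z ≤ shxG Λ δ := shx_G_anti hΛp.le (by rw [abs_of_pos hδp]; exact hz.le)
      have h2 : c4 ^ 2 / 4 * (shxG Λ z - shxG Λ δ) ≤ 0 := mul_nonpos_of_nonneg_of_nonpos (by positivity) (by linarith)
      exact h2.trans (sq_nonneg _)
  have hGB := shx_G_Bd hΛp
  have h1 := shx_mono hB hτ hα ((hGB.sub (ScBd.const 2 (shxG Λ δ))).const_mul (c4 ^ 2 / 4))
    ((scg_aD_Bd hB hτ hα 3 2 ht.1).pow 2) hpt ht.1 ht.2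
  rw [shx_const_mul hB hτ hα _ (hGB.sub (ScBd.const 2 (shxG Λ δ))) ht.1 ht.2,
    shx_sub hB hτ hα hGB (ScBd.const 2 (shxG Λ δ)) ht.1 ht.2, shx_const hB hτ hα _ ht.1 ht.2] at h1
  have h2 := shx_ball ha hτ hα hεp ht.1 ht.2
  rw [← hΛ] at h2
  have h3 : ε * E / (2 * τ + 1) ≤ ε / (2 * t + ε) * Real.exp (-(a ^ 2 * t)) := by
    have e1 : E ≤ Real.exp (-(a ^ 2 * t)) := by
      rw [hE]
      have ha2 : 0 ≤ a ^ 2 := by positivity
      exact Real.exp_le_exp.2 (by nlinarith [ht.2])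
    have e2 : ε / (2 * τ + 1) ≤ ε / (2 * t + ε) :=
      div_le_div_of_nonneg_left hεp.le (by linarith [ht.1]) (by linarith [ht.2])
    calc ε * E / (2 * τ + 1) = ε / (2 * τ + 1) * E := by ring
      _ ≤ ε / (2 * t + ε) * Real.exp (-(a ^ 2 * t)) := mul_le_mul e2 e1 hEp.le (by have := ht.1; positivity)
  have h4 : ε * E / (2 * (2 * τ + 1)) ≤ scaEx (scLC a) α τ t (shxG Λ) - shxG Λ δ := by
    have e : ε * E / (2 * τ + 1) = 2 * (ε * E / (2 * (2 * τ + 1))) := by field_simp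
    linarith
  exact (mul_le_mul_of_nonneg_left h4 (by positivity)).trans h1

/-- **EXIT** (= `sc_x_pos` of `Sc/Contract.lean`): positivity of the moments, uniformly in the coefficient and in the time -/
theorem shx_pos {a τ : ℝ} (ha : 0 < a) (hτ : 0 ≤ τ) :
    ∃ c : ℝ, 0 < c ∧ ∀ α : ℝ → ℝ, ScCoef a τ α → ∀ t ∈ Icc 0 τ,
      c ≤ scaM2 (scLC a) α τ t ∧ c ≤ scaM3 (scLC a) α τ t ∧ c ≤ scaM4 (scLC a) α τ t ∧ c ≤ scaN4 (scLC a) α τ t := by
  obtain ⟨c, hc, h⟩ := shx_N4 ha hτ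
  obtain ⟨b, hb⟩ : ∃ b, b = a * Real.exp (-(3 * a ^ 2 * τ)) := ⟨_, rfl⟩
  have hbp : 0 < b := by rw [hb]; positivity
  refine ⟨min (min (b ^ 2) (b ^ 3)) (min (b ^ 4) c), lt_min (lt_min (by positivity) (by positivity)) (lt_min (by positivity) hc),
    fun α hα t ht => ⟨?_, ?_, ?_, ?_⟩⟩
  · exact ((min_le_left _ _).trans (min_le_left _ _)).trans (hb ▸ shx_w_pow ha hτ hα 2 ht.1 ht.2)
  · exact ((min_le_left _ _).trans (min_le_right _ _)).trans (hb ▸ shx_w_pow ha hτ hα 3 ht.1 ht.2)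
  · exact ((min_le_right _ _).trans (min_le_left _ _)).trans (hb ▸ shx_w_pow ha hτ hα 4 ht.1 ht.2)
  · exact ((min_le_right _ _).trans (min_le_right _ _)).trans (h α hα t ht)

/-- **EXIT** (= `sc_x_Gam_mem` of `Sc/Contract.lean`, quantitative): `0 ≤ Γ(t) ≤ 1 - e^{-3 a² τ}` -/
theorem shx_Gam_mem {a τ : ℝ} (ha : 0 < a) (hτ : 0 ≤ τ) {α : ℝ → ℝ} (hα : ScCoef a τ α) {t : ℝ} (ht : t ∈ Icc 0 τ) :
    0 ≤ scaGam (scLC a) α τ t ∧ scaGam (scLC a) α τ t ≤ 1 - Real.exp (-(3 * a ^ 2 * τ)) := by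
  have hB := (sch_LC_ad ha).B
  have hu := (scg_aD_Bd hB hτ hα 0 2 ht.1).pow 2
  have hw := scg_aD_Bd hB hτ hα 1 2 ht.1
  constructor
  · have := shx_mono hB hτ hα (ScBd.const 2 0) hu (fun z => sq_nonneg _) ht.1 ht.2
    rwa [shx_const hB hτ hα 0 ht.1 ht.2] at this
  · have hpt : ∀ z, scaD 1 (scLC a) α τ t z ^ 2 ≤ (fun _ : ℝ => (1 : ℝ)) z - a⁻¹ * scaD 2 (scLC a) α τ t z := by
      intro z
      have h1 := scg_w_le (sch_LC_ad ha) hτ hα ht.1 z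
      have h2 : a⁻¹ * scaD 2 (scLC a) α τ t z ≤ a⁻¹ * (a * (1 - scaD 1 (scLC a) α τ t z ^ 2)) :=
        mul_le_mul_of_nonneg_left h1 (inv_pos.2 ha).le
      rw [← mul_assoc, inv_mul_cancel₀ ha.ne', one_mul] at h2
      show _ ≤ 1 - _
      linarith
    have h1 := shx_mono hB hτ hα hu ((ScBd.const 2 1).sub (hw.const_mul a⁻¹)) hpt ht.1 ht.2
    rw [shx_sub hB hτ hα (ScBd.const 2 1) (hw.const_mul a⁻¹) ht.1 ht.2, shx_const hB hτ hα 1 ht.1 ht.2,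
      shx_const_mul hB hτ hα _ hw ht.1 ht.2] at h1
    have h2 := shx_w_pow ha hτ hα 1 ht.1 ht.2
    simp only [pow_one] at h2
    have h3 : a⁻¹ * (a * Real.exp (-(3 * a ^ 2 * τ))) ≤ a⁻¹ * scaEx (scLC a) α τ t (fun z => scaD 2 (scLC a) α τ t z) :=
      mul_le_mul_of_nonneg_left h2 (inv_pos.2 ha).le
    rw [← mul_assoc, inv_mul_cancel₀ ha.ne', one_mul] at h3
    unfold scaGam
    linarith

theorem shx_eqns_cite : True := by
  have := @shxG.eq_1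
  trivial

end Claimed.Agent.R286
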