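import Claimed.Agent.Lib.PLProp
import Claimed.Agent.R286.Sc.GenDefs

/-!
# Row 286 (S0533), scalar block: THE ANNEALED INEQUALITY (LL 03-paths.tex l.75-92, Lemma paths:base-profile)      owner helper277, prefix `lan_`

For a step profile with sorted masses `≤ a`, terminal datum `F_a = a⁻¹ log cosh (a z)`, followed by an annealed step of mass `a` and variance `d`:
      `E χ²(Z_{τ+d}) ≤ e^{-a² d/2} E χ²(Z_τ)`,   `χ = F_a'' = a sech²(a z)`.
No density of the field law is used: everything is done at the level of MEASURES which satisfy the Prekopa-Leindler inequality (`Lib/PLProp`):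
* `LanGood μ`  : `μ` is s-finite, even and satisfies Prekopa-Leindler.      Closed under log-concave even densities and Gaussian convolution; `δ_0` is good.
* `LanGood.shift_le`, `LanGood.heat_le` : Anderson's inequality for an even log-concave test function (Prekopa-Leindler at `t = 1/2`).
* `scV F π`, `scP F π φ` (`Sc/Prof.lean`) : continuation and planted transition of a list of steps `(mass, variance)` read forward in time;   `scLC a` (`Sc/GenDefs.lean`) the terminal datum.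
* `lanM F π m μ` : the forward evolution of the TELESCOPED measure `w = e^{-m V} · law`;   `lan_dual` : duality with `scP`.
* `lan_main`, `lan_chi_sq` : the inequality.
-/

set_option autoImplicit false

namespace Claimed.Agent.R286

open MeasureTheory ProbabilityTheory Filter Topology Set Claimed.Agent.PL
open scoped ENNReal

/-! ## A. measures with the Prekopa-Leindler property -/

/-- log-concave `ℝ≥0∞`-valued function -/
def LanLc (ρ : ℝ → ℝ≥0∞) : Prop :=
  ∀ t : ℝ, 0 < t → t < 1 → ∀ x y : ℝ, ρ x ^ (1 - t) * ρ y ^ t ≤ ρ ((1 - t) • x + t • y)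

/-- s-finite, even, Prekopa-Leindler -/
structure LanGood (μ : Measure ℝ) : Prop where
  sf : SFinite μ
  pl : PLProp ℝ μ
  even : ∀ f : ℝ → ℝ≥0∞, Measurable f → ∫⁻ z, f (-z) ∂μ = ∫⁻ z, f z ∂μ

theorem lan_lc_exp {U : ℝ → ℝ} (hU : ConvexOn ℝ univ U) : LanLc (fun z => ENNReal.ofReal (Real.exp (-U z))) := by
  intro t ht0 ht1 x y
  have h1t : 0 < 1 - t := by linarith
  rw [ENNReal.ofReal_rpow_of_pos (Real.exp_pos _), ENNReal.ofReal_rpow_of_pos (Real.exp_pos _),
    ← ENNReal.ofReal_mul (Real.rpow_nonneg (Real.exp_pos _).le _), ← Real.exp_mul, ← Real.exp_mul, ← Real.exp_add]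
  apply ENNReal.ofReal_le_ofReal
  apply Real.exp_le_exp.2
  have := hU.2 (mem_univ x) (mem_univ y) h1t.le ht0.le (by ring)
  simp only [smul_eq_mul] at this ⊢
  linarith

theorem LanLc.mul {ρ σ : ℝ → ℝ≥0∞} (hρ : LanLc ρ) (hσ : LanLc σ) : LanLc (fun z => ρ z * σ z) := by
  intro t ht0 ht1 x y
  have h1t : 0 < 1 - t := by linarith
  rw [ENNReal.mul_rpow_of_nonneg _ _ h1t.le, ENNReal.mul_rpow_of_nonneg _ _ ht0.le]
  calc ρ x ^ (1 - t) * σ x ^ (1 - t) * (ρ y ^ t * σ y ^ t)
      = (ρ x ^ (1 - t) * ρ y ^ t) * (σ x ^ (1 - t) * σ y ^ t) := by ring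
    _ ≤ _ := mul_le_mul' (hρ t ht0 ht1 x y) (hσ t ht0 ht1 x y)

theorem lan_good_dirac : LanGood (Measure.dirac 0) where
  sf := inferInstance
  pl := by
    intro t ht0 ht1 f g h hf hg hh H
    rw [lintegral_dirac' _ hf, lintegral_dirac' _ hg, lintegral_dirac' _ hh]
    simpa using H 0 0
  even := by
    intro f hf
    have hf' : Measurable (fun z => f (-z)) := hf.comp measurable_neg
    rw [lintegral_dirac' _ hf, lintegral_dirac' _ hf']
    simp

theorem lan_good_volume : LanGood (volume : Measure ℝ) where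
  sf := inferInstance
  pl := plProp_real
  even := by
    intro f hf
    have := (Measure.measurePreserving_neg (volume : Measure ℝ)).lintegral_comp hf
    exact this

theorem LanGood.withDensity {μ : Measure ℝ} (hμ : LanGood μ) {ρ : ℝ → ℝ≥0∞} (hρ : Measurable ρ) (hlc : LanLc ρ)
    (hev : ∀ z, ρ (-z) = ρ z) : LanGood (μ.withDensity ρ) where
  sf := by
    have := hμ.sf
    infer_instance
  pl := by
    intro t ht0 ht1 f g h hf hg hh H
    have h1t : 0 < 1 - t := by linarith
    rw [lintegral_withDensity_eq_lintegral_mul _ hρ hf, lintegral_withDensity_eq_lintegral_mul _ hρ hg,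
      lintegral_withDensity_eq_lintegral_mul _ hρ hh]
    refine hμ.pl t ht0 ht1 _ _ _ (hρ.mul hf) (hρ.mul hg) (hρ.mul hh) ?_
    intro x y
    simp only [Pi.mul_apply]
    rw [ENNReal.mul_rpow_of_nonneg _ _ h1t.le, ENNReal.mul_rpow_of_nonneg _ _ ht0.le]
    calc ρ x ^ (1 - t) * f x ^ (1 - t) * (ρ y ^ t * g y ^ t)
        = (ρ x ^ (1 - t) * ρ y ^ t) * (f x ^ (1 - t) * g y ^ t) := by ring
      _ ≤ _ := mul_le_mul' (hlc t ht0 ht1 x y) (H x y)
  even := by
    intro f hf
    have hf' : Measurable (fun z => f (-z)) := hf.comp measurable_neg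
    rw [lintegral_withDensity_eq_lintegral_mul _ hρ hf, lintegral_withDensity_eq_lintegral_mul _ hρ hf']
    rw [← hμ.even _ (hρ.mul hf)]
    simp only [Pi.mul_apply, hev]

theorem lan_good_gauss : LanGood (gaussianReal 0 1) := by
  rw [gaussianReal_of_var_ne_zero 0 one_ne_zero]
  refine lan_good_volume.withDensity (measurable_gaussianPDF 0 1) ?_ ?_
  · have hU : ConvexOn ℝ univ (fun z : ℝ => z ^ 2 / 2 + Real.log (Real.sqrt (2 * Real.pi))) := by
      apply ConvexOn.add_const
      have : ConvexOn ℝ univ (fun z : ℝ => z ^ 2) := (even_two.convexOn_pow)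
      have h2 := this.smul (c := (1 / 2 : ℝ)) (by norm_num)
      refine h2.congr ?_
      intro z _
      simp only [smul_eq_mul]; ring
    have e : gaussianPDF 0 1 = fun z => ENNReal.ofReal (Real.exp (-(z ^ 2 / 2 + Real.log (Real.sqrt (2 * Real.pi))))) := by
      funext z
      unfold gaussianPDF gaussianPDFReal
      congr 1
      have hpos : 0 < Real.sqrt (2 * Real.pi) := Real.sqrt_pos.2 (by positivity)
      rw [neg_add, Real.exp_add, Real.exp_neg (Real.log _), Real.exp_log hpos]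
      simp only [NNReal.coe_one, mul_one, sub_zero]
      rw [mul_comm]
      congr 2
      ring
    rw [e]
    exact lan_lc_exp hU
  · intro z
    unfold gaussianPDF gaussianPDFReal
    simp

theorem LanGood.conv {μ : Measure ℝ} (hμ : LanGood μ) (c : ℝ) :
    LanGood ((μ.prod (gaussianReal 0 1)).map fun q : ℝ × ℝ => q.1 + c * q.2) := by
  have := hμ.sf
  have hL : Measurable (fun q : ℝ × ℝ => q.1 + c * q.2) := by fun_prop
  refine ⟨inferInstance, ?_, ?_⟩
  · refine (hμ.pl.prod lan_good_gauss.pl).map hL ?_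
    intro a b x y
    simp only [Prod.fst_add, Prod.smul_fst, Prod.snd_add, Prod.smul_snd, smul_eq_mul]
    ring
  · intro f hf
    have hf' : Measurable (fun z => f (-z)) := hf.comp measurable_neg
    rw [lintegral_map hf hL, lintegral_map hf' hL]
    rw [lintegral_prod _ (by fun_prop), lintegral_prod _ (by fun_prop)]
    have h1 : ∀ z, ∫⁻ g, f (-(z + c * g)) ∂(gaussianReal 0 1) = ∫⁻ g, f (-z + c * g) ∂(gaussianReal 0 1) := by
      intro z
      rw [← lan_good_gauss.even (fun g => f (-z + c * g)) (by fun_prop)]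
      congr 1; funext g; congr 1; ring
    simp only [h1]
    exact hμ.even (fun z => ∫⁻ g, f (z + c * g) ∂(gaussianReal 0 1)) (by
      have : Measurable (fun q : ℝ × ℝ => f (q.1 + c * q.2)) := hf.comp hL
      exact this.lintegral_prod_right')

/-- **Anderson's inequality** for an even log-concave test function -/
theorem LanGood.shift_le {μ : Measure ℝ} (hμ : LanGood μ) {f : ℝ → ℝ≥0∞} (hf : Measurable f) (hlc : LanLc f)
    (hev : ∀ z, f (-z) = f z) (t : ℝ) : ∫⁻ z, f (z + t) ∂μ ≤ ∫⁻ z, f z ∂μ := by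
  have h := hμ.pl (1 / 2) (by norm_num) (by norm_num) (fun z => f (z + t)) (fun z => f (z - t)) f (by fun_prop) (by fun_prop) hf (by
    intro x y
    have := hlc (1 / 2) (by norm_num) (by norm_num) (x + t) (y - t)
    refine this.trans (le_of_eq ?_)
    congr 1
    simp only [smul_eq_mul]; ring)
  have e : ∫⁻ z, f (z - t) ∂μ = ∫⁻ z, f (z + t) ∂μ := by
    rw [← hμ.even (fun z => f (z - t)) (by fun_prop)]
    congr 1; funext z
    rw [← hev]; congr 1; ring
  rw [e] at h
  have e2 : (1 - 1 / 2 : ℝ) = 1 / 2 := by norm_num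
  rw [e2] at h
  have := pl_rpow_mul_rpow_self (∫⁻ z, f (z + t) ∂μ) (t := 1 / 2) (by norm_num) (by norm_num)
  rw [e2] at this
  rwa [this] at h

theorem LanGood.heat_le {μ : Measure ℝ} (hμ : LanGood μ) {f : ℝ → ℝ≥0∞} (hf : Measurable f) (hlc : LanLc f)
    (hev : ∀ z, f (-z) = f z) (c : ℝ) : ∫⁻ z, ∫⁻ g, f (z + c * g) ∂(gaussianReal 0 1) ∂μ ≤ ∫⁻ z, f z ∂μ := by
  have := hμ.sf
  rw [lintegral_lintegral_swap (by fun_prop)]
  calc ∫⁻ g, ∫⁻ z, f (z + c * g) ∂μ ∂(gaussianReal 0 1) ≤ ∫⁻ _g, ∫⁻ z, f z ∂μ ∂(gaussianReal 0 1) :=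
        lintegral_mono fun g => hμ.shift_le hf hlc hev (c * g)
    _ = ∫⁻ z, f z ∂μ := by simp

/-! ## B. lists of steps `(mass, variance)`, read forward in time -/

/-- the masses are nondecreasing and start above `m` -/
def lanS : List (ℝ × ℝ) → ℝ → Prop
  | [], _ => True
  | p :: π, m => m ≤ p.1 ∧ lanS π p.1

/-- the last mass (`m` for the empty list) -/
def lanL : List (ℝ × ℝ) → ℝ → ℝ
  | [], m => m
  | p :: π, _ => lanL π p.1

/-- forward evolution of the telescoped measure `e^{-m V} · law` (`m` = the mass before the list) -/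
noncomputable def lanM (F : ℝ → ℝ) : List (ℝ × ℝ) → ℝ → Measure ℝ → Measure ℝ
  | [], _, μ => μ
  | p :: π, m, μ => lanM F π p.1
      (((μ.withDensity fun z => ENNReal.ofReal (Real.exp (-((p.1 - m) * scV F (p :: π) z)))).prod (gaussianReal 0 1)).map
        fun q : ℝ × ℝ => q.1 + Real.sqrt p.2 * q.2)

theorem lan_V_B {n : ℕ} {F : ℝ → ℝ} (hF : ScB (n + 1) F) (π : List (ℝ × ℝ)) : ScB (n + 1) (scV F π) := by
  induction π with
  | nil => exact hF
  | cons p π ih => exact sc_step_B ih p.1 p.2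

theorem lan_V_even {F : ℝ → ℝ} (he : ∀ z, F (-z) = F z) (π : List (ℝ × ℝ)) : ∀ z, scV F π (-z) = scV F π z := by
  induction π with
  | nil => exact he
  | cons p π ih => exact fun z => sc_step_even ih p.1 p.2 z

theorem lan_V_convex {F : ℝ → ℝ} (hF : ScB 2 F) (hc : ∀ z, 0 ≤ deriv (deriv F) z) (π : List (ℝ × ℝ))
    (hm : ∀ p ∈ π, 0 ≤ p.1) : ∀ z, 0 ≤ deriv (deriv (scV F π)) z := by
  induction π with
  | nil => exact hc
  | cons p π ih =>
    exact fun z => sc_step_convex (lan_V_B hF π) (ih fun q hq => hm q (List.mem_cons_of_mem _ hq))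
      (hm p List.mem_cons_self) p.2 z

theorem lan_convexOn {V : ℝ → ℝ} (hV : ScB 2 V) (hc : ∀ z, 0 ≤ deriv (deriv V) z) : ConvexOn ℝ univ V := by
  have h1 : Differentiable ℝ V := hV.1
  have h2 : Differentiable ℝ (deriv V) := hV.2.2.1
  refine convexOn_of_deriv2_nonneg convex_univ h1.continuous.continuousOn h1.differentiableOn h2.differentiableOn ?_
  intro x _
  exact hc x

theorem lan_S_nonneg (π : List (ℝ × ℝ)) : ∀ m, 0 ≤ m → lanS π m → ∀ p ∈ π, 0 ≤ p.1 := by
  induction π with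
  | nil => intro m _ _ p hp; simp at hp
  | cons q π ih =>
    intro m hm hS p hp
    rcases List.mem_cons.1 hp with rfl | hp
    · exact hm.trans hS.1
    · exact ih q.1 (hm.trans hS.1) hS.2 p hp

theorem lan_P_E {F φ : ℝ → ℝ} (hF : ScB 1 F) (hφ : ScE 0 φ) (π : List (ℝ × ℝ)) : ScE 0 (scP F π φ) := by
  induction π with
  | nil => exact hφ
  | cons p π ih => exact sc_tr_E_zero (lan_V_B hF π) ih p.1 p.2

theorem lan_tr_nonneg {F φ : ℝ → ℝ} (hF : ScB 1 F) (hφ : ScE 0 φ) (h0 : ∀ z, 0 ≤ φ z) (m s z : ℝ) : 0 ≤ scTr m s F φ z := by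
  have h := sc_tr_mono hF (ScE.const 0 0) hφ h0 m s z
  rwa [sc_tr_const hF] at h

theorem lan_P_nonneg {F φ : ℝ → ℝ} (hF : ScB 1 F) (hφ : ScE 0 φ) (h0 : ∀ z, 0 ≤ φ z) (π : List (ℝ × ℝ)) :
    ∀ z, 0 ≤ scP F π φ z := by
  induction π with
  | nil => exact h0
  | cons p π ih => exact fun z => lan_tr_nonneg (lan_V_B hF π) (lan_P_E hF hφ π) ih p.1 p.2 z

theorem lan_heat_ofReal {Ψ : ℝ → ℝ} (hΨ : ScE 0 Ψ) (h0 : ∀ z, 0 ≤ Ψ z) (s z : ℝ) :
    ENNReal.ofReal (scHeat s Ψ z) = ∫⁻ g, ENNReal.ofReal (Ψ (z + Real.sqrt s * g)) ∂(gaussianReal 0 1) :=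
  ofReal_integral_eq_lintegral_ofReal (sc_heat_integrable hΨ s z) (Eventually.of_forall fun _ => h0 _)

/-- **duality** between the planted transition and the forward evolution of the telescoped measure -/
theorem lan_dual {F φ : ℝ → ℝ} (hF : ScB 1 F) (hφ : ScE 0 φ) (h0 : ∀ z, 0 ≤ φ z) (π : List (ℝ × ℝ)) :
    ∀ (m : ℝ) (μ : Measure ℝ), SFinite μ →
      ∫⁻ z, ENNReal.ofReal (Real.exp (m * scV F π z) * scP F π φ z) ∂μ =
        ∫⁻ z, ENNReal.ofReal (Real.exp (lanL π m * F z) * φ z) ∂(lanM F π m μ) := by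
  induction π with
  | nil => intro m μ _; rfl
  | cons p π ih =>
    intro m μ hμ
    have hV1 : ScB 1 (scV F π) := lan_V_B hF π
    have hV0 : ScB 1 (scV F (p :: π)) := lan_V_B hF (p :: π)
    have hψ : ScE 0 (scP F π φ) := lan_P_E hF hφ π
    have hψ0 : ∀ z, 0 ≤ scP F π φ z := lan_P_nonneg hF hφ h0 π
    have hΨ : ScE 0 (fun y => scP F π φ y * Real.exp (p.1 * scV F π y)) := hψ.mul_exp hV1 hV1.of_succ p.1
    have hΨ0 : ∀ y, 0 ≤ scP F π φ y * Real.exp (p.1 * scV F π y) := fun y => mul_nonneg (hψ0 y) (Real.exp_pos _).le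
    set ρ : ℝ → ℝ≥0∞ := fun z => ENNReal.ofReal (Real.exp (-((p.1 - m) * scV F (p :: π) z))) with hρdef
    set Φ : ℝ → ℝ≥0∞ := fun y => ENNReal.ofReal (Real.exp (p.1 * scV F π y) * scP F π φ y) with hΦdef
    have hρ : Measurable ρ := by
      have : Continuous (scV F (p :: π)) := hV0.1.continuous
      exact (ENNReal.measurable_ofReal.comp (by fun_prop))
    have hΦ : Measurable Φ := by
      have h1 : Continuous (scV F π) := hV1.1.continuous
      have h2 : Continuous (scP F π φ) := hψ.1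
      exact (ENNReal.measurable_ofReal.comp (by fun_prop))
    have hL : Measurable (fun q : ℝ × ℝ => q.1 + Real.sqrt p.2 * q.2) := by fun_prop
    have key : ∀ z, ENNReal.ofReal (Real.exp (m * scV F (p :: π) z) * scP F (p :: π) φ z) =
        ρ z * ∫⁻ g, Φ (z + Real.sqrt p.2 * g) ∂(gaussianReal 0 1) := by
      intro z
      have e1 : scP F (p :: π) φ z =
          scHeat p.2 (fun y => scP F π φ y * Real.exp (p.1 * scV F π y)) z / Real.exp (p.1 * scV F (p :: π) z) := by
        have : Real.exp (p.1 * scV F (p :: π) z) = scW p.1 p.2 (scV F π) z := sc_exp_step hV1 p.1 p.2 z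
        rw [this]; rfl
      have e2 : Real.exp (m * scV F (p :: π) z) * scP F (p :: π) φ z =
          Real.exp (-((p.1 - m) * scV F (p :: π) z)) * scHeat p.2 (fun y => scP F π φ y * Real.exp (p.1 * scV F π y)) z := by
        rw [e1]
        have : Real.exp (-((p.1 - m) * scV F (p :: π) z)) =
            Real.exp (m * scV F (p :: π) z) / Real.exp (p.1 * scV F (p :: π) z) := by
          rw [← Real.exp_sub]; congr 1; ring
        rw [this]; ring
      rw [e2, ENNReal.ofReal_mul (Real.exp_pos _).le, lan_heat_ofReal hΨ hΨ0]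
      simp only [hρdef, hΦdef, mul_comm]
    have hG : Measurable (fun z => ∫⁻ g, Φ (z + Real.sqrt p.2 * g) ∂(gaussianReal 0 1)) := by
      have : Measurable (fun q : ℝ × ℝ => Φ (q.1 + Real.sqrt p.2 * q.2)) := hΦ.comp hL
      exact this.lintegral_prod_right'
    simp only [key]
    have hstep : ∫⁻ z, ρ z * ∫⁻ g, Φ (z + Real.sqrt p.2 * g) ∂(gaussianReal 0 1) ∂μ =
        ∫⁻ y, Φ y ∂(((μ.withDensity ρ).prod (gaussianReal 0 1)).map fun q : ℝ × ℝ => q.1 + Real.sqrt p.2 * q.2) := by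
      have hΦL : Measurable (fun q : ℝ × ℝ => Φ (q.1 + Real.sqrt p.2 * q.2)) := hΦ.comp hL
      rw [lintegral_map hΦ hL, lintegral_prod _ hΦL.aemeasurable, lintegral_withDensity_eq_lintegral_mul _ hρ hG]
      rfl
    rw [hstep]
    exact ih p.1 _ inferInstance

theorem lan_good {F : ℝ → ℝ} (hF : ScB 2 F) (hc : ∀ z, 0 ≤ deriv (deriv F) z) (he : ∀ z, F (-z) = F z) (π : List (ℝ × ℝ)) :
    ∀ (m : ℝ) (μ : Measure ℝ), 0 ≤ m → lanS π m → LanGood μ → LanGood (lanM F π m μ) := by
  induction π with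
  | nil => intro m μ _ _ hμ; exact hμ
  | cons p π ih =>
    intro m μ hm hS hμ
    have hV0 : ScB 2 (scV F (p :: π)) := lan_V_B hF (p :: π)
    have hcv : ConvexOn ℝ univ (scV F (p :: π)) :=
      lan_convexOn hV0 (lan_V_convex hF hc (p :: π) (lan_S_nonneg (p :: π) m hm hS))
    have hcv' : ConvexOn ℝ univ (fun z => (p.1 - m) * scV F (p :: π) z) := by
      have := hcv.smul (c := p.1 - m) (by linarith [hS.1])
      exact this
    refine ih p.1 _ (hm.trans hS.1) hS.2 (LanGood.conv (hμ.withDensity ?_ (lan_lc_exp hcv') ?_) _)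
    · have : Continuous (scV F (p :: π)) := hV0.1.continuous
      exact (ENNReal.measurable_ofReal.comp (by fun_prop))
    · intro z
      rw [lan_V_even he (p :: π) z]

/-! ## C. the annealed inequality -/

theorem lan_F_B (n : ℕ) (a : ℝ) : ScB n (scLC a) := sc_logcosh_B n a

theorem lan_F_even (a z : ℝ) : scLC a (-z) = scLC a z := by
  unfold scLC
  rw [mul_neg, Real.cosh_neg]

theorem lan_exp_F {a : ℝ} (ha : a ≠ 0) (z : ℝ) : Real.exp (a * scLC a z) = Real.cosh (a * z) := by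
  unfold scLC
  rw [← mul_assoc, mul_inv_cancel₀ ha, one_mul, Real.exp_log (Real.cosh_pos _)]

theorem lan_F_hasDerivAt {a : ℝ} (ha : a ≠ 0) (z : ℝ) : HasDerivAt (scLC a) (Real.tanh (a * z)) z := by
  have h1 : HasDerivAt (fun z : ℝ => a * z) a z := by simpa using (hasDerivAt_id z).const_mul a
  have h2 : HasDerivAt (fun z : ℝ => Real.cosh (a * z)) (Real.sinh (a * z) * a) z := (Real.hasDerivAt_cosh (a * z)).comp z h1
  have h3 := (h2.log (Real.cosh_pos _).ne').const_mul a⁻¹
  refine h3.congr_deriv ?_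
  rw [Real.tanh_eq_sinh_div_cosh]
  field_simp

theorem lan_F_deriv {a : ℝ} (ha : a ≠ 0) : deriv (scLC a) = fun z => Real.tanh (a * z) :=
  funext fun z => (lan_F_hasDerivAt ha z).deriv

theorem lan_F_deriv2 {a : ℝ} (ha : a ≠ 0) (z : ℝ) : deriv (deriv (scLC a)) z = a / Real.cosh (a * z) ^ 2 := by
  rw [lan_F_deriv ha]
  have h1 : HasDerivAt (fun z : ℝ => a * z) a z := by simpa using (hasDerivAt_id z).const_mul a
  have h2 : HasDerivAt (fun z : ℝ => Real.tanh (a * z)) ((1 - Real.tanh (a * z) ^ 2) * a) z :=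
    (sc_hasDerivAt_tanh (a * z)).comp z h1
  rw [h2.deriv, Real.tanh_eq_sinh_div_cosh]
  have hc := (Real.cosh_pos (a * z)).ne'
  have := Real.cosh_sq (a * z)
  field_simp
  rw [this]; ring

theorem lan_F_convex {a : ℝ} (ha : 0 < a) (z : ℝ) : 0 ≤ deriv (deriv (scLC a)) z := by
  rw [lan_F_deriv2 ha.ne']
  positivity

/-- the annealed step on a test function `f / cosh (a z)` -/
theorem lan_tr_annealed {a : ℝ} (ha : a ≠ 0) {d : ℝ} (hd : 0 ≤ d) (f : ℝ → ℝ) (z : ℝ) :
    scTr a d (scLC a) (fun y => f y / Real.cosh (a * y)) z =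
      Real.exp (-(a ^ 2 * d / 2)) * (Real.exp (-(a * scLC a z)) * scHeat d f z) := by
  unfold scTr scW
  have e1 : (fun y => f y / Real.cosh (a * y) * Real.exp (a * scLC a y)) = f := by
    funext y
    rw [lan_exp_F ha]
    field_simp [(Real.cosh_pos (a * y)).ne']
  have e2 : (fun y => Real.exp (a * scLC a y)) = fun y => Real.cosh (a * y) := funext fun y => lan_exp_F ha y
  rw [e1, e2, sc_heat_cosh hd, Real.exp_neg, Real.exp_neg, lan_exp_F ha]
  field_simp

theorem lan_div_cosh_E {f : ℝ → ℝ} (hf : ScE 0 f) (a : ℝ) : ScE 0 (fun y => f y / Real.cosh (a * y)) := by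
  refine ⟨hf.1.div (by fun_prop) (fun y => (Real.cosh_pos _).ne'), hf.2.of_le fun z => ?_⟩
  rw [abs_div, abs_of_pos (Real.cosh_pos _)]
  exact div_le_self (abs_nonneg _) (Real.one_le_cosh _)

/-- **The annealed inequality**, general even log-concave numerator `f`:
`E[(f / cosh a·)(Z_{τ+d})] ≤ e^{-a² d/2} E[(f / cosh a·)(Z_τ)]`. -/
theorem lan_main {a : ℝ} (ha : 0 < a) (π : List (ℝ × ℝ)) (hS : lanS π 0) (hL : lanL π 0 ≤ a) {d : ℝ} (hd : 0 ≤ d)
    {f : ℝ → ℝ} (hf : ScE 0 f) (h0 : ∀ z, 0 ≤ f z) (hev : ∀ z, f (-z) = f z) (hlc : LanLc fun z => ENNReal.ofReal (f z)) :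
    scP (scLC a) π (scTr a d (scLC a) fun y => f y / Real.cosh (a * y)) 0 ≤
      Real.exp (-(a ^ 2 * d / 2)) * scP (scLC a) π (fun y => f y / Real.cosh (a * y)) 0 := by
  have hF1 : ScB 1 (scLC a) := lan_F_B 1 a
  have hFc : Continuous (scLC a) := hF1.1.continuous
  have hφ : ScE 0 (fun y => f y / Real.cosh (a * y)) := lan_div_cosh_E hf a
  have hφ0 : ∀ y, 0 ≤ f y / Real.cosh (a * y) := fun y => div_nonneg (h0 y) (Real.cosh_pos _).le
  have hψ : ScE 0 (scTr a d (scLC a) fun y => f y / Real.cosh (a * y)) := sc_tr_E_zero hF1 hφ a d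
  have hψ0 : ∀ z, 0 ≤ scTr a d (scLC a) (fun y => f y / Real.cosh (a * y)) z := lan_tr_nonneg hF1 hφ hφ0 a d
  set M := lanM (scLC a) π 0 (Measure.dirac 0) with hM
  have hMg : LanGood M := lan_good (lan_F_B 2 a) (lan_F_convex ha) (lan_F_even a) π 0 _ le_rfl hS lan_good_dirac
  set mL := lanL π 0 with hmL
  set ρ : ℝ → ℝ≥0∞ := fun z => ENNReal.ofReal (Real.exp (-((a - mL) * scLC a z))) with hρdef
  have hρ : Measurable ρ := ENNReal.measurable_ofReal.comp (by fun_prop)
  have hcv : ConvexOn ℝ univ (fun z => (a - mL) * scLC a z) :=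
    (lan_convexOn (lan_F_B 2 a) (lan_F_convex ha)).smul (c := a - mL) (by linarith)
  have hMρ : LanGood (M.withDensity ρ) := hMg.withDensity hρ (lan_lc_exp hcv) (fun z => by simp only [hρdef, lan_F_even])
  have hfm : Measurable (fun z => ENNReal.ofReal (f z)) := ENNReal.measurable_ofReal.comp hf.1.measurable
  -- the two dualities
  have dual : ∀ χ : ℝ → ℝ, ScE 0 χ → (∀ z, 0 ≤ χ z) →
      ENNReal.ofReal (scP (scLC a) π χ 0) = ∫⁻ z, ENNReal.ofReal (Real.exp (mL * scLC a z) * χ z) ∂M := by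
    intro χ hχ hχ0
    have h := lan_dual hF1 hχ hχ0 π 0 (Measure.dirac 0) inferInstance
    rw [← h, lintegral_dirac' _ (by
      have h1 : Continuous (scV (scLC a) π) := (lan_V_B hF1 π).1.continuous
      have h2 : Continuous (scP (scLC a) π χ) := (lan_P_E hF1 hχ π).1
      exact ENNReal.measurable_ofReal.comp (by fun_prop))]
    simp
  have hG : Measurable (fun z => ∫⁻ g, ENNReal.ofReal (f (z + Real.sqrt d * g)) ∂(gaussianReal 0 1)) := by
    have : Measurable (fun q : ℝ × ℝ => ENNReal.ofReal (f (q.1 + Real.sqrt d * q.2))) := hfm.comp (by fun_prop)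
    exact this.lintegral_prod_right'
  have e1 : ENNReal.ofReal (scP (scLC a) π (scTr a d (scLC a) fun y => f y / Real.cosh (a * y)) 0) =
      ENNReal.ofReal (Real.exp (-(a ^ 2 * d / 2))) *
        ∫⁻ z, ∫⁻ g, ENNReal.ofReal (f (z + Real.sqrt d * g)) ∂(gaussianReal 0 1) ∂(M.withDensity ρ) := by
    rw [dual _ hψ hψ0, lintegral_withDensity_eq_lintegral_mul _ hρ hG, ← lintegral_const_mul _ (hρ.mul hG)]
    congr 1; funext z
    rw [lan_tr_annealed ha.ne' hd]
    have : Real.exp (mL * scLC a z) * (Real.exp (-(a ^ 2 * d / 2)) * (Real.exp (-(a * scLC a z)) * scHeat d f z)) =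
        Real.exp (-(a ^ 2 * d / 2)) * (Real.exp (-((a - mL) * scLC a z)) * scHeat d f z) := by
      have : Real.exp (-((a - mL) * scLC a z)) = Real.exp (mL * scLC a z) * Real.exp (-(a * scLC a z)) := by
        rw [← Real.exp_add]; congr 1; ring
      rw [this]; ring
    rw [this, ENNReal.ofReal_mul (Real.exp_pos _).le, ENNReal.ofReal_mul (Real.exp_pos _).le, lan_heat_ofReal hf h0]
    rfl
  have e2 : ENNReal.ofReal (scP (scLC a) π (fun y => f y / Real.cosh (a * y)) 0) =
      ∫⁻ z, ENNReal.ofReal (f z) ∂(M.withDensity ρ) := by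
    rw [dual _ hφ hφ0, lintegral_withDensity_eq_lintegral_mul _ hρ hfm]
    congr 1; funext z
    have : Real.exp (mL * scLC a z) * (f z / Real.cosh (a * z)) = Real.exp (-((a - mL) * scLC a z)) * f z := by
      have : Real.exp (-((a - mL) * scLC a z)) = Real.exp (mL * scLC a z) / Real.cosh (a * z) := by
        rw [← lan_exp_F ha.ne', ← Real.exp_sub]; congr 1; ring
      rw [this]; ring
    rw [this, ENNReal.ofReal_mul (Real.exp_pos _).le]
    rfl
  have hB : 0 ≤ scP (scLC a) π (fun y => f y / Real.cosh (a * y)) 0 := lan_P_nonneg hF1 hφ hφ0 π 0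
  rw [← ENNReal.ofReal_le_ofReal_iff (mul_nonneg (Real.exp_pos _).le hB), ENNReal.ofReal_mul (Real.exp_pos _).le, e1, e2]
  exact mul_le_mul_right (hMρ.heat_le hfm hlc (fun z => by rw [hev]) (Real.sqrt d)) _

theorem lan_sech3_lc {a : ℝ} (ha : 0 < a) : LanLc fun z => ENNReal.ofReal (a ^ 2 / Real.cosh (a * z) ^ 3) := by
  have hcv : ConvexOn ℝ univ (fun z => 3 * a * scLC a z + -Real.log (a ^ 2)) :=
    ((lan_convexOn (lan_F_B 2 a) (lan_F_convex ha)).smul (c := 3 * a) (by positivity)).add_const _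
  have e : (fun z => ENNReal.ofReal (a ^ 2 / Real.cosh (a * z) ^ 3)) =
      fun z => ENNReal.ofReal (Real.exp (-(3 * a * scLC a z + -Real.log (a ^ 2)))) := by
    funext z
    congr 1
    have h3 : 3 * a * scLC a z = 3 * (a * scLC a z) := by ring
    rw [neg_add, neg_neg, Real.exp_add, Real.exp_log (by positivity), Real.exp_neg, h3,
      show (3 : ℝ) * (a * scLC a z) = ((3 : ℕ) : ℝ) * (a * scLC a z) by norm_num, Real.exp_nat_mul, lan_exp_F ha.ne']
    field_simp
  rw [e]
  exact lan_lc_exp hcv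

theorem lan_sech3_E (a : ℝ) : ScE 0 (fun z => a ^ 2 / Real.cosh (a * z) ^ 3) := by
  refine ⟨Continuous.div (by fun_prop) (by fun_prop) (fun y => (pow_pos (Real.cosh_pos _) 3).ne'), ScG.of_bdd (C := a ^ 2) fun z => ?_⟩
  rw [abs_of_nonneg (div_nonneg (sq_nonneg _) (pow_pos (Real.cosh_pos _) 3).le)]
  exact div_le_self (sq_nonneg _) (one_le_pow₀ (Real.one_le_cosh _))

/-- **The annealed inequality** for `χ² = (F_a'')²`      TEX[LL:paths:base-profile] (display l.86-89) -/
theorem lan_chi_sq {a : ℝ} (ha : 0 < a) (π : List (ℝ × ℝ)) (hS : lanS π 0) (hL : lanL π 0 ≤ a) {d : ℝ} (hd : 0 ≤ d) :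
    scP (scLC a) π (scTr a d (scLC a) fun y => deriv (deriv (scLC a)) y ^ 2) 0 ≤
      Real.exp (-(a ^ 2 * d / 2)) * scP (scLC a) π (fun y => deriv (deriv (scLC a)) y ^ 2) 0 := by
  have e : (fun y => deriv (deriv (scLC a)) y ^ 2) = fun y => (a ^ 2 / Real.cosh (a * y) ^ 3) / Real.cosh (a * y) := by
    funext y
    rw [lan_F_deriv2 ha.ne']
    have := (Real.cosh_pos (a * y)).ne'
    field_simp
  rw [e]
  exact lan_main ha π hS hL hd (lan_sech3_E a) (fun z => div_nonneg (sq_nonneg _) (pow_pos (Real.cosh_pos _) 3).le)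
    (fun z => by rw [mul_neg, Real.cosh_neg]) (lan_sech3_lc ha)

/-! ## D. appended lists, constants, sorted lists -/

theorem lan_V_append (F : ℝ → ℝ) (π π' : List (ℝ × ℝ)) : scV F (π ++ π') = scV (scV F π') π := by
  induction π with
  | nil => rfl
  | cons p π ih => simp only [List.cons_append, scV, ih]

theorem lan_P_append (F φ : ℝ → ℝ) (π π' : List (ℝ × ℝ)) : scP F (π ++ π') φ = scP (scV F π') π (scP F π' φ) := by
  induction π with
  | nil => rfl
  | cons p π ih => simp only [List.cons_append, scP, ih, lan_V_append]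

theorem lan_V_add_const {F : ℝ → ℝ} (hF : ScB 1 F) (c : ℝ) (π : List (ℝ × ℝ)) :
    scV (fun z => F z + c) π = fun z => scV F π z + c := by
  induction π with
  | nil => rfl
  | cons p π ih => simp only [scV, ih, sc_step_add_const (lan_V_B hF π)]

theorem lan_P_add_const {F : ℝ → ℝ} (hF : ScB 1 F) (c : ℝ) (φ : ℝ → ℝ) (π : List (ℝ × ℝ)) :
    scP (fun z => F z + c) π φ = scP F π φ := by
  induction π with
  | nil => rfl
  | cons p π ih => simp only [scP, ih, lan_V_add_const hF, sc_tr_add_const]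

/-- the annealed extension as one more step of the list -/
theorem lan_P_annealed {a : ℝ} (ha : a ≠ 0) {d : ℝ} (hd : 0 ≤ d) (φ : ℝ → ℝ) (π : List (ℝ × ℝ)) :
    scP (scLC a) (π ++ [(a, d)]) φ = scP (scLC a) π (scTr a d (scLC a) φ) := by
  rw [lan_P_append]
  have e : scV (scLC a) [(a, d)] = fun z => scLC a z + a * d / 2 := sc_step_logcosh ha hd
  rw [e, lan_P_add_const (lan_F_B 1 a)]
  rfl

theorem lan_V_annealed {a : ℝ} (ha : a ≠ 0) {d : ℝ} (hd : 0 ≤ d) (π : List (ℝ × ℝ)) :
    scV (scLC a) (π ++ [(a, d)]) = fun z => scV (scLC a) π z + a * d / 2 := by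
  rw [lan_V_append]
  have e : scV (scLC a) [(a, d)] = fun z => scLC a z + a * d / 2 := sc_step_logcosh ha hd
  rw [e, lan_V_add_const (lan_F_B 1 a)]

/-- list form of the annealed inequality -/
theorem lan_chi_sq_append {a : ℝ} (ha : 0 < a) (π : List (ℝ × ℝ)) (hS : lanS π 0) (hL : lanL π 0 ≤ a) {d : ℝ} (hd : 0 ≤ d) :
    scP (scLC a) (π ++ [(a, d)]) (fun y => deriv (deriv (scLC a)) y ^ 2) 0 ≤
      Real.exp (-(a ^ 2 * d / 2)) * scP (scLC a) π (fun y => deriv (deriv (scLC a)) y ^ 2) 0 := by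
  rw [lan_P_annealed ha.ne' hd]
  exact lan_chi_sq ha π hS hL hd

/-- sorted masses in `[m, a]` -/
theorem lan_S_of_pairwise (a : ℝ) (π : List (ℝ × ℝ)) : ∀ m, m ≤ a → (∀ p ∈ π, m ≤ p.1 ∧ p.1 ≤ a) →
    π.Pairwise (fun p q => p.1 ≤ q.1) → lanS π m ∧ lanL π m ≤ a := by
  induction π with
  | nil => intro m hm _ _; exact ⟨trivial, hm⟩
  | cons p π ih =>
    intro m _ hr hp
    rw [List.pairwise_cons] at hp
    have h := ih p.1 (hr p List.mem_cons_self).2
      (fun q hq => ⟨hp.1 q hq, (hr q (List.mem_cons_of_mem _ hq)).2⟩) hp.2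
    exact ⟨⟨(hr p List.mem_cons_self).1, h.1⟩, h.2⟩

/-! ## E. the time form, on the vocabulary of `Sc/Prof.lean`, `Sc/GenDefs.lean` -/

theorem lan_after_mass {a : ℝ} (ρ : List (ℝ × ℝ)) : ∀ t : ℝ, (∀ p ∈ ρ, p.1 = a) → ∀ p ∈ scAfter ρ t, p.1 = a := by
  induction ρ with
  | nil => intro t _ p hp; simp [scAfter] at hp
  | cons q ρ ih =>
    intro t h p hp
    simp only [scAfter] at hp
    split_ifs at hp with hq
    · exact ih _ (fun r hr => h r (List.mem_cons_of_mem _ hr)) p hp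
    · rcases List.mem_cons.1 hp with rfl | hp
      · exact h q List.mem_cons_self
      · exact h p (List.mem_cons_of_mem _ hp)

theorem lan_upto_mass {a : ℝ} (ρ : List (ℝ × ℝ)) : ∀ t : ℝ, (∀ p ∈ ρ, p.1 = a) → ∀ p ∈ scUpto ρ t, p.1 = a := by
  induction ρ with
  | nil => intro t _ p hp; simp [scUpto] at hp
  | cons q ρ ih =>
    intro t h p hp
    simp only [scUpto] at hp
    split_ifs at hp with hq
    · rw [List.mem_singleton] at hp
      rw [hp]; exact h q List.mem_cons_self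
    · rcases List.mem_cons.1 hp with rfl | hp
      · exact h p List.mem_cons_self
      · exact ih _ (fun r hr => h r (List.mem_cons_of_mem _ hr)) p hp

/-- sorted masses `≤ a`: once the mass `a` is reached, all the later masses are `a` -/
theorem lan_after_top {a : ℝ} (π : List (ℝ × ℝ)) : ∀ t : ℝ, ScAdm a π → ScInc π → scAl π t = a → ∀ p ∈ scAfter π t, p.1 = a := by
  induction π with
  | nil => intro t _ _ _ p hp; simp [scAfter] at hp
  | cons q π ih =>
    intro t h hi hal p hp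
    simp only [scAfter] at hp
    simp only [scAl] at hal
    split_ifs at hp hal with hq
    · exact ih _ h.of_cons hi.of_cons hal p hp
    · rcases List.mem_cons.1 hp with rfl | hp
      · exact hal
      · have h1 := (List.pairwise_cons.1 hi).1 p hp
        have h2 := (h p (List.mem_cons_of_mem _ hp)).2.1
        linarith

/-- a list of annealed steps is one annealed step -/
theorem lan_P_top {a : ℝ} (ha : a ≠ 0) {φ : ℝ → ℝ} (hφ : ScE 0 φ) (ρ : List (ℝ × ℝ)) : ScPos ρ → (∀ p ∈ ρ, p.1 = a) →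
    scV (scLC a) ρ = (fun z => scLC a z + a * scLen ρ / 2) ∧ scP (scLC a) ρ φ = scTr a (scLen ρ) (scLC a) φ := by
  induction ρ with
  | nil =>
    intro _ _
    refine ⟨?_, ?_⟩
    · funext z; simp [scV, scLen]
    · simp only [scP, scLen, sc_tr_var_zero]
  | cons q ρ ih =>
    intro hp hm
    obtain ⟨h1, h2⟩ := ih hp.of_cons (fun r hr => hm r (List.mem_cons_of_mem _ hr))
    have hq : q.1 = a := hm q List.mem_cons_self
    have hq2 : 0 ≤ q.2 := hp q List.mem_cons_self
    have hl : 0 ≤ scLen ρ := sc_len_nonneg hp.of_cons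
    have hst : ∀ {s : ℝ}, 0 ≤ s → scStep a s (scLC a) = fun z => scLC a z + a * s / 2 := fun hs => sc_step_logcosh ha hs
    refine ⟨?_, ?_⟩
    · simp only [scV, h1, hq, scLen]
      rw [sc_step_add_const (lan_F_B 1 a), hst hq2]
      funext z; ring
    · simp only [scP, h1, h2, hq, scLen]
      rw [← sc_tr_tr (lan_F_B 1 a) hφ a hq2 hl, hst hl]

theorem lan_chi_E (a : ℝ) : ScE 0 (fun y => deriv (deriv (scLC a)) y ^ 2) :=
  ((lan_F_B 3 a).scE.deriv.deriv.of_succ).pow 2

theorem lan_deriv2_add_const (F : ℝ → ℝ) (c : ℝ) : deriv^[2] (fun z => F z + c) = deriv (deriv F) := by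
  simp only [Function.iterate_succ, Function.iterate_zero, Function.comp, id]
  have : deriv (fun z => F z + c) = deriv F := by funext z; simp
  rw [this]

/-- **The annealed inequality, time form**: if the mass of the (sorted, `≤ a`) step profile is `a` on `[t, t+d)`, then
`E V_zz²(t+d, Z_{t+d}) ≤ e^{-a² d/2} E V_zz²(t, Z_t)`.      TEX[LL:paths:base-profile] (display l.86-89) -/
theorem lan_M2 {a : ℝ} (ha : 0 < a) {π : List (ℝ × ℝ)} (h : ScAdm a π) (hi : ScInc π) {t d : ℝ} (ht : 0 ≤ t) (hd : 0 ≤ d)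
    (htd : t + d ≤ scLen π) (hm : ∀ r ∈ Ico t (t + d), scAl π r = a) :
    scM2 (scLC a) π (t + d) ≤ Real.exp (-(a ^ 2 * d / 2)) * scM2 (scLC a) π t := by
  rcases hd.eq_or_lt with rfl | hd0
  · simp
  have hBI : ScBI (scLC a) := sc_logcosh_BI a
  have hpos : ScPos π := h.pos
  have hφ := lan_chi_E a
  -- the profile after `t`
  have hρm : ∀ p ∈ scAfter π t, p.1 = a := lan_after_top π t h hi (hm t ⟨le_rfl, by linarith⟩)
  have hρp : ScPos (scAfter π t) := sc_after_pos hpos t
  have hVt : scVt (scLC a) π t = fun z => scLC a z + a * scLen (scAfter π t) / 2 := by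
    rw [sc_Vt_after]; exact (lan_P_top ha.ne' hφ _ hρp hρm).1
  have hVtd : scVt (scLC a) π (t + d) = fun z => scLC a z + a * scLen (scAfter (scAfter π t) d) / 2 := by
    rw [← sc_Vt_shift _ hpos ht hd, sc_Vt_after]
    exact (lan_P_top ha.ne' hφ _ (sc_after_pos hρp d) (lan_after_mass _ d hρm)).1
  have hD : scD 2 (scLC a) π t = deriv (deriv (scLC a)) := by
    unfold scD; rw [hVt, lan_deriv2_add_const]
  have hDd : scD 2 (scLC a) π (t + d) = deriv (deriv (scLC a)) := by
    unfold scD; rw [hVtd, lan_deriv2_add_const]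
  -- the transition on `[t, t+d]`
  have hlen : scLen (scUpto (scAfter π t) d) = d :=
    sc_len_upto hρp hd (by rw [sc_len_after hpos ht (by linarith)]; linarith)
  have hT : scPt (scLC a) π t (t + d) (fun y => deriv (deriv (scLC a)) y ^ 2) =
      scTr a d (scLC a) (fun y => deriv (deriv (scLC a)) y ^ 2) := by
    rw [sc_Pt_eq_P hBI hpos (by linarith), hVtd, lan_P_add_const (lan_F_B 1 a), add_sub_cancel_left,
      (lan_P_top ha.ne' hφ _ (sc_upto_pos hρp hd) (lan_upto_mass _ d hρm)).2, hlen]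
  -- the transition on `[0, t]`
  set π0 := scUpto (scAfter π 0) (t - 0) with hπ0
  have hπ0a : ScAdm a π0 := sc_upto_adm (sc_after_adm h 0) (by linarith)
  have hπ0i : ScInc π0 := sc_upto_inc (sc_after_inc hi 0) _
  have hP0 : ∀ ψ : ℝ → ℝ, scPt (scLC a) π 0 t ψ = scP (scLC a) π0 ψ := by
    intro ψ
    rw [sc_Pt_eq_P hBI hpos ht, hVt, lan_P_add_const (lan_F_B 1 a)]
  obtain ⟨hS, hL⟩ := lan_S_of_pairwise a π0 0 ha.le (fun p hp => ⟨(hπ0a p hp).1, (hπ0a p hp).2.1⟩) hπ0i
  unfold scM2 scEx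
  rw [hD, hDd, ← sc_Pt_Pt hBI hφ hpos ht (by linarith : t ≤ t + d), hT, hP0, hP0]
  exact lan_chi_sq ha π0 hS hL hd

end Claimed.Agent.R286
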