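import Claimed.Agent.R286.Sc.LinkTr
import Claimed.Agent.R286.Sc.Gen
import Claimed.Agent.R286.Sc.GenP
import Claimed.Agent.R286.Sc.MomG
import Claimed.Agent.R286.Sc.App
import Claimed.Agent.R286.Sc.Ann
import Claimed.Agent.R286.Brg.Osc
import Claimed.Agent.R286.Brg.Tab

/-!
# Row 286, BOX-C, unit S8 (LINK), part 3: CLOCKS      (OWNER helper102; chief helper183; prefix `slc`)

The one-site model with a field clock `K` (bounded monotone on `[0,a]`, `K a ≤ τ`), no matrix clock.   The numbers of `Defs/Clk.lean` (limits along the net of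
finite chains of positions) are the numbers of the scalar block with the coefficient `α = scAlK a K` (mass profile in variance time), horizon `τ`.
* `slc_alK`        `ScCoef a τ (scAlK a K)`;   `slc_alK_le_of_lt`, `slc_alK_ge` : the two inversions `K ↔ α`
* `slcPi a τ K c ps`   the scalar profile of the chain `ps`, completed up to the horizon `τ` by an annealed step of mass `a`;   `slc_pi_eq` (= `slkPi` of `skCStp` + the annealed step)
* `slc_sup`        on a chain which contains the dyadic masses of rank `k`:  `|scAl (slcPi ..) r - scAlK a K r| ≤ a / 2^k` for ALL `r ∈ [0,τ)`   (sup norm, no sum over the gaps)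
* `slc_net`        a functional of chains which is `ε`-close to `L` on all fine chains has the limit `L` along the net
* **`slc_fspin`**  `f_1(0,K) = V_α(0,0) - a τ / 2`, and the limit exists      TEX[PE:prof:scalar] / LL (A4)
* **`slc_S`**      `S(p) = ν_K[σ¹σ²] = Γ_α(K(p))`, and the limit exists
-/

set_option autoImplicit false

namespace Claimed.Agent.R286

open MeasureTheory ProbabilityTheory Filter Topology Set Function

/-! ## 1. the mass profile of a clock -/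

theorem slc_vol_ne_top (a : ℝ) (K : ℝ → ℝ) (t : ℝ) : volume {v : ℝ | v ∈ Ioo 0 a ∧ K v ≤ t} ≠ ⊤ := by
  refine ne_top_of_le_ne_top (b := volume (Ioo (0:ℝ) a)) (by simp) (measure_mono fun v hv => hv.1)

theorem slc_alK_nonneg (a : ℝ) (K : ℝ → ℝ) (t : ℝ) : 0 ≤ scAlK a K t := ENNReal.toReal_nonneg

theorem slc_alK_le {a : ℝ} (ha : 0 ≤ a) (K : ℝ → ℝ) (t : ℝ) : scAlK a K t ≤ a := by
  have h : volume {v : ℝ | v ∈ Ioo 0 a ∧ K v ≤ t} ≤ volume (Ioo (0:ℝ) a) := measure_mono fun v hv => hv.1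
  have h2 := ENNReal.toReal_mono (by simp) h
  rw [Real.volume_Ioo, sub_zero, ENNReal.toReal_ofReal ha] at h2
  exact h2

theorem slc_alK_mono (a : ℝ) (K : ℝ → ℝ) : Monotone (scAlK a K) := fun _ t hst =>
  ENNReal.toReal_mono (slc_vol_ne_top a K t) (measure_mono fun _ hv => ⟨hv.1, hv.2.trans hst⟩)

/-- **the mass profile of a clock is an admissible coefficient** -/
theorem slc_alK {a : ℝ} (ha : 0 ≤ a) (τ : ℝ) (K : ℝ → ℝ) : ScCoef a τ (scAlK a K) :=
  ⟨(slc_alK_mono a K).monotoneOn _, fun t _ => ⟨slc_alK_nonneg a K t, slc_alK_le ha K t⟩⟩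

theorem slc_clamp_eq {a : ℝ} (K : ℝ → ℝ) {v : ℝ} (h0 : 0 ≤ v) (h1 : v ≤ a) : ghClamp a K v = K v := by
  unfold ghClamp
  rw [if_neg (not_lt.2 h0), min_eq_left h1]

/-- the clock has passed `r` at the position `p`: the mass profile at the time `r` is at most the mass of `p` -/
theorem slc_alK_le_of_lt {a : ℝ} (ha : 0 ≤ a) {K : ℝ → ℝ} (hK : GhClk1 a K) {p : GhPos} (hp : p.Ok a) {r : ℝ}
    (hr : r < ghAt a K p) : scAlK a K r ≤ p.u := by
  have hsub : {v : ℝ | v ∈ Ioo 0 a ∧ K v ≤ r} ⊆ Ioc 0 p.u := by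
    intro v hv
    refine ⟨hv.1.1, ?_⟩
    by_contra hlt
    push Not at hlt
    have h1 := gh_os_at_le_right ha hK hp.2.2.2
    have h2 := (gh_os_clamp_mono ha hK).rightLim_le hlt
    rw [slc_clamp_eq K hv.1.1.le hv.1.2.le] at h2
    have h3 : K v ≤ r := hv.2
    linarith
  have h2 := ENNReal.toReal_mono (b := volume (Ioc 0 p.u)) (by simp) (measure_mono hsub)
  rw [Real.volume_Ioc, sub_zero, ENNReal.toReal_ofReal hp.1] at h2
  exact h2

/-- the clock has not passed `r` after the mass `g`: the mass profile at the time `r` is at least `g` -/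
theorem slc_alK_ge {a : ℝ} (ha : 0 ≤ a) {K : ℝ → ℝ} (hK : GhClk1 a K) {g : ℝ} (h0 : 0 ≤ g) (h1 : g ≤ a) {r : ℝ}
    (hr : ghAt a K (ghPosA g) ≤ r) : g ≤ scAlK a K r := by
  have hsub : Ioo 0 g ⊆ {v : ℝ | v ∈ Ioo 0 a ∧ K v ≤ r} := by
    intro v hv
    refine ⟨⟨hv.1, hv.2.trans_le h1⟩, ?_⟩
    have h2 := (gh_os_clamp_mono ha hK).le_rightLim hv.2.le
    rw [slc_clamp_eq K hv.1.le (hv.2.le.trans h1), ← gh_os_at_posA] at h2
    exact h2.trans hr
  have h2 := ENNReal.toReal_mono (slc_vol_ne_top a K r) (measure_mono hsub)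
  rw [Real.volume_Ioo, sub_zero, ENNReal.toReal_ofReal h0] at h2
  exact h2

theorem slc_alK_top {a τ : ℝ} (ha : 0 ≤ a) {K : ℝ → ℝ} (hK : GhClk1 a K) (hKτ : K a ≤ τ) : scAlK a K τ = a :=
  le_antisymm (slc_alK_le ha K τ) (slc_alK_ge ha hK ha le_rfl (by rw [gh_os_at_top a K ha]; exact hKτ))

/-! ## 2. the scalar profile of a chain, completed up to the horizon -/

/-- the profile of the chain `ps` (`c` = clock already revealed), then an annealed step up to the horizon `τ` -/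
noncomputable def slcPi (a τ : ℝ) (K : ℝ → ℝ) : ℝ → List GhPos → List (ℝ × ℝ)
  | c, [] => [(a, τ - c)]
  | c, p :: ps => (p.u, ghAt a K p - c) :: slcPi a τ K (ghAt a K p) ps

/-- admissible chain above the level `c` -/
def SlcCh (a τ : ℝ) (K : ℝ → ℝ) (c : ℝ) (ps : List GhPos) : Prop :=
  ps.Pairwise (· ≤ ·) ∧ (∀ x ∈ ps, x.Ok a) ∧ (∀ x ∈ ps, c ≤ ghAt a K x) ∧ c ≤ τ

theorem slc_eqns_cite : True := by
  have := @slcPi.eq_1
  have := @slcPi.eq_2
  have := @slcPi.eq_def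
  have := @slcPi.induct
  have := @SlcCh.eq_1
  trivial

theorem slc_at_le {a τ : ℝ} (ha : 0 ≤ a) {K : ℝ → ℝ} (hK : GhClk1 a K) (hKτ : K a ≤ τ) {p : GhPos} (hp : p.Ok a) :
    ghAt a K p ≤ τ := by
  have := gh_os_at_le_top ha hK hp
  rw [gh_os_at_top a K ha] at this
  exact this.trans hKτ

theorem SlcCh.tail {a τ : ℝ} (ha : 0 ≤ a) {K : ℝ → ℝ} (hK : GhClk1 a K) (hKτ : K a ≤ τ) {c : ℝ} {p : GhPos}
    {ps : List GhPos} (h : SlcCh a τ K c (p :: ps)) : SlcCh a τ K (ghAt a K p) ps := by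
  obtain ⟨h1, h2, -, -⟩ := h
  rw [List.pairwise_cons] at h1
  refine ⟨h1.2, fun x hx => h2 x (List.mem_cons_of_mem _ hx), fun x hx => ?_, slc_at_le ha hK hKτ (h2 p List.mem_cons_self)⟩
  exact gh_os_at_mono ha hK (h2 p List.mem_cons_self).2.2.2 (h2 x (List.mem_cons_of_mem _ hx)).2.2.1 (h1.1 x hx)

theorem slc_len (a τ : ℝ) (K : ℝ → ℝ) : ∀ (ps : List GhPos) (c : ℝ), scLen (slcPi a τ K c ps) = τ - c
  | [], c => by simp [slcPi, scLen]
  | p :: ps, c => by
      simp only [slcPi, scLen, slc_len a τ K ps]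
      ring

theorem slc_mem (a τ : ℝ) (K : ℝ → ℝ) : ∀ (ps : List GhPos) (c : ℝ), ∀ q ∈ slcPi a τ K c ps, q.1 = a ∨ ∃ x ∈ ps, q.1 = x.u
  | [], c, q, hq => by
      simp only [slcPi, List.mem_singleton] at hq
      left; rw [hq]
  | p :: ps, c, q, hq => by
      simp only [slcPi, List.mem_cons] at hq
      rcases hq with rfl | hq
      · exact Or.inr ⟨p, List.mem_cons_self, rfl⟩
      · rcases slc_mem a τ K ps _ q hq with h | ⟨x, hx, h⟩
        · exact Or.inl h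
        · exact Or.inr ⟨x, List.mem_cons_of_mem _ hx, h⟩

theorem slc_u_le {p q : GhPos} (h : p ≤ q) : p.u ≤ q.u := by
  rcases (gh_os_pos_le_iff p q).1 h with h | h
  · exact h.le
  · exact h.1.le

theorem slc_adm {a τ : ℝ} (ha : 0 ≤ a) {K : ℝ → ℝ} (hK : GhClk1 a K) (hKτ : K a ≤ τ) :
    ∀ (ps : List GhPos) (c : ℝ), SlcCh a τ K c ps → ScAdm a (slcPi a τ K c ps)
  | [], c, h => by
      intro q hq
      simp only [slcPi, List.mem_singleton] at hq
      rw [hq]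
      exact ⟨ha, le_rfl, sub_nonneg.2 h.2.2.2⟩
  | p :: ps, c, h => by
      intro q hq
      simp only [slcPi, List.mem_cons] at hq
      rcases hq with rfl | hq
      · exact ⟨(h.2.1 p List.mem_cons_self).1, (h.2.1 p List.mem_cons_self).2.1, sub_nonneg.2 (h.2.2.1 p List.mem_cons_self)⟩
      · exact slc_adm ha hK hKτ ps _ (h.tail ha hK hKτ) q hq

theorem slc_inc {a τ : ℝ} (ha : 0 ≤ a) {K : ℝ → ℝ} (hK : GhClk1 a K) (hKτ : K a ≤ τ) :
    ∀ (ps : List GhPos) (c : ℝ), SlcCh a τ K c ps → ScInc (slcPi a τ K c ps)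
  | [], c, _ => by simp [slcPi, ScInc]
  | p :: ps, c, h => by
      unfold ScInc
      simp only [slcPi]
      rw [List.pairwise_cons]
      refine ⟨fun q hq => ?_, slc_inc ha hK hKτ ps _ (h.tail ha hK hKτ)⟩
      rcases slc_mem a τ K ps _ q hq with e | ⟨x, hx, e⟩
      · rw [e]; exact (h.2.1 p List.mem_cons_self).2.1
      · rw [e]
        show p.u ≤ x.u
        exact slc_u_le ((List.pairwise_cons.1 h.1).1 x hx)

/-! ## 3. the mass at the time `r` on a chain -/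

theorem slc_al_cons (a τ : ℝ) (K : ℝ → ℝ) (p : GhPos) (ps : List GhPos) (c r : ℝ) :
    scAl (slcPi a τ K c (p :: ps)) (r - c) = if ghAt a K p ≤ r then scAl (slcPi a τ K (ghAt a K p) ps) (r - ghAt a K p) else p.u := by
  simp only [slcPi, scAl, sub_le_sub_iff_right, sub_sub_sub_cancel_right]

theorem slc_al_ge {a τ : ℝ} (ha : 0 ≤ a) {K : ℝ → ℝ} (hK : GhClk1 a K) {r : ℝ} (hr : r < τ) :
    ∀ (ps : List GhPos) (c : ℝ), (∀ x ∈ ps, x.Ok a) → scAlK a K r ≤ scAl (slcPi a τ K c ps) (r - c)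
  | [], c, _ => by
      simp only [slcPi, scAl, sub_le_sub_iff_right, if_neg (not_le.2 hr)]
      exact slc_alK_le ha K r
  | p :: ps, c, h => by
      rw [slc_al_cons]
      split_ifs with h1
      · exact slc_al_ge ha hK hr ps _ fun x hx => h x (List.mem_cons_of_mem _ hx)
      · exact slc_alK_le_of_lt ha hK (h p List.mem_cons_self) (not_le.1 h1)

theorem slc_al_le (a τ : ℝ) (K : ℝ → ℝ) (r : ℝ) :
    ∀ (ps : List GhPos) (c : ℝ), ps.Pairwise (· ≤ ·) → ∀ q ∈ ps, r < ghAt a K q → scAl (slcPi a τ K c ps) (r - c) ≤ q.u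
  | [], _, _, q, hq, _ => absurd hq List.not_mem_nil
  | p :: ps, c, h, q, hq, hr => by
      rw [slc_al_cons]
      rw [List.pairwise_cons] at h
      split_ifs with h1
      · rcases List.mem_cons.1 hq with rfl | hq'
        · exact absurd h1 (not_le.2 hr)
        · exact slc_al_le a τ K r ps _ h.2 q hq' hr
      · rcases List.mem_cons.1 hq with rfl | hq'
        · exact le_rfl
        · exact slc_u_le (h.1 q hq')

/-- fine chain: sorted, valid, contains the dyadic masses of rank `k` (after their jumps) and the valid positions of `F0` -/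
def SlcFine (a : ℝ) (k : ℕ) (F0 : Finset GhPos) (ps : List GhPos) : Prop :=
  ps.Pairwise (· < ·) ∧ (∀ x ∈ ps, x.Ok a) ∧ (∀ i : ℕ, i ≤ 2 ^ k → ghPosA (a * i / 2 ^ k) ∈ ps) ∧ ∀ x ∈ F0, x.Ok a → x ∈ ps

theorem slcFine_eqns_cite : True := by
  have := @SlcFine.eq_1
  trivial

theorem SlcFine.le {a : ℝ} {k : ℕ} {F0 : Finset GhPos} {ps : List GhPos} (h : SlcFine a k F0 ps) : ps.Pairwise (· ≤ ·) :=
  h.1.imp fun h => h.le

theorem SlcFine.ch {a τ : ℝ} (ha : 0 ≤ a) (hτ : 0 ≤ τ) {K : ℝ → ℝ} (hK : GhClk1 a K) {k : ℕ} {F0 : Finset GhPos} {ps : List GhPos}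
    (h : SlcFine a k F0 ps) : SlcCh a τ K 0 ps :=
  ⟨h.le, h.2.1, fun x hx => gh_os_at_nonneg ha hK (h.2.1 x hx).2.2.1, hτ⟩

theorem slc_posA_u (u : ℝ) : (ghPosA u).u = u := by simp [ghPosA, GhPos.u]

/-- **sup-norm closeness** of the mass profile of a fine chain to the mass profile of the clock -/
theorem slc_sup {a τ : ℝ} (ha : 0 ≤ a) (hτ : 0 ≤ τ) {K : ℝ → ℝ} (hK : GhClk1 a K) (hKτ : K a ≤ τ) {k : ℕ} {F0 : Finset GhPos}
    {ps : List GhPos} (h : SlcFine a k F0 ps) {r : ℝ} (hr : r < τ) :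
    |scAl (slcPi a τ K 0 ps) r - scAlK a K r| ≤ a / 2 ^ k := by
  have h1 := slc_al_ge ha hK hr ps 0 h.2.1
  have h2 := fun q hq => slc_al_le a τ K r ps 0 h.le q hq
  rw [sub_zero] at h1 h2
  have hδ : 0 ≤ a / 2 ^ k := by positivity
  have h3 : scAl (slcPi a τ K 0 ps) r ≤ a := (sc_Al_mem ha (slc_adm ha hK hKτ ps 0 (h.ch ha hτ hK)) r).2
  have key : ∀ i : ℕ, i ≤ 2 ^ k → ghAt a K (ghPosA (a * i / 2 ^ k)) ≤ r ∨ scAl (slcPi a τ K 0 ps) r ≤ scAlK a K r + a / 2 ^ k := by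
    intro i
    induction i with
    | zero =>
      intro hi
      by_cases hc : ghAt a K (ghPosA (a * (0 : ℕ) / 2 ^ k)) ≤ r
      · exact Or.inl hc
      · right
        have := h2 _ (h.2.2.1 0 hi) (not_le.1 hc)
        rw [slc_posA_u] at this
        have h0 := slc_alK_nonneg a K r
        simp only [Nat.cast_zero, mul_zero, zero_div] at this
        linarith
    | succ i ih =>
      intro hi
      rcases ih (by omega) with hl | hl
      · by_cases hc : ghAt a K (ghPosA (a * ((i + 1 : ℕ) : ℝ) / 2 ^ k)) ≤ r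
        · exact Or.inl hc
        · right
          have := h2 _ (h.2.2.1 (i + 1) hi) (not_le.1 hc)
          rw [slc_posA_u] at this
          have hi' : (i : ℝ) ≤ 2 ^ k := by
            have : ((i : ℕ) : ℝ) ≤ ((2 ^ k : ℕ) : ℝ) := Nat.cast_le.2 (by omega)
            simpa using this
          have hg := slc_alK_ge ha hK (g := a * i / 2 ^ k) (by positivity)
            (by rw [div_le_iff₀ (by positivity)]; exact mul_le_mul_of_nonneg_left hi' ha) hl
          have e : a * ((i + 1 : ℕ) : ℝ) / 2 ^ k = a * i / 2 ^ k + a / 2 ^ k := by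
            push_cast; ring
          rw [e] at this
          linarith
      · exact Or.inr hl
  have h4 : scAl (slcPi a τ K 0 ps) r ≤ scAlK a K r + a / 2 ^ k := by
    rcases key (2 ^ k) le_rfl with hl | hl
    · have e : a * ((2 ^ k : ℕ) : ℝ) / 2 ^ k = a := by
        push_cast; field_simp
      rw [e] at hl
      have := slc_alK_ge ha hK ha le_rfl hl
      linarith
    · exact hl
  rw [abs_le]
  constructor <;> linarith

/-! ## 4. the net -/

theorem slc_fine_ps (a : ℝ) (ha : 0 ≤ a) (k : ℕ) (F0 : Finset GhPos) {F : Finset GhPos} (hF : ghGrid a k ∪ F0 ≤ F) :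
    SlcFine a k F0 (ghPs a F) := by
  refine ⟨gh_os_ps_lt a F, fun x hx => (gh_os_ps_mem.1 hx).2, fun i hi => ?_, fun x hx hok => ?_⟩
  · have hi' : (i : ℝ) ≤ 2 ^ k := by
      have : ((i : ℕ) : ℝ) ≤ ((2 ^ k : ℕ) : ℝ) := Nat.cast_le.2 hi
      simpa using this
    refine gh_os_ps_mem.2 ⟨hF (Finset.mem_union_left _ ?_), gh_os_posA_ok (by positivity)
      (by rw [div_le_iff₀ (by positivity)]; exact mul_le_mul_of_nonneg_left hi' ha)⟩
    unfold ghGrid
    exact Finset.mem_image.2 ⟨i, Finset.mem_range.2 (by omega), rfl⟩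
  · exact gh_os_ps_mem.2 ⟨hF (Finset.mem_union_right _ hx), hok⟩

/-- a functional of chains which is close to `L` on all fine chains has the limit `L` along the net -/
theorem slc_net {a : ℝ} (ha : 0 ≤ a) {Q : List GhPos → ℝ} {L : ℝ} (F0 : Finset GhPos)
    (H : ∀ ε > 0, ∃ k : ℕ, ∀ ps, SlcFine a k F0 ps → |Q ps - L| ≤ ε) : GhLimEx a Q ∧ ghLim a Q = L := by
  have ht : Tendsto (fun F : Finset GhPos => Q (ghPs a F)) atTop (𝓝 L) := by
    rw [Metric.tendsto_atTop]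
    intro ε hε
    obtain ⟨k, hk⟩ := H (ε / 2) (half_pos hε)
    refine ⟨ghGrid a k ∪ F0, fun F hF => ?_⟩
    rw [Real.dist_eq]
    exact (hk _ (slc_fine_ps a ha k F0 hF)).trans_lt (half_lt_self hε)
  have e : ghLim a Q = L := ht.limUnder_eq
  refine ⟨?_, e⟩
  unfold GhLimEx
  rw [e]
  exact ht

theorem slc_pow_small {C ε : ℝ} (hε : 0 < ε) : ∃ k : ℕ, C / 2 ^ k < ε := by
  have h := (tendsto_pow_atTop_nhds_zero_of_lt_one (r := (1 / 2 : ℝ)) (by norm_num) (by norm_num)).const_mul C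
  rw [mul_zero] at h
  obtain ⟨k, hk⟩ := (h.eventually (gt_mem_nhds hε)).exists
  refine ⟨k, ?_⟩
  rwa [one_div, inv_pow, ← div_eq_mul_inv] at hk

/-! ## 5. the chain of `Defs/Clk.lean` -/

theorem slc_at_zero (a : ℝ) (p : GhPos) : ghAt a (fun _ => 0) p = 0 := by
  have h : ghClamp a (fun _ => 0) = fun _ => (0 : ℝ) := by
    funext u; unfold ghClamp; split_ifs <;> rfl
  have h1 : leftLim (fun _ : ℝ => (0 : ℝ)) p.u = 0 := leftLim_eq_of_tendsto tendsto_const_nhds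
  have h2 : rightLim (fun _ : ℝ => (0 : ℝ)) p.u = 0 := rightLim_eq_of_tendsto tendsto_const_nhds
  unfold ghAt
  rw [h, h1, h2]; ring

theorem slc_ok (a : ℝ) (K : ℝ → ℝ) : ∀ (ps : List GhPos) (c : ℝ), SlkOk (skCStp a (fun _ => 0) K 0 c ps)
  | [], c => fun e he => absurd he List.not_mem_nil
  | p :: ps, c => by
      intro e he
      simp only [skCStp, List.mem_cons] at he
      rcases he with rfl | he
      · simp [slc_at_zero]
      · rw [slc_at_zero] at he
        exact slc_ok a K ps _ e he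

theorem slc_stp_length (a : ℝ) (b K : ℝ → ℝ) : ∀ (ps : List GhPos) (b0 c : ℝ), (skCStp a b K b0 c ps).length = ps.length
  | [], _, _ => rfl
  | p :: ps, _, _ => by simp [skCStp, slc_stp_length a b K ps]

/-- the completed profile = the profile of the chain of `Defs/Clk.lean` + the annealed step -/
theorem slc_pi_eq (a τ : ℝ) (b K : ℝ → ℝ) : ∀ (ps : List GhPos) (b0 c : ℝ),
    slcPi a τ K c ps = slkPi (skCStp a b K b0 c ps) ++ [(a, τ - c - scLen (slkPi (skCStp a b K b0 c ps)))]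
  | [], b0, c => by simp [slcPi, skCStp, slkPi, scLen]
  | p :: ps, b0, c => by
      have IH := slc_pi_eq a τ b K ps (ghAt a b p) (ghAt a K p)
      have e : slkPi (skCStp a b K b0 c (p :: ps)) = (p.u, ghAt a K p - c) :: slkPi (skCStp a b K (ghAt a b p) (ghAt a K p) ps) := rfl
      rw [e, slcPi, IH, List.cons_append, scLen]
      have e2 : τ - ghAt a K p - scLen (slkPi (skCStp a b K (ghAt a b p) (ghAt a K p) ps))
          = τ - c - ((p.u, ghAt a K p - c).2 + scLen (slkPi (skCStp a b K (ghAt a b p) (ghAt a K p) ps))) := by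
        simp only
        ring
      rw [e2]

theorem slc_dh_nonneg {a τ : ℝ} (ha : 0 ≤ a) {K : ℝ → ℝ} (hK : GhClk1 a K) (hKτ : K a ≤ τ) (b : ℝ → ℝ) :
    ∀ (ps : List GhPos) (b0 c : ℝ), SlcCh a τ K c ps → ∀ e ∈ skCStp a b K b0 c ps, 0 ≤ e.dh
  | [], _, _, _, e, he => absurd he List.not_mem_nil
  | p :: ps, b0, c, h, e, he => by
      simp only [skCStp, List.mem_cons] at he
      rcases he with rfl | he
      · exact sub_nonneg.2 (h.2.2.1 p List.mem_cons_self)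
      · exact slc_dh_nonneg ha hK hKτ b ps _ _ (h.tail ha hK hKτ) e he

theorem slc_stp_len_le {a τ : ℝ} (ha : 0 ≤ a) {K : ℝ → ℝ} (hK : GhClk1 a K) (hKτ : K a ≤ τ) (b : ℝ → ℝ) :
    ∀ (ps : List GhPos) (b0 c : ℝ), SlcCh a τ K c ps → scLen (slkPi (skCStp a b K b0 c ps)) ≤ τ - c
  | [], _, c, h => by simpa [skCStp, slkPi, scLen] using h.2.2.2
  | p :: ps, b0, c, h => by
      have IH := slc_stp_len_le ha hK hKτ b ps (ghAt a b p) _ (h.tail ha hK hKτ)
      have e : slkPi (skCStp a b K b0 c (p :: ps)) = (p.u, ghAt a K p - c) :: slkPi (skCStp a b K (ghAt a b p) (ghAt a K p) ps) := rfl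
      rw [e, scLen]
      simp only
      linarith

/-- the variance time of the fork -/
theorem slc_T (a : ℝ) (b K : ℝ → ℝ) (p : GhPos) : ∀ (ps : List GhPos) (b0 c : ℝ), ps.Pairwise (· < ·) → p ∈ ps →
    slkT (skCStp a b K b0 c ps) (ghIdx ps (p : WithTop GhPos)) = ghAt a K p - c
  | [], _, _, _, hp => absurd hp List.not_mem_nil
  | x :: xs, b0, c, h, hp => by
      rw [List.pairwise_cons] at h
      rw [brg_t_idx_coe]
      have hx : x ≤ p := by
        rcases List.mem_cons.1 hp with rfl | hp'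
        · exact le_rfl
        · exact (h.1 p hp').le
      rw [List.filter_cons_of_pos (by simpa using hx), List.length_cons]
      unfold slkT
      simp only [skCStp, List.take_succ_cons]
      show (ghAt a K x - c) + scLen (slkPi ((skCStp a b K (ghAt a b x) (ghAt a K x) xs).take
        (xs.filter fun y => decide (y ≤ p)).length)) = _
      by_cases hp' : p ∈ xs
      · have IH := slc_T a b K p xs (ghAt a b x) (ghAt a K x) h.2 hp'
        rw [brg_t_idx_coe] at IH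
        unfold slkT at IH
        rw [IH]; ring
      · have hpx : p = x := (List.mem_cons.1 hp).resolve_right hp'
        have hnil : (xs.filter fun y => decide (y ≤ p)) = [] := by
          rw [List.filter_eq_nil_iff]
          intro y hy
          have := h.1 y hy
          simp only [decide_eq_true_eq, not_le]
          rw [hpx]; exact this
        rw [hnil, hpx]
        simp [slkPi, scLen]

/-! ## 6. the step coefficient of a chain -/

/-- the mass profile of the completed chain, as a coefficient on `[0,τ]` -/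
noncomputable def slcAl (a τ : ℝ) (K : ℝ → ℝ) (ps : List GhPos) (r : ℝ) : ℝ := if r < τ then scAl (slcPi a τ K 0 ps) r else a

theorem slcAl_eqns_cite : True := by
  have := @slcAl.eq_1
  trivial

theorem slc_al_coef {a τ : ℝ} (ha : 0 ≤ a) {K : ℝ → ℝ} (hK : GhClk1 a K) (hKτ : K a ≤ τ) {ps : List GhPos}
    (h : SlcCh a τ K 0 ps) : ScCoef a τ (slcAl a τ K ps) := by
  have hadm := slc_adm ha hK hKτ ps 0 h
  have hlen : scLen (slcPi a τ K 0 ps) = τ := by rw [slc_len, sub_zero]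
  refine ⟨fun x _ y _ hxy => ?_, fun t _ => ?_⟩
  · unfold slcAl
    by_cases hy : y < τ
    · rw [if_pos hy, if_pos (lt_of_le_of_lt hxy hy)]
      exact sc_Al_mono hadm.pos (slc_inc ha hK hKτ ps 0 h) (by rw [hlen]; exact lt_of_le_of_lt hxy hy) (by rw [hlen]; exact hy) hxy
    · rw [if_neg hy]
      split_ifs
      · exact (sc_Al_mem ha hadm x).2
      · exact le_rfl
  · unfold slcAl
    split_ifs
    · exact sc_Al_mem ha hadm t
    · exact ⟨ha, le_rfl⟩

/-- `L¹` distance of the coefficient of a fine chain to the mass profile of the clock -/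
theorem slc_l1 {a τ : ℝ} (ha : 0 ≤ a) (hτ : 0 ≤ τ) {K : ℝ → ℝ} (hK : GhClk1 a K) (hKτ : K a ≤ τ) {k : ℕ} {F0 : Finset GhPos}
    {ps : List GhPos} (h : SlcFine a k F0 ps) : ∫ r in (0 : ℝ)..τ, |slcAl a τ K ps r - scAlK a K r| ≤ a * τ / 2 ^ k := by
  have h1 : ∀ r ∈ Set.uIoc (0 : ℝ) τ, ‖|slcAl a τ K ps r - scAlK a K r|‖ ≤ a / 2 ^ k := by
    intro r hr
    rw [uIoc_of_le hτ] at hr
    rw [Real.norm_eq_abs, abs_abs]
    unfold slcAl
    by_cases hrτ : r < τ
    · rw [if_pos hrτ]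
      exact slc_sup ha hτ hK hKτ h hrτ
    · have e : r = τ := le_antisymm hr.2 (not_lt.1 hrτ)
      rw [if_neg hrτ, e, slc_alK_top ha hK hKτ, sub_self, abs_zero]
      positivity
  have h2 := intervalIntegral.norm_integral_le_of_norm_le_const h1
  rw [sub_zero, abs_of_nonneg hτ] at h2
  calc _ ≤ ‖∫ r in (0 : ℝ)..τ, |slcAl a τ K ps r - scAlK a K r|‖ := le_abs_self _
    _ ≤ a / 2 ^ k * τ := h2
    _ = a * τ / 2 ^ k := by ring

theorem slc_LC_lip {a : ℝ} (ha : a ≠ 0) (z : ℝ) : |deriv (scLC a) z| ≤ 1 := by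
  rw [slk_LC_deriv ha]
  exact (Real.abs_tanh_lt_one _).le

/-! ## 7. the pressure -/

/-- the self corrected pressure of a chain is the value of the completed profile -/
theorem slc_Pr_chain {a τ : ℝ} (ha : 0 < a) {K : ℝ → ℝ} (hK : GhClk1 a K) (hKτ : K a ≤ τ) {ps : List GhPos}
    (h : SlcCh a τ K 0 ps) :
    skPr 1 a (skCStp a (fun _ => 0) K 0 0 ps) = scVa (scLC a) (slcAl a τ K ps) τ 0 0 - a * τ / 2 := by
  have hadm := slc_adm ha.le hK hKτ ps 0 h
  have hlen : scLen (slcPi a τ K 0 ps) = τ := by rw [slc_len, sub_zero]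
  have hd := slc_stp_len_le ha.le hK hKτ (fun _ => 0) ps 0 0 h
  rw [scg_step (slk_LC_BI a) (slc_al_coef ha.le hK hKτ h) hadm (slc_inc ha.le hK hKτ ps 0 h) hlen
    (fun r hr => by unfold slcAl; rw [if_pos hr.2]) le_rfl, sc_Vt_zero _ hadm.pos, slc_pi_eq a τ (fun _ => 0) K ps 0 0,
    lan_V_annealed ha.ne' (by linarith), slk_Pr a (slc_ok a K ps 0)]
  ring

/-- **the self corrected one-site pressure of a clock**: the limit exists and `f_1(0,K) = V_α(0,0) - a τ / 2`, `α = scAlK a K`.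
TEX[PE:prof:scalar] -/
theorem slc_fspin {a τ : ℝ} (ha : 0 < a) (hτ : 0 < τ) {K : ℝ → ℝ} (hK : GhClk1 a K) (hKτ : K a ≤ τ) :
    GhLimEx a (fun ps => skPr 1 a (skCStp a (fun _ => 0) K 0 0 ps)) ∧
      skCPr 1 a (fun _ => 0) K = scVa (scLC a) (scAlK a K) τ 0 0 - a * τ / 2 := by
  apply slc_net ha.le ∅
  intro ε hε
  obtain ⟨k, hk⟩ := slc_pow_small (C := a * τ) hε
  refine ⟨k, fun ps hps => ?_⟩
  have hch := hps.ch ha.le hτ.le hK (τ := τ)
  rw [slc_Pr_chain ha hK hKτ hch]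
  have h1 := scg_lip (slk_LC_BI a) (slk_LC_BI a) (L := 1) (ε := 0) (slc_LC_lip ha.ne') (slc_LC_lip ha.ne') (by simp)
    (slc_alK ha.le τ K) (slc_al_coef ha.le hK hKτ hch) le_rfl hτ.le 0
  have h2 := slc_l1 ha.le hτ.le hK hKτ hps
  have e : scVa (scLC a) (slcAl a τ K ps) τ 0 0 - a * τ / 2 - (scVa (scLC a) (scAlK a K) τ 0 0 - a * τ / 2)
      = scVa (scLC a) (slcAl a τ K ps) τ 0 0 - scVa (scLC a) (scAlK a K) τ 0 0 := by ring
  rw [e]
  refine h1.trans ?_
  linarith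

/-! ## 8. the overlap at a position -/

theorem slc_len_take_le {π : List (ℝ × ℝ)} (h : ScPos π) (k : ℕ) : scLen (π.take k) ≤ scLen π := by
  have e := sc_len_append (π.take k) (π.drop k)
  rw [List.take_append_drop] at e
  have := sc_len_nonneg (π := π.drop k) fun p hp => h p (List.mem_of_mem_drop hp)
  linarith

/-- step profiles are consistent for the transition kernels (bounded `C²` tests) -/
theorem slc_P_step {F : ℝ → ℝ} (hF : ScBI F) {a τ : ℝ} {α : ℝ → ℝ} (hτ : 0 ≤ τ) (hα : ScCoef a τ α) {π : List (ℝ × ℝ)}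
    (hπ : ScAdm a π) (hi : ScInc π) (hlen : scLen π = τ) (he : ∀ r ∈ Ico 0 τ, α r = scAl π r) {ψ : ℝ → ℝ} {M : ℝ}
    (hψ : ScN 2 M ψ) {s t : ℝ} (hs : 0 ≤ s) (hst : s ≤ t) (ht : t ≤ τ) (z : ℝ) : scPa F α τ s t ψ z = scPt F π s t ψ z := by
  have h0 : scDa π α τ = 0 := by
    unfold scDa
    rw [intervalIntegral.integral_of_le hτ, integral_Ioc_eq_integral_Ioo,
      setIntegral_congr_fun (g := fun _ => (0 : ℝ)) measurableSet_Ioo fun r hr => by
        simp only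
        rw [he r ⟨hr.1.le, hr.2⟩, sub_self, abs_zero]]
    simp
  have h1 := sgp_P_tendsto_of_apx_bd hF hτ hα (π := fun _ => π) (fun _ => ⟨hπ, hi, hlen⟩)
    (by simp only [h0]; exact tendsto_const_nhds) hψ hs hst ht z
  exact tendsto_nhds_unique tendsto_const_nhds h1 |>.symm

/-- step profiles are consistent for `Γ` -/
theorem slc_Gam_step {F : ℝ → ℝ} (hF : ScBI F) {a τ : ℝ} {α : ℝ → ℝ} (hτ : 0 ≤ τ) (hα : ScCoef a τ α) {π : List (ℝ × ℝ)}
    (hπ : ScAdm a π) (hi : ScInc π) (hlen : scLen π = τ) (he : ∀ r ∈ Ico 0 τ, α r = scAl π r) {t : ℝ} (h0 : 0 ≤ t) (ht : t ≤ τ) :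
    scaGam F α τ t = scGam F π t := by
  obtain ⟨M, hM⟩ := ((sc_Vt_BI hF π t) 3).deriv_bd.scN
  have hψ : ScN 2 (2 ^ 2 * (M * M)) (fun z => scD 1 F π t z ^ 2) := by
    have := hM.mul hM
    refine (congrArg (ScN 2 (2 ^ 2 * (M * M))) ?_).mp this
    funext z
    rw [sc_D_one]; ring
  unfold scaGam scaEx scGam scEx
  rw [scg_step_D hF hα hπ hi hlen he 1 h0]
  exact slc_P_step hF hτ hα hπ hi hlen he hψ le_rfl h0 ht 0

/-- the kernels of a general profile are contractions for the sup norm (bounded `C²` tests) -/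
theorem slc_Pa_contr {F : ℝ → ℝ} (hF : ScBI F) {a τ : ℝ} {α : ℝ → ℝ} (hτ : 0 ≤ τ) (hα : ScCoef a τ α) {φ ψ : ℝ → ℝ} {M c : ℝ}
    (hφ : ScN 2 M φ) (hψ : ScN 2 M ψ) (hc : ∀ z, |φ z - ψ z| ≤ c) {s t : ℝ} (hs : 0 ≤ s) (hst : s ≤ t) (ht : t ≤ τ) (z : ℝ) :
    |scPa F α τ s t φ z - scPa F α τ s t ψ z| ≤ c := by
  have h1 := sgp_P_tendsto_bd hF hτ hα hφ hs hst ht z
  have h2 := sgp_P_tendsto_bd hF hτ hα hψ hs hst ht z
  refine le_of_tendsto (h1.sub h2).abs (Eventually.of_forall fun n => ?_)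
  have e := congrFun (sc_Pt_sub hF (hφ.scE.mono (Nat.zero_le 2)) (hψ.scE.mono (Nat.zero_le 2)) (scDy α τ n) s t) z
  rw [← e]
  exact sc_Pt_abs_le hF (hφ.continuous.sub hψ.continuous) hc _ _ _ _

/-- **`L¹`-continuity of `Γ` in the coefficient**, uniform in the time -/
theorem slc_Gam_stab {F : ℝ → ℝ} (hF : ScBI F) {a τ : ℝ} (ha : 0 ≤ a) (hτ : 0 ≤ τ) {ε : ℝ} (hε : 0 < ε) :
    ∃ δ > 0, ∀ α β, ScCoef a τ α → ScCoef a τ β → (∫ r in (0 : ℝ)..τ, |β r - α r|) ≤ δ →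
      ∀ t ∈ Icc 0 τ, |scaGam F β τ t - scaGam F α τ t| ≤ ε := by
  obtain ⟨L, hL⟩ := (hF 1).2.1
  obtain ⟨C1, hC1, -, haN⟩ := scg_aN ha hF 2
  obtain ⟨δ1, hδ1, H1⟩ := sgp_P_cont_bd hF ha hτ (2 ^ 2 * (C1 * C1)) (half_pos hε)
  obtain ⟨C, HC⟩ := scg_D_cont ha hF hL
  obtain ⟨η, hη, Hη⟩ := sckE_small C 1 (δ := ε / (4 * (C1 + 1))) (by positivity)
  refine ⟨min δ1 (η / (L ^ 2 / 2 + 1)), by positivity, fun α β hα hβ hd t ht => ?_⟩
  have hd0 : 0 ≤ ∫ r in (0 : ℝ)..τ, |β r - α r| := intervalIntegral.integral_nonneg hτ fun _ _ => abs_nonneg _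
  have hNα := haN τ α hτ hα t ht.1
  have hNβ := haN τ β hτ hβ t ht.1
  have hsq : ∀ {u : ℝ → ℝ}, ScN 2 C1 u → ScN 2 (2 ^ 2 * (C1 * C1)) (fun z => u z ^ 2) := by
    intro u hu
    refine (congrArg (ScN 2 (2 ^ 2 * (C1 * C1))) ?_).mp (hu.mul hu)
    funext z; ring
  have hu : ∀ z, |scaD 1 F β τ t z - scaD 1 F α τ t z| ≤ ε / (4 * (C1 + 1)) := by
    intro z
    refine (HC τ α β hτ hα hβ 1 t ht.1 z).trans (Hη _ ?_)
    have h3 : (∫ r in (0 : ℝ)..τ, |β r - α r|) ≤ η / (L ^ 2 / 2 + 1) := hd.trans (min_le_right _ _)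
    rw [le_div_iff₀ (by positivity)] at h3
    rw [abs_of_nonneg (by positivity)]
    nlinarith
  have hc : ∀ z, |scaD 1 F β τ t z ^ 2 - scaD 1 F α τ t z ^ 2| ≤ ε / 2 := by
    intro z
    have e : scaD 1 F β τ t z ^ 2 - scaD 1 F α τ t z ^ 2
        = (scaD 1 F β τ t z - scaD 1 F α τ t z) * (scaD 1 F β τ t z + scaD 1 F α τ t z) := by ring
    rw [e, abs_mul]
    have h4 : |scaD 1 F β τ t z + scaD 1 F α τ t z| ≤ 2 * (C1 + 1) := by
      refine (abs_add_le _ _).trans ?_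
      have := hNα.bd z
      have := hNβ.bd z
      linarith
    calc _ ≤ ε / (4 * (C1 + 1)) * (2 * (C1 + 1)) := mul_le_mul (hu z) h4 (abs_nonneg _) (by positivity)
      _ = ε / 2 := by field_simp; ring
  have t1 := H1 α β hα hβ (hd.trans (min_le_left _ _)) _ (hsq hNβ) 0 t le_rfl ht.1 ht.2 0
  have t2 := slc_Pa_contr hF hτ hα (hsq hNβ) (hsq hNα) hc le_rfl ht.1 ht.2 0
  unfold scaGam scaEx
  rw [abs_le] at t1 t2 ⊢
  constructor <;> linarith [t1.1, t1.2, t2.1, t2.2]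

/-- the overlap of two labels which split at `p`, on a chain which contains `p` -/
theorem slc_S_chain {a τ : ℝ} (ha : 0 < a) (hτ : 0 ≤ τ) {K : ℝ → ℝ} (hK : GhClk1 a K) (hKτ : K a ≤ τ) {ps : List GhPos}
    (hlt : ps.Pairwise (· < ·)) (h : SlcCh a τ K 0 ps) {p : GhPos} (hp : p ∈ ps) :
    ghNu (skBase 1 a) (skLvs 1 (skCStp a (fun _ => 0) K 0 0 ps)) (ghRepN 2 (ghDisc ps (ghR2 p))) (fun _ => 0)
        (fun _ σ => skOv (σ 0) (σ 1)) = scaGam (scLC a) (slcAl a τ K ps) τ (ghAt a K p) := by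
  have hadm := slc_adm ha.le hK hKτ ps 0 h
  have hlen : scLen (slcPi a τ K 0 ps) = τ := by rw [slc_len, sub_zero]
  have hd := slc_stp_len_le ha.le hK hKτ (fun _ => 0) ps 0 0 h
  have hh := slc_dh_nonneg ha.le hK hKτ (fun _ => 0) ps 0 0 h
  have hT := slc_T a (fun _ => 0) K p ps 0 0 hlt hp
  rw [sub_zero] at hT
  have hpok := h.2.1 p hp
  have h0 : 0 ≤ ghAt a K p := gh_os_at_nonneg ha.le hK hpok.2.2.1
  have e10 : ghDisc ps (ghR2 p) 1 0 = ghIdx ps (p : WithTop GhPos) := by simp [ghDisc, ghR2]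
  have e01 : ghDisc ps (ghR2 p) 0 1 = ghIdx ps (p : WithTop GhPos) := by simp [ghDisc, ghR2]
  rw [slk_nu_ov ha.ne' (slc_ok a K ps 0) hh (k := ghIdx ps (p : WithTop GhPos))
    (by rw [slc_stp_length]; exact brg_t_idx_coe_le ps p) (fun t ht b => slk_repN_lt e10 ht b)
    (fun t ht b => slk_repN_ge e01 e10 ht b), hT,
    slc_Gam_step (slk_LC_BI a) hτ (slc_al_coef ha.le hK hKτ h) hadm (slc_inc ha.le hK hKτ ps 0 h) hlen
      (fun r hr => by unfold slcAl; rw [if_pos hr.2]) h0 (slc_at_le ha.le hK hKτ hpok),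
    slc_pi_eq a τ (fun _ => 0) K ps 0 0, sc_ann_Gam ha.ne' (by linarith) _ h0]
  rw [← hT]
  unfold slkT
  rw [slk_Pi_take]
  exact slc_len_take_le (slk_pos hh) _

/-- **`S` at a position**: the limit exists and `ν_K[σ¹ σ²] = Γ_α(K(p))`, `α = scAlK a K` -/
theorem slc_S {a τ : ℝ} (ha : 0 < a) (hτ : 0 < τ) {K : ℝ → ℝ} (hK : GhClk1 a K) (hKτ : K a ≤ τ) {p : GhPos} (hp : p.Ok a) :
    GhLimEx a (fun ps => ghNu (skBase 1 a) (skLvs 1 (skCStp a (fun _ => 0) K 0 0 ps)) (ghRepN 2 (ghDisc ps (ghR2 p)))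
        (fun _ => 0) fun _ σ => skOv (σ 0) (σ 1)) ∧
      skCS 1 a (fun _ => 0) K p = scaGam (scLC a) (scAlK a K) τ (ghAt a K p) := by
  apply slc_net ha.le {p}
  intro ε hε
  obtain ⟨δ, hδ, H⟩ := slc_Gam_stab (slk_LC_BI a) ha.le hτ.le hε
  obtain ⟨k, hk⟩ := slc_pow_small (C := a * τ) hδ
  refine ⟨k, fun ps hps => ?_⟩
  have hch := hps.ch ha.le hτ.le hK (τ := τ)
  rw [slc_S_chain ha hτ.le hK hKτ hps.1 hch (hps.2.2.2 p (Finset.mem_singleton_self p) hp)]
  exact H _ _ (slc_alK ha.le τ K) (slc_al_coef ha.le hK hKτ hch) ((slc_l1 ha.le hτ.le hK hKτ hps).trans hk.le) _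
    ⟨gh_os_at_nonneg ha.le hK hp.2.2.1, slc_at_le ha.le hK hKτ hp⟩

end Claimed.Agent.R286
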