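import Claimed.Agent.R286.Sc.Gen
import Claimed.Agent.R286.Sc.GenP
import Claimed.Agent.R286.Sc.Bound

/-!
# Row 286, scalar block, layer S4 (part C): LIPSCHITZ dependence on the coefficient for the `L¹` distance      OWNER helper90, prefix `scl_`, 0 sorry

`Sc/Gen.lean`, `Sc/GenP.lean`, `Sc/Stab.lean` give Hoelder moduli (Landau ladder `sckE`).   Here: TRUE Lipschitz bounds, constants `C(a, F, τ, k)`, free of the partition.
METHOD.  `D_k = ∂^k V' - ∂^k V` is a Dynkin test function for the kernel of `π` (`sc_dyn_D`, `ScDyn.change`, `ScDyn.sub`) with the generator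
   `G_k = - α D_{k+1} D_1 / 2 - (α' - α) ∂^k (u'²/2) - α R_k`,   `R_k = ∂^k (D_1 g) - D_{k+1} g`,  `g = (u + u')/2`   (`scl_leib`: `R_k` only sees `D_1 .. D_k`),
so `|G_k| ≤ B |α' - α| + K max_{j ≤ k} sup |D_j|` (`scl_gen_bound`);  Duhamel (`scb_duhamel`) + Gronwall without measurability (`sck_gronwall_back`) + induction on `k`.
* step level, any two grids:      `scl_D_lip` (all `∂^k V`),  `scl_P_lip` (kernels, tests `ScN 2 M`);
* step profile against a general coefficient (RATE of convergence of any approximation):   `scl_D_mixed`, `scl_P_mixed`;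
* general coefficients:      `scl_aD_lip`, `scl_Pa_lip`, `scl_Pa_sub_le`, `scl_Pa_lip_moving`, `scl_Gam_M2_lip`, **`scl_stab`** (= exit `sc_x_stab`).
-/

set_option autoImplicit false

namespace Claimed.Agent.R286

open MeasureTheory ProbabilityTheory Filter Topology Set

/-! ## 1. towers of derivatives, the Leibniz remainder -/

theorem scl_iter_tower {G : ℕ → ℝ → ℝ} (hd : ∀ j y, HasDerivAt (G j) (G (j + 1) y) y) (k : ℕ) :
    deriv^[k] (G 0) = G k := by
  induction k with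
  | zero => rfl
  | succ k ih =>
    rw [Function.iterate_succ_apply', ih]
    exact funext fun y => (hd k y).deriv

theorem scl_N_of_iter {k : ℕ} {Mf δ : ℝ} : ∀ {f : ℝ → ℝ}, ScN k Mf f → (∀ j ≤ k, ∀ y, |deriv^[j] f y| ≤ δ) → ScN k δ f := by
  induction k with
  | zero => exact fun h hb => ⟨h.1, hb 0 le_rfl⟩
  | succ k ih =>
    intro f h hb
    refine ⟨hb 0 (Nat.zero_le _), h.2.1, ih h.2.2 fun j hj y => ?_⟩
    have := hb (j + 1) (by omega) y
    rwa [Function.iterate_succ_apply] at this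

/-- `∂^k (f g) = (∂^k f) g + R`, where `R` only sees the derivatives of `f` of order `< k` -/
theorem scl_leib (k : ℕ) : ∀ {f g : ℝ → ℝ} {Mf δ M : ℝ}, ScN k Mf f → ScN k M g →
    (∀ j < k, ∀ y, |deriv^[j] f y| ≤ δ) → ∀ y,
    |deriv^[k] (fun x => f x * g x) y - deriv^[k] f y * g y| ≤ (2 ^ k - 1) * (δ * M) := by
  induction k with
  | zero => intro f g Mf δ M _ _ _ y; simp
  | succ k ih =>
    intro f g Mf δ M hf hg hb y
    have e1 : deriv (fun x => f x * g x) = fun x => deriv f x * g x + f x * deriv g x :=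
      funext fun x => ((hf.2.1 x).hasDerivAt.mul (hg.2.1 x).hasDerivAt).deriv
    have hfδ : ScN k δ f := scl_N_of_iter hf.of_succ fun j hj y => hb j (by omega) y
    have h1 := ih hf.der hg.of_succ (δ := δ) (fun j hj y => by
      have := hb (j + 1) (by omega) y
      rwa [Function.iterate_succ_apply] at this) y
    have h2 := (hfδ.mul hg.der).iter le_rfl y
    rw [Function.iterate_succ_apply, e1, sc_iter_deriv_add (hf.der.mul hg.of_succ).scE (hf.of_succ.mul hg.der).scE,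
      Function.iterate_succ_apply]
    have e2 : deriv^[k] (fun x => deriv f x * g x) y + deriv^[k] (fun x => f x * deriv g x) y
        - deriv^[k] (deriv f) y * g y
        = (deriv^[k] (fun x => deriv f x * g x) y - deriv^[k] (deriv f) y * g y)
          + deriv^[k] (fun x => f x * deriv g x) y := by ring
    rw [e2]
    refine (abs_add_le _ _).trans ((add_le_add h1 h2).trans (le_of_eq ?_))
    rw [pow_succ]
    ring

theorem scl_D_iter (F : ℝ → ℝ) (π : List (ℝ × ℝ)) (r : ℝ) (k : ℕ) : deriv^[k] (scD 1 F π r) = scD (k + 1) F π r := by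
  unfold scD
  rw [← Function.iterate_add_apply]

/-! ## 2. the difference of two continuations -/

/-- generator (for the kernel of `π`) of `∂^k V' - ∂^k V` -/
theorem scl_dyn_diff {F : ℝ → ℝ} (hF : ScBI F) {π π' : List (ℝ × ℝ)} (h : ScPos π) (h' : ScPos π') {s t : ℝ}
    (h0 : 0 ≤ s) (ht : t ≤ scLen π) (ht' : t ≤ scLen π') (k : ℕ) :
    ScDyn F π s t (fun r y => scD k F π' r y - scD k F π r y)
      (fun r y => (scAl π' r * (scD 1 F π' r y * scD (k + 1) F π' r y - deriv^[k] (fun x => scD 1 F π' r x ^ 2 / 2) y)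
          + (scAl π r * scD 1 F π r y - scAl π' r * scD 1 F π' r y) * deriv (scD k F π' r) y)
        - scAl π r * (scD 1 F π r y * scD (k + 1) F π r y - deriv^[k] (fun x => scD 1 F π r x ^ 2 / 2) y)) :=
  ((sc_dyn_D hF h' h0 ht' k).change hF hF h h' h0 ht ht').sub (sc_dyn_D hF h h0 ht k)

/-- pointwise bound of the generator: linear in `|α' - α|` and in the differences of order `1..k` -/
theorem scl_gen_bound {F : ℝ → ℝ} (hF : ScBI F) {π π' : List (ℝ × ℝ)} {a M δ r : ℝ} (k : ℕ) (hk : 1 ≤ k)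
    (hal : scAl π r ∈ Icc 0 a) (hu : ScN (k + 1) M (scD 1 F π r)) (hu' : ScN (k + 1) M (scD 1 F π' r))
    (hδ : ∀ j, 1 ≤ j → j ≤ k → ∀ y, |scD j F π' r y - scD j F π r y| ≤ δ) (y : ℝ) :
    |(scAl π' r * (scD 1 F π' r y * scD (k + 1) F π' r y - deriv^[k] (fun x => scD 1 F π' r x ^ 2 / 2) y)
          + (scAl π r * scD 1 F π r y - scAl π' r * scD 1 F π' r y) * deriv (scD k F π' r) y)
        - scAl π r * (scD 1 F π r y * scD (k + 1) F π r y - deriv^[k] (fun x => scD 1 F π r x ^ 2 / 2) y)|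
      ≤ 2 ^ k * M ^ 2 * |scAl π' r - scAl π r| + a * (2 ^ k * M) * δ := by
  have hM : 0 ≤ M := hu.nonneg
  have hδ0 : 0 ≤ δ := (abs_nonneg _).trans (hδ 1 le_rfl hk y)
  set u := scD 1 F π r with hu_def
  set u' := scD 1 F π' r with hu'_def
  -- the tower of the difference
  have hT : ∀ j x, HasDerivAt (fun x => scD (j + 1) F π' r x - scD (j + 1) F π r x)
      (scD (j + 1 + 1) F π' r x - scD (j + 1 + 1) F π r x) x :=
    fun j x => (sc_D_hasDerivAt hF (j + 1) π' r x).sub (sc_D_hasDerivAt hF (j + 1) π r x)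
  have hTk : ∀ j, deriv^[j] (fun x => u' x - u x) = fun x => scD (j + 1) F π' r x - scD (j + 1) F π r x :=
    fun j => scl_iter_tower (G := fun j x => scD (j + 1) F π' r x - scD (j + 1) F π r x) hT j
  have hf : ScN k (M + M) (fun x => u' x - u x) := (hu'.sub hu).of_succ
  have hg : ScN k (|(1 / 2 : ℝ)| * (M + M)) (fun x => (1 / 2 : ℝ) * (u' x + u x)) := ((hu'.add hu).const_mul (1 / 2)).of_succ
  have hR := scl_leib k hf hg (δ := δ) (fun j hj x => by rw [hTk j]; exact hδ (j + 1) (by omega) (by omega) x) y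
  rw [hTk k] at hR
  have esq : (fun x => u' x ^ 2 / 2) = fun x => u x ^ 2 / 2 + (u' x - u x) * ((1 / 2 : ℝ) * (u' x + u x)) := by
    funext x; ring
  have hEu : ScE k (fun x => u x ^ 2 / 2) := by
    have := ((hu.of_succ.mul hu.of_succ).const_mul (1 / 2)).scE
    refine (congrArg (ScE k) (funext fun x => ?_)).mp this
    ring
  have eN : deriv^[k] (fun x => u' x ^ 2 / 2) y = deriv^[k] (fun x => u x ^ 2 / 2) y
      + deriv^[k] (fun x => (u' x - u x) * ((1 / 2 : ℝ) * (u' x + u x))) y := by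
    rw [esq, sc_iter_deriv_add hEu (hf.mul hg).scE]
  have hN' : |deriv^[k] (fun x => u' x ^ 2 / 2) y| ≤ 2 ^ k * M ^ 2 := by
    have e : (fun x => u' x ^ 2 / 2) = fun x => (1 / 2 : ℝ) * (u' x * u' x) := by funext x; ring
    rw [e]
    refine (((hu'.of_succ.mul hu'.of_succ).const_mul (1 / 2)).iter le_rfl y).trans ?_
    rw [abs_of_pos (by norm_num : (0 : ℝ) < 1 / 2)]
    have : 0 ≤ 2 ^ k * (M * M) := by positivity
    nlinarith
  have hv : |scD (k + 1) F π r y| ≤ M := by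
    have := hu.iter (k := k) (by omega) y
    rwa [hu_def, scl_D_iter] at this
  have hv' : |scD (k + 1) F π' r y| ≤ M := by
    have := hu'.iter (k := k) (by omega) y
    rwa [hu'_def, scl_D_iter] at this
  have hfy : |u' y - u y| ≤ δ := hδ 1 le_rfl hk y
  rw [sc_D_succ]
  set v := scD (k + 1) F π r y
  set v' := scD (k + 1) F π' r y
  set N' := deriv^[k] (fun x => u' x ^ 2 / 2) y
  set N := deriv^[k] (fun x => u x ^ 2 / 2) y
  set X := deriv^[k] (fun x => (u' x - u x) * ((1 / 2 : ℝ) * (u' x + u x))) y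
  set al := scAl π r
  set al' := scAl π' r
  have e : (al' * (u' y * v' - N') + (al * u y - al' * u' y) * v') - al * (u y * v - N)
      = al * (v' - v) * (-(u' y - u y) / 2) - (al' - al) * N' - al * (X - (v' - v) * ((1 / 2 : ℝ) * (u' y + u y))) := by
    rw [eN]; ring
  rw [e]
  have hD : |v' - v| ≤ 2 * M := (abs_sub _ _).trans (by linarith)
  have hal' : |al| ≤ a := by rw [abs_of_nonneg hal.1]; exact hal.2
  have ha : 0 ≤ a := hal.1.trans hal.2
  have b1 : |al * (v' - v) * (-(u' y - u y) / 2)| ≤ a * (2 * M) * (δ / 2) := by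
    rw [abs_mul, abs_mul, abs_div, abs_neg, abs_two]
    exact mul_le_mul (mul_le_mul hal' hD (abs_nonneg _) ha) (by linarith) (by positivity) (by positivity)
  have b2 : |(al' - al) * N'| ≤ 2 ^ k * M ^ 2 * |al' - al| := by
    rw [abs_mul, mul_comm]
    exact mul_le_mul_of_nonneg_right hN' (abs_nonneg _)
  have b3 : |al * (X - (v' - v) * ((1 / 2 : ℝ) * (u' y + u y)))| ≤ a * ((2 ^ k - 1) * (δ * (|(1 / 2 : ℝ)| * (M + M)))) := by
    rw [abs_mul]
    exact mul_le_mul hal' hR (abs_nonneg _) ha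
  rw [abs_of_pos (by norm_num : (0 : ℝ) < 1 / 2)] at b3
  have t1 := abs_sub (al * (v' - v) * (-(u' y - u y) / 2) - (al' - al) * N')
    (al * (X - (v' - v) * ((1 / 2 : ℝ) * (u' y + u y))))
  have t2 := abs_sub (al * (v' - v) * (-(u' y - u y) / 2)) ((al' - al) * N')
  have e3 : a * (2 * M) * (δ / 2) + a * ((2 ^ k - 1) * (δ * (1 / 2 * (M + M)))) = a * (2 ^ k * M) * δ := by ring
  linarith

/-- one order: Duhamel + Gronwall (`sck_gronwall_back`), the lower orders being controlled by `δ` -/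
theorem scl_step {F : ℝ → ℝ} (hF : ScBI F) {a M : ℝ} (ha : 0 ≤ a) (k : ℕ) (hk : 1 ≤ k)
    (hM : ∀ π, ScAdm a π → ScInc π → ∀ t, ScN (k + 1) M (scD 1 F π t))
    {π π' : List (ℝ × ℝ)} (hπ : ScAdm a π) (hπ' : ScAdm a π') (hi : ScInc π) (hi' : ScInc π')
    (hlen : scLen π' = scLen π) {δ : ℝ} (hδ0 : 0 ≤ δ)
    (hδ : ∀ j, 1 ≤ j → j < k → ∀ r ∈ Icc 0 (scLen π), ∀ y, |scD j F π' r y - scD j F π r y| ≤ δ) :
    ∀ t ∈ Icc 0 (scLen π), ∀ z, |scD k F π' t z - scD k F π t z| ≤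
      2 * (2 ^ k * M ^ 2 * (∫ r in (0 : ℝ)..scLen π, |scAl π' r - scAl π r|) + a * (2 ^ k * M) * δ * (scLen π - 0))
        * Real.exp (2 * (a * (2 ^ k * M)) * (scLen π - t)) := by
  set τ := scLen π with hτdef
  have hτ : 0 ≤ τ := sc_len_nonneg hπ.pos
  set m : ℝ → ℝ := fun t => ⨆ z, |scD k F π' t z - scD k F π t z| with hm
  have hM0 : 0 ≤ M := (hM π hπ hi 0).nonneg
  have hb : ∀ t z, |scD k F π' t z - scD k F π t z| ≤ 2 * M := by
    intro t z
    obtain ⟨n, rfl⟩ : ∃ n, k = n + 1 := ⟨k - 1, by omega⟩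
    have h1 := (hM π hπ hi t).iter (k := n) (by omega) z
    have h2 := (hM π' hπ' hi' t).iter (k := n) (by omega) z
    rw [scl_D_iter] at h1 h2
    exact (abs_sub _ _).trans (by linarith)
  have hbdd : ∀ t, BddAbove (range fun z => |scD k F π' t z - scD k F π t z|) :=
    fun t => ⟨2 * M, by rintro _ ⟨z, rfl⟩; exact hb t z⟩
  have hle : ∀ t z, |scD k F π' t z - scD k F π t z| ≤ m t := fun t z => le_ciSup (hbdd t) z
  have hm0 : ∀ t, 0 ≤ m t := fun t => (abs_nonneg _).trans (hle t 0)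
  have hint : IntervalIntegrable (fun r => |scAl π' r - scAl π r|) volume 0 τ := sgp_dst_int ha hπ' hπ 0 τ
  have hd0 : 0 ≤ ∫ r in (0 : ℝ)..τ, |scAl π' r - scAl π r| := intervalIntegral.integral_nonneg hτ fun r _ => abs_nonneg _
  have key := sck_gronwall_back (a := 0) (b := τ) (c0 := 2 ^ k * M ^ 2 * ∫ r in (0 : ℝ)..τ, |scAl π' r - scAl π r|)
    (κ := a * (2 ^ k * M)) (ρ := a * (2 ^ k * M) * δ) (B := 2 * M) (m := m) (by positivity) (by positivity)
    (by positivity) (fun t _ => ciSup_le (hb t)) ?_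
  · intro t ht z
    exact (hle t z).trans (key t ht)
  · intro t ht μ hμ hmμ
    refine ciSup_le fun z => ?_
    have dyn := scl_dyn_diff hF hπ.pos hπ'.pos ht.1 (le_refl (scLen π)) (le_of_eq hlen.symm) k
    have hg : IntervalIntegrable (fun r => 2 ^ k * M ^ 2 * |scAl π' r - scAl π r|
        + (a * (2 ^ k * M) * μ r + a * (2 ^ k * M) * δ)) volume t τ :=
      ((sgp_dst_int ha hπ' hπ t τ).const_mul _).add (((hμ.intervalIntegrable _ _).const_mul _).add intervalIntegrable_const)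
    have du := scb_duhamel hF hπ.pos ht.1 ht.2 le_rfl dyn hg (fun r hr y => by
      have hr' : r ∈ Icc t τ := ⟨hr.1.le, hr.2.le⟩
      have hμr : m r ≤ μ r := hmμ r hr'
      refine (scl_gen_bound hF k hk (sc_Al_mem ha hπ r) (hM π hπ hi r) (hM π' hπ' hi' r) (δ := δ + μ r)
        (fun j hj1 hjk x => ?_) y).trans (le_of_eq (by ring))
      rcases lt_or_eq_of_le hjk with hlt | rfl
      · have := hδ j hj1 hlt r ⟨ht.1.trans hr'.1, hr'.2⟩ x
        linarith [hm0 r]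
      · have := hle r x
        linarith) z
    have du' : |scPt F π t τ (fun y => scD k F π' τ y - scD k F π τ y) z - (scD k F π' t z - scD k F π t z)|
        ≤ ∫ r in t..τ, (2 ^ k * M ^ 2 * |scAl π' r - scAl π r| + (a * (2 ^ k * M) * μ r + a * (2 ^ k * M) * δ)) := du
    have e0 : (fun y => scD k F π' τ y - scD k F π τ y) = fun _ => (0 : ℝ) := by
      funext y
      rw [sc_D_of_le k F hπ'.pos (le_of_eq hlen), sc_D_of_le k F hπ.pos le_rfl, sub_self]
    rw [e0, sc_Pt_const hF, zero_sub, abs_neg, intervalIntegral.integral_add ((sgp_dst_int ha hπ' hπ t τ).const_mul _)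
      (((hμ.intervalIntegrable _ _).const_mul _).add intervalIntegrable_const), intervalIntegral.integral_const_mul] at du'
    have hmono : ∫ r in t..τ, |scAl π' r - scAl π r| ≤ ∫ r in (0 : ℝ)..τ, |scAl π' r - scAl π r| :=
      intervalIntegral.integral_mono_interval ht.1 ht.2 le_rfl (Eventually.of_forall fun r => abs_nonneg _) hint
    have : 2 ^ k * M ^ 2 * ∫ r in t..τ, |scAl π' r - scAl π r| ≤ 2 ^ k * M ^ 2 * ∫ r in (0 : ℝ)..τ, |scAl π' r - scAl π r| :=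
      mul_le_mul_of_nonneg_left hmono (by positivity)
    linarith

/-- **Lipschitz dependence of all the space derivatives on the profile (`L¹` distance), step level, any two grids** -/
theorem scl_D_lip {a : ℝ} (ha : 0 ≤ a) {F : ℝ → ℝ} (hF : ScBI F) {τ : ℝ} (hτ : 0 ≤ τ) (k : ℕ) :
    ∃ S : ℝ, 0 ≤ S ∧ ∀ π π', ScAdm a π → ScAdm a π' → ScInc π → ScInc π' → scLen π = τ → scLen π' = τ →
      ∀ j, 1 ≤ j → j ≤ k → ∀ t ∈ Icc 0 τ, ∀ z,
        |scD j F π' t z - scD j F π t z| ≤ S * ∫ r in (0 : ℝ)..τ, |scAl π' r - scAl π r| := by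
  induction k with
  | zero => exact ⟨0, le_rfl, fun π π' _ _ _ _ _ _ j h1 h0 => by omega⟩
  | succ k ih =>
    obtain ⟨S, hS0, hS⟩ := ih
    obtain ⟨M, hM0, hM⟩ := scg_N ha hF (k + 1 + 1)
    set K := a * (2 ^ (k + 1) * M) with hK
    have hK0 : 0 ≤ K := by positivity
    set S' := 2 * (2 ^ (k + 1) * M ^ 2 + K * S * τ) * Real.exp (2 * K * τ) with hS'
    have hS'0 : 0 ≤ S' := by positivity
    refine ⟨max S S', le_max_of_le_left hS0, fun π π' hπ hπ' hi hi' hl hl' j hj1 hjk t ht z => ?_⟩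
    have hd0 : 0 ≤ ∫ r in (0 : ℝ)..τ, |scAl π' r - scAl π r| := intervalIntegral.integral_nonneg hτ fun r _ => abs_nonneg _
    rcases Nat.lt_or_ge j (k + 1) with hlt | hge
    · exact (hS π π' hπ hπ' hi hi' hl hl' j hj1 (by omega) t ht z).trans
        (mul_le_mul_of_nonneg_right (le_max_left _ _) hd0)
    · obtain rfl : j = k + 1 := by omega
      have h1 := scl_step hF ha (k + 1) (by omega) hM hπ hπ' hi hi' (hl'.trans hl.symm)
        (δ := S * ∫ r in (0 : ℝ)..τ, |scAl π' r - scAl π r|) (by positivity)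
        (fun j hj1 hjk r hr y => hS π π' hπ hπ' hi hi' hl hl' j hj1 (by omega) r (hl ▸ hr) y) t (hl.symm ▸ ht) z
      rw [hl] at h1
      refine h1.trans ?_
      have h2 : Real.exp (2 * K * (τ - t)) ≤ Real.exp (2 * K * τ) :=
        Real.exp_le_exp.2 (mul_le_mul_of_nonneg_left (by linarith [ht.1]) (by positivity))
      set d := ∫ r in (0 : ℝ)..τ, |scAl π' r - scAl π r|
      have h3 : 2 * (2 ^ (k + 1) * M ^ 2 * d + K * (S * d) * (τ - 0)) * Real.exp (2 * K * (τ - t))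
          ≤ 2 * (2 ^ (k + 1) * M ^ 2 * d + K * (S * d) * (τ - 0)) * Real.exp (2 * K * τ) :=
        mul_le_mul_of_nonneg_left h2 (by positivity)
      refine h3.trans ?_
      have h4 : 2 * (2 ^ (k + 1) * M ^ 2 * d + K * (S * d) * (τ - 0)) * Real.exp (2 * K * τ) = S' * d := by
        rw [hS']; ring
      rw [h4]
      exact mul_le_mul_of_nonneg_right (le_max_right _ _) hd0

/-! ## 3. general coefficients: all the space derivatives are Lipschitz in `L¹` -/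

/-- a step profile against a general coefficient -/
theorem scl_D_mixed {a : ℝ} (ha : 0 ≤ a) {F : ℝ → ℝ} (hF : ScBI F) {τ : ℝ} (hτ : 0 ≤ τ) (k : ℕ) :
    ∃ S : ℝ, 0 ≤ S ∧ ∀ π α, ScAdm a π → ScInc π → scLen π = τ → ScCoef a τ α →
      ∀ j, 1 ≤ j → j ≤ k → ∀ t ∈ Icc 0 τ, ∀ z,
        |scD j F π t z - scaD j F α τ t z| ≤ S * ∫ r in (0 : ℝ)..τ, |scAl π r - α r| := by
  obtain ⟨S, hS0, hS⟩ := scl_D_lip ha hF hτ k
  refine ⟨S, hS0, fun π α hπ hi hl hα j hj1 hjk t ht z => ?_⟩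
  have hA := scg_dy_apx hτ hα
  have hB : ScApx a τ (scAl π) (fun _ => π) := scg_const_apx ha hπ hi hl fun r _ => rfl
  have l1 := (scg_D_tendsto hF hτ hα hA j ht.1 z).const_sub (scD j F π t z)
  have l2 := (scg_dist_tendsto hA hB le_rfl hτ le_rfl).const_mul S
  exact le_of_tendsto_of_tendsto' l1.abs l2 fun n =>
    hS _ π (hA.adm n) hπ (hA.inc n) hi (hA.len n) hl j hj1 hjk t ht z

/-- **all the space derivatives of `V_α` are Lipschitz in `α` for the `L¹` distance** -/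
theorem scl_aD_lip {a : ℝ} (ha : 0 ≤ a) {F : ℝ → ℝ} (hF : ScBI F) {τ : ℝ} (hτ : 0 ≤ τ) (k : ℕ) :
    ∃ S : ℝ, 0 ≤ S ∧ ∀ α β, ScCoef a τ α → ScCoef a τ β → ∀ j ≤ k, ∀ t ∈ Icc 0 τ, ∀ z,
      |scaD j F β τ t z - scaD j F α τ t z| ≤ S * ∫ r in (0 : ℝ)..τ, |β r - α r| := by
  obtain ⟨S, hS0, hS⟩ := scl_D_lip ha hF hτ k
  obtain ⟨L, hL⟩ := (hF 1).2.1
  refine ⟨max S (L ^ 2 / 2), le_max_of_le_left hS0, fun α β hα hβ j hjk t ht z => ?_⟩
  have hA := scg_dy_apx hτ hα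
  have hB := scg_dy_apx hτ hβ
  have iα : IntervalIntegrable α volume 0 τ := hA.int
  have iβ : IntervalIntegrable β volume 0 τ := hB.int
  have hd0 : 0 ≤ ∫ r in (0 : ℝ)..τ, |β r - α r| := intervalIntegral.integral_nonneg hτ fun r _ => abs_nonneg _
  rcases Nat.eq_zero_or_pos j with rfl | hj
  · have h1 := scg_lip hF hF (ε := 0) hL hL (fun z => by simp) hα hβ ht.1 ht.2 z
    rw [zero_add] at h1
    have h2 : ∫ r in t..τ, |β r - α r| ≤ ∫ r in (0 : ℝ)..τ, |β r - α r| :=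
      intervalIntegral.integral_mono_interval ht.1 ht.2 le_rfl (Eventually.of_forall fun r => abs_nonneg _) (iβ.sub iα).abs
    calc _ ≤ L ^ 2 / 2 * ∫ r in t..τ, |β r - α r| := h1
      _ ≤ L ^ 2 / 2 * ∫ r in (0 : ℝ)..τ, |β r - α r| := mul_le_mul_of_nonneg_left h2 (by positivity)
      _ ≤ _ := mul_le_mul_of_nonneg_right (le_max_right _ _) hd0
  · have l1 := (scg_D_tendsto hF hτ hβ hB j ht.1 z).sub (scg_D_tendsto hF hτ hα hA j ht.1 z)
    have l2 := (scg_dist_tendsto hA hB le_rfl hτ le_rfl).const_mul S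
    refine (le_of_tendsto_of_tendsto' l1.abs l2 fun n =>
      hS _ _ (hA.adm n) (hB.adm n) (hA.inc n) (hB.inc n) (hA.len n) (hB.len n) j hj hjk t ht z).trans
      (mul_le_mul_of_nonneg_right (le_max_left _ _) hd0)

/-! ## 4. the kernels are Lipschitz in `L¹` (bounded `C²` tests) -/

theorem scl_P_lip {a : ℝ} (ha : 0 ≤ a) {F : ℝ → ℝ} (hF : ScBI F) {τ : ℝ} (hτ : 0 ≤ τ) :
    ∃ K : ℝ, 0 ≤ K ∧ ∀ π π', ScAdm a π → ScAdm a π' → ScInc π → ScInc π' → scLen π = τ → scLen π' = τ →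
      ∀ (ψ : ℝ → ℝ) (M : ℝ), ScN 2 M ψ → ∀ s t, 0 ≤ s → s ≤ t → t ≤ τ → ∀ z,
      |scPt F π s t ψ z - scPt F π' s t ψ z| ≤ K * M * ∫ r in (0 : ℝ)..τ, |scAl π' r - scAl π r| := by
  obtain ⟨S, hS0, hS⟩ := scl_D_lip ha hF hτ 1
  obtain ⟨A, hA⟩ := (hF 1).2.1
  obtain ⟨A1, hA1⟩ := ((hF 2).deriv_bd).scN
  obtain ⟨K, hK, H⟩ := sc_tau_Pt ha 1 hA1.nonneg
  have hA0 : 0 ≤ A := (abs_nonneg _).trans (hA 0)
  have hK0 : 0 ≤ K := zero_le_one.trans hK
  refine ⟨K * (A + a * S * τ), by positivity, fun π π' hπ hπ' hi hi' hl hl' ψ M hψ s t hs hst ht z => ?_⟩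
  have hM : 0 ≤ M := hψ.nonneg
  set d := ∫ r in (0 : ℝ)..τ, |scAl π' r - scAl π r| with hd
  have hd0 : 0 ≤ d := intervalIntegral.integral_nonneg hτ fun r _ => abs_nonneg _
  rw [sc_duhamel_P hF hF hψ.scE hπ.pos hπ'.pos hs hst (hl.symm ▸ ht) (hl'.symm ▸ ht) z]
  have hbound : IntervalIntegrable (fun r => K * M * (A * |scAl π' r - scAl π r| + a * (S * d))) volume s t :=
    (((sgp_dst_int ha hπ' hπ s t).const_mul A).add intervalIntegrable_const).const_mul _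
  have hle := intervalIntegral.norm_integral_le_of_norm_le hst (f := fun r => scPt F π s r
      (fun y => (scAl π r * scD 1 F π r y - scAl π' r * scD 1 F π' r y) * deriv (scPt F π' r t ψ) y) z)
      (g := fun r => K * M * (A * |scAl π' r - scAl π r| + a * (S * d)))
      (Filter.Eventually.of_forall fun r hr => by
    have hr0 : 0 ≤ r := hs.trans hr.1.le
    have hrl : r ≤ τ := hr.2.trans ht
    have hN : ScN 1 (K * M) (scPt F π' r t ψ) := H F π' ψ M hF hA1 hπ' hi' hψ.of_succ r t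
    have hcont : Continuous (fun y => (scAl π r * scD 1 F π r y - scAl π' r * scD 1 F π' r y)
        * deriv (scPt F π' r t ψ) y) :=
      (((sc_D_E hF 1 0 π r).continuous.const_smul (scAl π r)).sub
        ((sc_D_E hF 1 0 π' r).continuous.const_smul (scAl π' r))).mul hN.der.continuous
    rw [Real.norm_eq_abs]
    apply sc_Pt_abs_le hF hcont
    intro y
    have h1 : |deriv (scPt F π' r t ψ) y| ≤ K * M := hN.der.bd y
    have h2 : |scD 1 F π r y| ≤ A := sc_D1_le hF hA π r y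
    have h3 : |scD 1 F π' r y - scD 1 F π r y| ≤ S * d := hS π π' hπ hπ' hi hi' hl hl' 1 le_rfl le_rfl r ⟨hr0, hrl⟩ y
    have h4 := sc_Al_mem ha hπ' r
    have h5 : |scAl π r * scD 1 F π r y - scAl π' r * scD 1 F π' r y|
        ≤ A * |scAl π' r - scAl π r| + a * (S * d) := by
      have e : scAl π r * scD 1 F π r y - scAl π' r * scD 1 F π' r y
          = -((scAl π' r - scAl π r) * scD 1 F π r y) - scAl π' r * (scD 1 F π' r y - scD 1 F π r y) := by ring
      rw [e]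
      refine (abs_sub _ _).trans ?_
      rw [abs_neg, abs_mul, abs_mul, abs_of_nonneg h4.1]
      have i1 : |scAl π' r - scAl π r| * |scD 1 F π r y| ≤ |scAl π' r - scAl π r| * A :=
        mul_le_mul_of_nonneg_left h2 (abs_nonneg _)
      have i2 : scAl π' r * |scD 1 F π' r y - scD 1 F π r y| ≤ a * (S * d) :=
        mul_le_mul h4.2 h3 (abs_nonneg _) ha
      linarith
    rw [abs_mul]
    calc |scAl π r * scD 1 F π r y - scAl π' r * scD 1 F π' r y| * |deriv (scPt F π' r t ψ) y|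
        ≤ (A * |scAl π' r - scAl π r| + a * (S * d)) * (K * M) :=
          mul_le_mul h5 h1 (abs_nonneg _) ((abs_nonneg _).trans h5)
      _ = K * M * (A * |scAl π' r - scAl π r| + a * (S * d)) := by ring) hbound
  rw [Real.norm_eq_abs] at hle
  refine hle.trans ?_
  rw [intervalIntegral.integral_const_mul, intervalIntegral.integral_add
    ((sgp_dst_int ha hπ' hπ s t).const_mul A) intervalIntegrable_const,
    intervalIntegral.integral_const_mul, intervalIntegral.integral_const, smul_eq_mul]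
  have hmono : ∫ r in s..t, |scAl π' r - scAl π r| ≤ d :=
    intervalIntegral.integral_mono_interval hs hst ht (Eventually.of_forall fun r => abs_nonneg _)
      (sgp_dst_int ha hπ' hπ 0 τ)
  have h6 : A * (∫ r in s..t, |scAl π' r - scAl π r|) + (t - s) * (a * (S * d)) ≤ (A + a * S * τ) * d := by
    have i1 : A * (∫ r in s..t, |scAl π' r - scAl π r|) ≤ A * d := mul_le_mul_of_nonneg_left hmono hA0
    have i2 : (t - s) * (a * (S * d)) ≤ τ * (a * (S * d)) :=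
      mul_le_mul_of_nonneg_right (by linarith) (by positivity)
    nlinarith
  calc K * M * (A * (∫ r in s..t, |scAl π' r - scAl π r|) + (t - s) * (a * (S * d)))
      ≤ K * M * ((A + a * S * τ) * d) := mul_le_mul_of_nonneg_left h6 (by positivity)
    _ = K * (A + a * S * τ) * M * d := by ring

/-- a step profile against a general coefficient -/
theorem scl_P_mixed {a : ℝ} (ha : 0 ≤ a) {F : ℝ → ℝ} (hF : ScBI F) {τ : ℝ} (hτ : 0 ≤ τ) :
    ∃ K : ℝ, 0 ≤ K ∧ ∀ π α, ScAdm a π → ScInc π → scLen π = τ → ScCoef a τ α →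
      ∀ (ψ : ℝ → ℝ) (M : ℝ), ScN 2 M ψ → ∀ s t, 0 ≤ s → s ≤ t → t ≤ τ → ∀ z,
      |scPt F π s t ψ z - scPa F α τ s t ψ z| ≤ K * M * ∫ r in (0 : ℝ)..τ, |scAl π r - α r| := by
  obtain ⟨K, hK0, hK⟩ := scl_P_lip ha hF hτ
  refine ⟨K, hK0, fun π α hπ hi hl hα ψ M hψ s t hs hst ht z => ?_⟩
  have hA := scg_dy_apx hτ hα
  have hB : ScApx a τ (scAl π) (fun _ => π) := scg_const_apx ha hπ hi hl fun r _ => rfl
  have l1 := (sgp_P_tendsto_bd hF hτ hα hψ hs hst ht z).const_sub (scPt F π s t ψ z)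
  have l2 := (scg_dist_tendsto hA hB le_rfl hτ le_rfl).const_mul (K * M)
  refine le_of_tendsto_of_tendsto' l1.abs l2 fun n => ?_
  have := hK _ π (hA.adm n) hπ (hA.inc n) hi (hA.len n) hl ψ M hψ s t hs hst ht z
  rwa [abs_sub_comm] at this

/-- **the kernels `scPa` are Lipschitz in `α` for the `L¹` distance** (bounded `C²` tests) -/
theorem scl_Pa_lip {a : ℝ} (ha : 0 ≤ a) {F : ℝ → ℝ} (hF : ScBI F) {τ : ℝ} (hτ : 0 ≤ τ) :
    ∃ K : ℝ, 0 ≤ K ∧ ∀ α β, ScCoef a τ α → ScCoef a τ β →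
      ∀ (ψ : ℝ → ℝ) (M : ℝ), ScN 2 M ψ → ∀ s t, 0 ≤ s → s ≤ t → t ≤ τ → ∀ z,
      |scPa F β τ s t ψ z - scPa F α τ s t ψ z| ≤ K * M * ∫ r in (0 : ℝ)..τ, |β r - α r| := by
  obtain ⟨K, hK0, hK⟩ := scl_P_lip ha hF hτ
  refine ⟨K, hK0, fun α β hα hβ ψ M hψ s t hs hst ht z => ?_⟩
  have hA := scg_dy_apx hτ hα
  have hB := scg_dy_apx hτ hβ
  have l1 := (sgp_P_tendsto_bd hF hτ hβ hψ hs hst ht z).sub (sgp_P_tendsto_bd hF hτ hα hψ hs hst ht z)
  have l2 := (scg_dist_tendsto hA hB le_rfl hτ le_rfl).const_mul (K * M)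
  refine le_of_tendsto_of_tendsto' l1.abs l2 fun n => ?_
  have := hK _ _ (hA.adm n) (hB.adm n) (hA.inc n) (hB.inc n) (hA.len n) (hB.len n) ψ M hψ s t hs hst ht z
  rwa [abs_sub_comm] at this

/-- contraction in the sup norm, step level -/
theorem scl_Pt_sub_le {F : ℝ → ℝ} (hF : ScBI F) (π : List (ℝ × ℝ)) {φ ψ : ℝ → ℝ} (hφ : ScE 0 φ) (hψ : ScE 0 ψ) {ε : ℝ}
    (h : ∀ y, |φ y - ψ y| ≤ ε) (s t z : ℝ) : |scPt F π s t φ z - scPt F π s t ψ z| ≤ ε := by
  have e := congrFun (sc_Pt_sub hF hφ hψ π s t) z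
  rw [← e]
  exact sc_Pt_abs_le hF (hφ.continuous.sub hψ.continuous) h π s t z

/-- contraction in the sup norm (bounded `C²` tests) -/
theorem scl_Pa_sub_le {F : ℝ → ℝ} (hF : ScBI F) {a τ : ℝ} {α : ℝ → ℝ} (hτ : 0 ≤ τ) (hα : ScCoef a τ α)
    {φ ψ : ℝ → ℝ} {M M' : ℝ} (hφ : ScN 2 M φ) (hψ : ScN 2 M' ψ) {ε : ℝ} (h : ∀ y, |φ y - ψ y| ≤ ε)
    {s t : ℝ} (hs : 0 ≤ s) (hst : s ≤ t) (ht : t ≤ τ) (z : ℝ) :
    |scPa F α τ s t φ z - scPa F α τ s t ψ z| ≤ ε := by
  have l1 := (sgp_P_tendsto_bd hF hτ hα hφ hs hst ht z).sub (sgp_P_tendsto_bd hF hτ hα hψ hs hst ht z)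
  exact le_of_tendsto' l1.abs fun n => scl_Pt_sub_le hF _ hφ.scE.of_succ.of_succ hψ.scE.of_succ.of_succ h s t z

/-- moving test functions -/
theorem scl_Pa_lip_moving {a : ℝ} (ha : 0 ≤ a) {F : ℝ → ℝ} (hF : ScBI F) {τ : ℝ} (hτ : 0 ≤ τ) :
    ∃ K : ℝ, 0 ≤ K ∧ ∀ α β, ScCoef a τ α → ScCoef a τ β →
      ∀ (φ ψ : ℝ → ℝ) (M ε : ℝ), ScN 2 M φ → ScN 2 M ψ → (∀ y, |ψ y - φ y| ≤ ε) →
      ∀ s t, 0 ≤ s → s ≤ t → t ≤ τ → ∀ z,
      |scPa F β τ s t ψ z - scPa F α τ s t φ z| ≤ ε + K * M * ∫ r in (0 : ℝ)..τ, |β r - α r| := by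
  obtain ⟨K, hK0, hK⟩ := scl_Pa_lip ha hF hτ
  refine ⟨K, hK0, fun α β hα hβ φ ψ M ε hφ hψ h s t hs hst ht z => ?_⟩
  have h1 := scl_Pa_sub_le hF hτ hβ hψ hφ h hs hst ht z
  have h2 := hK α β hα hβ φ M hφ s t hs hst ht z
  have e : scPa F β τ s t ψ z - scPa F α τ s t φ z
      = (scPa F β τ s t ψ z - scPa F β τ s t φ z) + (scPa F β τ s t φ z - scPa F α τ s t φ z) := by ring
  rw [e]
  exact (abs_add_le _ _).trans (add_le_add h1 h2)

/-- squares of the jets as test functions -/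
theorem scl_sq_N {n : ℕ} {C : ℝ} {u : ℝ → ℝ} (h : ScN n C u) : ScN n (2 ^ n * (C * C)) (fun z => u z ^ 2) := by
  have := h.mul h
  refine (congrArg (ScN n (2 ^ n * (C * C))) (funext fun z => ?_)).mp this
  ring

theorem scl_sq_sub_le {x y C δ : ℝ} (hx : |x| ≤ C) (hy : |y| ≤ C) (h : |x - y| ≤ δ) : |x ^ 2 - y ^ 2| ≤ 2 * C * δ := by
  have e : x ^ 2 - y ^ 2 = (x - y) * (x + y) := by ring
  rw [e, abs_mul]
  have h1 : |x + y| ≤ 2 * C := (abs_add_le _ _).trans (by linarith)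
  have hC : 0 ≤ C := (abs_nonneg _).trans hx
  calc |x - y| * |x + y| ≤ δ * (2 * C) := mul_le_mul h h1 (abs_nonneg _) ((abs_nonneg _).trans h)
    _ = 2 * C * δ := by ring

/-- **`Γ` and `E V_zz²` are Lipschitz in `α` for the `L¹` distance** -/
theorem scl_Gam_M2_lip {a : ℝ} (ha : 0 ≤ a) {F : ℝ → ℝ} (hF : ScBI F) {τ : ℝ} (hτ : 0 ≤ τ) :
    ∃ K : ℝ, 0 ≤ K ∧ ∀ α β, ScCoef a τ α → ScCoef a τ β → ∀ t ∈ Icc 0 τ,
      |scaGam F β τ t - scaGam F α τ t| ≤ K * ∫ r in (0 : ℝ)..τ, |β r - α r| ∧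
      |scaM2 F β τ t - scaM2 F α τ t| ≤ K * ∫ r in (0 : ℝ)..τ, |β r - α r| := by
  obtain ⟨K, hK0, hK⟩ := scl_Pa_lip_moving ha hF hτ
  obtain ⟨S, hS0, hS⟩ := scl_aD_lip ha hF hτ 2
  obtain ⟨C, hC0, _, hC⟩ := scg_aN ha hF 3
  refine ⟨2 * C * S + K * (2 ^ 2 * (C * C)), by positivity, fun α β hα hβ t ht => ?_⟩
  set d := ∫ r in (0 : ℝ)..τ, |β r - α r|
  have hNα := hC τ α hτ hα t ht.1
  have hNβ := hC τ β hτ hβ t ht.1
  constructor
  · have h := hK α β hα hβ _ _ _ (2 * C * (S * d)) (scl_sq_N hNα.of_succ) (scl_sq_N hNβ.of_succ)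
      (fun y => scl_sq_sub_le (hNβ.bd y) (hNα.bd y) (hS α β hα hβ 1 (by omega) t ht y)) 0 t le_rfl ht.1 ht.2 0
    refine h.trans (le_of_eq ?_)
    ring
  · have hNα2 : ScN 2 C (scaD 2 F α τ t) := by have := hNα.der; rwa [scg_aD_succ] at this
    have hNβ2 : ScN 2 C (scaD 2 F β τ t) := by have := hNβ.der; rwa [scg_aD_succ] at this
    have h := hK α β hα hβ _ _ _ (2 * C * (S * d)) (scl_sq_N hNα2) (scl_sq_N hNβ2)
      (fun y => scl_sq_sub_le (hNβ2.bd y) (hNα2.bd y) (hS α β hα hβ 2 le_rfl t ht y)) 0 t le_rfl ht.1 ht.2 0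
    refine h.trans (le_of_eq ?_)
    ring

/-- the exit `sc_x_stab` of `Sc/Contract.lean`, for any terminal datum -/
theorem scl_stab {a : ℝ} (ha : 0 ≤ a) {F : ℝ → ℝ} (hF : ScBI F) {τ : ℝ} (hτ : 0 ≤ τ) (k : ℕ) :
    ∃ C : ℝ, ∀ α β : ℝ → ℝ, ScCoef a τ α → ScCoef a τ β → ∀ t ∈ Icc 0 τ,
      (∀ z, |scaD k F β τ t z - scaD k F α τ t z| ≤ C * ∫ r in (0:ℝ)..τ, |β r - α r|) ∧
      |scaGam F β τ t - scaGam F α τ t| ≤ C * ∫ r in (0:ℝ)..τ, |β r - α r| ∧
      |scaM2 F β τ t - scaM2 F α τ t| ≤ C * ∫ r in (0:ℝ)..τ, |β r - α r| := by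
  obtain ⟨S, hS0, hS⟩ := scl_aD_lip ha hF hτ k
  obtain ⟨K, hK0, hK⟩ := scl_Gam_M2_lip ha hF hτ
  refine ⟨max S K, fun α β hα hβ t ht => ?_⟩
  have hd0 : 0 ≤ ∫ r in (0 : ℝ)..τ, |β r - α r| := intervalIntegral.integral_nonneg hτ fun r _ => abs_nonneg _
  have h1 := hK α β hα hβ t ht
  exact ⟨fun z => (hS α β hα hβ k le_rfl t ht z).trans (mul_le_mul_of_nonneg_right (le_max_left _ _) hd0),
    h1.1.trans (mul_le_mul_of_nonneg_right (le_max_right _ _) hd0),
    h1.2.trans (mul_le_mul_of_nonneg_right (le_max_right _ _) hd0)⟩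

end Claimed.Agent.R286
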