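import Claimed.Agent.R286.Sc.VarL

/-!
# Row 286 (S0533), BOX-C (scalar block), unit C6 VARIATION + GAPS, file 2: COROLLARIES OF THEOREM (L)      (OWNER helper229)

* `sv_top`    : the distribution function of a minimiser is `1` on `[q,1]`.
* `sv_thmA`   : Theorem (L) in the `α`-form (the distribution function is GIVEN as a function; nobody has to touch `Measure.support`).
* `SvPkgK`    : `SvPkg` + the next moment identity (`N4 = E V_zzzz²`, `M13 = E V_zz V_zzz²`).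
* `sv_kappa`  : `α(s)/s → κ_T = T N4(0) / (2 M3(0)) > 0`  (PE Lemma 5.8, initial density).
* `sv_N3_pos_of` : the field `N3_pos` follows from `N3_eq`, `N4 ≥ 0`, `N4(0) > 0`.
-/

set_option autoImplicit false

namespace Claimed.Agent.R286

open MeasureTheory Set Filter Topology

theorem sv_top {μ : Measure ℝ} [IsProbabilityMeasure μ] {q : ℝ} (hS : μ.support = Icc 0 q) :
    ∀ t, q ≤ t → svCdf μ t = 1 := by
  intro t ht
  unfold svCdf
  have h1 : μ (Iic t)ᶜ = 0 := by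
    apply sv_null_of_disj
    intro r hr hrs
    rw [hS] at hrs
    exact hr (le_trans hrs.2 ht)
  have h2 := (prob_compl_eq_zero_iff measurableSet_Iic).1 h1
  rw [measureReal_def, h2]; rfl

/-- `α` is the distribution function of a probability measure carried by `[0,1]` -/
structure SvDist (α : ℝ → ℝ) : Prop where
  mono : Monotone α
  rc : ∀ s, ContinuousWithinAt α (Ici s) s
  neg : ∀ t < 0, α t = 0
  top : ∀ t, 1 ≤ t → α t = 1

theorem sv_dist_measure {α : ℝ → ℝ} (h : SvDist α) :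
    ∃ μ : Measure ℝ, IsProbabilityMeasure μ ∧ μ (Icc 0 1)ᶜ = 0 ∧ svCdf μ = α := by
  set f : StieltjesFunction ℝ := ⟨α, h.mono, h.rc⟩ with hf
  have hf0 : Tendsto f atBot (𝓝 0) := by
    apply tendsto_const_nhds.congr'
    filter_upwards [eventually_lt_atBot (0:ℝ)] with t ht
    exact (h.neg t ht).symm
  have hf1 : Tendsto f atTop (𝓝 1) := by
    apply tendsto_const_nhds.congr'
    filter_upwards [eventually_ge_atTop (1:ℝ)] with t ht
    exact (h.top t ht).symm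
  have hp : IsProbabilityMeasure f.measure :=
    ⟨by rw [f.measure_univ hf0 hf1, sub_zero, ENNReal.ofReal_one]⟩
  have hcdf : svCdf f.measure = α := by
    funext t
    unfold svCdf
    rw [← ProbabilityTheory.cdf_eq_real, ProbabilityTheory.cdf_measure_stieltjesFunction f hf0 hf1]
  refine ⟨f.measure, hp, ?_, hcdf⟩
  have hc : (Icc (0:ℝ) 1)ᶜ = Iio 0 ∪ Ioi 1 := by
    ext t; simp only [mem_compl_iff, mem_Icc, not_and_or, not_le, mem_union, mem_Iio, mem_Ioi]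
  rw [hc]
  apply measure_union_null
  · rw [f.measure_Iio hf0]
    have : Function.leftLim f 0 = 0 := by
      apply tendsto_nhds_unique (f.mono.tendsto_leftLim 0)
      apply tendsto_const_nhds.congr'
      filter_upwards [self_mem_nhdsWithin] with t ht
      exact (h.neg t ht).symm
    rw [this]; simp
  · rw [f.measure_Ioi hf1]
    have : f 1 = 1 := h.top 1 le_rfl
    rw [this]; simp

theorem sv_dist_cdf (μ : Measure ℝ) [IsProbabilityMeasure μ] (hμ : μ (Icc 0 1)ᶜ = 0) : SvDist (svCdf μ) := by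
  refine ⟨sv_cdf_mono μ, sv_cdf_rc μ, ?_, ?_⟩
  · intro t ht
    unfold svCdf
    rw [measureReal_def, measure_mono_null _ hμ]; · rfl
    intro r hr hr'
    exact absurd (lt_of_le_of_lt hr ht) (not_lt.2 hr'.1)
  · intro t ht
    unfold svCdf
    have h1 : μ (Iic t)ᶜ = 0 := by
      apply measure_mono_null _ hμ
      intro r hr hr'
      exact hr (le_trans hr'.2 ht)
    rw [measureReal_def, (prob_compl_eq_zero_iff measurableSet_Iic).1 h1]; rfl

theorem sv_dist_coef {α : ℝ → ℝ} (h : SvDist α) : SvCoef α := by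
  obtain ⟨μ, hp, _, hc⟩ := sv_dist_measure h
  rw [← hc]; exact sv_cdf_coef μ

/-- **THEOREM (L), `α`-form.**   It is enough that `α` minimises among the distribution functions.   TEX[FS:thm:full-support] -/
theorem sv_thmA {T : ℝ} (S : SvPkg T) (hT : 1 < T) {α : ℝ → ℝ} (hα : SvDist α)
    (hmin : ∀ α', SvDist α' → S.P α ≤ S.P α') :
    ∃ q ∈ Ioo (0:ℝ) 1, (∀ s ∈ Icc 0 q, S.Gam α s = s) ∧ (∀ s ∈ Icc 0 q, T * S.M2 α s = 1) ∧
      (∀ s ∈ Ico 0 q, α s = S.N3 α s / (2 * S.M3 α s)) ∧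
      α 0 = 0 ∧ StrictMonoOn α (Icc 0 q) ∧ ContinuousOn α (Ico 0 q) ∧ ∀ t, q ≤ t → α t = 1 := by
  obtain ⟨μ, hp, hcar, hc⟩ := sv_dist_measure hα
  have hm : SvMin S μ := ⟨hp, hcar, fun μ' hp' hcar' => by
    rw [hc]; exact hmin _ (sv_dist_cdf μ' hcar')⟩
  obtain ⟨q, hq, hS, h1, h2, h3, h4, h5, h6⟩ := sv_thmL S hT hm
  have h7 := sv_top hS
  rw [hc] at h1 h2 h3 h4 h5 h6 h7
  exact ⟨q, hq, h1, h2, h3, h4, h5, h6, h7⟩

/-! ## the initial density -/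

/-- `SvPkg` + the next moment identity: `N4 = E V_zzzz²`, `M13 = E V_zz V_zzz²`.   INSTANCE: `pkPkg` (`Sc/Pkg.lean`, owner helper229). -/
structure SvPkgK (T : ℝ) extends SvPkg T where
  N4 : (ℝ → ℝ) → ℝ → ℝ
  M13 : (ℝ → ℝ) → ℝ → ℝ
  /-- I8 -/
  N3_eq : ∀ α, SvCoef α → ∀ t ∈ Icc (0:ℝ) 1,
    N3 α t = T * ∫ r in (0:ℝ)..t, (N4 α r - 6 * α r * M13 α r)
  N4_cont : ∀ α, SvCoef α → ContinuousOn (N4 α) (Icc 0 1)
  M13_cont : ∀ α, SvCoef α → ContinuousOn (M13 α) (Icc 0 1)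
  /-- `N4 α 0 = V_zzzz(0,0)² > 0` (PE Lemma 5.3, strict curvature) -/
  N4_pos : ∀ α, SvCoef α → 0 < N4 α 0

/-- the field `N3_pos` of `SvPkg` from the identity I8 -/
theorem sv_N3_pos_of {T : ℝ} (hT : 0 < T) {α N3 N4 M13 : ℝ → ℝ}
    (hN3 : ∀ t ∈ Icc (0:ℝ) 1, N3 t = T * ∫ r in (0:ℝ)..t, (N4 r - 6 * α r * M13 r))
    (hc : ContinuousOn N4 (Icc 0 1)) (hnn : ∀ t ∈ Icc (0:ℝ) 1, 0 ≤ N4 t) (h0 : 0 < N4 0)
    {b : ℝ} (hb : b ∈ Ioc (0:ℝ) 1) (hα : ∀ t ∈ Ico 0 b, α t = 0) : ∀ t ∈ Ioo 0 b, 0 < N3 t := by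
  intro t ht
  have ht1 : t ≤ 1 := le_trans ht.2.le hb.2
  rw [hN3 t ⟨ht.1.le, ht1⟩]
  apply mul_pos hT
  have e : (∫ r in (0:ℝ)..t, (N4 r - 6 * α r * M13 r)) = ∫ r in (0:ℝ)..t, N4 r := by
    apply intervalIntegral.integral_congr
    intro r hr
    rw [uIcc_of_le ht.1.le] at hr
    simp only
    rw [hα r ⟨hr.1, lt_of_le_of_lt hr.2 ht.2⟩]; ring
  rw [e]
  apply intervalIntegral.integral_pos ht.1 (hc.mono (Icc_subset_Icc le_rfl ht1))
  · intro r hr; exact hnn r ⟨hr.1.le, le_trans hr.2 ht1⟩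
  · exact ⟨0, ⟨le_rfl, ht.1.le⟩, h0⟩

theorem sv_kappa_core {T : ℝ} (S : SvPkgK T) {α : ℝ → ℝ} (hc : SvCoef α)
    (hrc : ContinuousWithinAt α (Ici 0) 0) {q : ℝ} (hq : q ∈ Ioo (0:ℝ) 1) (h0 : α 0 = 0)
    (hF : ∀ s ∈ Ico 0 q, α s = S.N3 α s / (2 * S.M3 α s)) :
    Tendsto (fun s => α s / s) (𝓝[>] 0) (𝓝 (T * S.N4 α 0 / (2 * S.M3 α 0))) := by
  have h001 : (0:ℝ) ∈ Icc (0:ℝ) 1 := ⟨le_rfl, zero_le_one⟩
  have h101 : (1:ℝ) ∈ Icc (0:ℝ) 1 := ⟨zero_le_one, le_rfl⟩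
  set h : ℝ → ℝ := fun r => S.N4 α r - 6 * α r * S.M13 α r with hh
  have hint : IntervalIntegrable h volume 0 1 := by
    have hs : uIcc (0:ℝ) 1 ⊆ Icc 0 1 := uIcc_subset_Icc h001 h101
    apply ((S.N4_cont α hc).mono hs).intervalIntegrable.sub
    exact ((sv_coef_int hc h001 h101).const_mul 6).mul_continuousOn ((S.M13_cont α hc).mono hs)
  have hcw : ContinuousWithinAt h (Ici 0) 0 :=
    (sv_cwa_right (S.N4_cont α hc) le_rfl one_pos).sub
      ((continuousWithinAt_const.mul hrc).mul (sv_cwa_right (S.M13_cont α hc) le_rfl one_pos))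
  have hmeas : StronglyMeasurableAtFilter h (𝓝[>] 0) volume :=
    ⟨Ioc 0 1, Ioc_mem_nhdsGT one_pos, hint.1.aestronglyMeasurable⟩
  have hder : HasDerivWithinAt (fun u => ∫ x in (0:ℝ)..u, h x) (h 0) (Ici 0) 0 :=
    intervalIntegral.integral_hasDerivWithinAt_right (by simp) hmeas (hcw.mono Ioi_subset_Ici_self)
  have hder' := hasDerivWithinAt_Ioi_iff_Ici.2 hder
  rw [hasDerivWithinAt_iff_tendsto_slope' (by simp)] at hder'
  have hh0 : h 0 = S.N4 α 0 := by rw [hh]; simp only; rw [h0]; ring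
  rw [hh0] at hder'
  have hM3 : Tendsto (S.M3 α) (𝓝[>] 0) (𝓝 (S.M3 α 0)) :=
    (sv_cwa_right (S.M3_cont α hc) le_rfl one_pos).mono Ioi_subset_Ici_self
  have hpos := S.M3_pos α hc 0 h001
  have hlim : Tendsto (fun s => T * slope (fun u => ∫ x in (0:ℝ)..u, h x) 0 s / (2 * S.M3 α s)) (𝓝[>] 0)
      (𝓝 (T * S.N4 α 0 / (2 * S.M3 α 0))) :=
    (hder'.const_mul T).div (hM3.const_mul 2) (by positivity)
  apply hlim.congr'
  filter_upwards [Ioo_mem_nhdsGT hq.1] with s hs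
  have hs01 : s ∈ Icc (0:ℝ) 1 := ⟨hs.1.le, le_trans hs.2.le hq.2.le⟩
  rw [hF s ⟨hs.1.le, hs.2⟩, S.N3_eq α hc s hs01, slope_def_field]
  simp only [intervalIntegral.integral_same, sub_zero]
  have := S.M3_pos α hc s hs01
  have hs0 := hs.1.ne'
  field_simp
  rfl

/-- **PE Lemma 5.8, initial density**: `α(s) = κ_T s + o(s)`, `κ_T = T E V_zzzz(0,0)² / (2 V_zz(0,0)³) > 0`.   TEX[PE:prof:scalar-minimizer] (the part "initial density") -/
theorem sv_kappa {T : ℝ} (S : SvPkgK T) (hT : 1 < T) {α : ℝ → ℝ} (hα : SvDist α)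
    (hmin : ∀ α', SvDist α' → S.P α ≤ S.P α') :
    0 < T * S.N4 α 0 / (2 * S.M3 α 0) ∧
      Tendsto (fun s => α s / s) (𝓝[>] 0) (𝓝 (T * S.N4 α 0 / (2 * S.M3 α 0))) := by
  have hc := sv_dist_coef hα
  obtain ⟨q, hq, _, _, h3, h4, _, _, _⟩ := sv_thmA S.toSvPkg hT hα hmin
  refine ⟨?_, sv_kappa_core S hc (hα.rc 0) hq h4 h3⟩
  have h1 := S.N4_pos α hc
  have h2 := S.M3_pos α hc 0 ⟨le_rfl, zero_le_one⟩
  have : 0 < T := by linarith
  positivity

end Claimed.Agent.R286
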