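import Claimed.Agent.R286.Sc.UpInst
import Claimed.Agent.R286.Sc.Gen
import Claimed.Agent.R286.Sc.VarK

/-!
# Row 286, scalar block, (U+), file 5: GENERAL (MONOTONE) PROFILES; THE FIRST ORDER FORM      (helper159; prefix `sk_up_`)

TEX[PE:prof:scalar-minimizer] (uniqueness, quantitative)      TEX[LL:global:trial-gap] (the scalar kernel of (G2), 06-global.tex l.108-135: replaces the stochastic control argument).
Objects of `Sc/GenDefs.lean`: `scVa F α τ t z`, `ScCoef a τ α`.      Uses `Sc/Dy.lean` (helper88, proved) and ONE contract of `Sc/Gen.lean` (helper107): `scg_V_rate`.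
* `sk_up_gen`     :  `(1/16) e^{-18 τ} ∫₀^τ (∫ₛ^τ (α₁ - α₂))² ≤ (1/2) V_{α₁}(0,0) + (1/2) V_{α₂}(0,0) - V_{(α₁+α₂)/2}(0,0)`      (variance time, `ScCoef 1 τ`).
* `skUpV T α = scVa (scLC 1) (fun r => α (r / T)) T 0 0`      the value in the NORMALISED time `[0,1]`;
  `sk_up_unit`    :  `(T³/16) e^{-18 T} ∫₀¹ (∫ₜ¹ (α₁ - α₂))² ≤ (v α₁ + v α₂)/2 - v ((α₁+α₂)/2)`, `v = skUpV T`, `αᵢ` monotone `[0,1] → [0,1]`      (= `L6gU S cU` of `LL06/G2.lean` as soon as `S.v0 = skUpV T`).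
* `sk_up_unique`  :  the minimiser of `α ↦ skUpV T α - (T/2) ∫₀¹ s α(s) ds` among the distribution functions (`SvDist`, `Sc/VarK.lean`) is unique      (= `pk_unique_min` of `Sc/Pkg.lean`, by `exact`).
* `sk_sc_Va`      :  SCALING `V^a(t,z) = l⁻¹ V^{a/l}(l² t, l z)`;   `sk_up_gen_a` : (U+) for the terminal mass `a`, constant `a³/16 e^{-18 a² τ}`;   `sk_up_tangent_a` : tangent inequality with modulus.
* `sk_up_tangent` :  ABSTRACT: `2 e(θ/2) + 2 c θ² ≤ e(θ)` on `[0,1]` and `liminf e(θ)/θ ≥ D` along `2^{-n}`   ⟹   `D + 4 c ≤ e(1)`      (midpoint form ⟹ first order form).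
-/

set_option autoImplicit false

namespace Claimed.Agent.R286

open Set Filter Topology MeasureTheory

theorem sk_up_mid_dy (α₁ α₂ : ℝ → ℝ) (τ : ℝ) (n : ℕ) : scMid (scDy α₁ τ n) (scDy α₂ τ n) = scDy (fun t => (α₁ t + α₂ t) / 2) τ n := by
  unfold scMid scDy
  rw [List.zipWith_map, List.zipWith_self]

theorem sk_up_coef_mid {a τ : ℝ} {α₁ α₂ : ℝ → ℝ} (h1 : ScCoef a τ α₁) (h2 : ScCoef a τ α₂) : ScCoef a τ (fun t => (α₁ t + α₂ t) / 2) := by
  refine ⟨fun x hx y hy hxy => ?_, fun t ht => ⟨?_, ?_⟩⟩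
  · have := h1.1 hx hy hxy
    have := h2.1 hx hy hxy
    simp only
    linarith
  · linarith [(h1.2 t ht).1, (h2.2 t ht).1]
  · linarith [(h1.2 t ht).2, (h2.2 t ht).2]

/-- the primitive `s ↦ ∫ₛ^τ f` is continuous on `[0, τ]` -/
theorem sk_up_prim_cont {τ : ℝ} (hτ : 0 ≤ τ) {f : ℝ → ℝ} (hf : IntervalIntegrable f volume 0 τ) : ContinuousOn (fun s => ∫ r in s..τ, f r) (Icc 0 τ) := by
  have h := intervalIntegral.continuousOn_primitive_interval_left (μ := volume) (f := f) (a := 0) (b := τ)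
    ((intervalIntegrable_iff_integrableOn_Icc_of_le hτ).1 hf |>.mono_set (by rw [uIcc_of_le hτ]))
  rw [uIcc_of_le hτ] at h
  exact h

theorem sk_up_sub_int {τ : ℝ} {f : ℝ → ℝ} (hf : IntervalIntegrable f volume 0 τ) {s : ℝ} (hs : s ∈ Icc 0 τ) : IntervalIntegrable f volume s τ := by
  refine hf.mono_set ?_
  rw [uIcc_of_le hs.2, uIcc_of_le (hs.1.trans hs.2)]
  exact Icc_subset_Icc_left hs.1

/-- stability of the quadratic form `f ↦ ∫₀^τ (∫ₛ^τ f)²` in `L¹` -/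
theorem sk_up_quad_stab {τ ε : ℝ} (hτ : 0 ≤ τ) {f g : ℝ → ℝ} (hf : IntervalIntegrable f volume 0 τ) (hg : IntervalIntegrable g volume 0 τ)
    (hfb : ∀ t ∈ Icc 0 τ, |f t| ≤ 1) (hgb : ∀ t ∈ Icc 0 τ, |g t| ≤ 1) (hfg : ∫ t in (0 : ℝ)..τ, |f t - g t| ≤ ε) :
    ∫ s in (0 : ℝ)..τ, (∫ r in s..τ, f r) ^ 2 ≤ (∫ s in (0 : ℝ)..τ, (∫ r in s..τ, g r) ^ 2) + 2 * τ ^ 2 * ε := by
  have hbd : ∀ {h : ℝ → ℝ}, (∀ t ∈ Icc 0 τ, |h t| ≤ 1) → ∀ s ∈ Icc 0 τ, |∫ r in s..τ, h r| ≤ τ := by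
    intro h hh s hs
    have h1 := intervalIntegral.norm_integral_le_of_norm_le_const (a := s) (b := τ) (C := 1) (f := h) (fun r hr => by
      rw [uIoc_of_le hs.2] at hr
      exact hh r ⟨hs.1.trans hr.1.le, hr.2⟩)
    rw [Real.norm_eq_abs, one_mul, abs_of_nonneg (sub_nonneg.2 hs.2 : 0 ≤ τ - s)] at h1
    linarith [hs.1]
  have hdiff : ∀ s ∈ Icc 0 τ, |(∫ r in s..τ, f r) - ∫ r in s..τ, g r| ≤ ε := by
    intro s hs
    rw [← intervalIntegral.integral_sub (sk_up_sub_int hf hs) (sk_up_sub_int hg hs)]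
    refine (intervalIntegral.abs_integral_le_integral_abs hs.2).trans (le_trans ?_ hfg)
    exact intervalIntegral.integral_mono_interval hs.1 hs.2 le_rfl (Filter.Eventually.of_forall fun r => abs_nonneg _) (hf.sub hg).abs
  have hpt : ∀ s ∈ Icc 0 τ, (∫ r in s..τ, f r) ^ 2 ≤ (∫ r in s..τ, g r) ^ 2 + 2 * τ * ε := by
    intro s hs
    obtain ⟨x, hx⟩ : ∃ x : ℝ, x = ∫ r in s..τ, f r := ⟨_, rfl⟩
    obtain ⟨y, hy⟩ : ∃ y : ℝ, y = ∫ r in s..τ, g r := ⟨_, rfl⟩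
    have a1 := hbd hfb s hs
    have a2 := hbd hgb s hs
    have a3 := hdiff s hs
    rw [← hx] at a1 a3 ⊢
    rw [← hy] at a2 a3 ⊢
    have a4 : x ^ 2 - y ^ 2 = (x - y) * (x + y) := by ring
    have a5 : |(x - y) * (x + y)| ≤ ε * (2 * τ) := by
      rw [abs_mul]
      refine mul_le_mul a3 ?_ (abs_nonneg _) ((abs_nonneg _).trans a3)
      have := abs_add_le x y
      linarith
    have a6 := (abs_le.1 a5).2
    linarith
  have hi1 : IntervalIntegrable (fun s => (∫ r in s..τ, f r) ^ 2) volume 0 τ :=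
    ContinuousOn.intervalIntegrable (by rw [uIcc_of_le hτ]; exact (sk_up_prim_cont hτ hf).pow 2)
  have hi2 : IntervalIntegrable (fun s => (∫ r in s..τ, g r) ^ 2) volume 0 τ :=
    ContinuousOn.intervalIntegrable (by rw [uIcc_of_le hτ]; exact (sk_up_prim_cont hτ hg).pow 2)
  have h := intervalIntegral.integral_mono_on hτ hi1 (hi2.add (intervalIntegrable_const (c := 2 * τ * ε))) hpt
  rw [intervalIntegral.integral_add hi2 intervalIntegrable_const, intervalIntegral.integral_const, smul_eq_mul, sub_zero] at h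
  have e : τ * (2 * τ * ε) = 2 * τ ^ 2 * ε := by ring
  rw [e] at h
  exact h

theorem sk_up_same_dy (α₁ α₂ : ℝ → ℝ) (τ : ℝ) (n : ℕ) : ScSame (scDy α₁ τ n) (scDy α₂ τ n) := by
  unfold ScSame scDy
  simp only [List.map_map]
  rfl

theorem sk_up_V_tendsto {τ : ℝ} (hτ : 0 ≤ τ) {α : ℝ → ℝ} (hα : ScCoef 1 τ α) :
    Tendsto (fun n => scVt (scLC 1) (scDy α τ n) 0 0) atTop (𝓝 (scVa (scLC 1) α τ 0 0)) := by
  rw [tendsto_iff_norm_sub_tendsto_zero]
  have h0 : Tendsto (fun n : ℕ => (1 : ℝ) ^ 2 / 2 * (1 * τ * (1 / 2 : ℝ) ^ n)) atTop (𝓝 ((1 : ℝ) ^ 2 / 2 * (1 * τ * 0))) :=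
    ((tendsto_pow_atTop_nhds_zero_of_lt_one (by norm_num) (by norm_num)).const_mul _).const_mul _
  rw [mul_zero, mul_zero] at h0
  refine squeeze_zero (fun n => norm_nonneg _) (fun n => ?_) h0
  have h := scg_V_rate sk_up_LC_BI (L := 1) (fun y => by rw [sk_up_LC_d1]; exact (Real.abs_tanh_lt_one y).le) hτ hα n le_rfl 0
  rw [Real.norm_eq_abs]
  refine h.trans (le_of_eq ?_)
  rw [one_div, inv_pow]
  rfl

/-- **(U+) for general profiles.**      TEX[PE:prof:scalar-minimizer] -/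
theorem sk_up_gen {τ : ℝ} (hτ : 0 < τ) {α₁ α₂ : ℝ → ℝ} (h1 : ScCoef 1 τ α₁) (h2 : ScCoef 1 τ α₂) :
    1 / 16 * Real.exp (-(18 * τ)) * ∫ s in (0 : ℝ)..τ, (∫ r in s..τ, (α₁ r - α₂ r)) ^ 2
      ≤ 1 / 2 * scVa (scLC 1) α₁ τ 0 0 + 1 / 2 * scVa (scLC 1) α₂ τ 0 0 - scVa (scLC 1) (fun t => (α₁ t + α₂ t) / 2) τ 0 0 := by
  have hb := sk_up_coef_mid h1 h2
  obtain ⟨c, hc⟩ : ∃ c : ℝ, c = 1 / 16 * Real.exp (-(18 * τ)) := ⟨_, rfl⟩
  have hc0 : 0 ≤ c := by rw [hc]; positivity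
  rw [← hc]
  have h00 : (0 : ℝ) ∈ Icc 0 τ := ⟨le_rfl, hτ.le⟩
  have hττ : τ ∈ Icc 0 τ := ⟨hτ.le, le_rfl⟩
  have hi1 := sc_dy_coef_intervalIntegrable h1 h00 hττ
  have hi2 := sc_dy_coef_intervalIntegrable h2 h00 hττ
  -- the inequality at the level `n`
  have hn : ∀ n : ℕ, c * ∫ s in (0 : ℝ)..τ, (∫ r in s..τ, (α₁ r - α₂ r)) ^ 2
      ≤ (1 / 2 * scVt (scLC 1) (scDy α₁ τ n) 0 0 + 1 / 2 * scVt (scLC 1) (scDy α₂ τ n) 0 0 - scVt (scLC 1) (scDy (fun t => (α₁ t + α₂ t) / 2) τ n) 0 0)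
        + c * (2 * τ ^ 2 * (2 * τ * (1 / 2) ^ n)) := by
    intro n
    have a1 := sc_dy_adm hτ.le h1 n
    have a2 := sc_dy_adm hτ.le h2 n
    have ab := sc_dy_adm hτ.le hb n
    have hl := sk_up_list hτ a1 a2 (sk_up_same_dy α₁ α₂ τ n) (sc_dy_len α₁ τ n)
    rw [sk_up_mid_dy, ← hc, ← sc_Vt_zero _ a1.pos, ← sc_Vt_zero _ a2.pos, ← sc_Vt_zero _ ab.pos] at hl
    have j1 := sc_dy_al_intervalIntegrable zero_le_one a1 0 τ
    have j2 := sc_dy_al_intervalIntegrable zero_le_one a2 0 τ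
    have hL1 : ∫ t in (0 : ℝ)..τ, |(α₁ t - α₂ t) - (scAl (scDy α₁ τ n) t - scAl (scDy α₂ τ n) t)| ≤ 2 * τ * (1 / 2) ^ n := by
      have b1 := sc_dy_L1 hτ.le h1 n
      have b2 := sc_dy_L1 hτ.le h2 n
      have b3 : ∫ t in (0 : ℝ)..τ, |(α₁ t - α₂ t) - (scAl (scDy α₁ τ n) t - scAl (scDy α₂ τ n) t)|
          ≤ ∫ t in (0 : ℝ)..τ, (|α₁ t - scAl (scDy α₁ τ n) t| + |α₂ t - scAl (scDy α₂ τ n) t|) := by
        refine intervalIntegral.integral_mono_on hτ.le ((hi1.sub hi2).sub (j1.sub j2)).abs ((hi1.sub j1).abs.add (hi2.sub j2).abs) fun t _ => ?_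
        have e : (α₁ t - α₂ t) - (scAl (scDy α₁ τ n) t - scAl (scDy α₂ τ n) t) = (α₁ t - scAl (scDy α₁ τ n) t) + -(α₂ t - scAl (scDy α₂ τ n) t) := by ring
        rw [e]
        refine (abs_add_le _ _).trans ?_
        rw [abs_neg]
      rw [intervalIntegral.integral_add (hi1.sub j1).abs (hi2.sub j2).abs] at b3
      have e : 2 * τ * (1 / 2 : ℝ) ^ n = 1 * τ / 2 ^ n + 1 * τ / 2 ^ n := by
        rw [one_div, inv_pow]
        field_simp
        ring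
      rw [e]
      linarith
    have hq := sk_up_quad_stab hτ.le (hi1.sub hi2) (j1.sub j2)
      (fun t ht => abs_le.2 ⟨by linarith [(h1.2 t ht).1, (h2.2 t ht).2], by linarith [(h1.2 t ht).2, (h2.2 t ht).1]⟩)
      (fun t _ => by
        have c1 := sc_Al_mem zero_le_one a1 t
        have c2 := sc_Al_mem zero_le_one a2 t
        exact abs_le.2 ⟨by linarith [c1.1, c2.2], by linarith [c1.2, c2.1]⟩) hL1
    have := mul_le_mul_of_nonneg_left hq hc0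
    rw [mul_add] at this
    linarith
  -- the limit
  have t1 := sk_up_V_tendsto hτ.le h1
  have t2 := sk_up_V_tendsto hτ.le h2
  have tb := sk_up_V_tendsto hτ.le hb
  have t0 : Tendsto (fun n : ℕ => c * (2 * τ ^ 2 * (2 * τ * (1 / 2 : ℝ) ^ n))) atTop (𝓝 (c * (2 * τ ^ 2 * (2 * τ * 0)))) :=
    (((tendsto_pow_atTop_nhds_zero_of_lt_one (by norm_num) (by norm_num)).const_mul _).const_mul _).const_mul _
  have tall := (((t1.const_mul (1 / 2)).add (t2.const_mul (1 / 2))).sub tb).add t0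
  simp only [mul_zero, add_zero] at tall
  exact ge_of_tendsto' tall hn

/-! ## normalised time -/

/-- the value `V_α(0,0)` of the equation `V_t = -(T/2)(V_zz + α V_z²)` on `[0,1]`, `V(1) = log cosh` -/
noncomputable def skUpV (T : ℝ) (α : ℝ → ℝ) : ℝ := scVa (scLC 1) (fun r => α (r / T)) T 0 0

theorem sk_up_gen_eqns_cite : True := by
  have := @skUpV.eq_1
  trivial

theorem sk_up_coef_time {T : ℝ} (hT : 0 < T) {α : ℝ → ℝ} (hm : MonotoneOn α (Icc 0 1)) (hb : ∀ t ∈ Icc (0 : ℝ) 1, α t ∈ Icc (0 : ℝ) 1) :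
    ScCoef 1 T (fun r => α (r / T)) := by
  have hmem : ∀ r ∈ Icc 0 T, r / T ∈ Icc (0 : ℝ) 1 := fun r hr => ⟨div_nonneg hr.1 hT.le, (div_le_one hT).2 hr.2⟩
  exact ⟨fun x hx y hy hxy => hm (hmem x hx) (hmem y hy) (div_le_div_of_nonneg_right hxy hT.le), fun t ht => hb _ (hmem t ht)⟩

/-- **(U+) in the normalised time**      TEX[PE:prof:scalar-minimizer], TEX[LL:global:trial-gap] -/
theorem sk_up_unit {T : ℝ} (hT : 0 < T) {α₁ α₂ : ℝ → ℝ} (hm1 : MonotoneOn α₁ (Icc 0 1)) (hb1 : ∀ t ∈ Icc (0 : ℝ) 1, α₁ t ∈ Icc (0 : ℝ) 1)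
    (hm2 : MonotoneOn α₂ (Icc 0 1)) (hb2 : ∀ t ∈ Icc (0 : ℝ) 1, α₂ t ∈ Icc (0 : ℝ) 1) :
    T ^ 3 / 16 * Real.exp (-(18 * T)) * ∫ t in (0 : ℝ)..1, (∫ x in t..1, (α₁ x - α₂ x)) ^ 2
      ≤ (skUpV T α₁ + skUpV T α₂) / 2 - skUpV T (fun t => (α₁ t + α₂ t) / 2) := by
  have h := sk_up_gen hT (sk_up_coef_time hT hm1 hb1) (sk_up_coef_time hT hm2 hb2)
  have e1 : ∀ s : ℝ, (∫ r in s..T, (α₁ (r / T) - α₂ (r / T))) = T * ∫ x in s / T..1, (α₁ x - α₂ x) := by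
    intro s
    have := intervalIntegral.integral_comp_div (a := s) (b := T) (fun x => α₁ x - α₂ x) hT.ne'
    rw [div_self hT.ne', smul_eq_mul] at this
    exact this
  have e2 : (∫ s in (0 : ℝ)..T, (T * ∫ x in s / T..1, (α₁ x - α₂ x)) ^ 2) = T * ∫ t in (0 : ℝ)..1, (T * ∫ x in t..1, (α₁ x - α₂ x)) ^ 2 := by
    have := intervalIntegral.integral_comp_div (a := 0) (b := T) (fun t => (T * ∫ x in t..1, (α₁ x - α₂ x)) ^ 2) hT.ne'
    rw [div_self hT.ne', zero_div, smul_eq_mul] at this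
    exact this
  simp only [e1] at h
  rw [e2] at h
  simp only [mul_pow] at h
  rw [intervalIntegral.integral_const_mul] at h
  unfold skUpV
  have e3 : T ^ 3 / 16 * Real.exp (-(18 * T)) * ∫ t in (0 : ℝ)..1, (∫ x in t..1, (α₁ x - α₂ x)) ^ 2
      = 1 / 16 * Real.exp (-(18 * T)) * (T * (T ^ 2 * ∫ t in (0 : ℝ)..1, (∫ x in t..1, (α₁ x - α₂ x)) ^ 2)) := by ring
  rw [e3]
  linarith

/-! ## from the midpoint form to the first order form -/

/-- ABSTRACT: a function on `[0,1]` with `2 e(θ/2) + 2 c θ² ≤ e(θ)`; `D` = a lower bound of the limit of the difference quotients along `2^{-n}` -/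
theorem sk_up_tangent {e : ℝ → ℝ} {c D : ℝ} (hstep : ∀ θ ∈ Icc (0 : ℝ) 1, 2 * e (θ / 2) + 2 * c * θ ^ 2 ≤ e θ)
    (hD : ∀ ε > 0, ∃ᶠ n : ℕ in atTop, D - ε ≤ 2 ^ n * e ((1 / 2) ^ n)) : D + 4 * c ≤ e 1 := by
  have hind : ∀ n : ℕ, 2 ^ n * e ((1 / 2) ^ n) + 4 * c * (1 - (1 / 2) ^ n) ≤ e 1 := by
    intro n
    induction n with
    | zero => simp
    | succ n ih =>
      have hx0 : (0 : ℝ) ≤ (1 / 2) ^ n := by positivity
      have hx1 : ((1 / 2 : ℝ)) ^ n ≤ 1 := pow_le_one₀ (by norm_num) (by norm_num)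
      have hs := hstep ((1 / 2) ^ n) ⟨hx0, hx1⟩
      have e1 : ((1 / 2 : ℝ)) ^ n / 2 = (1 / 2) ^ (n + 1) := by
        rw [pow_succ]
        ring
      rw [e1] at hs
      have e2 : (2 : ℝ) ^ n * (1 / 2) ^ n = 1 := by
        rw [← mul_pow]
        norm_num
      have hs2 := mul_le_mul_of_nonneg_left hs (by positivity : (0 : ℝ) ≤ 2 ^ n)
      have e3 : (2 : ℝ) ^ n * (2 * e ((1 / 2) ^ (n + 1)) + 2 * c * ((1 / 2) ^ n) ^ 2)
          = 2 ^ (n + 1) * e ((1 / 2) ^ (n + 1)) + 2 * c * ((2 : ℝ) ^ n * (1 / 2) ^ n) * (1 / 2) ^ n := by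
        rw [pow_succ]
        ring
      rw [e3, e2] at hs2
      have e4 : ((1 / 2 : ℝ)) ^ (n + 1) = (1 / 2) ^ n / 2 := e1.symm
      have e5 : 4 * c * (1 - (1 / 2 : ℝ) ^ (n + 1)) = 4 * c * (1 - (1 / 2) ^ n) + 2 * c * 1 * (1 / 2) ^ n := by
        rw [e4]
        ring
      rw [e5]
      linarith
  refine le_of_forall_pos_le_add fun ε hε => ?_
  have hz : Tendsto (fun n : ℕ => 4 * |c| * (1 / 2 : ℝ) ^ n) atTop (𝓝 (4 * |c| * 0)) :=
    (tendsto_pow_atTop_nhds_zero_of_lt_one (by norm_num) (by norm_num)).const_mul _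
  rw [mul_zero] at hz
  have hev := hz.eventually (gt_mem_nhds (half_pos hε))
  obtain ⟨n, h1, h2⟩ := ((hD (ε / 2) (half_pos hε)).and_eventually hev).exists
  have h3 := hind n
  have h4 : 4 * c * (1 / 2 : ℝ) ^ n ≤ 4 * |c| * (1 / 2) ^ n := by
    have := le_abs_self c
    have h5 : (0 : ℝ) ≤ (1 / 2) ^ n := by positivity
    nlinarith
  linarith

/-! ## uniqueness of the minimiser -/

theorem sk_up_dist_mid {α β : ℝ → ℝ} (hα : SvDist α) (hβ : SvDist β) : SvDist (fun t => (α t + β t) / 2) where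
  mono := fun x y hxy => by
    have := hα.mono hxy
    have := hβ.mono hxy
    simp only
    linarith
  rc := fun s => ((hα.rc s).add (hβ.rc s)).div_const 2
  neg := fun t ht => by simp only [hα.neg t ht, hβ.neg t ht]; norm_num
  top := fun t ht => by simp only [hα.top t ht, hβ.top t ht]; norm_num

/-- a right continuous function whose primitive `t ↦ ∫ₜ¹ f` vanishes on `[0,1]` vanishes on `[0,1)` -/
theorem sk_up_rc_zero {f : ℝ → ℝ} (hi : IntervalIntegrable f volume 0 1) (hrc : ∀ s, ContinuousWithinAt f (Ici s) s)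
    (hB : ∀ t ∈ Icc (0 : ℝ) 1, (∫ x in t..1, f x) = 0) : ∀ s ∈ Ico (0 : ℝ) 1, f s = 0 := by
  have hpos : ∀ g : ℝ → ℝ, IntervalIntegrable g volume 0 1 → (∀ s, ContinuousWithinAt g (Ici s) s) → (∀ t ∈ Icc (0 : ℝ) 1, (∫ x in t..1, g x) = 0) →
      ∀ s ∈ Ico (0 : ℝ) 1, g s ≤ 0 := by
    intro g gi grc gB s hs
    by_contra hcon
    rw [not_le] at hcon
    have hev : ∀ᶠ x in 𝓝[≥] s, g s / 2 < g x := (grc s).eventually (lt_mem_nhds (half_lt_self hcon))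
    obtain ⟨u, hu, hsub⟩ := mem_nhdsGE_iff_exists_Ico_subset.1 hev
    obtain ⟨v, hv⟩ : ∃ v : ℝ, v = min u 1 := ⟨_, rfl⟩
    have hsv : s < v := by rw [hv]; exact lt_min hu hs.2
    have hv1 : v ≤ 1 := by rw [hv]; exact min_le_right _ _
    have hvu : v ≤ u := by rw [hv]; exact min_le_left _ _
    have ms : s ∈ Icc (0 : ℝ) 1 := ⟨hs.1, hs.2.le⟩
    have mv : v ∈ Icc (0 : ℝ) 1 := ⟨hs.1.trans hsv.le, hv1⟩
    have i1 : IntervalIntegrable g volume s v := by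
      refine gi.mono_set ?_
      rw [uIcc_of_le hsv.le, uIcc_of_le zero_le_one]
      exact Icc_subset_Icc hs.1 hv1
    have i2 : IntervalIntegrable g volume v 1 := sk_up_sub_int gi mv
    have e := intervalIntegral.integral_add_adjacent_intervals i1 i2
    rw [gB s ms, gB v mv, add_zero] at e
    have h1 := intervalIntegral.integral_mono_on_of_le_Ioo hsv.le (intervalIntegrable_const (c := g s / 2)) i1
      (fun x hx => (hsub ⟨hx.1.le, lt_of_lt_of_le hx.2 hvu⟩ : g s / 2 < g x).le)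
    rw [intervalIntegral.integral_const, smul_eq_mul, e] at h1
    have : 0 < (v - s) * (g s / 2) := mul_pos (sub_pos.2 hsv) (half_pos hcon)
    linarith
  intro s hs
  refine le_antisymm (hpos f hi hrc hB s hs) ?_
  have := hpos (fun x => -f x) hi.neg (fun s => (hrc s).neg) (fun t ht => by rw [intervalIntegral.integral_neg, hB t ht, neg_zero]) s hs
  linarith

/-- **uniqueness of the Parisi minimiser**      TEX[PE:prof:scalar-minimizer] -/
theorem sk_up_unique {T : ℝ} (hT : 0 < T) {α β : ℝ → ℝ} (hα : SvDist α) (hβ : SvDist β)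
    (hmα : ∀ α', SvDist α' → skUpV T α - T / 2 * ∫ s in (0 : ℝ)..1, s * α s ≤ skUpV T α' - T / 2 * ∫ s in (0 : ℝ)..1, s * α' s)
    (hmβ : ∀ α', SvDist α' → skUpV T β - T / 2 * ∫ s in (0 : ℝ)..1, s * β s ≤ skUpV T α' - T / 2 * ∫ s in (0 : ℝ)..1, s * α' s) : α = β := by
  have cα := sv_dist_coef hα
  have cβ := sv_dist_coef hβ
  have hU := sk_up_unit hT cα.1 cα.2 cβ.1 cβ.2
  have iα : IntervalIntegrable α volume 0 1 := hα.mono.intervalIntegrable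
  have iβ : IntervalIntegrable β volume 0 1 := hβ.mono.intervalIntegrable
  have jα : IntervalIntegrable (fun s : ℝ => s * α s) volume 0 1 := iα.continuousOn_mul (g := fun s : ℝ => s) continuousOn_id
  have jβ : IntervalIntegrable (fun s : ℝ => s * β s) volume 0 1 := iβ.continuousOn_mul (g := fun s : ℝ => s) continuousOn_id
  have elin : (∫ s in (0 : ℝ)..1, s * ((α s + β s) / 2)) = ((∫ s in (0 : ℝ)..1, s * α s) + ∫ s in (0 : ℝ)..1, s * β s) / 2 := by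
    rw [← intervalIntegral.integral_add jα jβ, ← intervalIntegral.integral_div]
    congr 1
    funext s
    ring
  have m1 := hmα _ (sk_up_dist_mid hα hβ)
  have m2 := hmβ _ (sk_up_dist_mid hα hβ)
  rw [elin] at m1 m2
  obtain ⟨I, hI⟩ : ∃ I : ℝ, I = ∫ t in (0 : ℝ)..1, (∫ x in t..1, (α x - β x)) ^ 2 := ⟨_, rfl⟩
  rw [← hI] at hU
  have hc : 0 < T ^ 3 / 16 * Real.exp (-(18 * T)) := by positivity
  have hI0 : I ≤ 0 := by
    have h1 : T ^ 3 / 16 * Real.exp (-(18 * T)) * I ≤ 0 := by linarith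
    by_contra hcon
    rw [not_le] at hcon
    have := mul_pos hc hcon
    linarith
  have hBc := sk_up_prim_cont zero_le_one (iα.sub iβ)
  have hB : ∀ t ∈ Icc (0 : ℝ) 1, (∫ x in t..1, (α x - β x)) = 0 := by
    intro t ht
    by_contra hcon
    have hp := intervalIntegral.integral_pos (f := fun t => (∫ x in t..1, (α x - β x)) ^ 2) zero_lt_one (hBc.pow 2) (fun x _ => sq_nonneg _)
      ⟨t, ht, (sq_pos_of_ne_zero hcon)⟩
    rw [← hI] at hp
    linarith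
  have hz := sk_up_rc_zero (iα.sub iβ) (fun s => (hα.rc s).sub (hβ.rc s)) hB
  funext t
  rcases lt_or_ge t 0 with h0 | h0
  · rw [hα.neg t h0, hβ.neg t h0]
  · rcases lt_or_ge t 1 with h1 | h1
    · have := hz t ⟨h0, h1⟩
      linarith
    · rw [hα.top t h1, hβ.top t h1]

/-! ## scaling; general terminal mass `a`; the tangent inequality      (exits for `sc_x_scale`, `sc_x_uplus`, `sc_x_tangent` of `Sc/Contract.lean`) -/

/-- the scaled list: masses divided by `l`, lengths multiplied by `l²` -/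
noncomputable def skScL (l : ℝ) (π : List (ℝ × ℝ)) : List (ℝ × ℝ) := π.map fun p => (p.1 / l, l ^ 2 * p.2)

theorem sk_sc_heat {l : ℝ} (hl : 0 ≤ l) (s : ℝ) (G : ℝ → ℝ) (z : ℝ) :
    scHeat s (fun y => G (l * y)) z = scHeat (l ^ 2 * s) G (l * z) := by
  unfold scHeat
  have e : Real.sqrt (l ^ 2 * s) = l * Real.sqrt s := by
    rw [Real.sqrt_mul (sq_nonneg l), Real.sqrt_sq hl]
  rw [e]
  refine integral_congr_ae (Eventually.of_forall fun g => ?_)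
  show G (l * (z + Real.sqrt s * g)) = G (l * z + l * Real.sqrt s * g)
  rw [mul_add, mul_assoc]

theorem sk_sc_step {l : ℝ} (hl : 0 < l) (m s : ℝ) (G : ℝ → ℝ) (z : ℝ) :
    scStep m s (fun y => l⁻¹ * G (l * y)) z = l⁻¹ * scStep (m / l) (l ^ 2 * s) G (l * z) := by
  unfold scStep
  by_cases hm : m = 0
  · rw [if_pos hm, if_pos (by rw [hm, zero_div])]
    rw [← sk_sc_heat hl.le s G z]
    unfold scHeat
    rw [integral_const_mul]
  · rw [if_neg hm, if_neg (div_ne_zero hm hl.ne')]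
    unfold scW
    rw [← sk_sc_heat hl.le s (fun y => Real.exp (m / l * G y)) z]
    have e : (fun y => Real.exp (m * (l⁻¹ * G (l * y)))) = fun y => Real.exp (m / l * G (l * y)) := by
      funext y
      congr 1
      rw [div_eq_mul_inv]
      ring
    rw [e]
    rw [← mul_assoc]
    congr 1
    field_simp

theorem sk_sc_V {l : ℝ} (hl : 0 < l) (G : ℝ → ℝ) (π : List (ℝ × ℝ)) :
    scV (fun y => l⁻¹ * G (l * y)) π = fun z => l⁻¹ * scV G (skScL l π) (l * z) := by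
  induction π with
  | nil => rfl
  | cons p π ih =>
    funext z
    show scStep p.1 p.2 (scV (fun y => l⁻¹ * G (l * y)) π) z = l⁻¹ * scStep (p.1 / l) (l ^ 2 * p.2) (scV G (skScL l π)) (l * z)
    rw [ih, sk_sc_step hl]

theorem sk_sc_Vt {l : ℝ} (hl : 0 < l) (G : ℝ → ℝ) (π : List (ℝ × ℝ)) (t z : ℝ) :
    scVt (fun y => l⁻¹ * G (l * y)) π t z = l⁻¹ * scVt G (skScL l π) (l ^ 2 * t) (l * z) := by
  induction π generalizing t with
  | nil => rfl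
  | cons p π ih =>
    have hl2 : 0 < l ^ 2 := by positivity
    show (if p.2 ≤ t then scVt (fun y => l⁻¹ * G (l * y)) π (t - p.2) else scStep p.1 (p.2 - t) (scV (fun y => l⁻¹ * G (l * y)) π)) z
      = l⁻¹ * (if l ^ 2 * p.2 ≤ l ^ 2 * t then scVt G (skScL l π) (l ^ 2 * t - l ^ 2 * p.2)
          else scStep (p.1 / l) (l ^ 2 * p.2 - l ^ 2 * t) (scV G (skScL l π))) (l * z)
    by_cases h : p.2 ≤ t
    · rw [if_pos h, if_pos (mul_le_mul_of_nonneg_left h hl2.le), ih, mul_sub]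
    · rw [if_neg h, if_neg (fun hc => h (le_of_mul_le_mul_left hc hl2)), sk_sc_V hl, sk_sc_step hl, mul_sub]

theorem sk_sc_LC {a l : ℝ} (hl : 0 < l) : scLC a = fun y => l⁻¹ * scLC (a / l) (l * y) := by
  funext y
  unfold scLC
  rw [show a / l * (l * y) = a * y by field_simp, ← mul_assoc]
  congr 1
  rw [inv_div]
  field_simp

theorem sk_sc_dy {l : ℝ} (hl : 0 < l) (α : ℝ → ℝ) (τ : ℝ) (n : ℕ) :
    skScL l (scDy α τ n) = scDy (fun ξ => α (ξ / l ^ 2) / l) (l ^ 2 * τ) n := by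
  unfold skScL scDy
  rw [List.map_map]
  apply List.map_congr_left
  intro k _
  simp only [Function.comp]
  rw [show (k : ℝ) * (l ^ 2 * τ) / 2 ^ n / l ^ 2 = k * τ / 2 ^ n by field_simp, mul_div_assoc (l ^ 2) τ]

theorem sk_sc_coef {a τ l : ℝ} (hl : 0 < l) {α : ℝ → ℝ} (hα : ScCoef a τ α) :
    ScCoef (a / l) (l ^ 2 * τ) (fun ξ => α (ξ / l ^ 2) / l) := by
  have hl2 : 0 < l ^ 2 := by positivity
  have hmem : ∀ ξ ∈ Icc 0 (l ^ 2 * τ), ξ / l ^ 2 ∈ Icc 0 τ := fun ξ hξ =>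
    ⟨div_nonneg hξ.1 hl2.le, by rw [div_le_iff₀ hl2]; linarith [hξ.2]⟩
  refine ⟨fun x hx y hy hxy => ?_, fun t ht => ⟨?_, ?_⟩⟩
  · exact div_le_div_of_nonneg_right (hα.1 (hmem x hx) (hmem y hy) (div_le_div_of_nonneg_right hxy hl2.le)) hl.le
  · exact div_nonneg (hα.2 _ (hmem t ht)).1 hl.le
  · exact div_le_div_of_nonneg_right (hα.2 _ (hmem t ht)).2 hl.le

/-- **SCALING**: `V^{a}(t,z) = l⁻¹ V^{a/l}(l² t, l z)`      (= `sc_x_scale` of `Sc/Contract.lean`) -/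
theorem sk_sc_Va {a τ l : ℝ} (hτ : 0 ≤ τ) (hl : 0 < l) {α : ℝ → ℝ} (hα : ScCoef a τ α) {t : ℝ} (ht : 0 ≤ t) (z : ℝ) :
    scVa (scLC a) α τ t z = l⁻¹ * scVa (scLC (a / l)) (fun ξ => α (ξ / l ^ 2) / l) (l ^ 2 * τ) (l ^ 2 * t) (l * z) := by
  have hl2 : 0 < l ^ 2 := by positivity
  have h1 := scg_dy_tendsto (sc_logcosh_BI a) hτ hα 0 ht z
  have h2 := scg_dy_tendsto (sc_logcosh_BI (a / l)) (mul_nonneg hl2.le hτ) (sk_sc_coef hl hα) 0 (mul_nonneg hl2.le ht) (l * z)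
  refine tendsto_nhds_unique h1 ((h2.const_mul l⁻¹).congr fun n => ?_)
  show l⁻¹ * scVt (scLC (a / l)) (scDy (fun ξ => α (ξ / l ^ 2) / l) (l ^ 2 * τ) n) (l ^ 2 * t) (l * z) = scVt (scLC a) (scDy α τ n) t z
  rw [← sk_sc_dy hl, ← sk_sc_Vt hl, ← sk_sc_LC hl]

/-- **(U+) for a general terminal mass `a`**      (= `sc_x_uplus` of `Sc/Contract.lean`, `c = a³/16 e^{-18 a² τ}`) -/
theorem sk_up_gen_a {a τ : ℝ} (ha : 0 < a) (hτ : 0 < τ) {α₁ α₂ : ℝ → ℝ} (h1 : ScCoef a τ α₁) (h2 : ScCoef a τ α₂) :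
    a ^ 3 / 16 * Real.exp (-(18 * (a ^ 2 * τ))) * ∫ s in (0 : ℝ)..τ, (∫ r in s..τ, (α₁ r - α₂ r)) ^ 2
      ≤ 1 / 2 * scVa (scLC a) α₁ τ 0 0 + 1 / 2 * scVa (scLC a) α₂ τ 0 0 - scVa (scLC a) (fun t => (α₁ t + α₂ t) / 2) τ 0 0 := by
  have ha2 : 0 < a ^ 2 := by positivity
  have k1 := sk_sc_coef ha h1
  have k2 := sk_sc_coef ha h2
  rw [div_self ha.ne'] at k1 k2
  have h := sk_up_gen (mul_pos ha2 hτ) k1 k2
  have v1 := sk_sc_Va hτ.le ha h1 le_rfl 0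
  have v2 := sk_sc_Va hτ.le ha h2 le_rfl 0
  have v3 := sk_sc_Va hτ.le ha (sk_up_coef_mid h1 h2) le_rfl 0
  rw [div_self ha.ne', mul_zero, mul_zero] at v1 v2 v3
  have em : (fun ξ => (α₁ (ξ / a ^ 2) + α₂ (ξ / a ^ 2)) / 2 / a) = fun t => (α₁ (t / a ^ 2) / a + α₂ (t / a ^ 2) / a) / 2 := by
    funext ξ
    ring
  rw [em] at v3
  rw [v1, v2, v3]
  have e1 : ∀ s : ℝ, (∫ r in s..a ^ 2 * τ, (α₁ (r / a ^ 2) / a - α₂ (r / a ^ 2) / a)) = a * ∫ x in s / a ^ 2..τ, (α₁ x - α₂ x) := by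
    intro s
    have := intervalIntegral.integral_comp_div (a := s) (b := a ^ 2 * τ) (fun x => α₁ x / a - α₂ x / a) ha2.ne'
    rw [mul_div_cancel_left₀ _ ha2.ne', smul_eq_mul] at this
    rw [this]
    have e : (fun x => α₁ x / a - α₂ x / a) = fun x => a⁻¹ * (α₁ x - α₂ x) := by
      funext x
      rw [div_eq_mul_inv, div_eq_mul_inv]
      ring
    rw [e, intervalIntegral.integral_const_mul, ← mul_assoc]
    congr 1
    field_simp
  have e2 : (∫ s in (0 : ℝ)..a ^ 2 * τ, (a * ∫ x in s / a ^ 2..τ, (α₁ x - α₂ x)) ^ 2)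
      = a ^ 2 * ∫ t in (0 : ℝ)..τ, (a * ∫ x in t..τ, (α₁ x - α₂ x)) ^ 2 := by
    have := intervalIntegral.integral_comp_div (a := 0) (b := a ^ 2 * τ) (fun t => (a * ∫ x in t..τ, (α₁ x - α₂ x)) ^ 2) ha2.ne'
    rw [mul_div_cancel_left₀ _ ha2.ne', zero_div, smul_eq_mul] at this
    exact this
  simp only [e1] at h
  rw [e2] at h
  simp only [mul_pow] at h
  rw [intervalIntegral.integral_const_mul] at h
  obtain ⟨J, hJ⟩ : ∃ J : ℝ, J = ∫ t in (0 : ℝ)..τ, (∫ x in t..τ, (α₁ x - α₂ x)) ^ 2 := ⟨_, rfl⟩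
  rw [← hJ] at h ⊢
  have h3 := mul_le_mul_of_nonneg_left h (inv_pos.2 ha).le
  have e3 : a ^ 3 / 16 * Real.exp (-(18 * (a ^ 2 * τ))) * J = a⁻¹ * (1 / 16 * Real.exp (-(18 * (a ^ 2 * τ))) * (a ^ 2 * (a ^ 2 * J))) := by
    field_simp
  rw [e3]
  linarith

theorem sk_up_coef_seg {a τ : ℝ} {α β : ℝ → ℝ} (h1 : ScCoef a τ α) (h2 : ScCoef a τ β) {θ : ℝ} (hθ : θ ∈ Icc (0 : ℝ) 1) :
    ScCoef a τ (fun r => α r + θ * (β r - α r)) := by
  have e : ∀ r, α r + θ * (β r - α r) = (1 - θ) * α r + θ * β r := fun r => by ring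
  have h0 : 0 ≤ 1 - θ := by linarith [hθ.2]
  refine ⟨fun x hx y hy hxy => ?_, fun t ht => ⟨?_, ?_⟩⟩
  · simp only [e]
    exact add_le_add (mul_le_mul_of_nonneg_left (h1.1 hx hy hxy) h0) (mul_le_mul_of_nonneg_left (h2.1 hx hy hxy) hθ.1)
  · simp only [e]
    exact add_nonneg (mul_nonneg h0 (h1.2 t ht).1) (mul_nonneg hθ.1 (h2.2 t ht).1)
  · simp only [e]
    have := mul_le_mul_of_nonneg_left (h1.2 t ht).2 h0
    have := mul_le_mul_of_nonneg_left (h2.2 t ht).2 hθ.1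
    nlinarith

/-- **the tangent inequality with modulus**: `D` = any number such that `V_{α + θ (β - α)}(0,0) - V_α(0,0) ≥ θ D - C θ²`      (`D = (1/2) ∫ (β - α) Γ_α` by the first variation) -/
theorem sk_up_tangent_a {a τ : ℝ} (ha : 0 < a) (hτ : 0 < τ) {α β : ℝ → ℝ} (h1 : ScCoef a τ α) (h2 : ScCoef a τ β) {D C : ℝ}
    (hD : ∀ θ ∈ Icc (0 : ℝ) 1, θ * D - C * θ ^ 2 ≤ scVa (scLC a) (fun r => α r + θ * (β r - α r)) τ 0 0 - scVa (scLC a) α τ 0 0) :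
    scVa (scLC a) α τ 0 0 + D + a ^ 3 / 4 * Real.exp (-(18 * (a ^ 2 * τ))) * ∫ s in (0 : ℝ)..τ, (∫ r in s..τ, (β r - α r)) ^ 2
      ≤ scVa (scLC a) β τ 0 0 := by
  obtain ⟨c0, hc0⟩ : ∃ c0 : ℝ, c0 = a ^ 3 / 16 * Real.exp (-(18 * (a ^ 2 * τ))) := ⟨_, rfl⟩
  obtain ⟨J, hJ⟩ : ∃ J : ℝ, J = ∫ s in (0 : ℝ)..τ, (∫ r in s..τ, (β r - α r)) ^ 2 := ⟨_, rfl⟩
  have key := sk_up_tangent (e := fun θ => scVa (scLC a) (fun r => α r + θ * (β r - α r)) τ 0 0 - scVa (scLC a) α τ 0 0)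
    (c := c0 * J) (D := D) ?_ ?_
  · simp only [one_mul] at key
    have e : (fun r => α r + (β r - α r)) = β := by
      funext r
      ring
    rw [e] at key
    rw [← hJ]
    have e2 : a ^ 3 / 4 * Real.exp (-(18 * (a ^ 2 * τ))) * J = 4 * (c0 * J) := by
      rw [hc0]
      ring
    rw [e2]
    linarith
  · intro θ hθ
    have h := sk_up_gen_a ha hτ h1 (sk_up_coef_seg h1 h2 hθ)
    rw [← hc0] at h
    have e1 : (fun t => (α t + (α t + θ * (β t - α t))) / 2) = fun r => α r + θ / 2 * (β r - α r) := by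
      funext t
      ring
    rw [e1] at h
    have e2 : ∀ s : ℝ, (∫ r in s..τ, (α r - (α r + θ * (β r - α r)))) = -θ * ∫ r in s..τ, (β r - α r) := by
      intro s
      rw [← intervalIntegral.integral_const_mul]
      congr 1
      funext r
      ring
    simp only [e2, mul_pow] at h
    rw [intervalIntegral.integral_const_mul, ← hJ] at h
    have e3 : (-θ) ^ 2 = θ ^ 2 := by ring
    rw [e3] at h
    linarith
  · intro ε hε
    have hz : Tendsto (fun n : ℕ => |C| * (1 / 2 : ℝ) ^ n) atTop (𝓝 (|C| * 0)) :=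
      (tendsto_pow_atTop_nhds_zero_of_lt_one (by norm_num) (by norm_num)).const_mul _
    rw [mul_zero] at hz
    refine (hz.eventually (gt_mem_nhds hε)).frequently.mono fun n hn => ?_
    have hx0 : (0 : ℝ) ≤ (1 / 2) ^ n := by positivity
    have hx1 : ((1 / 2 : ℝ)) ^ n ≤ 1 := pow_le_one₀ (by norm_num) (by norm_num)
    have h := hD ((1 / 2) ^ n) ⟨hx0, hx1⟩
    have h2n : (0 : ℝ) ≤ 2 ^ n := by positivity
    have h3 := mul_le_mul_of_nonneg_left h h2n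
    have e2 : (2 : ℝ) ^ n * (1 / 2) ^ n = 1 := by
      rw [← mul_pow]
      norm_num
    have e3 : (2 : ℝ) ^ n * ((1 / 2) ^ n * D - C * ((1 / 2) ^ n) ^ 2) = ((2 : ℝ) ^ n * (1 / 2) ^ n) * D - C * ((2 : ℝ) ^ n * (1 / 2) ^ n) * (1 / 2) ^ n := by
      ring
    rw [e3, e2] at h3
    have h4 : C * (1 / 2 : ℝ) ^ n ≤ |C| * (1 / 2) ^ n := mul_le_mul_of_nonneg_right (le_abs_self C) hx0
    linarith

end Claimed.Agent.R286
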