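import Claimed.Agent.R286.Sc.Gen
import Claimed.Agent.R286.Sc.GenQ
import Claimed.Agent.R286.Sc.Fv
import Claimed.Agent.R286.Sc.LinkClk
import Claimed.Agent.R286.Sc.CurvX
import Claimed.Agent.R286.Sc.Bound2
import Claimed.Agent.R286.Sc.Hopf
import Claimed.Agent.R286.Sc.MomG
import Claimed.Agent.R286.Sc.Lip90
import Claimed.Agent.R286.Defs.Clk
import Claimed.Agent.R286.Sc.UpGen
import Claimed.Agent.R286.Sc.HopfX

/-!
# Row 286 (S0533), BOX-C (scalar block): CONTRACT = the EXITS of the box      (section head helper183; prefix `sc_x_`)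

Vocabulary: `Sc/Prof.lean` (helper95), `Sc/GenDefs.lean` (helper183), `Defs/Clk.lean` (helper76).   VARIANCE TIME `t ∈ [0,τ]`, unit diffusion, terminal datum `scLC a = a⁻¹ log cosh(a z)`,
coefficient `α` with `ScCoef a τ α` (monotone on `[0,τ]`, values in `[0,a]`).   A clock `K` (function of the mass) enters through `α = scAlK a K` (`= bdDist K` for `a = 1`).   PE time `q = t/T`: wrappers in `Sc/Pkg.lean` (helper229).
`V = scVa`, `∂_z^k V = scaD k`, `E φ(Z_t) = scaEx`, `Γ = scaGam`, `E V_zz² = scaM2`, `E V_zz³ = scaM3`, `E V_zzz² = scaN3`, `E V_zzzz² = scaN4`, `E V_zz V_zzz² = scaM13`.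
IMPORTS of the box: Mathlib only (+ `Defs/Gh, Sk, Clk` for section 8).      Every `sorry` below has an OWNER; it is discharged by citing the owner's file (this file will then import it).
USERS: PE Sec 5 (98, 155, 24, 67, 108), PE Sec 4 (223), LL 02/03 (93, 272, 253), LL 05+06 (84), LL 07 (12: `Bd7Sc.Ok`), LL 09.
TEXDROP[FS:tail:class] not needed (comparison with the barrier `ε(1+x²)e^{μt}`, `Sc/MaxP2.lean`).   TEXDROP[FS:lem:diffusion] no SDE: the law of `Z_t` is given by the operators `scPt`.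
TEXDROP[FS:thm:full-support], TEXDROP[FS:cor:smooth-measure], TEXDROP[FS:cor:algorithm] zero temperature: not used.
-/

set_option autoImplicit false
set_option linter.unusedVariables false

namespace Claimed.Agent.R286

open MeasureTheory ProbabilityTheory Filter Topology Set

/-! ## 1. the limits exist (S4.5)      OWNER helper100 (`Sc/Stab.lean`, `Sc/Gen.lean`) -/

theorem sc_x_apx_dy {a τ : ℝ} (ha : 0 < a) (hτ : 0 < τ) {α : ℝ → ℝ} (hα : ScCoef a τ α) : ScApx a τ α (scDy α τ) := by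
  exact scg_dy_apx hτ.le hα

/-- the positive dyadic profiles, from the rank where `2^-n ≤ a` -/
theorem sc_x_apx_dyP {a τ : ℝ} (ha : 0 < a) (hτ : 0 < τ) {α : ℝ → ℝ} (hα : ScCoef a τ α) :
    ∃ n0 : ℕ, ScApx a τ α (fun n => scDyP α τ (n + n0)) := by
  have h := scg_dyP_apx hτ.le hα
  have hl2 : Tendsto (fun n : ℕ => (1 / 2 : ℝ) ^ n) atTop (𝓝 0) := tendsto_pow_atTop_nhds_zero_of_lt_one (by norm_num) (by norm_num)
  obtain ⟨n0, hn0⟩ := (hl2.eventually (gt_mem_nhds ha)).exists_forall_of_atTop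
  exact ⟨n0, ⟨ha.le, fun n => sc_cv_dyP_adm hα hτ.le (hn0 (n + n0) (by omega)).le, fun n => h.inc _, fun n => h.len _, h.int,
    (tendsto_add_atTop_iff_nat (f := fun n => ∫ r in (0:ℝ)..τ, |scAl (scDyP α τ n) r - α r|) n0).2 h.l1⟩⟩

/-- all space derivatives converge, uniformly in `(t,z)` -/
theorem sc_x_D_lim {a τ : ℝ} (ha : 0 < a) (hτ : 0 < τ) {α : ℝ → ℝ} (hα : ScCoef a τ α) {π : ℕ → List (ℝ × ℝ)} (hπ : ScApx a τ α π) (k : ℕ) :
    ∀ ε > 0, ∀ᶠ n in atTop, ∀ t ∈ Icc 0 τ, ∀ z, |scD k (scLC a) (π n) t z - scaD k (scLC a) α τ t z| ≤ ε := by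
  intro ε hε
  obtain ⟨N, hN⟩ := scg_D_unif (sc_logcosh_BI a) hτ.le hα hπ k hε
  filter_upwards [eventually_ge_atTop N] with n hn t ht z
  exact hN n hn t ht.1 z

/-- the transition operators converge -/
theorem sc_x_P_lim {a τ : ℝ} (ha : 0 < a) (hτ : 0 < τ) {α : ℝ → ℝ} (hα : ScCoef a τ α) {π : ℕ → List (ℝ × ℝ)} (hπ : ScApx a τ α π)
    {φ : ℝ → ℝ} (hφ : ScE 0 φ) {s t : ℝ} (hs : 0 ≤ s) (hst : s ≤ t) (ht : t ≤ τ) (z : ℝ) :
    Tendsto (fun n => scPt (scLC a) (π n) s t φ z) atTop (𝓝 (scPa (scLC a) α τ s t φ z)) :=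
  sgq_P_tendsto_apx (sc_logcosh_BI a) hτ.le hα hπ hφ hs hst ht z

/-- convergence with moving test functions (uniformly convergent, uniformly of exponential growth) -/
theorem sc_x_P_lim' {a τ : ℝ} (ha : 0 < a) (hτ : 0 < τ) {α : ℝ → ℝ} (hα : ScCoef a τ α) {π : ℕ → List (ℝ × ℝ)} (hπ : ScApx a τ α π)
    {φ : ℝ → ℝ} (hφ : ScE 0 φ) {φn : ℕ → ℝ → ℝ} (hφn : ∀ n, ScE 0 (φn n)) (hu : ∀ ε > 0, ∀ᶠ n in atTop, ∀ z, |φn n z - φ z| ≤ ε)
    {s t : ℝ} (hs : 0 ≤ s) (hst : s ≤ t) (ht : t ≤ τ) (z : ℝ) :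
    Tendsto (fun n => scPt (scLC a) (π n) s t (φn n) z) atTop (𝓝 (scPa (scLC a) α τ s t φ z)) :=
  sgq_P_tendsto_mov (sc_logcosh_BI a) hτ.le hα hπ hφ hφn le_rfl (fun ε hε => by simpa using hu ε hε) hs hst ht z

theorem sc_x_aux_BI (a : ℝ) : ScBI (scLC a) := sc_logcosh_BI a

theorem sc_x_aux_ad {a : ℝ} (ha : 0 < a) : ScAd a (scLC a) := ScAd.logcosh ha

theorem sc_x_aux_low {a : ℝ} (ha : 0 < a) (z : ℝ) : a * scSech a z ≤ deriv (deriv (scLC a)) z :=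
  (sc_logcosh_deriv2 ha.ne' z).ge

theorem sc_x_aux_sech (a z : ℝ) : scSech a z = 1 / Real.cosh (a * z) ^ 2 := by
  have hc := (Real.cosh_pos (a * z)).ne'
  unfold scSech
  rw [Real.tanh_eq_sinh_div_cosh]
  field_simp
  nlinarith [Real.cosh_sq (a * z)]

/-- a step profile is its own limit -/
theorem sc_x_step {a : ℝ} (ha : 0 < a) {π : List (ℝ × ℝ)} (hadm : ScAdm a π) (hinc : ScInc π) (hl : 0 < scLen π) {t : ℝ} (ht : t ∈ Icc 0 (scLen π)) :
    scVa (scLC a) (fun r => if r < scLen π then scAl π r else a) (scLen π) t = scVt (scLC a) π t := by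
  have hco : ScCoef a (scLen π) (fun r => if r < scLen π then scAl π r else a) := by
    refine ⟨fun x _ y _ hxy => ?_, fun r _ => ?_⟩
    · show (if x < scLen π then scAl π x else a) ≤ (if y < scLen π then scAl π y else a)
      by_cases hy : y < scLen π
      · rw [if_pos hy, if_pos (lt_of_le_of_lt hxy hy)]
        exact sc_Al_mono hadm.pos hinc (lt_of_le_of_lt hxy hy) hy hxy
      · rw [if_neg hy]
        by_cases hx : x < scLen π
        · rw [if_pos hx]; exact (sc_Al_mem ha.le hadm x).2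
        · rw [if_neg hx]
    · show 0 ≤ (if r < scLen π then scAl π r else a) ∧ (if r < scLen π then scAl π r else a) ≤ a
      by_cases hr : r < scLen π
      · rw [if_pos hr]; exact sc_Al_mem ha.le hadm r
      · rw [if_neg hr]; exact ⟨ha.le, le_rfl⟩
  exact scg_step (sc_x_aux_BI a) hco hadm hinc rfl (fun r hr => if_pos hr.2) ht.1

/-! ## 2. regularity and a-priori bounds (S3; PE Lemma 5.3, first part)      OWNERS helper92, helper90 (`Sc/Bound*.lean`), helper92 (`Sc/Tau.lean`), passage to the limit helper100 -/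

/-- TEX[PE:prof:scalar-derivatives] (regularity) -/
theorem sc_x_reg {a τ : ℝ} (ha : 0 < a) (hτ : 0 < τ) {α : ℝ → ℝ} (hα : ScCoef a τ α) {t : ℝ} (ht : t ∈ Icc 0 τ) (n : ℕ) :
    ScB n (scVa (scLC a) α τ t) := by
  exact scg_Va_BI (sc_logcosh_BI a) hτ.le hα ht.1 n

theorem sc_x_term {a τ : ℝ} (ha : 0 < a) (hτ : 0 < τ) {α : ℝ → ℝ} (hα : ScCoef a τ α) : scVa (scLC a) α τ τ = scLC a := by
  exact scg_Va_of_le _ α hτ.le le_rfl

theorem sc_x_even {a τ : ℝ} (ha : 0 < a) (hτ : 0 < τ) {α : ℝ → ℝ} (hα : ScCoef a τ α) {t : ℝ} (ht : t ∈ Icc 0 τ) (z : ℝ) :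
    scVa (scLC a) α τ t (-z) = scVa (scLC a) α τ t z := by
  have h := scg_aD_parity (F := scLC a) (sc_logcosh_BI a) (ScAd.logcosh ha).even hτ.le hα 0 ht.1 z
  simpa [scg_aD_zero] using h

/-- parity of the derivatives -/
theorem sc_x_D_parity {a τ : ℝ} (ha : 0 < a) (hτ : 0 < τ) {α : ℝ → ℝ} (hα : ScCoef a τ α) {t : ℝ} (ht : t ∈ Icc 0 τ) (k : ℕ) (z : ℝ) :
    scaD k (scLC a) α τ t (-z) = (-1) ^ k * scaD k (scLC a) α τ t z := by
  exact scg_aD_parity (sc_logcosh_BI a) (ScAd.logcosh ha).even hτ.le hα k ht.1 z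

theorem sc_x_u_le {a τ : ℝ} (ha : 0 < a) (hτ : 0 < τ) {α : ℝ → ℝ} (hα : ScCoef a τ α) {t : ℝ} (ht : t ∈ Icc 0 τ) (z : ℝ) :
    |scaD 1 (scLC a) α τ t z| < 1 ∧ |scaD 1 (scLC a) α τ t z| ≤ a * |z| := by
  have h := scg_Va_ad (sc_x_aux_ad ha) ha (sc_x_aux_low ha) hτ.le hα ht.1
  refine ⟨?_, h.deriv_abs_le_mul z⟩
  have h1 := h.pos z
  have h2 := h.hess z
  have h3 : 0 < 1 - deriv (scVa (scLC a) α τ t) z ^ 2 := by
    by_contra hn
    rw [not_lt] at hn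
    nlinarith
  show |deriv (scVa (scLC a) α τ t) z| < 1
  rw [abs_lt]
  constructor <;> nlinarith

/-- (A1) for a general coefficient, `t < τ`: shift the origin of time to `t`; the dyadic approximants of the shifted coefficient start with the mass `α t` -/
theorem sc_x_aux_A1 {a τ : ℝ} (ha : 0 < a) {α : ℝ → ℝ} (hα : ScCoef a τ α) {t : ℝ} (ht0 : 0 ≤ t) (ht : t < τ) (z : ℝ) :
    α t * (1 - scaD 1 (scLC a) α τ t z ^ 2) ≤ scaD 2 (scLC a) α τ t z := by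
  have hF : ScBI (scLC a) := sc_logcosh_BI a
  have hσ : 0 < τ - t := sub_pos.2 ht
  have hβ : ScCoef a (τ - t) (fun r => α (t + r)) :=
    ⟨fun x hx y hy hxy => hα.1 ⟨by linarith [hx.1], by linarith [hx.2]⟩ ⟨by linarith [hy.1], by linarith [hy.2]⟩
      (by linarith), fun r hr => hα.2 _ ⟨by linarith [hr.1], by linarith [hr.2]⟩⟩
  have hsh := scg_shift hF hα ht0 ht.le le_rfl
  rw [add_zero] at hsh
  have eD : ∀ k, scaD k (scLC a) α τ t = scaD k (scLC a) (fun r => α (t + r)) (τ - t) 0 := by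
    intro k
    unfold scaD
    rw [hsh]
  rw [eD 1, eD 2]
  have hA := scg_dy_apx hσ.le hβ
  have l1 := scg_D_tendsto hF hσ.le hβ hA 1 le_rfl z
  have l2 := scg_D_tendsto hF hσ.le hβ hA 2 le_rfl z
  refine le_of_tendsto_of_tendsto' (((l1.pow 2).const_sub 1).const_mul (α t)) l2 fun n => ?_
  have h1 := scb_LC_w_ge_al ha (hA.adm n) (hA.inc n) 0 z
  have h2 : scAl (scDy (fun r => α (t + r)) (τ - t) n) 0 = α t := by
    have hp : 0 < (τ - t) / 2 ^ n := by positivity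
    have := sc_dy_al_cell (fun r => α (t + r)) (τ - t) n 0 (by positivity) (t := 0) (by simp) (by simpa using hp)
    simpa using this
  rwa [h2] at h1

/-- `α(t)(1-u²) ≤ w ≤ a(1-u²)`, `w > 0` (S3.1, A1) -/
theorem sc_x_w {a τ : ℝ} (ha : 0 < a) (hτ : 0 < τ) {α : ℝ → ℝ} (hα : ScCoef a τ α) {t : ℝ} (ht : t ∈ Icc 0 τ) (z : ℝ) :
    0 < scaD 2 (scLC a) α τ t z ∧ α t * (1 - scaD 1 (scLC a) α τ t z ^ 2) ≤ scaD 2 (scLC a) α τ t z ∧
      scaD 2 (scLC a) α τ t z ≤ a * (1 - scaD 1 (scLC a) α τ t z ^ 2) := by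
  have h := scg_Va_ad (ScAd.logcosh ha : ScAd a (scLC a)) ha (fun z => (sc_logcosh_deriv2 ha.ne' z).ge) hτ.le hα ht.1
  refine ⟨h.pos z, ?_, h.hess z⟩
  rcases lt_or_eq_of_le ht.2 with htτ | rfl
  · exact sc_x_aux_A1 ha hα ht.1 htτ z
  · have e1 : scaD 1 (scLC a) α t t = deriv (scLC a) := scg_aD_of_le 1 _ α hτ.le le_rfl
    have e2 : scaD 2 (scLC a) α t t = deriv (deriv (scLC a)) := scg_aD_of_le 2 _ α hτ.le le_rfl
    rw [e1, e2]
    have h1 : deriv (deriv (scLC a)) z = a * scSech a z := sc_logcosh_deriv2 ha.ne' z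
    have h2 : deriv (scLC a) z = Real.tanh (a * z) := congrFun (sc_logcosh_deriv1 ha.ne') z
    rw [h1, h2]
    have h3 : 1 - Real.tanh (a * z) ^ 2 = scSech a z := rfl
    rw [h3]
    exact mul_le_mul_of_nonneg_right (hα.2 t ⟨hτ.le, le_rfl⟩).2 (scSech_pos a z).le

/-- lower bound of the Hessian (A3) -/
theorem sc_x_w_ge {a τ : ℝ} (ha : 0 < a) (hτ : 0 < τ) {α : ℝ → ℝ} (hα : ScCoef a τ α) {t : ℝ} (ht : t ∈ Icc 0 τ) (z : ℝ) :
    a * Real.exp (-(3 * a ^ 2 * (τ - t))) / Real.cosh (a * z) ^ 2 ≤ scaD 2 (scLC a) α τ t z := by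
  have h := scg_w_ge (sc_x_aux_ad ha) ha.le (sc_x_aux_low ha) hτ.le hα ht.1 ht.2 z
  rwa [sc_x_aux_sech, mul_one_div] at h

/-- `V_zzz ≤ 0` on `z ≥ 0` (S6.2) -/
theorem sc_x_v3 {a τ : ℝ} (ha : 0 < a) (hτ : 0 < τ) {α : ℝ → ℝ} (hα : ScCoef a τ α) {t : ℝ} (ht : t ∈ Icc 0 τ) {z : ℝ} (hz : 0 ≤ z) :
    scaD 3 (scLC a) α τ t z ≤ 0 := by
  refine le_of_tendsto' (scg_dy_tendsto (sc_x_aux_BI a) hτ.le hα 3 ht.1 z) fun n => ?_
  exact sch_V3_nonpos ha (sc_dy_adm hτ.le hα n) ht.1 (by rw [sc_dy_len]; exact ht.2) hz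

/-- TEX[PE:prof:scalar-derivatives] bounds of every order, FREE of the horizon `τ` (S3.7; LL 02 l.282) -/
theorem sc_x_D_bdd {a : ℝ} (ha : 0 < a) (k : ℕ) (hk : 1 ≤ k) :
    ∃ C : ℝ, ∀ τ : ℝ, 0 < τ → ∀ α : ℝ → ℝ, ScCoef a τ α → ∀ t ∈ Icc 0 τ, ∀ z, |scaD k (scLC a) α τ t z| ≤ C := by
  obtain ⟨C, _, _, h⟩ := scg_aD_bound ha.le (sc_logcosh_BI a)
  exact ⟨C k, fun τ hτ α hα t ht z => h τ α hτ.le hα k hk t ht.1 z⟩

/-- Lipschitz in time (S3.3) -/
theorem sc_x_D_time {a : ℝ} (ha : 0 < a) (k : ℕ) (hk : 1 ≤ k) :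
    ∃ C : ℝ, ∀ τ : ℝ, 0 < τ → ∀ α : ℝ → ℝ, ScCoef a τ α → ∀ s ∈ Icc 0 τ, ∀ t ∈ Icc 0 τ, ∀ z,
      |scaD k (scLC a) α τ t z - scaD k (scLC a) α τ s z| ≤ C * |t - s| := by
  obtain ⟨C, _, h⟩ := scg_aD_lip ha.le (sc_logcosh_BI a) k
  exact ⟨C, fun τ hτ α hα s hs t ht z => h τ α hτ.le hα t s ht.1 hs.1 z⟩

/-- the nonlinearity of the PDE in the form of the contract -/
theorem sc_x_aux_src {a τ : ℝ} (hτ : 0 ≤ τ) {α : ℝ → ℝ} (hα : ScCoef a τ α) (k : ℕ) {r : ℝ} (hr : 0 ≤ r) (z : ℝ) :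
    deriv^[k] (fun y => scaD 2 (scLC a) α τ r y + α r * scaD 1 (scLC a) α τ r y ^ 2) z
      = scaD (k + 2) (scLC a) α τ r z + 2 * (α r * deriv^[k] (fun y => scaD 1 (scLC a) α τ r y ^ 2 / 2) z) := by
  have hF := sc_x_aux_BI a
  have e1 : ScE k (scaD 2 (scLC a) α τ r) := scg_aD_E hF hτ hα 2 k hr
  have e2 : ScE k (fun y => scaD 1 (scLC a) α τ r y ^ 2 / 2) := by
    have := ((scg_aD_E hF hτ hα 1 k hr).pow 2).const_mul (1 / 2)
    refine (congrArg (ScE k) (funext fun y => ?_)).mp this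
    ring
  have e3 : (fun y => scaD 2 (scLC a) α τ r y + α r * scaD 1 (scLC a) α τ r y ^ 2)
      = fun y => scaD 2 (scLC a) α τ r y + (2 * α r) * (scaD 1 (scLC a) α τ r y ^ 2 / 2) := by
    funext y; ring
  rw [e3, sc_iter_deriv_add e1 (e2.const_mul _), sc_iter_deriv_const_mul]
  have e4 : deriv^[k] (scaD 2 (scLC a) α τ r) = scaD (k + 2) (scLC a) α τ r := by
    unfold scaD
    rw [← Function.iterate_add_apply]
  rw [e4]
  ring

/-- the PDE, integrated in time, differentiated `k` times in space (S4.5) -/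
theorem sc_x_pde {a τ : ℝ} (ha : 0 < a) (hτ : 0 < τ) {α : ℝ → ℝ} (hα : ScCoef a τ α) (k : ℕ) {s t : ℝ} (hs : s ∈ Icc 0 τ) (ht : t ∈ Icc 0 τ) (z : ℝ) :
    scaD k (scLC a) α τ t z - scaD k (scLC a) α τ s z
      = -(1 / 2) * ∫ r in s..t, deriv^[k] (fun y => scaD 2 (scLC a) α τ r y + α r * scaD 1 (scLC a) α τ r y ^ 2) z := by
  have hF := sc_x_aux_BI a
  have key : ∀ s t : ℝ, s ∈ Icc 0 τ → t ∈ Icc 0 τ → s ≤ t →
      scaD k (scLC a) α τ t z - scaD k (scLC a) α τ s z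
      = -(1 / 2) * ∫ r in s..t, deriv^[k] (fun y => scaD 2 (scLC a) α τ r y + α r * scaD 1 (scLC a) α τ r y ^ 2) z := by
    intro s t hs ht hst
    rw [scg_pde hF hα k hs.1 hst ht.2 z, ← intervalIntegral.integral_const_mul]
    refine intervalIntegral.integral_congr fun r hr => ?_
    rw [uIcc_of_le hst] at hr
    show _ = -(1 / 2) * deriv^[k] (fun y => scaD 2 (scLC a) α τ r y + α r * scaD 1 (scLC a) α τ r y ^ 2) z
    rw [sc_x_aux_src hτ.le hα k (hs.1.trans hr.1) z]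
    ring
  rcases le_total s t with hst | hst
  · exact key s t hs ht hst
  · have := key t s ht hs hst
    rw [intervalIntegral.integral_symm]
    linarith

/-- joint continuity -/
theorem sc_x_D_cont {a τ : ℝ} (ha : 0 < a) (hτ : 0 < τ) {α : ℝ → ℝ} (hα : ScCoef a τ α) (k : ℕ) :
    ContinuousOn (fun p : ℝ × ℝ => scaD k (scLC a) α τ p.1 p.2) (Icc 0 τ ×ˢ univ) :=
  (scg_aD_T (sc_x_aux_BI a) hτ.le hα k 0 τ).continuousOn

/-! ## 3. the law of `Z_t`      OWNER helper100 (`Sc/Gen.lean`); density and lower bound: helper230 (`Fs/Bridge.lean`, A6) -/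

/-- Chapman-Kolmogorov -/
theorem sc_x_ck {a τ : ℝ} (ha : 0 < a) (hτ : 0 < τ) {α : ℝ → ℝ} (hα : ScCoef a τ α) {s r t : ℝ} (hs : 0 ≤ s) (hsr : s ≤ r) (hrt : r ≤ t) (ht : t ≤ τ)
    {φ : ℝ → ℝ} (hφ : ScE 0 φ) : scPa (scLC a) α τ s r (scPa (scLC a) α τ r t φ) = scPa (scLC a) α τ s t φ :=
  sgq_Pa_Pa (sc_logcosh_BI a) hτ.le hα hφ hs hsr hrt ht

/-- derivative of `ψ + c V` -/
theorem sc_x_aux_deriv_add {ψ V : ℝ → ℝ} (hψ : ScB 1 ψ) (hV : ScB 1 V) (c x : ℝ) :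
    deriv (fun y => ψ y + c * V y) x = deriv ψ x + c * deriv V x :=
  ((hψ.1 x).hasDerivAt.add ((hV.1 x).hasDerivAt.const_mul c)).deriv

/-- Lipschitz bound of the forward factor: `|ψ'(t)| + α(t) ≤ 2 a` (a jump adds `m₊ - m₋`, a step does not increase the constant) -/
theorem sc_x_aux_psi {a : ℝ} {F : ℝ → ℝ} (hF : ScAd a F) : ∀ (π : List (ℝ × ℝ)), ScAdm a π → ScInc π →
    ∀ (a₀ mp : ℝ) (ψ : ℝ → ℝ) (t : ℝ), 0 ≤ a₀ → 0 ≤ mp → mp ≤ a → (∀ p ∈ π, mp ≤ p.1) → ScB 1 ψ →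
      (∀ x, |deriv ψ x| ≤ mp) → 0 ≤ t →
      ScB 1 (scPsiAux F π a₀ mp ψ t) ∧ ∀ x, |deriv (scPsiAux F π a₀ mp ψ t) x| + scAl π t ≤ 2 * a := by
  intro π
  induction π with
  | nil =>
    intro _ _ a₀ mp ψ t _ hmp hmpa _ hψ hL _
    have hB : ScB 1 (fun y => ψ y + (0 - mp) * F y) := hψ.add ((hF.B 1).const_mul _)
    refine ⟨hB, fun x => ?_⟩
    show |deriv (fun y => ψ y + (0 - mp) * F y) x| + 0 ≤ 2 * a
    rw [sc_x_aux_deriv_add hψ (hF.B 1)]
    have h1 := abs_le.1 (hL x)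
    have h2 := abs_le.1 (hF.lip x)
    have h3 : |deriv ψ x + (0 - mp) * deriv F x| ≤ mp + mp := by
      rw [abs_le]
      constructor <;> nlinarith
    linarith
  | cons p π ih =>
    intro adm inc a₀ mp ψ t ha₀ hmp hmpa hle hψ hL ht
    have hp := adm p List.mem_cons_self
    have hV : ScAd a (scV F (p :: π)) := hF.scV adm
    have hsort : ∀ q ∈ π, p.1 ≤ q.1 := (List.pairwise_cons.mp inc).1
    have hl : 0 ≤ p.1 - mp := sub_nonneg.2 (hle p List.mem_cons_self)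
    have hψp : ScB 1 (fun y => ψ y + (p.1 - mp) * scV F (p :: π) y) := hψ.add ((hV.B 1).const_mul _)
    have hLp : ∀ x, |deriv (fun y => ψ y + (p.1 - mp) * scV F (p :: π) y) x| ≤ p.1 := by
      intro x
      rw [sc_x_aux_deriv_add hψ (hV.B 1)]
      have h1 := abs_le.1 (hL x)
      have h2 := abs_le.1 (hV.lip x)
      rw [abs_le]
      constructor <;> nlinarith
    by_cases h : p.2 ≤ t
    · rw [scc_psi_cons, if_pos h, scc_Al_cons, if_pos h]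
      exact ih adm.of_cons inc.of_cons (a₀ + p.2) p.1 _ (t - p.2) (by linarith [hp.2.2]) hp.1 hp.2.1 hsort
        (sc_fw_B hψp a₀ p.2) (fun x => sc_fw_deriv_le hψp hLp ha₀ hp.2.2 x) (by linarith)
    · rw [scc_psi_cons, if_neg h, scc_Al_cons, if_neg h]
      exact ⟨sc_fw_B hψp a₀ t, fun x => by
        have := sc_fw_deriv_le hψp hLp ha₀ ht x
        linarith [hp.2.1]⟩

/-- the density `scWt` is log-Lipschitz with the constant `2 a` -/
theorem sc_x_aux_wt {a : ℝ} {F : ℝ → ℝ} (hF : ScAd a F) {π : List (ℝ × ℝ)} (adm : ScAdm a π) (inc : ScInc π) {t : ℝ}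
    (ht : 0 ≤ t) : Continuous (scWt F π t) ∧ ∀ x, scWt F π t 0 * Real.exp (-(2 * a * |x|)) ≤ scWt F π t x ∧
      scWt F π t x ≤ scWt F π t 0 * Real.exp (2 * a * |x|) := by
  have ha := hF.mass_pos
  obtain ⟨hB, hL⟩ := sc_x_aux_psi hF π adm inc 0 0 (fun _ => 0) t le_rfl le_rfl ha.le
    (fun p hp => (adm p hp).1) (ScB.const 1 0) (fun x => by simp) ht
  have hV : ScAd a (scVt F π t) := hF.scVt adm t
  have hal := sc_Al_mem ha.le adm t
  have hd : ∀ x, HasDerivAt (fun x => scAl π t * scVt F π t x - scPsi F π t x)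
      (scAl π t * deriv (scVt F π t) x - deriv (scPsi F π t) x) x := fun x =>
    (((hV.B 1).1 x).hasDerivAt.const_mul _).sub (hB.1 x).hasDerivAt
  have hb : ∀ x, |scAl π t * deriv (scVt F π t) x - deriv (scPsi F π t) x| ≤ 2 * a := by
    intro x
    have h1 := abs_le.1 (hV.lip x)
    have h2 : |deriv (scPsi F π t) x| + scAl π t ≤ 2 * a := hL x
    have h3 := abs_le.1 (le_refl |deriv (scPsi F π t) x|)
    rw [abs_le]
    constructor <;> nlinarith [hal.1]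
  have hlip : ∀ x, |(scAl π t * scVt F π t x - scPsi F π t x) - (scAl π t * scVt F π t 0 - scPsi F π t 0)|
      ≤ 2 * a * |x| := by
    intro x
    have := Convex.norm_image_sub_le_of_norm_hasDerivWithin_le
      (f := fun x => scAl π t * scVt F π t x - scPsi F π t x)
      (f' := fun x => scAl π t * deriv (scVt F π t) x - deriv (scPsi F π t) x) (s := univ) (C := 2 * a)
      (x := 0) (y := x) (fun y _ => (hd y).hasDerivWithinAt) (fun y _ => by rw [Real.norm_eq_abs]; exact hb y)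
      convex_univ (mem_univ _) (mem_univ _)
    simpa [Real.norm_eq_abs] using this
  refine ⟨?_, fun x => ?_⟩
  · have hc : Continuous (fun x => scAl π t * scVt F π t x - scPsi F π t x) :=
      continuous_iff_continuousAt.2 fun x => (hd x).continuousAt
    exact Real.continuous_exp.comp hc
  · have h1 := abs_le.1 (hlip x)
    unfold scWt
    rw [← Real.exp_add, ← Real.exp_add]
    exact ⟨Real.exp_le_exp.2 (by linarith [h1.1]), Real.exp_le_exp.2 (by linarith [h1.2])⟩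

/-- step level of `sc_x_law_ge` -/
theorem sc_x_aux_law_ge {a : ℝ} {F : ℝ → ℝ} (hF : ScAd a F) {π : List (ℝ × ℝ)} (adm : ScAdm a π) (inc : ScInc π) {t : ℝ}
    (ht : 0 ≤ t) (htl : t ≤ scLen π) {φ : ℝ → ℝ} (hφ : ScE 0 φ) (h0 : ∀ x, 0 ≤ φ x) :
    Real.exp (-(2 * a ^ 2 * scLen π)) / 2 * scHeat t (fun x => φ x * Real.exp (-(2 * a * |x|))) 0 ≤ scEx F π t φ := by
  have ha := hF.mass_pos
  obtain ⟨hc, hW⟩ := sc_x_aux_wt hF adm inc ht
  have hW0 : 0 < scWt F π t 0 := Real.exp_pos _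
  have hlen : 0 ≤ scLen π := ht.trans htl
  have hWp : ∀ x, 0 < scWt F π t x := fun x => Real.exp_pos _
  have hWE : ScE 0 (scWt F π t) := ⟨hc, ⟨scWt F π t 0, 2 * a, fun x => by
    rw [abs_of_pos (hWp x)]; exact (hW x).2⟩⟩
  have hexp : ScE 0 (fun x : ℝ => Real.exp (-(2 * a * |x|))) := by
    refine ⟨by fun_prop, ScG.of_bdd (C := 1) fun z => ?_⟩
    rw [abs_of_pos (Real.exp_pos _)]
    exact Real.exp_le_one_iff.2 (by have := abs_nonneg z; nlinarith)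
  -- normalisation
  have hnorm : scHeat t (scWt F π t) 0 = 1 := by
    have h1 := sc_ex_eq_wt hF.B adm.pos (ScE.const 0 1) ht htl
    simp only [one_mul] at h1
    rw [← h1]
    unfold scEx
    rw [sc_Pt_const hF.B]
  have hlow : Real.exp (-(2 * a ^ 2 * scLen π)) / 2 ≤ scWt F π t 0 := by
    have h1 := sc_heat_le_unif (f := scWt F π t) hW0.le (by positivity : 0 ≤ 2 * a) (fun x => by
      rw [abs_of_pos (hWp x)]; exact (hW x).2) htl 0
    rw [hnorm, abs_one, abs_zero, mul_zero, Real.exp_zero, mul_one, max_eq_left hlen] at h1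
    have e : (2 * a) ^ 2 * scLen π / 2 = 2 * a ^ 2 * scLen π := by ring
    rw [e] at h1
    rw [Real.exp_neg, div_le_iff₀ (by norm_num : (0:ℝ) < 2), inv_le_iff_one_le_mul₀ (Real.exp_pos _)]
    linarith
  have hnn : 0 ≤ scHeat t (fun x => φ x * Real.exp (-(2 * a * |x|))) 0 :=
    integral_nonneg fun g => mul_nonneg (h0 _) (Real.exp_pos _).le
  rw [sc_ex_eq_wt hF.B adm.pos hφ ht htl]
  have h2 : scHeat t (fun x => scWt F π t 0 * (φ x * Real.exp (-(2 * a * |x|)))) 0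
      ≤ scHeat t (fun x => φ x * scWt F π t x) 0 :=
    sc_heat_mono ((hφ.mul hexp).const_mul _) (hφ.mul hWE) (fun x => by
      have := mul_le_mul_of_nonneg_left (hW x).1 (h0 x)
      linarith) t 0
  rw [sc_heat_const_mul] at h2
  exact (mul_le_mul_of_nonneg_right hlow hnn).trans h2

/-- lower bound of the law by a Gaussian with exponential weight -/
theorem sc_x_law_ge {a τ : ℝ} (ha : 0 < a) (hτ : 0 < τ) :
    ∃ c : ℝ, 0 < c ∧ ∀ α : ℝ → ℝ, ScCoef a τ α → ∀ t ∈ Icc 0 τ, ∀ φ : ℝ → ℝ, ScE 0 φ → (∀ x, 0 ≤ φ x) →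
      c * scHeat t (fun x => φ x * Real.exp (-(2 * a * |x|))) 0 ≤ scaEx (scLC a) α τ t φ := by
  refine ⟨Real.exp (-(2 * a ^ 2 * τ)) / 2, by positivity, fun α hα t ht φ hφ h0 => ?_⟩
  have hA := sc_x_apx_dy ha hτ hα
  have hl := sc_x_P_lim ha hτ hα hA hφ le_rfl ht.1 ht.2 0
  refine ge_of_tendsto hl (Eventually.of_forall fun n => ?_)
  have := sc_x_aux_law_ge (sc_x_aux_ad ha) (hA.adm n) (hA.inc n) ht.1 (by rw [hA.len n]; exact ht.2) hφ h0
  rwa [hA.len n] at this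

/-- martingale property of `u = V_z` (S5.3) -/
theorem sc_x_mart {a τ : ℝ} (ha : 0 < a) (hτ : 0 < τ) {α : ℝ → ℝ} (hα : ScCoef a τ α) {s t : ℝ} (hs : 0 ≤ s) (hst : s ≤ t) (ht : t ≤ τ) :
    scPa (scLC a) α τ s t (scaD 1 (scLC a) α τ t) = scaD 1 (scLC a) α τ s := by
  funext z
  have hF := sc_x_aux_BI a
  have hA := sc_x_apx_dy ha hτ hα
  have h1 := sc_x_P_lim' ha hτ hα hA (φ := scaD 1 (scLC a) α τ t) (scg_aD_E hF hτ.le hα 1 0 (hs.trans hst))
    (φn := fun n => scD 1 (scLC a) (scDy α τ n) t) (fun n => sc_D_E hF 1 0 _ t)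
    (fun ε hε => by
      filter_upwards [sc_x_D_lim ha hτ hα hA 1 ε hε] with n hn z
      exact hn t ⟨hs.trans hst, ht⟩ z) hs hst ht z
  have h2 : ∀ n, scPt (scLC a) (scDy α τ n) s t (scD 1 (scLC a) (scDy α τ n) t) z
      = scD 1 (scLC a) (scDy α τ n) s z := fun n => by
    rw [sc_D1_mart hF (hA.adm n).pos hst]
  simp only [h2] at h1
  exact tendsto_nhds_unique h1 (scg_D_tendsto hF hτ.le hα hA 1 hs z)

/-! ## 4. moment curves (S5; PE Lemma 5.3, identities)      OWNER helper197 (`Sc/Mom.lean`) -/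

/-- TEX[PE:prof:scalar-derivatives] `Γ' = E V_zz²` -/
theorem sc_x_Gam {a τ : ℝ} (ha : 0 < a) (hτ : 0 < τ) {α : ℝ → ℝ} (hα : ScCoef a τ α) {t : ℝ} (ht : t ∈ Icc 0 τ) :
    scaGam (scLC a) α τ t = ∫ r in (0:ℝ)..t, scaM2 (scLC a) α τ r := by
  exact scm_exit_Gam (scb_LC_cont ha) hα ht

/-- TEX[PE:prof:scalar-derivatives] `Γ'' = E V_zzz² - 2 α E V_zz³` -/
theorem sc_x_M2 {a τ : ℝ} (ha : 0 < a) (hτ : 0 < τ) {α : ℝ → ℝ} (hα : ScCoef a τ α) {s t : ℝ} (hs : s ∈ Icc 0 τ) (ht : t ∈ Icc 0 τ) :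
    scaM2 (scLC a) α τ t - scaM2 (scLC a) α τ s = ∫ r in s..t, (scaN3 (scLC a) α τ r - 2 * α r * scaM3 (scLC a) α τ r) := by
  exact scm_exit_M2 (scb_LC_cont ha) hα hs ht

theorem sc_x_N3 {a τ : ℝ} (ha : 0 < a) (hτ : 0 < τ) {α : ℝ → ℝ} (hα : ScCoef a τ α) {s t : ℝ} (hs : s ∈ Icc 0 τ) (ht : t ∈ Icc 0 τ) :
    scaN3 (scLC a) α τ t - scaN3 (scLC a) α τ s = ∫ r in s..t, (scaN4 (scLC a) α τ r - 6 * α r * scaM13 (scLC a) α τ r) := by
  exact scm_gen_N3 (scb_LC_cont ha).smooth hα hs ht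

/-- all moment curves are continuous -/
theorem sc_x_cont {a τ : ℝ} (ha : 0 < a) (hτ : 0 < τ) {α : ℝ → ℝ} (hα : ScCoef a τ α) :
    ContinuousOn (scaGam (scLC a) α τ) (Icc 0 τ) ∧ ContinuousOn (scaM2 (scLC a) α τ) (Icc 0 τ) ∧ ContinuousOn (scaM3 (scLC a) α τ) (Icc 0 τ) ∧
      ContinuousOn (scaN3 (scLC a) α τ) (Icc 0 τ) ∧ ContinuousOn (scaN4 (scLC a) α τ) (Icc 0 τ) ∧ ContinuousOn (scaM13 (scLC a) α τ) (Icc 0 τ) := by
  obtain ⟨h1, h2, h3, _, h5, h6, h7⟩ := scm_exit_cont (scb_LC_cont ha) hα hτ.le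
  exact ⟨h1, h2, h3, h5, h6, h7⟩

/-- values at time `0` -/
theorem sc_x_zero {a τ : ℝ} (ha : 0 < a) (hτ : 0 < τ) {α : ℝ → ℝ} (hα : ScCoef a τ α) (φ : ℝ → ℝ) : scaEx (scLC a) α τ 0 φ = φ 0 := by
  unfold scaEx scPa
  simp only [sc_Pt_self]
  exact tendsto_const_nhds.limUnder_eq

/-- `Γ(τ) < 1`, `0 ≤ Γ ≤ 1` -/
theorem sc_x_Gam_mem {a τ : ℝ} (ha : 0 < a) (hτ : 0 < τ) {α : ℝ → ℝ} (hα : ScCoef a τ α) {t : ℝ} (ht : t ∈ Icc 0 τ) :
    0 ≤ scaGam (scLC a) α τ t ∧ scaGam (scLC a) α τ t < 1 := by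
  have h := shx_Gam_mem ha hτ.le hα ht
  exact ⟨h.1, lt_of_le_of_lt h.2 (by linarith [Real.exp_pos (-(3 * a ^ 2 * τ))])⟩

/-- expansions at the origin of time (PE Lemma 5.4 l.291-300, LL 07: `Bd7Sc.Ok.P3_exp, B2_exp`) -/
theorem sc_x_exp {a τ : ℝ} (ha : 0 < a) (hτ : 0 < τ) :
    ∃ C : ℝ, ∀ α : ℝ → ℝ, ScCoef a τ α → ∀ t ∈ Icc 0 τ,
      |scaN3 (scLC a) α τ t - scaD 4 (scLC a) α τ 0 0 ^ 2 * t| ≤ C * (t * Real.sqrt t) ∧
      |scaM3 (scLC a) α τ t - scaD 2 (scLC a) α τ 0 0 ^ 3| ≤ C * Real.sqrt t ∧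
      |scaM2 (scLC a) α τ t - scaD 2 (scLC a) α τ 0 0 ^ 2| ≤ C * t := by
  obtain ⟨C, hC0, hC⟩ := scm_exit_exp (scb_LC_cont ha)
  refine ⟨C * (Real.sqrt τ + 1), fun α hα t ht => ?_⟩
  obtain ⟨h1, h2, h3⟩ := hC τ α hα t ht
  have hs : Real.sqrt t ≤ Real.sqrt τ := Real.sqrt_le_sqrt ht.2
  have hs0 : 0 ≤ Real.sqrt t := Real.sqrt_nonneg t
  have hsq : Real.sqrt t * Real.sqrt t = t := Real.mul_self_sqrt ht.1
  have ht0 := ht.1
  refine ⟨h1.trans ?_, h2.trans ?_, h3.trans ?_⟩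
  · have : t ^ 2 ≤ (Real.sqrt τ + 1) * (t * Real.sqrt t) := by
      have e : t ^ 2 = Real.sqrt t * (t * Real.sqrt t) := by nlinarith
      rw [e]
      exact mul_le_mul_of_nonneg_right (by linarith) (by positivity)
    calc C * t ^ 2 ≤ C * ((Real.sqrt τ + 1) * (t * Real.sqrt t)) := mul_le_mul_of_nonneg_left this hC0
      _ = _ := by ring
  · have : t ≤ (Real.sqrt τ + 1) * Real.sqrt t := by
      calc t = Real.sqrt t * Real.sqrt t := hsq.symm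
        _ ≤ _ := mul_le_mul_of_nonneg_right (by linarith) hs0
    calc C * t ≤ C * ((Real.sqrt τ + 1) * Real.sqrt t) := mul_le_mul_of_nonneg_left this hC0
      _ = _ := by ring
  · have : C * t ≤ C * (Real.sqrt τ + 1) * t := by
      have h0 : 0 ≤ C * Real.sqrt τ * t := by positivity
      nlinarith
    exact this

/-! ## 5. strict curvature (S6; PE Lemma 5.3, last part)      OWNER helper141 (`Sc/Hopf.lean`) -/

/-- TEX[PE:prof:scalar-derivatives] `c ≤ V_zz(0,0) ≤ C`, `c ≤ -V_zzzz(0,0) ≤ C` -/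
theorem sc_x_hopf {a τ : ℝ} (ha : 0 < a) (hτ : 0 < τ) :
    ∃ c C : ℝ, 0 < c ∧ ∀ τ' : ℝ, 0 < τ' → τ' ≤ τ → ∀ α : ℝ → ℝ, ScCoef a τ' α → ∀ t ∈ Icc 0 τ',
      c ≤ scaD 2 (scLC a) α τ' t 0 ∧ scaD 2 (scLC a) α τ' t 0 ≤ C ∧ c ≤ -scaD 4 (scLC a) α τ' t 0 ∧ -scaD 4 (scLC a) α τ' t 0 ≤ C := by
  obtain ⟨C, hC0, -, hC⟩ := scg_aD_bound ha.le (sc_x_aux_BI a)
  refine ⟨min (a * Real.exp (-(3 * a ^ 2 * τ))) (2 * a ^ 3 * Real.exp (-(7 * a ^ 2 * τ))), C 2 + C 4, lt_min (by positivity) (by positivity),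
    fun τ' hτ' hττ α hα t ht => ?_⟩
  have u2 := hC τ' α hτ'.le hα 2 (by norm_num) t ht.1 0
  have u4 := hC τ' α hτ'.le hα 4 (by norm_num) t ht.1 0
  have a2 : 0 ≤ a ^ 2 := by positivity
  have hlen : τ' - t ≤ τ := by linarith [ht.1]
  have l2 : a * Real.exp (-(3 * a ^ 2 * τ)) ≤ scaD 2 (scLC a) α τ' t 0 := by
    refine ge_of_tendsto' (scg_dy_tendsto (sc_x_aux_BI a) hτ'.le hα 2 ht.1 0) fun n => ?_
    have h := sch_LC_D2 ha (sc_dy_adm hτ'.le hα n) (t := t) (by rw [sc_dy_len]; exact ht.2)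
    rw [sc_dy_len] at h
    refine le_trans (mul_le_mul_of_nonneg_left (Real.exp_le_exp.2 ?_) ha.le) h
    nlinarith
  have l4 : 2 * a ^ 3 * Real.exp (-(7 * a ^ 2 * τ)) ≤ -scaD 4 (scLC a) α τ' t 0 := by
    refine ge_of_tendsto' (scg_dy_tendsto (sc_x_aux_BI a) hτ'.le hα 4 ht.1 0).neg fun n => ?_
    have h := sch_LC_D4 ha (sc_dy_adm hτ'.le hα n) ht.1 (t := t) (by rw [sc_dy_len]; exact ht.2)
    rw [sc_dy_len] at h
    refine le_trans (mul_le_mul_of_nonneg_left (Real.exp_le_exp.2 ?_) (by positivity)) h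
    nlinarith
  refine ⟨(min_le_left _ _).trans l2, ?_, (min_le_right _ _).trans l4, ?_⟩
  · linarith [le_abs_self (scaD 2 (scLC a) α τ' t 0), hC0 4]
  · linarith [neg_abs_le (scaD 4 (scLC a) α τ' t 0), hC0 2]

/-- a Gaussian average of a nonnegative continuous function which is positive at the centre is positive -/
theorem sc_x_aux_heat_pos {χ : ℝ → ℝ} (hχ : ScE 0 χ) (h0 : ∀ x, 0 ≤ χ x) (hp : 0 < χ 0) (s : ℝ) : 0 < scHeat s χ 0 := by
  unfold scHeat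
  rw [integral_pos_iff_support_of_nonneg (fun g => h0 _) (sc_heat_integrable hχ s 0)]
  have hc : Continuous (fun g : ℝ => χ (0 + Real.sqrt s * g)) := hχ.1.comp (by fun_prop)
  have hopen : IsOpen (Function.support (fun g : ℝ => χ (0 + Real.sqrt s * g))) := hc.isOpen_support
  have hne : (Function.support (fun g : ℝ => χ (0 + Real.sqrt s * g))).Nonempty :=
    ⟨0, by simp [Function.mem_support, hp.ne']⟩
  have hv : 0 < volume (Function.support (fun g : ℝ => χ (0 + Real.sqrt s * g))) := hopen.measure_pos _ hne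
  by_contra hcon
  have hz : gaussianReal 0 1 (Function.support (fun g : ℝ => χ (0 + Real.sqrt s * g))) = 0 :=
    le_antisymm (not_lt.1 hcon) zero_le
  exact hv.ne' (gaussianReal_absolutelyContinuous' 0 one_ne_zero hz)

/-- uniform lower bound of `E φ(Z_t)` for `φ ≥ χ ≥ 0`, `χ(0) > 0` -/
theorem sc_x_aux_low_bd {a τ : ℝ} (ha : 0 < a) (hτ : 0 < τ) {χ : ℝ → ℝ} (hχ : ScE 0 χ) (h0 : ∀ x, 0 ≤ χ x) (hp : 0 < χ 0) :
    ∃ m : ℝ, 0 < m ∧ ∀ α : ℝ → ℝ, ScCoef a τ α → ∀ t ∈ Icc 0 τ, ∀ φ : ℝ → ℝ, ScE 0 φ → (∀ x, χ x ≤ φ x) →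
      m ≤ scaEx (scLC a) α τ t φ := by
  obtain ⟨c₀, hc₀, hlaw⟩ := sc_x_law_ge ha hτ
  have hexp : ScE 0 (fun x : ℝ => Real.exp (-(2 * a * |x|))) := by
    refine ⟨by fun_prop, ScG.of_bdd (C := 1) fun z => ?_⟩
    rw [abs_of_pos (Real.exp_pos _)]
    exact Real.exp_le_one_iff.2 (by have := abs_nonneg z; nlinarith)
  have hχ' : ScE 0 (fun x => χ x * Real.exp (-(2 * a * |x|))) := hχ.mul hexp
  have hcont : ContinuousOn (fun s => scHeat s (fun x => χ x * Real.exp (-(2 * a * |x|))) 0) (Icc 0 τ) :=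
    (sc_heat_continuous_var hχ' 0).continuousOn
  obtain ⟨s₀, _, hmin⟩ := isCompact_Icc.exists_isMinOn (nonempty_Icc.2 hτ.le) hcont
  have hm₀ : 0 < scHeat s₀ (fun x => χ x * Real.exp (-(2 * a * |x|))) 0 :=
    sc_x_aux_heat_pos hχ' (fun x => mul_nonneg (h0 x) (Real.exp_pos _).le) (by simpa using hp) s₀
  refine ⟨c₀ * scHeat s₀ (fun x => χ x * Real.exp (-(2 * a * |x|))) 0, by positivity, fun α hα t ht φ hφ hle => ?_⟩
  have h1 := hlaw α hα t ht φ hφ (fun x => (h0 x).trans (hle x))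
  have h2 : scHeat s₀ (fun x => χ x * Real.exp (-(2 * a * |x|))) 0
      ≤ scHeat t (fun x => χ x * Real.exp (-(2 * a * |x|))) 0 := hmin ht
  have h3 : scHeat t (fun x => χ x * Real.exp (-(2 * a * |x|))) 0
      ≤ scHeat t (fun x => φ x * Real.exp (-(2 * a * |x|))) 0 :=
    sc_heat_mono hχ' (hφ.mul hexp) (fun x => mul_le_mul_of_nonneg_right (hle x) (Real.exp_pos _).le) t 0
  calc c₀ * scHeat s₀ (fun x => χ x * Real.exp (-(2 * a * |x|))) 0
      ≤ c₀ * scHeat t (fun x => φ x * Real.exp (-(2 * a * |x|))) 0 :=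
        mul_le_mul_of_nonneg_left (h2.trans h3) hc₀.le
    _ ≤ _ := h1

/-- positivity of the moments -/
theorem sc_x_pos {a τ : ℝ} (ha : 0 < a) (hτ : 0 < τ) :
    ∃ c : ℝ, 0 < c ∧ ∀ α : ℝ → ℝ, ScCoef a τ α → ∀ t ∈ Icc 0 τ,
      c ≤ scaM2 (scLC a) α τ t ∧ c ≤ scaM3 (scLC a) α τ t ∧ c ≤ scaM4 (scLC a) α τ t ∧ c ≤ scaN4 (scLC a) α τ t := by
  exact shx_pos ha hτ.le

/-! ## 6. dependence on the coefficient (S4.2, S7.1, U+)      OWNERS helper100 (Lipschitz), helper197 (first variation), helper159 (U+) -/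

/-- Guerra bound -/
theorem sc_x_lip {a τ : ℝ} (ha : 0 < a) (hτ : 0 < τ) {α β : ℝ → ℝ} (hα : ScCoef a τ α) (hβ : ScCoef a τ β) {t : ℝ} (ht : t ∈ Icc 0 τ) (z : ℝ) :
    |scVa (scLC a) β τ t z - scVa (scLC a) α τ t z| ≤ 1 / 2 * ∫ r in t..τ, |β r - α r| := by
  have h := scg_lip (F := scLC a) (F' := scLC a) (sc_logcosh_BI a) (sc_logcosh_BI a) (L := 1) (ε := 0) (ScAd.logcosh ha).lip (ScAd.logcosh ha).lip (fun z => by simp) hα hβ ht.1 ht.2 z
  simpa using h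

theorem sc_x_mono {a τ : ℝ} (ha : 0 < a) (hτ : 0 < τ) {α β : ℝ → ℝ} (hα : ScCoef a τ α) (hβ : ScCoef a τ β) (h : ∀ r ∈ Icc 0 τ, α r ≤ β r)
    {t : ℝ} (ht : t ∈ Icc 0 τ) (z : ℝ) : scVa (scLC a) α τ t z ≤ scVa (scLC a) β τ t z := by
  exact scg_mono (sc_logcosh_BI a) hτ.le hα hβ (fun r hr => h r ⟨hr.1, hr.2.le⟩) ht.1 z

/-- only the a.e. class of the coefficient matters -/
theorem sc_x_congr {a τ : ℝ} (ha : 0 < a) (hτ : 0 < τ) {α β : ℝ → ℝ} (hα : ScCoef a τ α) (hβ : ScCoef a τ β)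
    (h : ∀ᵐ r ∂(volume.restrict (Icc 0 τ)), α r = β r) :
    (∀ t ∈ Icc 0 τ, scVa (scLC a) α τ t = scVa (scLC a) β τ t) ∧
      ∀ s t : ℝ, 0 ≤ s → s ≤ t → t ≤ τ → ∀ φ : ℝ → ℝ, ScE 0 φ → scPa (scLC a) α τ s t φ = scPa (scLC a) β τ s t φ := by
  refine ⟨fun t ht => ?_, ?_⟩
  · refine scg_congr_ae (sc_x_aux_BI a) hτ.le hα hβ ?_ ht.1
    rw [ae_restrict_iff' measurableSet_Icc] at h
    filter_upwards [h] with r hr hrI
    exact hr ⟨hrI.1.le, hrI.2⟩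
  · intro s t hs hst ht φ hφ
    have hA := sgq_dy_apx hτ.le hα
    have hB : ScApx a τ β (scDy α τ) := by
      refine ⟨hA.nonneg, hA.adm, hA.inc, hA.len, (sgq_dy_apx hτ.le hβ).int, ?_⟩
      refine hA.l1.congr fun n => ?_
      rw [intervalIntegral.integral_of_le hτ.le, intervalIntegral.integral_of_le hτ.le]
      refine integral_congr_ae ?_
      have h' : ∀ᵐ r ∂(volume.restrict (Ioc 0 τ)), α r = β r := ae_mono (Measure.restrict_mono Ioc_subset_Icc_self le_rfl) h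
      filter_upwards [h'] with r hr
      rw [hr]
    funext z
    exact tendsto_nhds_unique (sgq_P_tendsto_apx (sc_logcosh_BI a) hτ.le hα hA hφ hs hst ht z)
      (sgq_P_tendsto_apx (sc_logcosh_BI a) hτ.le hβ hB hφ hs hst ht z)

/-- all derivatives and all moment curves are Lipschitz in `L¹` -/
theorem sc_x_stab {a τ : ℝ} (ha : 0 < a) (hτ : 0 < τ) (k : ℕ) :
    ∃ C : ℝ, ∀ α β : ℝ → ℝ, ScCoef a τ α → ScCoef a τ β → ∀ t ∈ Icc 0 τ,
      (∀ z, |scaD k (scLC a) β τ t z - scaD k (scLC a) α τ t z| ≤ C * ∫ r in (0:ℝ)..τ, |β r - α r|) ∧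
      |scaGam (scLC a) β τ t - scaGam (scLC a) α τ t| ≤ C * ∫ r in (0:ℝ)..τ, |β r - α r| ∧
      |scaM2 (scLC a) β τ t - scaM2 (scLC a) α τ t| ≤ C * ∫ r in (0:ℝ)..τ, |β r - α r| := by
  exact scl_stab ha.le (sc_logcosh_BI a) hτ.le k

/-- first variation with a quadratic remainder -/
theorem sc_x_var {a τ : ℝ} (ha : 0 < a) (hτ : 0 < τ) :
    ∃ C : ℝ, ∀ α β : ℝ → ℝ, ScCoef a τ α → ScCoef a τ β →
      |scVa (scLC a) β τ 0 0 - scVa (scLC a) α τ 0 0 - 1 / 2 * ∫ r in (0:ℝ)..τ, (β r - α r) * scaGam (scLC a) α τ r|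
        ≤ C * (∫ r in (0:ℝ)..τ, |β r - α r|) ^ 2 := by
  have hF : ScBI (scLC a) := sc_logcosh_BI a
  obtain ⟨M, -, hM⟩ := sfv_sq_N ha.le hF
  obtain ⟨K, hK0, hK⟩ := scl_Pa_lip_moving ha.le hF hτ.le
  obtain ⟨S, hS0, hS⟩ := scl_aD_lip ha.le hF hτ.le 1
  obtain ⟨L, hL⟩ := (hF 1).2.1
  have hL0 : 0 ≤ L := (abs_nonneg _).trans (hL 0)
  obtain ⟨Cb, _, _, hCb⟩ := scg_aD_bound ha.le hF
  refine ⟨(2 * Cb 1 * S + K * M) / 2, fun α β hα hβ => ?_⟩
  set d := ∫ r in (0:ℝ)..τ, |β r - α r| with hd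
  have hd0 : 0 ≤ d := intervalIntegral.integral_nonneg hτ.le fun r _ => abs_nonneg _
  have hM0 : 0 ≤ M := (abs_nonneg _).trans ((hM τ α hτ.le hα 0 le_rfl).1 0)
  have hC1 : 0 ≤ Cb 1 := (abs_nonneg _).trans (hCb τ α hτ.le hα 1 le_rfl 0 le_rfl 0)
  -- the two cross moments
  have x1 : ∀ r ∈ Icc 0 τ, |sfvXa (scLC a) α β τ r - scaGam (scLC a) α τ r| ≤ 2 * Cb 1 * S * d + K * M * d := by
    intro r hr
    have h1 := hK α α hα hα _ _ M (2 * Cb 1 * (S * d)) (hM τ α hτ.le hα r hr.1) (hM τ β hτ.le hβ r hr.1)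
      (fun y => scl_sq_sub_le (hCb τ β hτ.le hβ 1 le_rfl r hr.1 y) (hCb τ α hτ.le hα 1 le_rfl r hr.1 y)
        (hS α β hα hβ 1 le_rfl r hr y)) 0 r le_rfl hr.1 hr.2 0
    have e0 : ∫ r in (0:ℝ)..τ, |α r - α r| = 0 := by simp
    rw [e0, mul_zero, add_zero] at h1
    have : 0 ≤ K * M * d := by positivity
    unfold sfvXa scaGam scaEx
    calc _ ≤ 2 * Cb 1 * (S * d) := h1
      _ ≤ _ := by nlinarith
  have x2 : ∀ r ∈ Icc 0 τ, |sfvXa (scLC a) β α τ r - scaGam (scLC a) α τ r| ≤ 2 * Cb 1 * S * d + K * M * d := by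
    intro r hr
    have h1 := hK α β hα hβ _ _ M 0 (hM τ α hτ.le hα r hr.1) (hM τ α hτ.le hα r hr.1) (fun y => by simp) 0 r le_rfl hr.1 hr.2 0
    rw [zero_add] at h1
    have : 0 ≤ 2 * Cb 1 * S * d := by positivity
    unfold sfvXa scaGam scaEx
    calc _ ≤ K * M * d := h1
      _ ≤ _ := by nlinarith
  have r1 := sfv_replace hF hτ.le hα hβ hα hβ x1
  have r2 := sfv_replace hF hτ.le hα hβ hβ hα x2
  have g1 := sfv_ge hF hτ.le hα hβ
  have g2 := sfv_le hF hτ.le hα hβ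
  rw [← hd] at r1 r2
  have e : (2 * Cb 1 * S + K * M) / 2 * d ^ 2 = 1 / 2 * ((2 * Cb 1 * S * d + K * M * d) * d) := by ring
  rw [e]
  rw [abs_le] at r1 r2 ⊢
  constructor <;> linarith [r1.1, r1.2, r2.1, r2.2]

/-- **(U+)** quantitative strict convexity (replaces the control representation of PE Lemma 5.8 and LL (G2)) -/
theorem sc_x_uplus {a τ : ℝ} (ha : 0 < a) (hτ : 0 < τ) :
    ∃ c : ℝ, 0 < c ∧ ∀ α β : ℝ → ℝ, ScCoef a τ α → ScCoef a τ β →
      scVa (scLC a) (fun r => (α r + β r) / 2) τ 0 0 + c * ∫ s in (0:ℝ)..τ, (∫ r in s..τ, (β r - α r)) ^ 2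
        ≤ (scVa (scLC a) α τ 0 0 + scVa (scLC a) β τ 0 0) / 2 := by
  refine ⟨a ^ 3 / 16 * Real.exp (-(18 * (a ^ 2 * τ))), by positivity, fun α β hα hβ => ?_⟩
  have h := sk_up_gen_a ha hτ hβ hα
  have e : (fun t => (β t + α t) / 2) = fun r => (α r + β r) / 2 := by
    funext t
    ring
  rw [e] at h
  linarith

/-- tangent inequality with modulus (36's shortcut 3: PE 5.8 uniqueness and LL (G2) are consequences) -/
theorem sc_x_tangent {a τ : ℝ} (ha : 0 < a) (hτ : 0 < τ) :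
    ∃ c : ℝ, 0 < c ∧ ∀ α β : ℝ → ℝ, ScCoef a τ α → ScCoef a τ β →
      scVa (scLC a) α τ 0 0 + 1 / 2 * (∫ r in (0:ℝ)..τ, (β r - α r) * scaGam (scLC a) α τ r) + c * ∫ s in (0:ℝ)..τ, (∫ r in s..τ, (β r - α r)) ^ 2
        ≤ scVa (scLC a) β τ 0 0 := by
  obtain ⟨C, hC⟩ := sc_x_var ha hτ
  refine ⟨a ^ 3 / 4 * Real.exp (-(18 * (a ^ 2 * τ))), by positivity, fun α β hα hβ => ?_⟩
  refine sk_up_tangent_a ha hτ hα hβ (C := C * (∫ r in (0:ℝ)..τ, |β r - α r|) ^ 2) fun θ hθ => ?_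
  have h := (abs_le.1 (hC α _ hα (sk_up_coef_seg hα hβ hθ))).1
  have e1 : (∫ r in (0:ℝ)..τ, (α r + θ * (β r - α r) - α r) * scaGam (scLC a) α τ r) = θ * ∫ r in (0:ℝ)..τ, (β r - α r) * scaGam (scLC a) α τ r := by
    rw [← intervalIntegral.integral_const_mul]
    congr 1
    funext r
    ring
  have e2 : (∫ r in (0:ℝ)..τ, |α r + θ * (β r - α r) - α r|) = θ * ∫ r in (0:ℝ)..τ, |β r - α r| := by
    rw [← intervalIntegral.integral_const_mul]
    congr 1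
    funext r
    rw [add_sub_cancel_left, abs_mul, abs_of_nonneg hθ.1]
  rw [e1, e2] at h
  nlinarith

/-! ## 7. plateaus and the Parisi minimiser      OWNERS helper265 + helper183 (curvature), helper229 (`Sc/Pkg.lean`), helper141 (existence), helper108 (quantile), helper68 (`Sc/Top.lean`) -/

/-- TEX[FS:prop:gap-curvature] TEX[FS:cert:coercivity] TEX[FS:shape:backward] TEX[FS:shape:forward] TEX[FS:shape:ibp] strict curvature on a positive plateau -/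
theorem sc_x_curv {a τ : ℝ} (ha : 0 < a) (hτ : 0 < τ) {α : ℝ → ℝ} (hα : ScCoef a τ α) {t0 t1 c : ℝ} (h00 : 0 ≤ t0) (h1τ : t1 ≤ τ) (hc : 0 < c)
    (hpl : ∀ t ∈ Ioo t0 t1, α t = c) {s0 s1 : ℝ} (hs0 : t0 < s0) (hs01 : s0 ≤ s1) (hs1 : s1 < t1) :
    ∃ κ : ℝ, 0 < κ ∧ ConvexOn ℝ (Icc s0 s1) (fun t => scaM2 (scLC a) α τ t - κ * t ^ 2) := by
  exact sc_cvx_curv ha hτ hα h00 h1τ hc hpl hs0 hs01 hs1

/-! ## 8. link with the hierarchy (S8)      OWNER helper102 (`Sc/Link.lean`) -/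

/-- the mass profile of a clock is an admissible coefficient -/
theorem sc_x_alK {a τ : ℝ} (ha : 0 < a) (K : ℝ → ℝ) : ScCoef a τ (scAlK a K) := slc_alK ha.le τ K

/-- the self corrected one-site pressure `f_spin(K) = f_1(0,K)` -/
theorem sc_x_fspin {a τ : ℝ} (ha : 0 < a) (hτ : 0 < τ) {K : ℝ → ℝ} (hK : GhClk1 a K) (hKτ : K a ≤ τ) :
    GhLimEx a (fun ps => skPr 1 a (skCStp a (fun _ => 0) K 0 0 ps)) ∧
      skCPr 1 a (fun _ => 0) K = scVa (scLC a) (scAlK a K) τ 0 0 - a * τ / 2 := slc_fspin ha hτ hK hKτ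

/-- `ν_K[τ_1 τ_2] = Γ(K(v_12))` -/
theorem sc_x_S {a τ : ℝ} (ha : 0 < a) (hτ : 0 < τ) {K : ℝ → ℝ} (hK : GhClk1 a K) (hKτ : K a ≤ τ) {p : GhPos} (hp : p.Ok a) :
    skCS 1 a (fun _ => 0) K p = scaGam (scLC a) (scAlK a K) τ (ghAt a K p) := (slc_S ha hτ hK hKτ hp).2

/-! ## 9. horizon and scaling (A7, LL 03 l.139-143)      OWNER helper95 -/

theorem sc_x_hz_Al_lt {π : List (ℝ × ℝ)} (ρ : List (ℝ × ℝ)) {r : ℝ} (h0 : 0 ≤ r) (hr : r < scLen π) :
    scAl (π ++ ρ) r = scAl π r := by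
  induction π generalizing r with
  | nil => simp only [scLen] at hr; linarith
  | cons p π ih =>
    by_cases h1 : p.2 ≤ r
    · simp only [List.cons_append, scAl, if_pos h1]
      refine ih (by linarith) ?_
      simp only [scLen] at hr
      linarith
    · simp only [List.cons_append, scAl, if_neg h1]

theorem sc_x_hz_Al_ge {π : List (ℝ × ℝ)} (h : ScPos π) (ρ : List (ℝ × ℝ)) {r : ℝ} (hr : scLen π ≤ r) :
    scAl (π ++ ρ) r = scAl ρ (r - scLen π) := by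
  induction π generalizing r with
  | nil => simp [scLen]
  | cons p π ih =>
    simp only [scLen] at hr
    have h2 := sc_len_nonneg h.of_cons
    have h1 : p.2 ≤ r := by linarith
    simp only [List.cons_append, scAl, if_pos h1, scLen]
    rw [ih h.of_cons (by linarith)]
    congr 1
    ring

theorem sc_x_hz_Vt (F : ℝ → ℝ) {π ρ : List (ℝ × ℝ)} (hρ : ScPos ρ) {t : ℝ} (h0 : 0 ≤ t) (ht : t ≤ scLen π) :
    scVt F (π ++ ρ) t = scVt (scV F ρ) π t := by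
  induction π generalizing t with
  | nil =>
    simp only [scLen] at ht
    obtain rfl : t = 0 := le_antisymm ht h0
    simp only [List.nil_append, scVt]
    exact sc_Vt_zero F hρ
  | cons p π ih =>
    by_cases h1 : p.2 ≤ t
    · simp only [List.cons_append, scVt, if_pos h1]
      refine ih (by linarith) ?_
      simp only [scLen] at ht
      linarith
    · simp only [List.cons_append, scVt, if_neg h1, sc_V_append]

theorem sc_x_hz_Pt (F : ℝ → ℝ) (π ρ : List (ℝ × ℝ)) {s t : ℝ} (h0 : 0 ≤ s) (ht : t ≤ scLen π) (φ : ℝ → ℝ) :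
    scPt F (π ++ ρ) s t φ = scPt (scV F ρ) π s t φ := by
  induction π generalizing s t with
  | nil =>
    simp only [scLen] at ht
    simp only [List.nil_append, scPt]
    exact sc_Pt_of_le F ρ (ht.trans h0) φ
  | cons p π ih =>
    simp only [scLen] at ht
    by_cases h1 : p.2 ≤ s
    · simp only [List.cons_append, scPt, if_pos h1]
      exact ih (by linarith) (by linarith)
    · by_cases h2 : t ≤ p.2
      · simp only [List.cons_append, scPt, if_neg h1, if_pos h2, sc_V_append]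
      · simp only [List.cons_append, scPt, if_neg h1, if_neg h2, sc_V_append]
        rw [ih le_rfl (by linarith)]

/-- the approximants of the extended coefficient: dyadic on `[0,τ]`, one step of mass `a` on `[τ,τ']` -/
theorem sc_x_hz_apx {a τ τ' : ℝ} (ha : 0 < a) (hτ : 0 < τ) (hττ : τ ≤ τ') {α : ℝ → ℝ} (hα : ScCoef a τ' α)
    (hext : ∀ t ∈ Ioc τ τ', α t = a) : ScApx a τ' α (fun n => scDy α τ n ++ [(a, τ' - τ)]) := by
  have hα1 : ScCoef a τ α := hα.sub_interval hττ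
  have h1 : ScApx a τ α (scDy α τ) := scg_dy_apx hτ.le hα1
  have h2 : ScApx a τ' α (scDy α τ') := scg_dy_apx (hτ.le.trans hττ) hα
  have hadm : ∀ n, ScAdm a (scDy α τ n ++ [(a, τ' - τ)]) := by
    intro n p hp
    rcases List.mem_append.1 hp with hp | hp
    · exact h1.adm n p hp
    · rw [List.mem_singleton] at hp
      subst hp
      exact ⟨ha.le, le_rfl, sub_nonneg.2 hττ⟩
  refine ⟨ha.le, hadm, fun n => ?_, fun n => ?_, h2.int, ?_⟩
  · refine List.pairwise_append.2 ⟨h1.inc n, List.pairwise_singleton _ _, fun x hx y hy => ?_⟩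
    rw [List.mem_singleton] at hy
    subst hy
    exact (h1.adm n x hx).2.1
  · rw [sc_len_append, h1.len n]
    simp [scLen]
  · have e : ∀ n, ∫ r in (0 : ℝ)..τ', |scAl (scDy α τ n ++ [(a, τ' - τ)]) r - α r|
        = ∫ r in (0 : ℝ)..τ, |scAl (scDy α τ n) r - α r| := by
      intro n
      have hi : ∀ x y, x ∈ Icc 0 τ' → y ∈ Icc 0 τ' →
          IntervalIntegrable (fun r => |scAl (scDy α τ n ++ [(a, τ' - τ)]) r - α r|) volume x y := fun x y hx hy =>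
        ((sc_dy_al_intervalIntegrable ha.le (hadm n) x y).sub (sc_dy_coef_intervalIntegrable hα hx hy)).abs
      have hτ' : 0 ≤ τ' := hτ.le.trans hττ
      have hadj := intervalIntegral.integral_add_adjacent_intervals (a := (0:ℝ)) (b := τ) (c := τ')
        (hi 0 τ ⟨le_rfl, hτ'⟩ ⟨hτ.le, hττ⟩) (hi τ τ' ⟨hτ.le, hττ⟩ ⟨hτ', le_rfl⟩)
      rw [← hadj]
      have e1 : ∫ r in (0 : ℝ)..τ, |scAl (scDy α τ n ++ [(a, τ' - τ)]) r - α r|
          = ∫ r in (0 : ℝ)..τ, |scAl (scDy α τ n) r - α r| := by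
        rw [intervalIntegral.integral_of_le hτ.le, intervalIntegral.integral_of_le hτ.le,
          integral_Ioc_eq_integral_Ioo, integral_Ioc_eq_integral_Ioo]
        refine setIntegral_congr_fun measurableSet_Ioo fun r hr => ?_
        show |scAl (scDy α τ n ++ [(a, τ' - τ)]) r - α r| = |scAl (scDy α τ n) r - α r|
        rw [sc_x_hz_Al_lt _ hr.1.le (by rw [h1.len n]; exact hr.2)]
      have e2 : ∫ r in τ..τ', |scAl (scDy α τ n ++ [(a, τ' - τ)]) r - α r| = 0 := by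
        rw [intervalIntegral.integral_of_le hττ, integral_Ioc_eq_integral_Ioo]
        rw [setIntegral_congr_fun (g := fun _ => (0:ℝ)) measurableSet_Ioo]
        · simp
        · intro r hr
          show |scAl (scDy α τ n ++ [(a, τ' - τ)]) r - α r| = 0
          rw [sc_x_hz_Al_ge (h1.adm n).pos _ (by rw [h1.len n]; exact hr.1.le), h1.len n,
            hext r ⟨hr.1, hr.2.le⟩]
          have : ¬ (τ' - τ ≤ r - τ) := by
            push Not
            linarith [hr.2]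
          simp only [scAl, if_neg this, sub_self, abs_zero]
      rw [e1, e2, add_zero]
    simp only [e]
    exact h1.l1

theorem sc_x_hz_V1 {a : ℝ} (ha : 0 < a) {d : ℝ} (hd : 0 ≤ d) :
    scV (scLC a) [(a, d)] = fun z => scLC a z + a * d / 2 := by
  simp only [scV]
  exact sc_step_logcosh ha.ne' hd

/-- extension of the horizon with the terminal mass `a` -/
theorem sc_x_horizon {a τ τ' : ℝ} (ha : 0 < a) (hτ : 0 < τ) (hττ : τ ≤ τ') {α : ℝ → ℝ} (hα : ScCoef a τ' α) (hext : ∀ t ∈ Ioc τ τ', α t = a) :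
    (∀ t ∈ Icc 0 τ, ∀ z, scVa (scLC a) α τ' t z = scVa (scLC a) α τ t z + a * (τ' - τ) / 2) ∧
      ∀ s t : ℝ, 0 ≤ s → s ≤ t → t ≤ τ → ∀ φ : ℝ → ℝ, ScE 0 φ → scPa (scLC a) α τ' s t φ = scPa (scLC a) α τ s t φ := by
  have hF : ScBI (scLC a) := sc_x_aux_BI a
  have hα1 : ScCoef a τ α := hα.sub_interval hττ
  have h1 : ScApx a τ α (scDy α τ) := scg_dy_apx hτ.le hα1
  have h2 := sc_x_hz_apx ha hτ hττ hα hext
  have hτ' : 0 < τ' := hτ.trans_le hττ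
  have hd : 0 ≤ τ' - τ := sub_nonneg.2 hττ
  have hρ : ScPos [(a, τ' - τ)] := by
    intro p hp
    rw [List.mem_singleton] at hp
    subst hp
    exact hd
  constructor
  · intro t ht z
    have l1 : Tendsto (fun n => scVt (scLC a) (scDy α τ n ++ [(a, τ' - τ)]) t z) atTop (𝓝 (scVa (scLC a) α τ' t z)) :=
      scg_D_tendsto hF hτ'.le hα h2 0 ht.1 z
    have l2 : Tendsto (fun n => scVt (scLC a) (scDy α τ n) t z) atTop (𝓝 (scVa (scLC a) α τ t z)) :=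
      scg_D_tendsto hF hτ.le hα1 h1 0 ht.1 z
    have e : (fun n => scVt (scLC a) (scDy α τ n ++ [(a, τ' - τ)]) t z)
        = fun n => scVt (scLC a) (scDy α τ n) t z + a * (τ' - τ) / 2 := by
      funext n
      rw [sc_x_hz_Vt _ hρ ht.1 (by rw [h1.len n]; exact ht.2), sc_x_hz_V1 ha hd, sc_Vt_add_const hF]
    rw [e] at l1
    exact tendsto_nhds_unique l1 (l2.add_const _)
  · intro s t hs hst ht φ hφ
    funext z
    have l1 := sc_x_P_lim ha hτ' hα h2 hφ hs hst (ht.trans hττ) z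
    have l2 := sc_x_P_lim ha hτ hα1 h1 hφ hs hst ht z
    have e : (fun n => scPt (scLC a) (scDy α τ n ++ [(a, τ' - τ)]) s t φ z)
        = fun n => scPt (scLC a) (scDy α τ n) s t φ z := by
      funext n
      rw [sc_x_hz_Pt _ _ _ hs (by rw [h1.len n]; exact ht), sc_x_hz_V1 ha hd, sc_Pt_add_const hF]
    rw [e] at l1
    exact tendsto_nhds_unique l1 l2

/-- scaling: `V^{a}(t,z) = l⁻¹ V^{a/l}(l² t, l z)` -/
theorem sc_x_scale {a τ l : ℝ} (ha : 0 < a) (hτ : 0 < τ) (hl : 0 < l) {α : ℝ → ℝ} (hα : ScCoef a τ α) {t : ℝ} (ht : t ∈ Icc 0 τ) (z : ℝ) :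
    scVa (scLC a) α τ t z = l⁻¹ * scVa (scLC (a / l)) (fun ξ => α (ξ / l ^ 2) / l) (l ^ 2 * τ) (l ^ 2 * t) (l * z) :=
  sk_sc_Va hτ.le hl hα ht.1 z

end Claimed.Agent.R286
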