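import Claimed.Agent.R286.Sc.Link
import Claimed.Agent.R286.Fd.NuApi
import Claimed.Agent.R286.L02.Defs

/-!
# Row 286, BOX-C, unit S8 (LINK), part 2: TREE MOMENTS of the one-site model in OPERATOR FORM      (OWNER helper102; chief helper183; prefix `slk`)

A5 of helper36's list / A4 of helper242's note L14.   `n = 1`, `db = 0`, product tests `∏_c φ_c(σ_c)` (every spin test is a linear combination of such products).
Raw representative maps `rep : ℕ → Fin q → Fin q` (`GhRepOk`), so the statement serves `GhTree.nu`, `trNu`, `llNuS`.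
* `slkL a π rep φ c y`   = conditional moment of the labels of the class of `c` at the stage `0` (representative `c`), given their common field `y` BEFORE the stage `0`:
      terminal draw:  `slkM a (∏_{b ~ c} φ_b) y`;      Gaussian stage `(m, s)`:  `scTr m s V (∏_{children c'} slkL a π rep' φ c')  y`.
* `slk_nu`      **`ghNu = ∏_{classes c of the stage 0} slkL .. c (x c)`**.
* `slk_L_single`   a label which is alone from now on: `slkL = scP (scLC a) π (slkM a (φ c))`.
* `slk_nu_two`, `slk_llQs`   two labels which share `t` stages: `ν[σ₀ σ₁] = scGam (scLC a) π T_t`.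
-/

set_option autoImplicit false

namespace Claimed.Agent.R286

open MeasureTheory ProbabilityTheory Filter Topology Set

variable {q : ℕ}

/-- conditional moment of one class of the stage `0`, operator form -/
noncomputable def slkL (a : ℝ) : List (ℝ × ℝ) → (ℕ → Fin q → Fin q) → (Fin q → SkCfg 1 → ℝ) → Fin q → ℝ → ℝ
  | [], rep, φ, c => slkM a fun σ => ∏ b with rep 0 b = c, φ b σ
  | p :: π, rep, φ, c => scTr p.1 p.2 (scV (scLC a) π)
      fun y => ∏ c' with (rep 1 c' = c' ∧ rep 0 c' = c), slkL a π (fun t => rep (t + 1)) φ c' y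

theorem slkL_eqns_cite : True := by
  have := @slkL.eq_1
  have := @slkL.eq_2
  have := @slkL.eq_def
  have := @slkL.induct
  trivial

theorem slk_E_prod {κ : Type} (s : Finset κ) {f : κ → ℝ → ℝ} (h : ∀ i ∈ s, ScE 0 (f i)) : ScE 0 fun y => ∏ i ∈ s, f i y := by
  classical
  induction s using Finset.induction_on with
  | empty => simpa using ScE.const 0 1
  | insert i s hi ih =>
    have := (h i (Finset.mem_insert_self i s)).mul (ih fun j hj => h j (Finset.mem_insert_of_mem hj))
    refine (by simpa [Finset.prod_insert hi] using this)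

theorem slk_L_E (a : ℝ) (φ : Fin q → SkCfg 1 → ℝ) : ∀ (π : List (ℝ × ℝ)) (rep : ℕ → Fin q → Fin q) (c : Fin q),
    ScE 0 (slkL a π rep φ c)
  | [], rep, c => slk_M_E a _
  | p :: π, rep, c => sc_tr_E (n := 0) (slk_V_BI a π 1) (slk_E_prod _ fun c' _ => slk_L_E a φ π _ c') p.1 p.2

/-- scalar form of `slk_A` -/
theorem slk_A' (a : ℝ) {e : SkInc} {P : SkStp} (h : SlkOk (e :: P)) {g : ℝ → ℝ} (hg : Measurable g) (x : ℝ) :
    ∫ ξ, ghD (skBase 1 a) (e.lv 1) (skLvs 1 P) (slkZ x) ξ * g (x + Real.sqrt e.dh * ξ (Sum.inr 0)) ∂ghStd (SkDr 1)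
      = scTr e.m e.dh (scV (scLC a) (slkPi P)) g x := by
  have e0 : ∀ y, slkZ y (fun _ => true) = y := fun y => by simp [slkZ, slk_sp_true]
  have h1 := slk_A a h (g := fun z => g (z fun _ => true)) (by simpa only [e0] using hg) x
  simp only [e0] at h1
  rw [← h1]
  unfold ghA
  refine integral_congr_ae (Eventually.of_forall fun ξ => ?_)
  simp only
  rw [slk_inc e h.head, slk_Z_add, e0]

theorem slk_fiber_empty {r : Fin q → Fin q} (hr : ∀ c, r (r c) = r c) {c : Fin q} (hc : r c ≠ c) (p : Fin q → Prop) [DecidablePred p] :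
    (Finset.univ.filter fun b => p b ∧ r b = c) = ∅ := by
  refine Finset.filter_eq_empty_iff.2 fun b _ hb => hc ?_
  rw [← hb.2, hr]

/-- **TREE MOMENTS IN OPERATOR FORM.**   TEX[LL:A5] -/
theorem slk_nu (a : ℝ) (φ : Fin q → SkCfg 1 → ℝ) : ∀ (P : SkStp), SlkOk P → ∀ (rep : ℕ → Fin q → Fin q), GhRepOk rep →
    ∀ x : Fin q → ℝ, (∀ c, x (rep 0 c) = x c) →
    ghNu (skBase 1 a) (skLvs 1 P) rep (fun c => slkZ (x c)) (fun _ σ => ∏ c, φ c (σ c))
      = ∏ c with rep 0 c = c, slkL a (slkPi P) rep φ c (x c)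
  | [], _, rep, hr, x, hx => by
      show ∑ σ : Fin q → SkCfg 1, (∏ c, ghGw (skBase 1 a) (slkZ (x c)) (σ c)) * ∏ c, φ c (σ (rep 0 c)) = _
      have e1 : ∀ σ : Fin q → SkCfg 1, (∏ c, ghGw (skBase 1 a) (slkZ (x c)) (σ c)) * ∏ c, φ c (σ (rep 0 c))
          = ∏ c, ghGw (skBase 1 a) (slkZ (x c)) (σ c) * ∏ b with rep 0 b = c, φ b (σ c) := by
        intro σ
        rw [Finset.prod_mul_distrib]
        congr 1
        rw [← Finset.prod_fiberwise Finset.univ (rep 0) fun b => φ b (σ (rep 0 b))]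
        refine Finset.prod_congr rfl fun c _ => Finset.prod_congr rfl fun b hb => ?_
        rw [(Finset.mem_filter.1 hb).2]
      simp only [e1]
      have e2 := Finset.prod_univ_sum (fun _ : Fin q => (Finset.univ : Finset (SkCfg 1)))
        (fun c s => ghGw (skBase 1 a) (slkZ (x c)) s * ∏ b with rep 0 b = c, φ b s)
      rw [Fintype.piFinset_univ] at e2
      rw [← e2, Finset.prod_filter]
      refine Finset.prod_congr rfl fun c _ => ?_
      rw [slk_E0 a (fun s => ∏ b with rep 0 b = c, φ b s)]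
      split_ifs with hc
      · rfl
      · have : (Finset.univ.filter fun b => rep 0 b = c) = ∅ := by
          simpa using slk_fiber_empty (hr.idem 0) hc (fun _ => True)
        simp only [this, Finset.prod_empty]
        rw [slk_M_const]
  | e :: P, h, rep, hr, x, hx => by
      have IH := slk_nu a φ P h.tail (fun t => rep (t + 1)) hr.shift
      have h01 : ∀ c, rep 0 (rep 1 c) = rep 0 c := fun c => hr.mono 0 _ _ (hr.idem 1 c)
      show ∫ W : Fin q → SkDr 1 → ℝ, ghDT (skBase 1 a) (e.lv 1) (skLvs 1 P) (rep 0) (fun c => slkZ (x c)) W *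
        ghNu (skBase 1 a) (skLvs 1 P) (fun t => rep (t + 1)) (fun c => slkZ (x c) + (e.lv 1).inc (W (rep 0 c)))
          (fun _ σ => ∏ c, φ c (σ c)) ∂(Measure.pi fun _ : Fin q => ghStd (SkDr 1)) = _
      obtain ⟨H, hH⟩ : ∃ H : Fin q → (SkDr 1 → ℝ) → ℝ, H = fun c ξ =>
          (if rep 0 c = c then ghD (skBase 1 a) (e.lv 1) (skLvs 1 P) (slkZ (x c)) ξ else 1) *
              ∏ c' with (rep 1 c' = c' ∧ rep 0 c' = c),
                slkL a (slkPi P) (fun t => rep (t + 1)) φ c' (x c + Real.sqrt e.dh * ξ (Sum.inr 0)) := ⟨_, rfl⟩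
      have e1 : ∀ W : Fin q → SkDr 1 → ℝ, ghDT (skBase 1 a) (e.lv 1) (skLvs 1 P) (rep 0) (fun c => slkZ (x c)) W *
          ghNu (skBase 1 a) (skLvs 1 P) (fun t => rep (t + 1)) (fun c => slkZ (x c) + (e.lv 1).inc (W (rep 0 c)))
            (fun _ σ => ∏ c, φ c (σ c))
          = ∏ c, H c (W c) := by
        intro W
        have e2 : (fun c => slkZ (x c) + (e.lv 1).inc (W (rep 0 c)))
            = fun c => slkZ ((fun c => x c + Real.sqrt e.dh * W (rep 0 c) (Sum.inr 0)) c) := by
          funext c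
          rw [slk_inc e h.head, slk_Z_add]
        rw [e2, IH (fun c => x c + Real.sqrt e.dh * W (rep 0 c) (Sum.inr 0)) (fun c => by
          show x (rep 1 c) + _ * W (rep 0 (rep 1 c)) _ = _
          rw [h01, ← hx (rep 1 c), h01, hx])]
        simp only [hH, Finset.prod_mul_distrib]
        congr 1
        rw [← Finset.prod_fiberwise (Finset.univ.filter fun c' => rep 1 c' = c') (rep 0)]
        refine Finset.prod_congr rfl fun c _ => ?_
        rw [Finset.filter_filter]
        refine Finset.prod_congr rfl fun c' hc' => ?_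
        have h2 := (Finset.mem_filter.1 hc').2.2
        rw [h2, ← hx c', h2]
      simp only [e1]
      rw [integral_fintype_prod_eq_prod (μ := fun _ : Fin q => ghStd (SkDr 1)), Finset.prod_filter]
      refine Finset.prod_congr rfl fun c _ => ?_
      rw [hH]
      simp only
      split_ifs with hc
      · exact slk_A' a h (g := fun y => ∏ c' with (rep 1 c' = c' ∧ rep 0 c' = c), slkL a (slkPi P) (fun t => rep (t + 1)) φ c' y)
          (slk_E_prod _ fun c' _ => slk_L_E a φ _ _ c').continuous.measurable (x c)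
      · rw [slk_fiber_empty (hr.idem 0) hc]
        simp

/-- common root field -/
theorem slk_nu_root (a : ℝ) (φ : Fin q → SkCfg 1 → ℝ) {P : SkStp} (h : SlkOk P) {rep : ℕ → Fin q → Fin q} (hr : GhRepOk rep) (y : ℝ) :
    ghNu (skBase 1 a) (skLvs 1 P) rep (fun _ => slkZ y) (fun _ σ => ∏ c, φ c (σ c))
      = ∏ c with rep 0 c = c, slkL a (slkPi P) rep φ c y :=
  slk_nu a φ P h rep hr (fun _ => y) fun _ => rfl

/-- a label which is alone from now on -/
theorem slk_L_single (a : ℝ) (φ : Fin q → SkCfg 1 → ℝ) (c : Fin q) : ∀ (π : List (ℝ × ℝ)) (rep : ℕ → Fin q → Fin q),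
    (∀ t b, rep t b = c ↔ b = c) → slkL a π rep φ c = scP (scLC a) π (slkM a (φ c))
  | [], rep, h => by
      have : (Finset.univ.filter fun b => rep 0 b = c) = {c} := by
        ext b; simp [h 0 b]
      simp only [slkL, scP, this, Finset.prod_singleton]
  | p :: π, rep, h => by
      have : (Finset.univ.filter fun c' => rep 1 c' = c' ∧ rep 0 c' = c) = {c} := by
        ext b
        simp only [Finset.mem_filter, Finset.mem_univ, true_and, Finset.mem_singleton, h 0 b]
        exact ⟨fun hb => hb.2, fun hb => ⟨by rw [hb]; exact (h 1 c).2 rfl, hb⟩⟩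
      simp only [slkL, scP, this, Finset.prod_singleton]
      rw [slk_L_single a φ c π (fun t => rep (t + 1)) fun t b => h (t + 1) b]

/-- two labels which share exactly `k` stages: operator form -/
theorem slk_two_aux (a : ℝ) (φ : Fin 2 → SkCfg 1 → ℝ) : ∀ (k : ℕ) (π : List (ℝ × ℝ)) (rep : ℕ → Fin 2 → Fin 2), k ≤ π.length →
    (∀ t, t < k → ∀ b, rep t b = 0) → (∀ t, k ≤ t → ∀ b, rep t b = b) →
    (fun y => ∏ c with rep 0 c = c, slkL a π rep φ c y)
      = scP (scV (scLC a) (π.drop k)) (π.take k)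
          fun y => scP (scLC a) (π.drop k) (slkM a (φ 0)) y * scP (scLC a) (π.drop k) (slkM a (φ 1)) y
  | 0, π, rep, _, _, h2 => by
      have : (Finset.univ.filter fun c : Fin 2 => rep 0 c = c) = Finset.univ := by
        ext b; simp [h2 0 le_rfl b]
      funext y
      simp only [this, Fin.prod_univ_two, List.drop_zero, List.take_zero, scP]
      rw [slk_L_single a φ 0 π rep fun t b => by rw [h2 t (Nat.zero_le _)],
        slk_L_single a φ 1 π rep fun t b => by rw [h2 t (Nat.zero_le _)]]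
  | k + 1, [], rep, hk, _, _ => by simp at hk
  | k + 1, p :: π, rep, hk, h1, h2 => by
      have IH := slk_two_aux a φ k π (fun t => rep (t + 1)) (by simpa using hk) (fun t ht b => h1 (t + 1) (by omega) b)
        (fun t ht b => h2 (t + 1) (by omega) b)
      have e0 : (Finset.univ.filter fun c : Fin 2 => rep 0 c = c) = {0} := by
        ext b
        simp only [Finset.mem_filter, Finset.mem_univ, true_and, Finset.mem_singleton, h1 0 (Nat.succ_pos k) b]
        exact eq_comm
      have e1 : (Finset.univ.filter fun c' : Fin 2 => rep 1 c' = c' ∧ rep 0 c' = 0) = Finset.univ.filter fun c' : Fin 2 => rep 1 c' = c' := by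
        ext b
        simp [h1 0 (Nat.succ_pos k) b]
      funext y
      simp only [e0, Finset.prod_singleton, slkL, e1, List.take_succ_cons, List.drop_succ_cons, scP]
      rw [slk_V_take_drop]
      exact congrFun (congrArg (scTr p.1 p.2 (scV (scLC a) π)) IH) y

theorem slk_rep_two_ok {rep : ℕ → Fin 2 → Fin 2} {k : ℕ} (h1 : ∀ t, t < k → ∀ b, rep t b = 0) (h2 : ∀ t, k ≤ t → ∀ b, rep t b = b) :
    GhRepOk rep := by
  refine ⟨fun t b => ?_, fun t b c hbc => ?_⟩
  · rcases lt_or_ge t k with ht | ht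
    · rw [h1 t ht, h1 t ht]
    · rw [h2 t ht, h2 t ht]
  · rcases lt_or_ge t k with ht | ht
    · rw [h1 t ht, h1 t ht]
    · rw [h2 (t + 1) (by omega), h2 (t + 1) (by omega)] at hbc
      rw [hbc]

/-- **two labels which share exactly `k` stages** -/
theorem slk_nu_two (a : ℝ) {P : SkStp} (h : SlkOk P) {rep : ℕ → Fin 2 → Fin 2} {k : ℕ} (hk : k ≤ P.length)
    (h1 : ∀ t, t < k → ∀ b, rep t b = 0) (h2 : ∀ t, k ≤ t → ∀ b, rep t b = b) (φ : Fin 2 → SkCfg 1 → ℝ) (y : ℝ) :
    ghNu (skBase 1 a) (skLvs 1 P) rep (fun _ => slkZ y) (fun _ σ => φ 0 (σ 0) * φ 1 (σ 1))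
      = scP (scV (scLC a) ((slkPi P).drop k)) ((slkPi P).take k)
          (fun y => scP (scLC a) ((slkPi P).drop k) (slkM a (φ 0)) y * scP (scLC a) ((slkPi P).drop k) (slkM a (φ 1)) y) y := by
  have e := slk_nu_root a φ h (slk_rep_two_ok h1 h2) y
  simp only [Fin.prod_univ_two] at e
  rw [e]
  exact congrFun (slk_two_aux a φ k (slkPi P) rep (by simpa [slkPi] using hk) h1 h2) y

/-- **the overlap of two labels which share `k` stages is `Γ` at the time of the fork** -/
theorem slk_nu_ov {a : ℝ} (ha : a ≠ 0) {P : SkStp} (h : SlkOk P) (hh : ∀ e ∈ P, 0 ≤ e.dh) {rep : ℕ → Fin 2 → Fin 2} {k : ℕ}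
    (hk : k ≤ P.length) (h1 : ∀ t, t < k → ∀ b, rep t b = 0) (h2 : ∀ t, k ≤ t → ∀ b, rep t b = b) :
    ghNu (skBase 1 a) (skLvs 1 P) rep (fun _ => 0) (fun _ σ => skOv (σ 0) (σ 1)) = scGam (scLC a) (slkPi P) (slkT P k) := by
  have e := slk_nu_two a h hk h1 h2 (fun _ => slkSp) 0
  have e1 : (fun (_ : ℕ → Fin 2 → SkDr 1 → ℝ) (σ : Fin 2 → SkCfg 1) => skOv (σ 0) (σ 1)) = fun _ σ => slkSp (σ 0) * slkSp (σ 1) := by
    funext _ σ
    simp [skOv, slkSp]
  rw [e1, ← slk_Z_zero, e, slk_M_sp, ← slk_LC_deriv ha, ← sc_V_deriv (slk_LC_BI a), ← slk_Pt_take _ _ (slk_pos hh)]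
  unfold scGam scEx scD slkT
  rw [slk_Pi_take, slk_Vt_take _ (slk_pos hh)]
  congr 1
  funext z
  simp only [Function.iterate_one]
  ring

/-! ## the codings of the tables -/

theorem slk_repN_lt {sh : ℕ → ℕ → ℕ} {k t : ℕ} (h10 : sh 1 0 = k) (ht : t < k) (b : Fin 2) : ghRepN 2 sh t b = 0 := by
  unfold ghRepN
  apply le_antisymm _ (Fin.zero_le _)
  apply Finset.min'_le
  simp only [Finset.mem_filter, Finset.mem_univ, true_and]
  fin_cases b
  · left; rfl
  · right; simpa [h10] using ht

theorem slk_repN_ge {sh : ℕ → ℕ → ℕ} {k t : ℕ} (h01 : sh 0 1 = k) (h10 : sh 1 0 = k) (ht : k ≤ t) (b : Fin 2) : ghRepN 2 sh t b = b := by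
  unfold ghRepN
  have : (Finset.univ.filter fun c : Fin 2 => c = b ∨ t < sh b.1 c.1) = {b} := by
    ext c
    simp only [Finset.mem_filter, Finset.mem_univ, true_and, Finset.mem_singleton]
    refine ⟨fun hc => hc.elim id fun h => ?_, Or.inl⟩
    fin_cases b <;> fin_cases c <;> first | rfl | (simp [h01, h10] at h; omega)
  simp only [this, Finset.min'_singleton]

theorem slk_trRep_lt {N k t : ℕ} (hk : k ≤ N) (ht : t < k) (b : Fin 2) : trRep 2 (trPair N k) t b = 0 := by
  unfold trRep trPair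
  fin_cases b
  · have : t < N + 1 := by omega
    simp [List.finRange_succ, this]
  · simp [List.finRange_succ, ht]

theorem slk_trRep_ge {N k t : ℕ} (ht : k ≤ t) (b : Fin 2) : trRep 2 (trPair N k) t b = b := by
  unfold trRep trPair
  have h : ¬ t < k := by omega
  fin_cases b
  · by_cases h2 : t < N + 1 <;> simp [List.finRange_succ, h, h2]
  · by_cases h2 : t < N + 1 <;> simp [List.finRange_succ, h, h2]

/-- the reference overlap of a fine LL path is `Γ` at the cumulative reference clock.   TEX[LL:A5] -/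
theorem slk_llQs {a : ℝ} (ha : a ≠ 0) {P : LlStp} (hK : ∀ e ∈ P, 0 ≤ e.dK) {t : ℕ} (ht : t ≤ P.length) :
    llQs a P t = scGam (scLC a) (slkPi (llSc P)) (llCumK P t) := by
  have hok : SlkOk (llSc P) := by
    intro e he
    obtain ⟨e', _, rfl⟩ := List.mem_map.1 he
    rfl
  have hh : ∀ e ∈ llSc P, 0 ≤ e.dh := by
    intro e he
    obtain ⟨e', he', rfl⟩ := List.mem_map.1 he
    exact hK e' he'
  have e := slk_nu_ov ha hok hh (rep := fun s => trRep 2 (trPair P.length t) s) (k := t) (by simpa [llSc] using ht)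
    (fun s hs b => slk_trRep_lt ht hs b) (fun s hs b => slk_trRep_ge hs b)
  have eT : slkT (llSc P) t = llCumK P t := by
    rw [slk_T_eq]
    simp [skCumH, llCumK, llSc, List.map_take]
    rfl
  rw [← eT, ← e]
  unfold llQs llNuS trNu
  congr 1
  funext _ σ
  simp [trExt, skOv, skSp, jtSp, Claims.C0461.pmSpin]

end Claimed.Agent.R286
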