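import Claimed.Agent.R286.Sc.Two
import Claimed.Agent.R286.Sc.Gen
import Claimed.Agent.R286.Sc.GenP
import Claimed.Agent.R286.Sc.Mom
import Claimed.Agent.R286.Sc.HopfX
import Claimed.Agent.R286.Bud.N12

/-!
# Row 286, scalar block: TWO PROFILES, general coefficients; PRODUCER of `BudScReq` (the request of N12 to BOX-C)      (OWNER helper250, typed + PROVED, 0 sorry; prefix `sc2`)

TEX[LL:bud:curvature] (07-budgets.tex l.1400-1435, node N12), the PDE part: "PDE drift comparison", "changing the forward diffusion", oddness.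
The abstract calculus of (C14) on moment curves is `Bud/N12.lean` (helper6); this file CONSTRUCTS its input `BudScReq` on the scalar objects of BOX-C.
Inputs: `Sc/Two.lean` (two step profiles, helper250), `Sc/Gen.lean` (`scg_D_unif`), `Sc/GenP.lean` (`sgp_P_tendsto_bd`), `Sc/Mom.lean` (step identities `scm_Gam, scm_M2, scm_M3`), `Sc/HopfX.lean` (`shx_pos`: `E V_zz² ≥ c`).
NO use of `Sc/Contract.lean`, `Sc/MomG.lean`: the general identities for `Γ, M2, M3, N3` are obtained here from the UNIFORM rate `sc2_unif` (a consequence of `sc2_T4`).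
`δ = α - β`, `J(t) = ∫_t^τ |δ|` (`sc2J` = `budI`), `W(t) = ∫_0^t r (|δ| + J) dr` (`sc2W` = `budJ`).
* `sc2_mom_lim`, `sc2_unif`      `scM2, scM3, scN3, scGam (scDy α τ n) → scaM2, scaM3, scaN3, scaGam`, uniformly in `t`, rate `C ‖α_n - α‖_{L¹}`.
* `sc2_gen`      `|M2 - M2'|, |M3 - M3'| ≤ C (J + W)`, `|N3 - N3'|, |Γ - Γ'| ≤ C (t J + W)`, `N3 ≤ C t`, `|M2|, |M3| ≤ C`.
* `sc2_zero` (values at `t = 0`), `sc2_cont`, `sc2_Gam_eq` (`Γ(t) - Γ(s) = ∫ M2`), `sc2_M2_eq` (`M2(t) - M2(s) = ∫ (N3 - 2 α M3)`), `sc2_Gam_hasDerivAt`, `sc2_gen_M3_lip`.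
* `sc2Cv Q0 K`   the curves of the clock `K`: `al = bdDist K` (`= scAlK 1 K`), `G = scaGam`, `G1 = scaM2`, `e3 = scaM3`, `f2 = scaN3` at the terminal datum `scLC 1`, horizon `Q0`.
* **`sc2_req`**  `∃ Cc, BudScReq Gam Q0 Cc` for every `Gam` which is `scaGam (scLC 1) (bdDist K) Q0` on `[0,Q0]`.
USER: `Bud/N12.lean` (helper6): `bud_n12_curv_tr`, `bud_n12_G2`  =>  `BudB.C14`, `BudB.Drift`.      (`sc2_coef_int .. sc2_dist_coef`: proofs of helper236.)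
-/

set_option autoImplicit false

namespace Claimed.Agent.R286

open MeasureTheory ProbabilityTheory Filter Topology Set

noncomputable section

/-! ## A. passage to the limit -/

theorem sc2_coef_int {a τ : ℝ} (hτ : 0 ≤ τ) {α β : ℝ → ℝ} (hα : ScCoef a τ α) (hβ : ScCoef a τ β) :
    IntervalIntegrable (fun r => |α r - β r|) volume 0 τ :=
  ((sc_dy_coef_intervalIntegrable hα ⟨le_rfl, hτ⟩ ⟨hτ, le_rfl⟩).sub
    (sc_dy_coef_intervalIntegrable hβ ⟨le_rfl, hτ⟩ ⟨hτ, le_rfl⟩)).abs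

/-- the weights `J`, `W` are Lipschitz in `L¹` -/
theorem sc2_JW_stab {α α' β β' : ℝ → ℝ} {τ e : ℝ} (hτ : 0 ≤ τ)
    (hI : IntervalIntegrable (fun r => |α r - α' r|) volume 0 τ) (hI' : IntervalIntegrable (fun r => |β r - β' r|) volume 0 τ)
    (he : ∫ r in (0:ℝ)..τ, |(|α r - α' r| - |β r - β' r|)| ≤ e) {t : ℝ} (ht : t ∈ Icc 0 τ) :
    |sc2J α α' τ t - sc2J β β' τ t| ≤ e ∧ |sc2W α α' τ t - sc2W β β' τ t| ≤ (τ + τ ^ 2) * e := by
  have iD : IntervalIntegrable (fun r => |(|α r - α' r| - |β r - β' r|)|) volume 0 τ := (hI.sub hI').abs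
  have hsub : ∀ (g : ℝ → ℝ), IntervalIntegrable g volume 0 τ → ∀ x y : ℝ, 0 ≤ x → x ≤ y → y ≤ τ → IntervalIntegrable g volume x y :=
    fun g hg x y hx hxy hy => hg.mono_set (by rw [uIcc_of_le hxy, uIcc_of_le hτ]; exact Icc_subset_Icc hx hy)
  have hDle : ∀ x y : ℝ, 0 ≤ x → x ≤ y → y ≤ τ → ∫ r in x..y, |(|α r - α' r| - |β r - β' r|)| ≤ e := fun x y hx hxy hy =>
    (intervalIntegral.integral_mono_interval hx hxy hy (Filter.Eventually.of_forall fun r => abs_nonneg _) iD).trans he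
  have he0 : 0 ≤ e := (intervalIntegral.integral_nonneg hτ fun r _ => abs_nonneg _).trans he
  have hJ : ∀ r ∈ Icc 0 τ, |sc2J α α' τ r - sc2J β β' τ r| ≤ e := by
    intro r hr
    unfold sc2J
    rw [← intervalIntegral.integral_sub (hsub _ hI r τ hr.1 hr.2 le_rfl) (hsub _ hI' r τ hr.1 hr.2 le_rfl)]
    exact (intervalIntegral.abs_integral_le_integral_abs hr.2).trans (hDle r τ hr.1 hr.2 le_rfl)
  refine ⟨hJ t ht, ?_⟩
  unfold sc2W
  rw [← intervalIntegral.integral_sub (hsub _ (sc2W_int hτ hI) 0 t le_rfl ht.1 ht.2) (hsub _ (sc2W_int hτ hI') 0 t le_rfl ht.1 ht.2),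
    ← Real.norm_eq_abs]
  have hB : IntervalIntegrable (fun r => τ * |(|α r - α' r| - |β r - β' r|)| + τ * e) volume 0 t :=
    ((hsub _ iD 0 t le_rfl ht.1 ht.2).const_mul τ).add intervalIntegrable_const
  refine (intervalIntegral.norm_integral_le_of_norm_le ht.1 (Filter.Eventually.of_forall fun r hr => ?_) hB).trans ?_
  · have hr' : r ∈ Icc 0 τ := ⟨hr.1.le, hr.2.trans ht.2⟩
    have h1 := hJ r hr'
    rw [Real.norm_eq_abs]
    have e1 : r * (|α r - α' r| + sc2J α α' τ r) - r * (|β r - β' r| + sc2J β β' τ r)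
        = r * ((|α r - α' r| - |β r - β' r|) + (sc2J α α' τ r - sc2J β β' τ r)) := by ring
    rw [e1, abs_mul, abs_of_nonneg hr'.1]
    have h2 := abs_add_le (|α r - α' r| - |β r - β' r|) (sc2J α α' τ r - sc2J β β' τ r)
    calc r * |(|α r - α' r| - |β r - β' r|) + (sc2J α α' τ r - sc2J β β' τ r)|
        ≤ τ * (|(|α r - α' r| - |β r - β' r|)| + e) :=
          mul_le_mul hr'.2 (by linarith) (abs_nonneg _) hτ
      _ = _ := by ring
  · rw [intervalIntegral.integral_add ((hsub _ iD 0 t le_rfl ht.1 ht.2).const_mul τ) intervalIntegrable_const,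
      intervalIntegral.integral_const_mul, intervalIntegral.integral_const, smul_eq_mul, sub_zero]
    have h1 := hDle 0 t le_rfl ht.1 ht.2
    have h2 : τ * ∫ r in (0:ℝ)..t, |(|α r - α' r| - |β r - β' r|)| ≤ τ * e := mul_le_mul_of_nonneg_left h1 hτ
    have h3 : t * (τ * e) ≤ τ * (τ * e) := mul_le_mul_of_nonneg_right ht.2 (by positivity)
    nlinarith

/-- the weights are continuous in `L¹` -/
theorem sc2_JW_lim {a τ : ℝ} (ha : 0 < a) (hτ : 0 < τ) {α β : ℝ → ℝ} (hα : ScCoef a τ α) (hβ : ScCoef a τ β) {t : ℝ} (ht : t ∈ Icc 0 τ) :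
    Tendsto (fun n => sc2J (scAl (scDy α τ n)) (scAl (scDy β τ n)) τ t) atTop (𝓝 (sc2J α β τ t)) ∧
      Tendsto (fun n => sc2W (scAl (scDy α τ n)) (scAl (scDy β τ n)) τ t) atTop (𝓝 (sc2W α β τ t)) := by
  have hA := scg_dy_apx hτ.le hα
  have hB := scg_dy_apx hτ.le hβ
  have l := hA.l1.add hB.l1
  rw [add_zero] at l
  have key : ∀ n, |sc2J (scAl (scDy α τ n)) (scAl (scDy β τ n)) τ t - sc2J α β τ t|
        ≤ (∫ r in (0 : ℝ)..τ, |scAl (scDy α τ n) r - α r|) + ∫ r in (0 : ℝ)..τ, |scAl (scDy β τ n) r - β r| ∧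
      |sc2W (scAl (scDy α τ n)) (scAl (scDy β τ n)) τ t - sc2W α β τ t|
        ≤ (τ + τ ^ 2) * ((∫ r in (0 : ℝ)..τ, |scAl (scDy α τ n) r - α r|) + ∫ r in (0 : ℝ)..τ, |scAl (scDy β τ n) r - β r|) := by
    intro n
    have i1 := sc2_al_int ha.le (hA.adm n) (hB.adm n) 0 τ
    have i2 := sc2_coef_int hτ.le hα hβ
    refine sc2_JW_stab hτ.le i1 i2 ?_ ht
    rw [← intervalIntegral.integral_add (hA.int_abs n le_rfl hτ.le le_rfl) (hB.int_abs n le_rfl hτ.le le_rfl)]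
    refine intervalIntegral.integral_mono_on hτ.le (i1.sub i2).abs
      ((hA.int_abs n le_rfl hτ.le le_rfl).add (hB.int_abs n le_rfl hτ.le le_rfl)) fun r _ => ?_
    have h1 := abs_abs_sub_abs_le (scAl (scDy α τ n) r - scAl (scDy β τ n) r) (α r - β r)
    have h2 : scAl (scDy α τ n) r - scAl (scDy β τ n) r - (α r - β r)
        = (scAl (scDy α τ n) r - α r) - (scAl (scDy β τ n) r - β r) := by ring
    rw [h2] at h1
    have h3 := abs_sub (scAl (scDy α τ n) r - α r) (scAl (scDy β τ n) r - β r)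
    linarith
  constructor
  · rw [tendsto_iff_dist_tendsto_zero]
    exact squeeze_zero (fun _ => dist_nonneg) (fun n => by rw [Real.dist_eq]; exact (key n).1) l
  · rw [tendsto_iff_dist_tendsto_zero]
    have l2 := l.const_mul (τ + τ ^ 2)
    rw [mul_zero] at l2
    exact squeeze_zero (fun _ => dist_nonneg) (fun n => by rw [Real.dist_eq]; exact (key n).2) l2

/-- the dyadic profiles of two coefficients satisfy the standing hypotheses of `Sc/Two.lean` -/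
theorem sc2_dy_H {a τ : ℝ} (_ha : 0 < a) (hτ : 0 < τ) : ∃ A : ℝ, 0 ≤ A ∧ ∀ α β : ℝ → ℝ, ScCoef a τ α → ScCoef a τ β → ∀ n m,
    Sc2H a τ A (scLC a) (scDy α τ n) (scDy β τ m) := by
  obtain ⟨A, hA0, hA⟩ := sc_tau_logcosh 4 a
  refine ⟨A, hA0, fun α β hα hβ n m => ⟨sc_logcosh_BI a, fun z => by simp [scLC], hA, sc_dy_adm hτ.le hα n, sc_dy_adm hτ.le hβ m,
    sc_dy_inc hτ.le hα n, sc_dy_inc hτ.le hβ m, sc_dy_len α τ n, sc_dy_len β τ m⟩⟩

theorem sc2_dist_coef (Q0 : ℝ) (K : ℝ → ℝ) : ScCoef 1 Q0 (bdDist K) := by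
  have hfin : ∀ t, volume {v : ℝ | v ∈ Ioo (0 : ℝ) 1 ∧ K v ≤ t} ≤ 1 := fun t => by
    calc volume {v : ℝ | v ∈ Ioo (0 : ℝ) 1 ∧ K v ≤ t} ≤ volume (Ioo (0:ℝ) 1) := measure_mono fun v hv => hv.1
      _ = 1 := by simp
  refine ⟨fun s _ t _ hst => ?_, fun t _ => ⟨ENNReal.toReal_nonneg, ?_⟩⟩
  · unfold bdDist
    refine ENNReal.toReal_mono ((hfin t).trans_lt ENNReal.one_lt_top).ne (measure_mono fun v hv => ⟨hv.1, hv.2.trans hst⟩)
  · unfold bdDist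
    have := ENNReal.toReal_mono ENNReal.one_ne_top (hfin t)
    simpa using this

/-- moving bounded observables: `E_n φ_n(Z_t) → E φ(Z_t)` if `φ_n → φ` uniformly, `φ` bounded `C²` -/
theorem sc2_obs_lim {a τ : ℝ} (hτ : 0 ≤ τ) {F : ℝ → ℝ} (hF : ScBI F) {α : ℝ → ℝ} (hα : ScCoef a τ α) {t : ℝ} (ht : t ∈ Icc 0 τ)
    {φn : ℕ → ℝ → ℝ} {φ : ℝ → ℝ} {M : ℝ} (hφ : ScN 2 M φ) (hφn : ∀ n, ScE 0 (φn n))
    (hu : ∀ ε > 0, ∃ N, ∀ n ≥ N, ∀ z, |φn n z - φ z| ≤ ε) :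
    Tendsto (fun n => scEx F (scDy α τ n) t (φn n)) atTop (𝓝 (scaEx F α τ t φ)) := by
  have h1 : Tendsto (fun n => scEx F (scDy α τ n) t φ) atTop (𝓝 (scaEx F α τ t φ)) :=
    sgp_P_tendsto_bd hF hτ hα hφ le_rfl ht.1 ht.2 0
  have h2 : Tendsto (fun n => scEx F (scDy α τ n) t (φn n) - scEx F (scDy α τ n) t φ) atTop (𝓝 0) := by
    rw [Metric.tendsto_atTop]
    intro ε hε
    obtain ⟨N, hN⟩ := hu (ε / 2) (half_pos hε)
    refine ⟨N, fun n hn => ?_⟩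
    rw [Real.dist_eq, sub_zero]
    have e : scEx F (scDy α τ n) t (φn n) - scEx F (scDy α τ n) t φ = scEx F (scDy α τ n) t (fun z => φn n z - φ z) := by
      unfold scEx
      rw [sc_Pt_sub hF (hφn n) hφ.scE.of_succ.of_succ]
    rw [e]
    exact (sc_Pt_abs_le hF ((hφn n).sub hφ.scE.of_succ.of_succ).continuous (hN n hn) _ 0 t 0).trans_lt (half_lt_self hε)
  have h3 := h2.add h1
  rw [zero_add] at h3
  exact h3.congr fun n => by ring

theorem sc2_pow_close {x y C ε : ℝ} (hx : |x| ≤ C) (hy : |y| ≤ C) (h : |x - y| ≤ ε) :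
    |x ^ 2 - y ^ 2| ≤ 2 * C * ε ∧ |x ^ 3 - y ^ 3| ≤ 3 * C ^ 2 * ε := by
  have hC : 0 ≤ C := (abs_nonneg _).trans hx
  constructor
  · have e : x ^ 2 - y ^ 2 = (x + y) * (x - y) := by ring
    rw [e, abs_mul]
    have h1 : |x + y| ≤ 2 * C := by have := abs_add_le x y; linarith
    exact mul_le_mul h1 h (abs_nonneg _) (by positivity)
  · have e : x ^ 3 - y ^ 3 = (x * x + x * y + y * y) * (x - y) := by ring
    rw [e, abs_mul]
    have q1 := abs_le.1 (sc2_pp hx hx)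
    have q2 := abs_le.1 (sc2_pp hx hy)
    have q3 := abs_le.1 (sc2_pp hy hy)
    have h1 : |x * x + x * y + y * y| ≤ 3 * C ^ 2 := abs_le.2 ⟨by linarith, by linarith⟩
    exact mul_le_mul h1 h (abs_nonneg _) (by positivity)

/-- powers of the derivatives of the continuation as moving observables -/
theorem sc2_pow_lim {a τ : ℝ} (hτ : 0 ≤ τ) {F : ℝ → ℝ} (hF : ScBI F) {α : ℝ → ℝ} (hα : ScCoef a τ α) {t : ℝ} (ht : t ∈ Icc 0 τ)
    (k : ℕ) :
    Tendsto (fun n => scEx F (scDy α τ n) t (fun z => scD (k + 1) F (scDy α τ n) t z ^ 2)) atTop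
      (𝓝 (scaEx F α τ t (fun z => scaD (k + 1) F α τ t z ^ 2))) ∧
    Tendsto (fun n => scEx F (scDy α τ n) t (fun z => scD (k + 1) F (scDy α τ n) t z ^ 3)) atTop
      (𝓝 (scaEx F α τ t (fun z => scaD (k + 1) F α τ t z ^ 3))) := by
  have ha : 0 ≤ a := hα.nonneg hτ
  obtain ⟨C, hC0, hC1, hC2⟩ := scg_aD_bound ha hF
  have hBd : ScBd 2 (scaD (k + 1) F α τ t) := scg_aD_Bd hF hτ hα k 2 ht.1
  obtain ⟨M2, hM2⟩ := (hBd.pow 2).scN
  obtain ⟨M3, hM3⟩ := (hBd.pow 3).scN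
  have hc : ∀ n z, |scD (k + 1) F (scDy α τ n) t z| ≤ C (k + 1) := fun n z =>
    hC1 _ (sc_dy_adm hτ hα n) (sc_dy_inc hτ hα n) (k + 1) (by omega) t z
  have hc' : ∀ z, |scaD (k + 1) F α τ t z| ≤ C (k + 1) := fun z => hC2 τ α hτ hα (k + 1) (by omega) t ht.1 z
  constructor
  · refine sc2_obs_lim hτ hF hα ht hM2 (fun n => (sc_D_E hF (k + 1) 0 _ t).pow 2) fun ε hε => ?_
    obtain ⟨N, hN⟩ := scg_D_unif hF hτ hα (scg_dy_apx hτ hα) (k + 1) (ε := ε / (2 * C (k + 1) + 1))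
      (div_pos hε (by have := hC0 (k + 1); positivity))
    refine ⟨N, fun n hn z => ((sc2_pow_close (hc n z) (hc' z) (hN n hn t ht.1 z)).1).trans ?_⟩
    have h0 := hC0 (k + 1)
    rw [← mul_div_assoc, div_le_iff₀ (by positivity)]
    nlinarith
  · refine sc2_obs_lim hτ hF hα ht hM3 (fun n => (sc_D_E hF (k + 1) 0 _ t).pow 3) fun ε hε => ?_
    obtain ⟨N, hN⟩ := scg_D_unif hF hτ hα (scg_dy_apx hτ hα) (k + 1) (ε := ε / (3 * C (k + 1) ^ 2 + 1))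
      (div_pos hε (by positivity))
    refine ⟨N, fun n hn z => ((sc2_pow_close (hc n z) (hc' z) (hN n hn t ht.1 z)).2).trans ?_⟩
    rw [← mul_div_assoc, div_le_iff₀ (by positivity)]
    nlinarith [sq_nonneg (C (k + 1))]

/-- the moment curves converge along the dyadic profiles -/
theorem sc2_mom_lim {a τ : ℝ} (_ha : 0 < a) (hτ : 0 < τ) {α : ℝ → ℝ} (hα : ScCoef a τ α) {t : ℝ} (ht : t ∈ Icc 0 τ) :
    Tendsto (fun n => scM2 (scLC a) (scDy α τ n) t) atTop (𝓝 (scaM2 (scLC a) α τ t)) ∧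
    Tendsto (fun n => scM3 (scLC a) (scDy α τ n) t) atTop (𝓝 (scaM3 (scLC a) α τ t)) ∧
    Tendsto (fun n => scN3 (scLC a) (scDy α τ n) t) atTop (𝓝 (scaN3 (scLC a) α τ t)) ∧
    Tendsto (fun n => scGam (scLC a) (scDy α τ n) t) atTop (𝓝 (scaGam (scLC a) α τ t)) :=
  ⟨(sc2_pow_lim hτ.le (sc_logcosh_BI a) hα ht 1).1, (sc2_pow_lim hτ.le (sc_logcosh_BI a) hα ht 1).2,
    (sc2_pow_lim hτ.le (sc_logcosh_BI a) hα ht 2).1, (sc2_pow_lim hτ.le (sc_logcosh_BI a) hα ht 0).1⟩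

/-- the weights are bounded by the `L¹` distance -/
theorem sc2_JW_le {α α' : ℝ → ℝ} {τ e : ℝ} (hτ : 0 ≤ τ) (hI : IntervalIntegrable (fun r => |α r - α' r|) volume 0 τ)
    (he : ∫ r in (0 : ℝ)..τ, |α r - α' r| ≤ e) {t : ℝ} (ht : t ∈ Icc 0 τ) :
    sc2J α α' τ t ≤ e ∧ sc2W α α' τ t ≤ (τ + τ ^ 2) * e := by
  have h := sc2_JW_stab (α := α) (α' := α') (β := fun _ => 0) (β' := fun _ => 0) (e := e) hτ hI (by simp)
    (by simpa using he) ht
  have z1 : ∀ r, sc2J (fun _ => 0) (fun _ => 0) τ r = 0 := fun r => by simp [sc2J]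
  have z2 : sc2W (fun _ => 0) (fun _ => 0) τ t = 0 := by simp [sc2W, z1]
  rw [z1, z2, sub_zero, sub_zero] at h
  exact ⟨(le_abs_self _).trans h.1, (le_abs_self _).trans h.2⟩

/-- **two general profiles**: the moment curves -/
theorem sc2_gen {a τ : ℝ} (ha : 0 < a) (hτ : 0 < τ) : ∃ C : ℝ, 0 ≤ C ∧
    ∀ α β : ℝ → ℝ, ScCoef a τ α → ScCoef a τ β → ∀ t ∈ Icc 0 τ,
      |scaM2 (scLC a) α τ t - scaM2 (scLC a) β τ t| ≤ C * (sc2J α β τ t + sc2W α β τ t) ∧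
      |scaM3 (scLC a) α τ t - scaM3 (scLC a) β τ t| ≤ C * (sc2J α β τ t + sc2W α β τ t) ∧
      |scaN3 (scLC a) α τ t - scaN3 (scLC a) β τ t| ≤ C * (t * sc2J α β τ t + sc2W α β τ t) ∧
      |scaGam (scLC a) α τ t - scaGam (scLC a) β τ t| ≤ C * (t * sc2J α β τ t + sc2W α β τ t) ∧
      |scaN3 (scLC a) α τ t| ≤ C * t ∧ |scaM2 (scLC a) α τ t| ≤ C ∧ |scaM3 (scLC a) α τ t| ≤ C := by
  obtain ⟨A, hA0, HH⟩ := sc2_dy_H ha hτ
  obtain ⟨C, hC0, H4⟩ := sc2_T4 ha.le hτ.le hA0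
  refine ⟨C, hC0, fun α β hα hβ t ht => ?_⟩
  obtain ⟨a1, a2, a3, a4⟩ := sc2_mom_lim ha hτ hα ht
  obtain ⟨b1, b2, b3, b4⟩ := sc2_mom_lim ha hτ hβ ht
  obtain ⟨j, w⟩ := sc2_JW_lim ha hτ hα hβ ht
  have K := fun n => H4 (scLC a) _ _ (HH α β hα hβ n n) t ht
  exact ⟨le_of_tendsto_of_tendsto' (a1.sub b1).abs ((j.add w).const_mul C) (fun n => (K n).1),
    le_of_tendsto_of_tendsto' (a2.sub b2).abs ((j.add w).const_mul C) (fun n => (K n).2.1),
    le_of_tendsto_of_tendsto' (a3.sub b3).abs (((j.const_mul t).add w).const_mul C) (fun n => (K n).2.2.1),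
    le_of_tendsto_of_tendsto' (a4.sub b4).abs (((j.const_mul t).add w).const_mul C) (fun n => (K n).2.2.2.1),
    le_of_tendsto' a3.abs (fun n => (K n).2.2.2.2.1), le_of_tendsto' a1.abs (fun n => (K n).2.2.2.2.2.1),
    le_of_tendsto' a2.abs (fun n => (K n).2.2.2.2.2.2)⟩

/-- **uniform rate** of the convergence of the moment curves along the dyadic profiles -/
theorem sc2_unif {a τ : ℝ} (ha : 0 < a) (hτ : 0 < τ) : ∃ C : ℝ, 0 ≤ C ∧
    ∀ α : ℝ → ℝ, ScCoef a τ α → ∀ n, ∀ t ∈ Icc 0 τ,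
      |scM2 (scLC a) (scDy α τ n) t - scaM2 (scLC a) α τ t| ≤ C * ∫ r in (0 : ℝ)..τ, |scAl (scDy α τ n) r - α r| ∧
      |scM3 (scLC a) (scDy α τ n) t - scaM3 (scLC a) α τ t| ≤ C * ∫ r in (0 : ℝ)..τ, |scAl (scDy α τ n) r - α r| ∧
      |scN3 (scLC a) (scDy α τ n) t - scaN3 (scLC a) α τ t| ≤ C * ∫ r in (0 : ℝ)..τ, |scAl (scDy α τ n) r - α r| ∧
      |scGam (scLC a) (scDy α τ n) t - scaGam (scLC a) α τ t| ≤ C * ∫ r in (0 : ℝ)..τ, |scAl (scDy α τ n) r - α r| := by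
  obtain ⟨A, hA0, HH⟩ := sc2_dy_H ha hτ
  obtain ⟨C, hC0, H4⟩ := sc2_T4 ha.le hτ.le hA0
  refine ⟨C * (1 + 2 * τ + τ ^ 2), by positivity, fun α hα n t ht => ?_⟩
  have hX := scg_dy_apx hτ.le hα
  set e : ℕ → ℝ := fun n => ∫ r in (0 : ℝ)..τ, |scAl (scDy α τ n) r - α r| with he
  have he0 : ∀ n, 0 ≤ e n := fun n => intervalIntegral.integral_nonneg hτ.le fun _ _ => abs_nonneg _
  obtain ⟨a1, a2, a3, a4⟩ := sc2_mom_lim ha hτ hα ht
  have hlim : Tendsto (fun m => C * (1 + 2 * τ + τ ^ 2) * (e n + e m)) atTop (𝓝 (C * (1 + 2 * τ + τ ^ 2) * e n)) := by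
    have := (hX.l1.const_add (e n)).const_mul (C * (1 + 2 * τ + τ ^ 2))
    rwa [add_zero] at this
  have key : ∀ m, sc2J (scAl (scDy α τ n)) (scAl (scDy α τ m)) τ t ≤ e n + e m ∧
      sc2W (scAl (scDy α τ n)) (scAl (scDy α τ m)) τ t ≤ (τ + τ ^ 2) * (e n + e m) := by
    intro m
    refine sc2_JW_le hτ.le (sc2_al_int ha.le (hX.adm n) (hX.adm m) 0 τ) ?_ ht
    simp only [he]
    rw [← intervalIntegral.integral_add (hX.int_abs n le_rfl hτ.le le_rfl) (hX.int_abs m le_rfl hτ.le le_rfl)]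
    refine intervalIntegral.integral_mono_on hτ.le (sc2_al_int ha.le (hX.adm n) (hX.adm m) 0 τ)
      ((hX.int_abs n le_rfl hτ.le le_rfl).add (hX.int_abs m le_rfl hτ.le le_rfl)) fun r _ => ?_
    have h2 : scAl (scDy α τ n) r - scAl (scDy α τ m) r = (scAl (scDy α τ n) r - α r) - (scAl (scDy α τ m) r - α r) := by ring
    rw [h2]
    exact abs_sub _ _
  have K := fun m => H4 (scLC a) _ _ (HH α α hα hα n m) t ht
  have hJ0 : ∀ m, 0 ≤ sc2J (scAl (scDy α τ n)) (scAl (scDy α τ m)) τ t := fun m => sc2J_nonneg _ _ ht.2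
  have b1 : ∀ m, C * (sc2J (scAl (scDy α τ n)) (scAl (scDy α τ m)) τ t + sc2W (scAl (scDy α τ n)) (scAl (scDy α τ m)) τ t)
      ≤ C * (1 + 2 * τ + τ ^ 2) * (e n + e m) := fun m => by
    rw [mul_assoc]
    refine mul_le_mul_of_nonneg_left ?_ hC0
    have := key m
    have h3 : 0 ≤ τ * (e n + e m) := mul_nonneg hτ.le (add_nonneg (he0 n) (he0 m))
    nlinarith [this.1, this.2]
  have b2 : ∀ m, C * (t * sc2J (scAl (scDy α τ n)) (scAl (scDy α τ m)) τ t + sc2W (scAl (scDy α τ n)) (scAl (scDy α τ m)) τ t)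
      ≤ C * (1 + 2 * τ + τ ^ 2) * (e n + e m) := fun m => by
    rw [mul_assoc]
    refine mul_le_mul_of_nonneg_left ?_ hC0
    have := key m
    have h3 : t * sc2J (scAl (scDy α τ n)) (scAl (scDy α τ m)) τ t ≤ τ * (e n + e m) :=
      mul_le_mul ht.2 this.1 (hJ0 m) hτ.le
    have h4 : 0 ≤ e n + e m := add_nonneg (he0 n) (he0 m)
    nlinarith [this.2]
  exact ⟨le_of_tendsto_of_tendsto' (a1.const_sub _).abs hlim (fun m => ((K m).1).trans (b1 m)),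
    le_of_tendsto_of_tendsto' (a2.const_sub _).abs hlim (fun m => ((K m).2.1).trans (b1 m)),
    le_of_tendsto_of_tendsto' (a3.const_sub _).abs hlim (fun m => ((K m).2.2.1).trans (b2 m)),
    le_of_tendsto_of_tendsto' (a4.const_sub _).abs hlim (fun m => ((K m).2.2.2.1).trans (b2 m))⟩

/-! ## B. continuity, identities -/

/-- `ε`-form of the uniform convergence -/
theorem sc2_unif_eps {a τ : ℝ} (ha : 0 < a) (hτ : 0 < τ) {α : ℝ → ℝ} (hα : ScCoef a τ α) {ε : ℝ} (hε : 0 < ε) :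
    ∃ N, ∀ n ≥ N, ∀ t ∈ Icc 0 τ,
      |scM2 (scLC a) (scDy α τ n) t - scaM2 (scLC a) α τ t| ≤ ε ∧ |scM3 (scLC a) (scDy α τ n) t - scaM3 (scLC a) α τ t| ≤ ε ∧
      |scN3 (scLC a) (scDy α τ n) t - scaN3 (scLC a) α τ t| ≤ ε ∧ |scGam (scLC a) (scDy α τ n) t - scaGam (scLC a) α τ t| ≤ ε := by
  obtain ⟨C, hC0, H⟩ := sc2_unif ha hτ
  have hl := ((scg_dy_apx hτ.le hα).l1).const_mul C
  rw [mul_zero] at hl
  obtain ⟨N, hN⟩ := (hl.eventually (gt_mem_nhds hε)).exists_forall_of_atTop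
  refine ⟨N, fun n hn t ht => ?_⟩
  have h := H α hα n t ht
  have h' := (hN n hn).le
  exact ⟨h.1.trans h', h.2.1.trans h', h.2.2.1.trans h', h.2.2.2.trans h'⟩

/-- the step curves are continuous -/
theorem sc2_step_cont {F : ℝ → ℝ} (hF : ScBI F) {π : List (ℝ × ℝ)} (hπ : ScPos π) :
    ContinuousOn (scM2 F π) (Icc 0 (scLen π)) ∧ ContinuousOn (scM3 F π) (Icc 0 (scLen π)) ∧
      ContinuousOn (scN3 F π) (Icc 0 (scLen π)) ∧ ContinuousOn (scGam F π) (Icc 0 (scLen π)) := by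
  rw [scm_M2_eq, scm_M3_eq, scm_N3_eq, scm_Gam_eq]
  exact ⟨scm_M_cont hF hπ _, scm_M_cont hF hπ _, scm_M_cont hF hπ _, scm_M_cont hF hπ _⟩

/-- the moment curves are continuous -/
theorem sc2_cont {a τ : ℝ} (ha : 0 < a) (hτ : 0 < τ) {α : ℝ → ℝ} (hα : ScCoef a τ α) :
    ContinuousOn (scaM2 (scLC a) α τ) (Icc 0 τ) ∧ ContinuousOn (scaM3 (scLC a) α τ) (Icc 0 τ) ∧
      ContinuousOn (scaN3 (scLC a) α τ) (Icc 0 τ) ∧ ContinuousOn (scaGam (scLC a) α τ) (Icc 0 τ) := by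
  have hc : ∀ n, ContinuousOn (scM2 (scLC a) (scDy α τ n)) (Icc 0 τ) ∧ ContinuousOn (scM3 (scLC a) (scDy α τ n)) (Icc 0 τ) ∧
      ContinuousOn (scN3 (scLC a) (scDy α τ n)) (Icc 0 τ) ∧ ContinuousOn (scGam (scLC a) (scDy α τ n)) (Icc 0 τ) := fun n => by
    have := sc2_step_cont (sc_logcosh_BI a) (sc_dy_adm hτ.le hα n).pos
    rwa [sc_dy_len] at this
  refine ⟨sck_unif_limit_continuousOn (fun n => (hc n).1) fun ε hε => ?_,
    sck_unif_limit_continuousOn (fun n => (hc n).2.1) fun ε hε => ?_,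
    sck_unif_limit_continuousOn (fun n => (hc n).2.2.1) fun ε hε => ?_,
    sck_unif_limit_continuousOn (fun n => (hc n).2.2.2) fun ε hε => ?_⟩
  · obtain ⟨N, hN⟩ := sc2_unif_eps ha hτ hα hε
    exact ⟨N, fun n hn t ht => (hN n hn t ht).1⟩
  · obtain ⟨N, hN⟩ := sc2_unif_eps ha hτ hα hε
    exact ⟨N, fun n hn t ht => (hN n hn t ht).2.1⟩
  · obtain ⟨N, hN⟩ := sc2_unif_eps ha hτ hα hε
    exact ⟨N, fun n hn t ht => (hN n hn t ht).2.2.1⟩
  · obtain ⟨N, hN⟩ := sc2_unif_eps ha hτ hα hε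
    exact ⟨N, fun n hn t ht => (hN n hn t ht).2.2.2⟩

/-- integrals of uniformly convergent continuous functions -/
theorem sc2_int_lim {f : ℕ → ℝ → ℝ} {g : ℝ → ℝ} {s t : ℝ} (hst : s ≤ t) (hf : ∀ n, ContinuousOn (f n) (Icc s t))
    (hg : ContinuousOn g (Icc s t)) (hu : ∀ ε > 0, ∃ N, ∀ n ≥ N, ∀ r ∈ Icc s t, |f n r - g r| ≤ ε) :
    Tendsto (fun n => ∫ r in s..t, f n r) atTop (𝓝 (∫ r in s..t, g r)) := by
  have hfi : ∀ n, IntervalIntegrable (f n) volume s t := fun n => by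
    refine ContinuousOn.intervalIntegrable ?_
    rw [uIcc_of_le hst]; exact hf n
  have hgi : IntervalIntegrable g volume s t := by
    refine ContinuousOn.intervalIntegrable ?_
    rw [uIcc_of_le hst]; exact hg
  rw [Metric.tendsto_atTop]
  intro ε hε
  obtain ⟨N, hN⟩ := hu (ε / (2 * (t - s + 1))) (div_pos hε (by linarith [sub_nonneg.2 hst]))
  refine ⟨N, fun n hn => ?_⟩
  rw [Real.dist_eq, ← intervalIntegral.integral_sub (hfi n) hgi, ← Real.norm_eq_abs]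
  have h1 := intervalIntegral.norm_integral_le_of_norm_le_const (a := s) (b := t) (f := fun r => f n r - g r)
    (C := ε / (2 * (t - s + 1))) (fun r hr => by
      rw [uIoc_of_le hst] at hr
      rw [Real.norm_eq_abs]
      exact hN n hn r ⟨hr.1.le, hr.2⟩)
  refine h1.trans_lt ?_
  rw [abs_of_nonneg (sub_nonneg.2 hst), div_mul_eq_mul_div, div_lt_iff₀ (by linarith [sub_nonneg.2 hst])]
  nlinarith [sub_nonneg.2 hst]

theorem sc2_Gam_eq_le {a τ : ℝ} (ha : 0 < a) (hτ : 0 < τ) {α : ℝ → ℝ} (hα : ScCoef a τ α) {s t : ℝ} (hs : 0 ≤ s) (hst : s ≤ t)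
    (ht : t ≤ τ) : scaGam (scLC a) α τ t - scaGam (scLC a) α τ s = ∫ r in s..t, scaM2 (scLC a) α τ r := by
  have hsub : Icc s t ⊆ Icc 0 τ := Icc_subset_Icc hs ht
  have hF : ScBI (scLC a) := sc_logcosh_BI a
  have l1 := ((sc2_mom_lim ha hτ hα (t := t) ⟨hs.trans hst, ht⟩).2.2.2).sub
    ((sc2_mom_lim ha hτ hα (t := s) ⟨hs, hst.trans ht⟩).2.2.2)
  have l2 : Tendsto (fun n => ∫ r in s..t, scM2 (scLC a) (scDy α τ n) r) atTop (𝓝 (∫ r in s..t, scaM2 (scLC a) α τ r)) := by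
    refine sc2_int_lim hst (fun n => ?_) ((sc2_cont ha hτ hα).1.mono hsub) fun ε hε => ?_
    · have := (sc2_step_cont hF (sc_dy_adm hτ.le hα n).pos).1
      rw [sc_dy_len] at this
      exact this.mono hsub
    · obtain ⟨N, hN⟩ := sc2_unif_eps ha hτ hα hε
      exact ⟨N, fun n hn r hr => (hN n hn r (hsub hr)).1⟩
  refine tendsto_nhds_unique l1 (l2.congr fun n => ?_)
  exact (scm_Gam hF (sc_dy_adm hτ.le hα n).pos hs hst (by rw [sc_dy_len]; exact ht)).symm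

/-- `Γ(t) - Γ(s) = ∫ E V_zz²` -/
theorem sc2_Gam_eq {a τ : ℝ} (ha : 0 < a) (hτ : 0 < τ) {α : ℝ → ℝ} (hα : ScCoef a τ α) {s t : ℝ} (hs : s ∈ Icc 0 τ) (ht : t ∈ Icc 0 τ) :
    scaGam (scLC a) α τ t - scaGam (scLC a) α τ s = ∫ r in s..t, scaM2 (scLC a) α τ r := by
  rcases le_total s t with h | h
  · exact sc2_Gam_eq_le ha hτ hα hs.1 h ht.2
  · rw [intervalIntegral.integral_symm, ← sc2_Gam_eq_le ha hτ hα ht.1 h hs.2]
    ring

theorem sc2_M2_eq_le {a τ : ℝ} (ha : 0 < a) (hτ : 0 < τ) {α : ℝ → ℝ} (hα : ScCoef a τ α) {s t : ℝ} (hs : 0 ≤ s) (hst : s ≤ t)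
    (ht : t ≤ τ) :
    scaM2 (scLC a) α τ t - scaM2 (scLC a) α τ s = ∫ r in s..t, (scaN3 (scLC a) α τ r - 2 * α r * scaM3 (scLC a) α τ r) := by
  have hsub : Icc s t ⊆ Icc 0 τ := Icc_subset_Icc hs ht
  have hF : ScBI (scLC a) := sc_logcosh_BI a
  have hX := scg_dy_apx hτ.le hα
  obtain ⟨-, c3, cN, -⟩ := sc2_cont ha hτ hα
  have sc : ∀ n, ContinuousOn (scM3 (scLC a) (scDy α τ n)) (Icc s t) ∧ ContinuousOn (scN3 (scLC a) (scDy α τ n)) (Icc s t) := fun n => by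
    have := sc2_step_cont hF (sc_dy_adm hτ.le hα n).pos
    rw [sc_dy_len] at this
    exact ⟨this.2.1.mono hsub, this.2.2.1.mono hsub⟩
  have l1 := ((sc2_mom_lim ha hτ hα (t := t) ⟨hs.trans hst, ht⟩).1).sub ((sc2_mom_lim ha hτ hα (t := s) ⟨hs, hst.trans ht⟩).1)
  have iN : ∀ n, IntervalIntegrable (scN3 (scLC a) (scDy α τ n)) volume s t := fun n => by
    refine ContinuousOn.intervalIntegrable ?_
    rw [uIcc_of_le hst]; exact (sc n).2
  have iA : ∀ n, IntervalIntegrable (fun r => scAl (scDy α τ n) r * scM3 (scLC a) (scDy α τ n) r) volume s t := fun n => by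
    refine (sc_dy_al_intervalIntegrable ha.le (hX.adm n) s t).mul_continuousOn ?_
    rw [uIcc_of_le hst]; exact (sc n).1
  have l2 : Tendsto (fun n => ∫ r in s..t, scN3 (scLC a) (scDy α τ n) r) atTop (𝓝 (∫ r in s..t, scaN3 (scLC a) α τ r)) := by
    refine sc2_int_lim hst (fun n => (sc n).2) (cN.mono hsub) fun ε hε => ?_
    obtain ⟨N, hN⟩ := sc2_unif_eps ha hτ hα hε
    exact ⟨N, fun n hn r hr => (hN n hn r (hsub hr)).2.2.1⟩
  have l3 : Tendsto (fun n => ∫ r in s..t, scAl (scDy α τ n) r * scM3 (scLC a) (scDy α τ n) r) atTop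
      (𝓝 (∫ r in s..t, α r * scaM3 (scLC a) α τ r)) := by
    refine hX.integral_tendsto hs hst ht (c3.mono hsub) iA fun ε hε => ?_
    obtain ⟨N, hN⟩ := sc2_unif_eps ha hτ hα hε
    exact ⟨N, fun n hn r hr => (hN n hn r (hsub hr)).2.1⟩
  have iα : IntervalIntegrable (fun r => α r * scaM3 (scLC a) α τ r) volume s t := by
    have h1 : IntervalIntegrable α volume s t := by
      refine hX.int.mono_set ?_
      rw [uIcc_of_le hst, uIcc_of_le hτ.le]; exact hsub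
    refine h1.mul_continuousOn ?_
    rw [uIcc_of_le hst]; exact c3.mono hsub
  have iN' : IntervalIntegrable (scaN3 (scLC a) α τ) volume s t := by
    refine ContinuousOn.intervalIntegrable ?_
    rw [uIcc_of_le hst]; exact cN.mono hsub
  have e : ∫ r in s..t, (scaN3 (scLC a) α τ r - 2 * α r * scaM3 (scLC a) α τ r)
      = (∫ r in s..t, scaN3 (scLC a) α τ r) - 2 * ∫ r in s..t, α r * scaM3 (scLC a) α τ r := by
    rw [← intervalIntegral.integral_const_mul, ← intervalIntegral.integral_sub iN' (iα.const_mul 2)]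
    refine intervalIntegral.integral_congr fun r _ => ?_
    ring
  rw [e]
  refine tendsto_nhds_unique l1 ((l2.sub (l3.const_mul 2)).congr fun n => ?_)
  rw [scm_M2 hF (sc_dy_adm hτ.le hα n).pos hs hst (by rw [sc_dy_len]; exact ht),
    ← intervalIntegral.integral_const_mul, ← intervalIntegral.integral_sub (iN n) ((iA n).const_mul 2)]
  refine intervalIntegral.integral_congr fun r _ => ?_
  ring

/-- `Γ'' = E V_zzz² - 2 α E V_zz³`, integrated -/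
theorem sc2_M2_eq {a τ : ℝ} (ha : 0 < a) (hτ : 0 < τ) {α : ℝ → ℝ} (hα : ScCoef a τ α) {s t : ℝ} (hs : s ∈ Icc 0 τ) (ht : t ∈ Icc 0 τ) :
    scaM2 (scLC a) α τ t - scaM2 (scLC a) α τ s = ∫ r in s..t, (scaN3 (scLC a) α τ r - 2 * α r * scaM3 (scLC a) α τ r) := by
  rcases le_total s t with h | h
  · exact sc2_M2_eq_le ha hτ hα hs.1 h ht.2
  · rw [intervalIntegral.integral_symm, ← sc2_M2_eq_le ha hτ hα ht.1 h hs.2]
    ring

/-- `E V_zz³` is Lipschitz in time, step level, constant free of the partition -/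
theorem sc2_M3_lip {a A : ℝ} (ha : 0 ≤ a) (hA : 0 ≤ A) : ∃ C : ℝ, 0 ≤ C ∧
    ∀ (F : ℝ → ℝ) (π : List (ℝ × ℝ)), ScBI F → ScN 4 A (deriv F) → ScAdm a π → ScInc π → ∀ s t, 0 ≤ s → s ≤ t → t ≤ scLen π →
      |scM3 F π t - scM3 F π s| ≤ C * (t - s) := by
  obtain ⟨Cb, hCb1, HB⟩ := sc2_bd ha hA
  have hCb0 : 0 ≤ Cb := zero_le_one.trans hCb1
  refine ⟨3 * Cb ^ 3 + 3 * a * Cb ^ 4, by positivity, fun F π hF hN hadm hinc s t hs hst ht => ?_⟩
  have bv : ∀ k, 1 ≤ k → k ≤ 5 → ∀ t z, |scD k F π t z| ≤ Cb := HB F π hF hN hadm hinc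
  rw [scm_M3 hF hadm.pos hs hst ht, ← Real.norm_eq_abs]
  have h1 := intervalIntegral.norm_integral_le_of_norm_le_const (a := s) (b := t)
    (f := fun r => 3 * scM13 F π r - 3 * scAl π r * scM4 F π r) (C := 3 * Cb ^ 3 + 3 * a * Cb ^ 4) (fun r _ => ?_)
  · rwa [abs_of_nonneg (sub_nonneg.2 hst)] at h1
  · have e2 := sc_D_E hF 2 0 π r
    have e3 := sc_D_E hF 3 0 π r
    have b13 : |scM13 F π r| ≤ Cb ^ 3 := by
      unfold scM13
      refine sc_Pt_abs_le hF (e2.mul (e3.pow 2)).continuous (fun y => ?_) π 0 r 0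
      rw [abs_mul, abs_pow]
      calc |scD 2 F π r y| * |scD 3 F π r y| ^ 2 ≤ Cb * Cb ^ 2 :=
            mul_le_mul (bv 2 (by norm_num) (by norm_num) r y)
              (pow_le_pow_left₀ (abs_nonneg _) (bv 3 (by norm_num) (by norm_num) r y) 2) (by positivity) hCb0
        _ = Cb ^ 3 := by ring
    have b4 : |scM4 F π r| ≤ Cb ^ 4 := by
      unfold scM4
      refine sc_Pt_abs_le hF (e2.pow 4).continuous (fun y => ?_) π 0 r 0
      rw [abs_pow]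
      exact pow_le_pow_left₀ (abs_nonneg _) (bv 2 (by norm_num) (by norm_num) r y) 4
    have hal := sc_Al_mem ha hadm r
    rw [Real.norm_eq_abs]
    have h2 : |3 * scAl π r * scM4 F π r| ≤ 3 * a * Cb ^ 4 := by
      rw [abs_mul, abs_of_nonneg (by linarith [hal.1] : (0 : ℝ) ≤ 3 * scAl π r)]
      exact mul_le_mul (by linarith [hal.2]) b4 (abs_nonneg _) (by positivity)
    have h3 : |3 * scM13 F π r| ≤ 3 * Cb ^ 3 := by
      rw [abs_mul, abs_of_pos (by norm_num : (0 : ℝ) < 3)]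
      linarith
    have := abs_sub (3 * scM13 F π r) (3 * scAl π r * scM4 F π r)
    linarith

/-- `E V_zz³` is Lipschitz in time -/
theorem sc2_gen_M3_lip {a τ : ℝ} (ha : 0 < a) (hτ : 0 < τ) : ∃ C : ℝ, 0 ≤ C ∧
    ∀ α : ℝ → ℝ, ScCoef a τ α → ∀ t ∈ Icc 0 τ, ∀ t' ∈ Icc 0 τ,
      |scaM3 (scLC a) α τ t - scaM3 (scLC a) α τ t'| ≤ C * |t - t'| := by
  obtain ⟨A, hA0, HH⟩ := sc2_dy_H ha hτ
  obtain ⟨C, hC0, H⟩ := sc2_M3_lip ha.le hA0
  refine ⟨C, hC0, fun α hα => ?_⟩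
  have key : ∀ s ∈ Icc 0 τ, ∀ t ∈ Icc 0 τ, s ≤ t → |scaM3 (scLC a) α τ t - scaM3 (scLC a) α τ s| ≤ C * (t - s) := by
    intro s hs t ht hst
    have l := (((sc2_mom_lim ha hτ hα ht).2.1).sub ((sc2_mom_lim ha hτ hα hs).2.1)).abs
    refine le_of_tendsto' l fun n => ?_
    have h := HH α α hα hα n n
    exact H (scLC a) _ h.bi h.nF h.adm h.inc s t hs.1 hst (by rw [h.len]; exact ht.2)
  intro t ht t' ht'
  rcases le_total t' t with h | h
  · rw [abs_of_nonneg (sub_nonneg.2 h)]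
    exact key t' ht' t ht h
  · rw [abs_sub_comm, abs_sub_comm t t', abs_of_nonneg (sub_nonneg.2 h)]
    exact key t ht t' ht' h

/-- `Γ' = E V_zz²` -/
theorem sc2_Gam_hasDerivAt {a τ : ℝ} (ha : 0 < a) (hτ : 0 < τ) {α : ℝ → ℝ} (hα : ScCoef a τ α) {t : ℝ} (ht : t ∈ Ioo 0 τ) :
    HasDerivAt (scaGam (scLC a) α τ) (scaM2 (scLC a) α τ t) t := by
  have hc := (sc2_cont ha hτ hα).1
  have h1 : HasDerivAt (fun u => ∫ x in t..u, scaM2 (scLC a) α τ x) (scaM2 (scLC a) α τ t) t :=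
    intervalIntegral.integral_hasDerivAt_right (by simp)
      ((hc.mono Ioo_subset_Icc_self).stronglyMeasurableAtFilter isOpen_Ioo t ht)
      (hc.continuousAt (Icc_mem_nhds ht.1 ht.2))
  have h2 := h1.const_add (scaGam (scLC a) α τ t)
  refine h2.congr_of_eventuallyEq ?_
  filter_upwards [Icc_mem_nhds ht.1 ht.2] with u hu
  rw [← sc2_Gam_eq ha hτ hα (Ioo_subset_Icc_self ht) hu]
  ring

/-- values at the time `0`: the law of `Z_0` is the point mass at `0` -/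
theorem sc2_zero {a τ : ℝ} (ha : 0 < a) (hτ : 0 < τ) {α : ℝ → ℝ} (hα : ScCoef a τ α) :
    scaGam (scLC a) α τ 0 = 0 ∧ 0 ≤ scaD 2 (scLC a) α τ 0 0 ∧ scaM2 (scLC a) α τ 0 = scaD 2 (scLC a) α τ 0 0 ^ 2 ∧
      scaM3 (scLC a) α τ 0 = scaD 2 (scLC a) α τ 0 0 ^ 3 := by
  have hF : ScBI (scLC a) := sc_logcosh_BI a
  have hev : ∀ z, scLC a (-z) = scLC a z := fun z => by simp [scLC]
  have h0 : (0 : ℝ) ∈ Icc 0 τ := ⟨le_rfl, hτ.le⟩
  obtain ⟨l2, l3, -, lG⟩ := sc2_mom_lim ha hτ hα h0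
  have d2 := scg_dy_tendsto hF hτ.le hα 2 le_rfl 0
  have hc : ∀ z, 0 ≤ deriv (deriv (scLC a)) z := fun z => ((ScAd.logcosh ha).pos z).le
  refine ⟨tendsto_nhds_unique lG (tendsto_const_nhds.congr fun n => ?_), ge_of_tendsto' d2 fun n => ?_,
    tendsto_nhds_unique l2 ((d2.pow 2).congr fun n => ?_), tendsto_nhds_unique l3 ((d2.pow 3).congr fun n => ?_)⟩
  · unfold scGam scEx
    rw [sc_Pt_self, (sc2_D_odd_zero hF hev _ 0).1]
    norm_num
  · exact sc_D2_nonneg hF hc (fun p hp => (sc_dy_adm hτ.le hα n p hp).1) 0 0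
  · unfold scM2 scEx
    rw [sc_Pt_self]
  · unfold scM3 scEx
    rw [sc_Pt_self]

/-! ## C. the request of N12 -/

/-- the moment curves of the clock `K` at the horizon `Q0` -/
def sc2Cv (Q0 : ℝ) (K : ℝ → ℝ) : BudCv where
  al := bdDist K
  G := scaGam (scLC 1) (bdDist K) Q0
  G1 := scaM2 (scLC 1) (bdDist K) Q0
  e3 := scaM3 (scLC 1) (bdDist K) Q0
  f2 := scaN3 (scLC 1) (bdDist K) Q0

theorem sc2_cv_ok {Q0 : ℝ} (hQ : 0 < Q0) : ∃ Cc : ℝ, 0 < Cc ∧ ∀ K : ℝ → ℝ, (sc2Cv Q0 K).Ok Q0 Cc := by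
  obtain ⟨C1, hC1, H1⟩ := sc2_gen one_pos hQ
  obtain ⟨C2, hC2, H2⟩ := sc2_gen_M3_lip one_pos hQ
  obtain ⟨c, hc, H3⟩ := shx_pos one_pos hQ.le
  have hci : 0 < 1 / c := by positivity
  refine ⟨C1 + C2 + 1 + 1 / c, by positivity, fun K => ?_⟩
  have hα := sc2_dist_coef Q0 K
  obtain ⟨c2, c3, cN, cG⟩ := sc2_cont one_pos hQ hα
  obtain ⟨z1, z2, z3, z4⟩ := sc2_zero one_pos hQ hα
  have hb := fun t ht => H1 _ _ hα hα t ht
  refine ⟨hα.1, fun t ht => hα.2 t ht, fun t ht => sc2_Gam_hasDerivAt one_pos hQ hα ht, cG, c3, cN,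
    fun t1 h1 t2 h2 => sc2_M2_eq one_pos hQ hα h1 h2, fun t ht => ?_, fun t ht => ?_, fun t ht => ?_, fun t ht => ?_,
    fun t ht t' ht' => ?_, z1, fun t ht => ?_, ⟨_, z2, z3, z4⟩⟩
  · exact hc.le.trans (H3 _ hα t ht).1
  · exact ((le_abs_self _).trans (hb t ht).2.2.2.2.2.1).trans (by linarith)
  · exact ((hb t ht).2.2.2.2.2.2).trans (by linarith)
  · exact ((hb t ht).2.2.2.2.1).trans (mul_le_mul_of_nonneg_right (by linarith) ht.1)
  · exact (H2 _ hα t ht t' ht').trans (mul_le_mul_of_nonneg_right (by linarith) (abs_nonneg _))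
  · refine le_trans ?_ (H3 _ hα t ht).1
    rw [div_le_iff₀ (by positivity)]
    have : c * (1 / c) = 1 := by field_simp
    nlinarith

theorem sc2_cv_cmp {Q0 : ℝ} (hQ : 0 < Q0) : ∃ Cc : ℝ, 0 < Cc ∧ ∀ K1 K2 : ℝ → ℝ, BudCmp (sc2Cv Q0 K1) (sc2Cv Q0 K2) Q0 Cc := by
  obtain ⟨C1, hC1, H1⟩ := sc2_gen one_pos hQ
  refine ⟨C1 + 1, by positivity, fun K1 K2 => ?_⟩
  have hb := fun t ht => H1 _ _ (sc2_dist_coef Q0 K1) (sc2_dist_coef Q0 K2) t ht
  have hJ : ∀ t ∈ Icc 0 Q0, 0 ≤ sc2J (bdDist K1) (bdDist K2) Q0 t := fun t ht => sc2J_nonneg _ _ ht.2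
  have hW : ∀ t ∈ Icc 0 Q0, 0 ≤ sc2W (bdDist K1) (bdDist K2) Q0 t := fun t ht => sc2W_nonneg _ _ ht.1 ht.2
  refine ⟨fun t ht => ?_, fun t ht => ?_, fun t ht => ?_⟩
  · exact ((hb t ht).1).trans (mul_le_mul_of_nonneg_right (by linarith) (add_nonneg (hJ t ht) (hW t ht)))
  · exact ((hb t ht).2.1).trans (mul_le_mul_of_nonneg_right (by linarith) (add_nonneg (hJ t ht) (hW t ht)))
  · exact ((hb t ht).2.2.1).trans
      (mul_le_mul_of_nonneg_right (by linarith) (add_nonneg (mul_nonneg ht.1 (hJ t ht)) (hW t ht)))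

theorem sc2_ok_mono {c : BudCv} {Q0 C C' : ℝ} (h : c.Ok Q0 C) (h0 : 0 < C) (hC : C ≤ C') : c.Ok Q0 C' :=
  ⟨h.al_mono, h.al_mem, h.der, h.G_cont, h.e3_cont, h.f2_cont, h.der2, h.G1_nonneg, fun t ht => (h.G1_le t ht).trans hC,
    fun t ht => (h.e3_le t ht).trans hC, fun t ht => (h.f2_le t ht).trans (mul_le_mul_of_nonneg_right hC ht.1),
    fun t ht t' ht' => (h.e3_lip t ht t' ht').trans (mul_le_mul_of_nonneg_right hC (abs_nonneg _)), h.G_zero,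
    fun t ht => (one_div_le_one_div_of_le h0 hC).trans (h.G1_ge t ht), h.zero⟩

theorem sc2_cmp_mono {c1 c2 : BudCv} {Q0 C C' : ℝ} (h : BudCmp c1 c2 Q0 C) (hC : C ≤ C') : BudCmp c1 c2 Q0 C' := by
  have hJ : ∀ t ∈ Icc 0 Q0, 0 ≤ budI (fun s => c1.al s - c2.al s) Q0 t := fun t ht => sc2J_nonneg c1.al c2.al ht.2
  have hW : ∀ t ∈ Icc 0 Q0, 0 ≤ budJ (fun s => c1.al s - c2.al s) Q0 t := fun t ht => sc2W_nonneg c1.al c2.al ht.1 ht.2
  exact ⟨fun t ht => (h.cG1 t ht).trans (mul_le_mul_of_nonneg_right hC (add_nonneg (hJ t ht) (hW t ht))),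
    fun t ht => (h.ce3 t ht).trans (mul_le_mul_of_nonneg_right hC (add_nonneg (hJ t ht) (hW t ht))),
    fun t ht => (h.cf2 t ht).trans (mul_le_mul_of_nonneg_right hC (add_nonneg (mul_nonneg ht.1 (hJ t ht)) (hW t ht)))⟩

/-- **the request of N12 to BOX-C is met.**      TEX[LL:bud:curvature] (PDE drift comparison, change of the forward diffusion) -/
theorem sc2_req {Q0 : ℝ} (hQ : 0 < Q0) : ∃ Cc : ℝ, 0 < Cc ∧ ∀ Gam : (ℝ → ℝ) → ℝ → ℝ,
    (∀ K, BudClk Q0 K → ∀ t ∈ Icc 0 Q0, Gam K t = scaGam (scLC 1) (bdDist K) Q0 t) → BudScReq Gam Q0 Cc := by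
  obtain ⟨C1, h1, H1⟩ := sc2_cv_ok hQ
  obtain ⟨C2, _, H2⟩ := sc2_cv_cmp hQ
  exact ⟨max C1 C2, lt_max_of_lt_left h1, fun Gam hG => ⟨sc2Cv Q0,
    fun K hK => ⟨sc2_ok_mono (H1 K) h1 (le_max_left _ _), fun t ht => (hG K hK t ht).symm, fun t _ => rfl⟩,
    fun K1 K2 _ _ => sc2_cmp_mono (H2 K1 K2) (le_max_right _ _)⟩⟩

end

end Claimed.Agent.R286
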