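import Claimed.Agent.R286.Sc.VarB
import Claimed.Agent.R286.Sc.Dy
import Claimed.Agent.R286.Sc.Ann
import Claimed.Agent.R286.Sc.MomG

/-!
# Row 286 (S0533), BOX-C (scalar block), unit TOP      (OWNER helper68; prefix `svt_`)

`p_top < 1` WITHOUT the annealed inequality (no field `top`, no log-concavity, no Prekopa): only the fields of `SvPkg T`.
If `N3(q) - 2 M3(q) ≥ 0` then on the top plateau `(q,1)` (`α = 1`) the convex function `M2` (field `curv`) starts with a nonnegative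
right derivative, hence `T M2 ≥ T M2(q) = 1` on `[q,1]` and `Γ(1) ≥ Γ(q) + (1 - q) = 1`, against the field `Gam_one`.
* `svt_M2_ge`   : the convexity step on an arbitrary plateau `[a,b]`.
* `svt_ptop`    : `p_top = N3(q) / (2 M3(q)) ∈ (0,1)`, `α(s) → p_top` as `s ↑ q`      (same conclusion as `sv_ptop`, on `SvPkg`).
* `svt_ptop_min`: the same for a minimiser (all hypotheses discharged by `sv_thmA`).
TEX[LL:paths:base-profile] (the part "strict top plateau").
-/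

set_option autoImplicit false

namespace Claimed.Agent.R286

open MeasureTheory Set Filter Topology

/-- on a positive plateau `(a,b)`: if the right derivative of `M2` at `a` is nonnegative then `M2 ≥ M2 a` on `[a,b]` -/
theorem svt_M2_ge {T : ℝ} (S : SvPkg T) (hT : 0 < T) {α : ℝ → ℝ} (h : SvCoef α) {a b c : ℝ} (ha : 0 ≤ a) (hab : a < b)
    (hb : b ≤ 1) (hc : 0 < c) (hpl : ∀ t ∈ Ioo a b, α t = c) (h0 : 0 ≤ S.N3 α a - 2 * c * S.M3 α a) :
    ∀ t ∈ Icc a b, S.M2 α a ≤ S.M2 α t := by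
  have hsub : Icc a b ⊆ Icc (0:ℝ) 1 := Icc_subset_Icc ha hb
  set g : ℝ → ℝ := fun r => S.N3 α r - 2 * c * S.M3 α r with hg
  have hgc : ContinuousOn g (Icc a b) :=
    ((S.N3_cont α h).sub (continuousOn_const.mul (S.M3_cont α h))).mono hsub
  have heq : ∀ s ∈ Icc a b, ∀ t ∈ Icc a b, S.M2 α t - S.M2 α s = ∫ r in s..t, T * g r := by
    intro s hs t ht
    rw [S.M2_eq α h s (hsub hs) t (hsub ht), intervalIntegral.integral_const_mul]
    congr 1
    apply intervalIntegral.integral_congr_uIoo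
    intro r hr
    have hr' : r ∈ Ioo a b := by
      rcases le_total s t with hst | hst
      · rw [uIoo_of_le hst] at hr; exact ⟨lt_of_le_of_lt hs.1 hr.1, lt_of_lt_of_le hr.2 ht.2⟩
      · rw [uIoo_of_ge hst] at hr; exact ⟨lt_of_le_of_lt ht.1 hr.1, lt_of_lt_of_le hr.2 hs.2⟩
    simp only [hg]
    rw [hpl r hr']
  have hder : ∀ t ∈ Ioo a b, HasDerivAt (S.M2 α) (T * g t) t := fun t ht =>
    (sv_hasDerivWithin_of_int' hab (continuousOn_const.mul hgc) heq t (Ioo_subset_Icc_self ht)).hasDerivAt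
      (Icc_mem_nhds ht.1 ht.2)
  -- `g` is nondecreasing on the open plateau
  have hmono : ∀ x y, a < x → x < y → y < b → g x ≤ g y := by
    intro x y hx hxy hy
    have hconv := sv_M2_convex S h ha hab hb hc hpl hx hxy hy
    have hm := hconv.monotoneOn_deriv (fun z hz =>
      (hder z ⟨lt_of_lt_of_le hx hz.1, lt_of_le_of_lt hz.2 hy⟩).differentiableAt)
    have := hm (show x ∈ Icc x y from ⟨le_rfl, hxy.le⟩) (show y ∈ Icc x y from ⟨hxy.le, le_rfl⟩) hxy.le
    rw [(hder x ⟨hx, hxy.trans hy⟩).deriv, (hder y ⟨hx.trans hxy, hy⟩).deriv] at this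
    exact le_of_mul_le_mul_left this hT
  -- `g ≥ g a` on the open plateau
  have hga : ∀ y ∈ Ioo a b, g a ≤ g y := by
    intro y hy
    have hcl : ∀ x ∈ closure (Ioo a y), g x ≤ g y := by
      intro x hx
      have hcs : closure (Ioo a y) ⊆ Icc a b := by
        rw [closure_Ioo hy.1.ne]; exact Icc_subset_Icc le_rfl hy.2.le
      exact le_on_closure (f := g) (g := fun _ => g y) (fun x hx => hmono x y hx.1 hx.2 hy.2) (hgc.mono hcs)
        continuousOn_const hx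
    apply hcl
    rw [closure_Ioo hy.1.ne]
    exact ⟨le_rfl, hy.1.le⟩
  have hgn : ∀ y ∈ Icc a b, 0 ≤ g y := by
    intro y hy
    have hcl : y ∈ closure (Ioo a b) := by rw [closure_Ioo hab.ne]; exact hy
    refine le_on_closure (f := fun _ => (0:ℝ)) (g := g) (fun x hx => le_trans h0 (hga x hx)) continuousOn_const ?_ hcl
    rw [closure_Ioo hab.ne]; exact hgc
  intro t ht
  have h1 := heq a ⟨le_rfl, hab.le⟩ t ht
  have h2 : 0 ≤ ∫ r in a..t, T * g r := by
    apply intervalIntegral.integral_nonneg ht.1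
    intro u hu
    exact mul_nonneg hT.le (hgn u ⟨hu.1, le_trans hu.2 ht.2⟩)
  linarith

/-- **`p_top ∈ (0,1)`** from `SvPkg` alone.   TEX[LL:paths:base-profile] (the part "strict top plateau") -/
theorem svt_ptop {T : ℝ} (S : SvPkg T) (hT : 0 < T) {α : ℝ → ℝ} (hα : SvDist α) {q : ℝ} (hq : q ∈ Ioo (0:ℝ) 1)
    (hG : S.Gam α q = q) (hM : T * S.M2 α q = 1)
    (hF : ∀ s ∈ Ico 0 q, α s = S.N3 α s / (2 * S.M3 α s)) (h0 : α 0 = 0) (hmono : StrictMonoOn α (Icc 0 q))
    (htop : ∀ t, q ≤ t → α t = 1) :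
    S.N3 α q / (2 * S.M3 α q) ∈ Ioo (0:ℝ) 1 ∧ Tendsto α (𝓝[<] q) (𝓝 (S.N3 α q / (2 * S.M3 α q))) := by
  have hc := sv_dist_coef hα
  have hq01 : q ∈ Icc (0:ℝ) 1 := ⟨hq.1.le, hq.2.le⟩
  have h101 : (1:ℝ) ∈ Icc (0:ℝ) 1 := ⟨zero_le_one, le_rfl⟩
  have hM3 := S.M3_pos α hc q hq01
  have hlim : Tendsto α (𝓝[<] q) (𝓝 (S.N3 α q / (2 * S.M3 α q))) := by
    have hcw : ContinuousWithinAt (fun s => S.N3 α s / (2 * S.M3 α s)) (Icc 0 1) q :=
      ((S.N3_cont α hc) q hq01).div (continuousWithinAt_const.mul ((S.M3_cont α hc) q hq01))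
        (mul_pos two_pos hM3).ne'
    have h1 : Tendsto (fun s => S.N3 α s / (2 * S.M3 α s)) (𝓝[<] q) (𝓝 (S.N3 α q / (2 * S.M3 α q))) := by
      apply hcw.tendsto.mono_left
      apply nhdsWithin_le_of_mem
      exact mem_of_superset (Ioo_mem_nhdsLT hq.1) (fun r hr => ⟨hr.1.le, le_trans hr.2.le hq.2.le⟩)
    apply h1.congr'
    filter_upwards [Ioo_mem_nhdsLT hq.1] with r hr
    exact (hF r ⟨hr.1.le, hr.2⟩).symm
  refine ⟨⟨?_, ?_⟩, hlim⟩
  · have h1 : 0 < α (q / 2) := by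
      have := hmono ⟨le_rfl, hq.1.le⟩ (show q / 2 ∈ Icc 0 q from ⟨by linarith [hq.1], by linarith [hq.1]⟩)
        (by linarith [hq.1])
      rwa [h0] at this
    have h2 : α (q / 2) ≤ S.N3 α q / (2 * S.M3 α q) := by
      apply ge_of_tendsto hlim
      filter_upwards [Ioo_mem_nhdsLT (show q / 2 < q by linarith [hq.1])] with r hr
      exact hα.mono hr.1.le
    linarith
  · by_contra hge
    rw [not_lt, le_div_iff₀ (mul_pos two_pos hM3)] at hge
    have hle := svt_M2_ge S hT hc hq.1.le hq.2 le_rfl one_pos (fun t ht => htop t ht.1.le) (by linarith)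
    have h1 := sv_Gam_sub S hc hq01 h101
    have h2 : (∫ s in q..1, (1:ℝ)) ≤ ∫ s in q..1, T * S.M2 α s := by
      apply intervalIntegral.integral_mono_on hq.2.le intervalIntegrable_const
        ((sv_M2_int S hc hq01 h101).const_mul T)
      intro s hs
      rw [← hM]
      exact mul_le_mul_of_nonneg_left (hle s hs) hT.le
    rw [intervalIntegral.integral_const, smul_eq_mul, mul_one] at h2
    have h3 := S.Gam_one α hc
    linarith

/-- the same for a minimiser -/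
theorem svt_ptop_min {T : ℝ} (S : SvPkg T) (hT : 1 < T) {α : ℝ → ℝ} (hα : SvDist α)
    (hmin : ∀ α', SvDist α' → S.P α ≤ S.P α') :
    ∃ q ∈ Ioo (0:ℝ) 1, (∀ s ∈ Icc 0 q, S.Gam α s = s) ∧ (∀ s ∈ Icc 0 q, T * S.M2 α s = 1) ∧
      (∀ s ∈ Ico 0 q, α s = S.N3 α s / (2 * S.M3 α s)) ∧
      α 0 = 0 ∧ StrictMonoOn α (Icc 0 q) ∧ ContinuousOn α (Ico 0 q) ∧ (∀ t, q ≤ t → α t = 1) ∧
      S.N3 α q / (2 * S.M3 α q) ∈ Ioo (0:ℝ) 1 ∧ Tendsto α (𝓝[<] q) (𝓝 (S.N3 α q / (2 * S.M3 α q))) := by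
  obtain ⟨q, hq, h1, h2, h3, h4, h5, h6, h7⟩ := sv_thmA S hT hα hmin
  have hqq : q ∈ Icc 0 q := ⟨hq.1.le, le_rfl⟩
  obtain ⟨h8, h9⟩ := svt_ptop S (by linarith) hα hq (h1 q hqq) (h2 q hqq) h3 h4 h5 h7
  exact ⟨q, hq, h1, h2, h3, h4, h5, h6, h7, h8, h9⟩

/-! ## THE ANNEALED INEQUALITY FOR A GENERAL PROFILE

`svt_decay`:   if `α = a` (the terminal mass) on `(s,τ)` then `E V_zz²(t, Z_t) ≤ e^{-a² (t-u)/2} E V_zz²(u, Z_u)` for `s ≤ u ≤ t ≤ τ`      (= the field `ann` of `LscMod.Ok`, `LL/PathsSc.lean`).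
Step level: `lan_M2` (helper277, `Sc/Ann.lean`);  the dyadic approximants keep the plateau up to one cell (`sc_dy_al_plateau`, helper88);  the left end `u = s` by continuity;
convergence and continuity of the moment curves: `scm_Ma_lim`, `scm_Ma_cont` (helper48, `Sc/MomG.lean`).      TEX[LL:paths:base-profile] (display l.86-89) -/

/-- **the annealed inequality on a top plateau of a general profile** -/
theorem svt_decay_of {a τ : ℝ} (ha : 0 < a) (hτ : 0 < τ) {α : ℝ → ℝ} (hα : ScCoef a τ α)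
    (hconv : ∀ t ∈ Icc 0 τ, Tendsto (fun n => scM2 (scLC a) (scDy α τ n) t) atTop (𝓝 (scaM2 (scLC a) α τ t)))
    (hcont : ContinuousOn (scaM2 (scLC a) α τ) (Icc 0 τ))
    {s : ℝ} (hs : s ∈ Icc 0 τ) (h1 : ∀ t ∈ Ioo s τ, α t = a) : ∀ u ∈ Icc s τ, ∀ t ∈ Icc s τ, u ≤ t →
    scaM2 (scLC a) α τ t ≤ Real.exp (-(a ^ 2 * (t - u) / 2)) * scaM2 (scLC a) α τ u := by
  -- the open case
  have hopen : ∀ u t, s < u → u ≤ t → t ≤ τ →
      scaM2 (scLC a) α τ t ≤ Real.exp (-(a ^ 2 * (t - u) / 2)) * scaM2 (scLC a) α τ u := by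
    intro u t hu hut ht
    have hu0 : 0 ≤ u := le_trans hs.1 hu.le
    have hlt := hconv t ⟨le_trans hu0 hut, ht⟩
    have hlu := (hconv u ⟨hu0, le_trans hut ht⟩).const_mul (Real.exp (-(a ^ 2 * (t - u) / 2)))
    refine le_of_tendsto_of_tendsto hlt hlu ?_
    have hsmall : Tendsto (fun n : ℕ => τ / 2 ^ n) atTop (𝓝 0) :=
      tendsto_const_nhds.div_atTop (tendsto_pow_atTop_atTop_of_one_lt one_lt_two)
    filter_upwards [hsmall.eventually (gt_mem_nhds (sub_pos.2 hu))] with n hn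
    have hm : ∀ r ∈ Ico u (u + (t - u)), scAl (scDy α τ n) r = a := by
      intro r hr
      apply sc_dy_al_plateau (x := s) (y := τ) le_rfl h1 n (le_trans hu0 hr.1)
      exact ⟨by linarith [hr.1], by linarith [hr.2]⟩
    have := lan_M2 ha (sc_dy_adm hτ.le hα n) (sc_dy_inc hτ.le hα n) hu0 (sub_nonneg.2 hut)
      (by rw [sc_dy_len]; linarith) hm
    rwa [add_sub_cancel] at this
  intro u hu t ht hut
  rcases hu.1.eq_or_lt with hsu | hsu
  · -- the left end, by continuity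
    subst hsu
    rcases hut.eq_or_lt with hst | hst
    · subst hst; simp
    · have hsub : Icc s t ⊆ Icc 0 τ := Icc_subset_Icc hs.1 ht.2
      have hcl : s ∈ closure (Ioo s t) := by rw [closure_Ioo hst.ne]; exact ⟨le_rfl, hst.le⟩
      refine le_on_closure (f := fun _ => scaM2 (scLC a) α τ t)
        (g := fun u => Real.exp (-(a ^ 2 * (t - u) / 2)) * scaM2 (scLC a) α τ u)
        (fun u hu => hopen u t hu.1 hu.2.le ht.2) continuousOn_const ?_ hcl
      rw [closure_Ioo hst.ne]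
      exact (Continuous.continuousOn (by fun_prop)).mul (hcont.mono hsub)
  · exact hopen u t hsu hut ht.2

theorem svt_Ma_M2 (F α : ℝ → ℝ) (τ t : ℝ) : scmMa (MvPolynomial.X 1 ^ 2) F α τ t = scaM2 F α τ t := by
  unfold scmMa scaM2; congr 1; funext z; simp [scmObsA]

/-- **the annealed inequality on a top plateau of a general profile**, closed form.   TEX[LL:paths:base-profile] (l.85-92) -/
theorem svt_decay {a τ : ℝ} (ha : 0 < a) (hτ : 0 < τ) {α : ℝ → ℝ} (hα : ScCoef a τ α) {s : ℝ} (hs : s ∈ Icc 0 τ)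
    (h1 : ∀ t ∈ Ioo s τ, α t = a) : ∀ u ∈ Icc s τ, ∀ t ∈ Icc s τ, u ≤ t →
    scaM2 (scLC a) α τ t ≤ Real.exp (-(a ^ 2 * (t - u) / 2)) * scaM2 (scLC a) α τ u := by
  have hBI : ScBI (scLC a) := sc_logcosh_BI a
  refine svt_decay_of ha hτ hα (fun t ht => ?_) ?_ hs h1
  · have := scm_Ma_lim hBI hα hτ.le (MvPolynomial.X 1 ^ 2) (scg_dy_apx hτ.le hα) ht
    rw [svt_Ma_M2] at this
    simpa only [scm_M2_eq] using this
  · have := scm_Ma_cont hBI hα hτ.le (MvPolynomial.X 1 ^ 2)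
    have e : scmMa (MvPolynomial.X 1 ^ 2) (scLC a) α τ = scaM2 (scLC a) α τ := funext fun t => svt_Ma_M2 _ _ _ _
    rwa [e] at this

end Claimed.Agent.R286
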