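import Claimed.Agent.R286.Sc.UqMain
import Claimed.Agent.R286.Sc.VarK
import Claimed.Agent.R286.Lib.Helly

/-!
# Row 286, scalar block, unit UQ, file 3: UNIQUENESS, COERCIVITY, TANGENT FORM, EXISTENCE      (owner helper141; prefix `sku_`; 0 sorry)

RAW FORMS (any functional `v0 : (ℝ → ℝ) → ℝ` on the coefficients `SvCoef`; `skuP T v0 α = v0 α - (T/2) ∫ s α(s) ds`; `skuQ η = ∫_0^1 (∫_s^1 η)²`)
* `SkuCont v0`      sequential continuity in `L¹(0,1)`;      `SkuConv κ v0` = (U+): `κ Q(α - α') ≤ (v0 α + v0 α')/2 - v0 ((α+α')/2)` for ALL coefficients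
* `sku_conv_of_dy`  : `SkuCont` + (U+) on the dyadic steps `skuDy n α`  ⟹  `SkuConv`;      `sku_convDy_of_step` : classical solutions (`SkuSol`) ⟹ (U+) on dyadic steps, `κ = skuKap T`
* `sku_coer`        : `P α + 2 κ Q(α' - α) ≤ P α'` at a minimiser `α`;      `sku_unique` : the minimiser among the distribution functions (`SvDist`) is unique      TEX[PE:prof:scalar-minimizer]
* `sku_exists`      : `SkuCont v0` ⟹ a minimiser exists (Helly)
PACKAGE FORMS (`S : SvPkg T`): `sku_pkg_cont : SkuCont S.v0`, `sku_pkg_sconv`, `sku_pkg_coer`, `sku_pkg_unique`, `sku_pkg_exists`,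
* `sku_pkg_tangent` : `SkuConv κ S.v0` ⟹ `v0 α + (T/2) ∫ (α' - α) Γ_α + 4 κ Q(α' - α) ≤ v0 α'`            TEX[LL:eq:G2] (core; = leaf `l6g_convex` of `LL06/G2.lean`)
-/

set_option autoImplicit false

namespace Claimed.Agent.R286

open MeasureTheory Set Filter Topology

/-! ## A. dyadic step profiles -/

/-- the dyadic step profile with the values at the LEFT ends -/
noncomputable def skuDy (n : ℕ) (α : ℝ → ℝ) (t : ℝ) : ℝ := α ((⌊(2 : ℝ) ^ n * t⌋ : ℝ) / 2 ^ n)

theorem sku_dy_le (n : ℕ) (t : ℝ) : ((⌊(2 : ℝ) ^ n * t⌋ : ℝ) / 2 ^ n) ≤ t := by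
  rw [div_le_iff₀ (by positivity)]
  have := Int.floor_le ((2 : ℝ) ^ n * t)
  linarith

theorem sku_dy_gt (n : ℕ) (t : ℝ) : t - 1 / 2 ^ n < ((⌊(2 : ℝ) ^ n * t⌋ : ℝ) / 2 ^ n) := by
  rw [lt_div_iff₀ (by positivity)]
  have := Int.lt_floor_add_one ((2 : ℝ) ^ n * t)
  have h2 : (0 : ℝ) < 2 ^ n := by positivity
  have : (t - 1 / 2 ^ n) * 2 ^ n = 2 ^ n * t - 1 := by
    field_simp
  linarith

theorem sku_dy_mem (n : ℕ) {t : ℝ} (ht : t ∈ Icc (0 : ℝ) 1) : ((⌊(2 : ℝ) ^ n * t⌋ : ℝ) / 2 ^ n) ∈ Icc (0 : ℝ) 1 := by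
  refine ⟨?_, (sku_dy_le n t).trans ht.2⟩
  apply div_nonneg _ (by positivity)
  have : 0 ≤ ⌊(2 : ℝ) ^ n * t⌋ := Int.floor_nonneg.2 (mul_nonneg (by positivity) ht.1)
  exact_mod_cast this

theorem sku_dy_coef (n : ℕ) {α : ℝ → ℝ} (h : SvCoef α) : SvCoef (skuDy n α) := by
  refine ⟨?_, fun t ht => h.2 _ (sku_dy_mem n ht)⟩
  intro s hs t ht hst
  apply h.1 (sku_dy_mem n hs) (sku_dy_mem n ht)
  apply div_le_div_of_nonneg_right _ (by positivity)
  have : ⌊(2 : ℝ) ^ n * s⌋ ≤ ⌊(2 : ℝ) ^ n * t⌋ := Int.floor_le_floor (mul_le_mul_of_nonneg_left hst (by positivity))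
  exact_mod_cast this

theorem sku_dy_rc (n : ℕ) (α : ℝ → ℝ) (t : ℝ) : ContinuousWithinAt (skuDy n α) (Ici t) t := by
  have h2 : (0 : ℝ) < 2 ^ n := by positivity
  have hlt : t < ((⌊(2 : ℝ) ^ n * t⌋ : ℝ) + 1) / 2 ^ n := by
    rw [lt_div_iff₀ h2]
    have := Int.lt_floor_add_one ((2 : ℝ) ^ n * t)
    linarith
  have hev : ∀ᶠ s in 𝓝[Ici t] t, skuDy n α s = skuDy n α t := by
    have h1 : ∀ᶠ s in 𝓝[Ici t] t, s < ((⌊(2 : ℝ) ^ n * t⌋ : ℝ) + 1) / 2 ^ n :=
      (gt_mem_nhds hlt : ∀ᶠ s in 𝓝 t, s < _).filter_mono nhdsWithin_le_nhds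
    filter_upwards [h1, self_mem_nhdsWithin] with s hs hts
    unfold skuDy
    have : ⌊(2 : ℝ) ^ n * s⌋ = ⌊(2 : ℝ) ^ n * t⌋ := by
      rw [Int.floor_eq_iff]
      constructor
      · exact (Int.floor_le _).trans (mul_le_mul_of_nonneg_left hts h2.le)
      · rw [lt_div_iff₀ h2] at hs
        linarith
    rw [this]
  exact (tendsto_const_nhds.congr' (hev.mono fun s hs => hs.symm))

theorem sku_dy_avg (n : ℕ) (α α' : ℝ → ℝ) :
    (fun t => (skuDy n α t + skuDy n α' t) / 2) = skuDy n (fun t => (α t + α' t) / 2) := rfl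

theorem sku_coef_avg {α α' : ℝ → ℝ} (h : SvCoef α) (h' : SvCoef α') : SvCoef (fun t => (α t + α' t) / 2) := by
  have := sv_coef_seg h h' (θ := 1 / 2) ⟨by norm_num, by norm_num⟩
  have e : (fun s => α s + 1 / 2 * (α' s - α s)) = fun t => (α t + α' t) / 2 := by
    funext s
    ring
  rwa [e] at this

theorem sku_coef_int01 {α : ℝ → ℝ} (h : SvCoef α) : IntervalIntegrable α volume 0 1 :=
  sv_coef_int h ⟨le_rfl, zero_le_one⟩ ⟨zero_le_one, le_rfl⟩

/-- `‖skuDy n α - α‖_{L¹} ≤ 2 / 2^n` -/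
theorem sku_dy_L1 (n : ℕ) {α : ℝ → ℝ} (h : SvCoef α) : (∫ t in (0 : ℝ)..1, |skuDy n α t - α t|) ≤ 2 / 2 ^ n := by
  obtain ⟨η, hη⟩ : ∃ η : ℝ, η = 1 / 2 ^ n := ⟨_, rfl⟩
  have hη0 : 0 < η := by rw [hη]; positivity
  have hη1 : η ≤ 1 := by
    rw [hη, div_le_one (by positivity)]
    exact one_le_pow₀ (by norm_num)
  have hβ := sku_dy_coef n h
  have m0 : (0 : ℝ) ∈ Icc (0 : ℝ) 1 := ⟨le_rfl, zero_le_one⟩
  have m1 : (1 : ℝ) ∈ Icc (0 : ℝ) 1 := ⟨zero_le_one, le_rfl⟩
  have mη : η ∈ Icc (0 : ℝ) 1 := ⟨hη0.le, hη1⟩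
  have mη' : 1 - η ∈ Icc (0 : ℝ) 1 := ⟨by linarith, by linarith⟩
  have habs : ∀ t ∈ Icc (0 : ℝ) 1, |skuDy n α t - α t| = α t - skuDy n α t := by
    intro t ht
    have : skuDy n α t ≤ α t := h.1 (sku_dy_mem n ht) ht (sku_dy_le n t)
    rw [abs_of_nonpos (by linarith)]
    ring
  have e1 : (∫ t in (0 : ℝ)..1, |skuDy n α t - α t|) = ∫ t in (0 : ℝ)..1, (α t - skuDy n α t) := by
    apply intervalIntegral.integral_congr
    intro t ht
    rw [uIcc_of_le zero_le_one] at ht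
    exact habs t ht
  have hd : ∀ a ∈ Icc (0 : ℝ) 1, ∀ b ∈ Icc (0 : ℝ) 1, IntervalIntegrable (fun t => α t - skuDy n α t) volume a b :=
    fun a ha b hb => (sv_coef_int h ha hb).sub (sv_coef_int hβ ha hb)
  rw [e1, ← intervalIntegral.integral_add_adjacent_intervals (hd 0 m0 η mη) (hd η mη 1 m1)]
  have p1 : (∫ t in (0 : ℝ)..η, (α t - skuDy n α t)) ≤ η := by
    have := intervalIntegral.norm_integral_le_of_norm_le_const (a := 0) (b := η) (f := fun t => α t - skuDy n α t) (C := 1) (by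
      intro t ht
      rw [uIoc_of_le hη0.le] at ht
      have ht' : t ∈ Icc (0 : ℝ) 1 := ⟨ht.1.le, ht.2.trans hη1⟩
      rw [Real.norm_eq_abs, abs_le]
      constructor <;> linarith [(h.2 t ht').1, (h.2 t ht').2, (hβ.2 t ht').1, (hβ.2 t ht').2])
    rw [Real.norm_eq_abs, sub_zero, abs_of_pos hη0, one_mul] at this
    exact (le_abs_self _).trans this
  have hshift : IntervalIntegrable (fun t => α (t - η)) volume η 1 := by
    have := (sv_coef_int h m0 mη').comp_sub_right η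
    simpa using this
  have p2 : (∫ t in η..1, (α t - skuDy n α t)) ≤ ∫ t in η..1, (α t - α (t - η)) := by
    apply intervalIntegral.integral_mono_on hη1 (hd η mη 1 m1) ((sv_coef_int h mη m1).sub hshift)
    intro t ht
    have ht' : t ∈ Icc (0 : ℝ) 1 := ⟨hη0.le.trans ht.1, ht.2⟩
    have : α (t - η) ≤ skuDy n α t := by
      apply h.1 ⟨by linarith [ht.1], by linarith [ht.2]⟩ (sku_dy_mem n ht')
      rw [hη]
      exact (sku_dy_gt n t).le
    linarith
  have p3 : (∫ t in η..1, (α t - α (t - η))) ≤ η := by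
    rw [intervalIntegral.integral_sub (sv_coef_int h mη m1) hshift, intervalIntegral.integral_comp_sub_right, sub_self]
    have a1 := intervalIntegral.integral_add_adjacent_intervals (sv_coef_int h m0 mη) (sv_coef_int h mη m1)
    have a2 := intervalIntegral.integral_add_adjacent_intervals (sv_coef_int h m0 mη') (sv_coef_int h mη' m1)
    have a3 : 0 ≤ ∫ t in (0 : ℝ)..η, α t := by
      apply intervalIntegral.integral_nonneg hη0.le
      intro t ht
      exact (h.2 t ⟨ht.1, ht.2.trans hη1⟩).1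
    have a4 : (∫ t in (1 - η)..1, α t) ≤ η := by
      have := intervalIntegral.norm_integral_le_of_norm_le_const (a := 1 - η) (b := 1) (f := α) (C := 1) (by
        intro t ht
        rw [uIoc_of_le (by linarith)] at ht
        have ht' : t ∈ Icc (0 : ℝ) 1 := ⟨by linarith [ht.1], ht.2⟩
        rw [Real.norm_eq_abs, abs_le]
        constructor <;> linarith [(h.2 t ht').1, (h.2 t ht').2])
      rw [Real.norm_eq_abs, one_mul, show (1 : ℝ) - (1 - η) = η by ring, abs_of_pos hη0] at this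
      exact (le_abs_self _).trans this
    linarith
  have : (2 : ℝ) / 2 ^ n = η + η := by
    rw [hη]
    ring
  rw [this]
  linarith

theorem sku_dy_tendsto {α : ℝ → ℝ} (h : SvCoef α) : Tendsto (fun n => ∫ t in (0 : ℝ)..1, |skuDy n α t - α t|) atTop (𝓝 0) := by
  have h1 : Tendsto (fun n : ℕ => (2 : ℝ) / 2 ^ n) atTop (𝓝 0) := by
    have := (tendsto_pow_atTop_nhds_zero_of_lt_one (r := (1 / 2 : ℝ)) (by norm_num) (by norm_num)).const_mul 2
    rw [mul_zero] at this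
    refine this.congr (fun n => ?_)
    rw [one_div, inv_pow]
    rfl
  refine squeeze_zero (fun n => ?_) (fun n => sku_dy_L1 n h) h1
  apply intervalIntegral.integral_nonneg zero_le_one
  intro t _
  exact abs_nonneg _

/-! ## B. continuity in `L¹` -/

theorem sku_abs_int {α α' : ℝ → ℝ} (h : SvCoef α) (h' : SvCoef α') : IntervalIntegrable (fun t => |α' t - α t|) volume 0 1 :=
  (sv_eta_int h h').abs

/-- `v0` is locally Lipschitz in `L¹` -/
theorem sku_v0_lip {T : ℝ} (S : SvPkg T) (hT : 0 < T) {α : ℝ → ℝ} (h : SvCoef α) :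
    ∃ δ > 0, ∃ L : ℝ, ∀ α', SvCoef α' → (∫ t in (0 : ℝ)..1, |α' t - α t|) < δ →
      |S.v0 α' - S.v0 α| ≤ L * ∫ t in (0 : ℝ)..1, |α' t - α t| := by
  obtain ⟨C, hC⟩ := isCompact_Icc.exists_bound_of_continuousOn (sv_Gam_cont S h)
  obtain ⟨δ, hδ, hc⟩ := S.cont α h 1 one_pos
  refine ⟨δ, hδ, T / 2 * (C + 1), ?_⟩
  intro α' h' hsm
  obtain ⟨e, he⟩ : ∃ e : ℝ, e = ∫ t in (0 : ℝ)..1, |α' t - α t| := ⟨_, rfl⟩
  rw [← he] at hsm ⊢
  have he0 : 0 ≤ e := by
    rw [he]
    exact intervalIntegral.integral_nonneg zero_le_one (fun t _ => abs_nonneg _)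
  have hC0 : 0 ≤ C + 1 := by
    have := (norm_nonneg _).trans (hC 0 ⟨le_rfl, zero_le_one⟩)
    linarith
  rw [S.var α α' h h', abs_mul, abs_of_pos (by positivity : 0 < T / 2), mul_assoc]
  apply mul_le_mul_of_nonneg_left _ (by positivity)
  have hin : ∀ θ ∈ Icc (0 : ℝ) 1, |∫ t in (0 : ℝ)..1, (α' t - α t) * S.Gam (fun s => α s + θ * (α' s - α s)) t| ≤ (C + 1) * e := by
    intro θ hθ
    have hseg := sv_coef_seg h h' hθ
    have hsmall : (∫ t in (0 : ℝ)..1, |(α t + θ * (α' t - α t)) - α t|) < δ := by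
      have e1 : (∫ t in (0 : ℝ)..1, |(α t + θ * (α' t - α t)) - α t|) = θ * e := by
        rw [he, ← intervalIntegral.integral_const_mul]
        congr 1
        funext t
        rw [show α t + θ * (α' t - α t) - α t = θ * (α' t - α t) by ring, abs_mul, abs_of_nonneg hθ.1]
      rw [e1]
      have : θ * e ≤ 1 * e := mul_le_mul_of_nonneg_right hθ.2 he0
      linarith
    have hG := hc _ hseg hsmall
    have hb := intervalIntegral.norm_integral_le_of_norm_le (a := 0) (b := 1) (μ := volume)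
      (f := fun t => (α' t - α t) * S.Gam (fun s => α s + θ * (α' s - α s)) t) (g := fun t => (C + 1) * |α' t - α t|) zero_le_one
      (Eventually.of_forall (fun t ht => by
        have ht' : t ∈ Icc (0 : ℝ) 1 := ⟨ht.1.le, ht.2⟩
        have h1 := hG t ht'
        have h2 := hC t ht'
        rw [Real.norm_eq_abs] at h2
        have h3 : |S.Gam (fun s => α s + θ * (α' s - α s)) t| ≤ C + 1 := by
          have := abs_sub_abs_le_abs_sub (S.Gam (fun s => α s + θ * (α' s - α s)) t) (S.Gam α t)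
          linarith
        rw [Real.norm_eq_abs, abs_mul, mul_comm]
        exact mul_le_mul_of_nonneg_right h3 (abs_nonneg _))) ((sku_abs_int h h').const_mul _)
    rw [Real.norm_eq_abs, intervalIntegral.integral_const_mul, ← he] at hb
    exact hb
  have := intervalIntegral.norm_integral_le_of_norm_le_const (a := 0) (b := 1)
    (f := fun θ => ∫ t in (0 : ℝ)..1, (α' t - α t) * S.Gam (fun s => α s + θ * (α' s - α s)) t) (C := (C + 1) * e) (by
      intro θ hθ
      rw [uIoc_of_le zero_le_one] at hθ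
      exact hin θ ⟨hθ.1.le, hθ.2⟩)
  rw [Real.norm_eq_abs, sub_zero, abs_one, mul_one] at this
  exact this

theorem sku_v0_tendsto {T : ℝ} (S : SvPkg T) (hT : 0 < T) {α : ℝ → ℝ} (h : SvCoef α) {β : ℕ → ℝ → ℝ} (hβ : ∀ n, SvCoef (β n))
    (hl : Tendsto (fun n => ∫ t in (0 : ℝ)..1, |β n t - α t|) atTop (𝓝 0)) : Tendsto (fun n => S.v0 (β n)) atTop (𝓝 (S.v0 α)) := by
  obtain ⟨δ, hδ, L, hL⟩ := sku_v0_lip S hT h
  rw [tendsto_iff_norm_sub_tendsto_zero]
  have h1 : Tendsto (fun n => L * ∫ t in (0 : ℝ)..1, |β n t - α t|) atTop (𝓝 0) := by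
    have := hl.const_mul L
    rwa [mul_zero] at this
  refine squeeze_zero' (Eventually.of_forall fun n => norm_nonneg _) ?_ h1
  filter_upwards [hl.eventually (gt_mem_nhds hδ)] with n hn
  exact hL _ (hβ n) hn

/-- the quadratic form -/
noncomputable def skuQ (η : ℝ → ℝ) : ℝ := ∫ s in (0 : ℝ)..1, (∫ r in s..1, η r) ^ 2

theorem sku_Q_nonneg (η : ℝ → ℝ) : 0 ≤ skuQ η :=
  intervalIntegral.integral_nonneg zero_le_one (fun _ _ => sq_nonneg _)

theorem sku_int_sub {η : ℝ → ℝ} (hη : IntervalIntegrable η volume 0 1) {a b : ℝ} (ha : a ∈ Icc (0 : ℝ) 1) (hb : b ∈ Icc (0 : ℝ) 1) :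
    IntervalIntegrable η volume a b :=
  hη.mono_set (by
    rw [uIcc_of_le zero_le_one]
    exact uIcc_subset_Icc ha hb)

theorem sku_A_abs {η : ℝ → ℝ} {C : ℝ} (hb : ∀ t ∈ Icc (0 : ℝ) 1, |η t| ≤ C) {s : ℝ} (hs : s ∈ Icc (0 : ℝ) 1) (hC : 0 ≤ C) :
    |∫ r in s..1, η r| ≤ C := by
  have := intervalIntegral.norm_integral_le_of_norm_le_const (a := s) (b := 1) (f := η) (C := C) (by
    intro x hx
    rw [uIoc_of_le hs.2] at hx
    exact hb x ⟨le_trans hs.1 hx.1.le, hx.2⟩)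
  rw [Real.norm_eq_abs, abs_of_nonneg (by linarith [hs.2] : (0 : ℝ) ≤ 1 - s)] at this
  nlinarith [hs.1]

theorem sku_Asq_int {η : ℝ → ℝ} (hη : IntervalIntegrable η volume 0 1) :
    IntervalIntegrable (fun s => (∫ r in s..1, η r) ^ 2) volume 0 1 := by
  apply ContinuousOn.intervalIntegrable
  rw [uIcc_of_le zero_le_one]
  exact (sku_prim_cont hη).pow 2

theorem sku_Q_lip {η η' : ℝ → ℝ} (hη : IntervalIntegrable η volume 0 1) (hη' : IntervalIntegrable η' volume 0 1)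
    (hb : ∀ t ∈ Icc (0 : ℝ) 1, |η t| ≤ 1) (hb' : ∀ t ∈ Icc (0 : ℝ) 1, |η' t| ≤ 1) :
    |skuQ η - skuQ η'| ≤ 2 * ∫ t in (0 : ℝ)..1, |η t - η' t| := by
  obtain ⟨e, he⟩ : ∃ e : ℝ, e = ∫ t in (0 : ℝ)..1, |η t - η' t| := ⟨_, rfl⟩
  rw [← he]
  unfold skuQ
  rw [← intervalIntegral.integral_sub (sku_Asq_int hη) (sku_Asq_int hη')]
  have m1 : (1 : ℝ) ∈ Icc (0 : ℝ) 1 := ⟨zero_le_one, le_rfl⟩
  have m0 : (0 : ℝ) ∈ Icc (0 : ℝ) 1 := ⟨le_rfl, zero_le_one⟩
  have habs : IntervalIntegrable (fun t => |η t - η' t|) volume 0 1 := (hη.sub hη').abs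
  have := intervalIntegral.norm_integral_le_of_norm_le_const (a := 0) (b := 1)
    (f := fun s => (∫ r in s..1, η r) ^ 2 - (∫ r in s..1, η' r) ^ 2) (C := 2 * e) (by
      intro s hs
      rw [uIoc_of_le zero_le_one] at hs
      have hs' : s ∈ Icc (0 : ℝ) 1 := ⟨hs.1.le, hs.2⟩
      have a1 := sku_A_abs hb hs' zero_le_one
      have a2 := sku_A_abs hb' hs' zero_le_one
      have a3 : |(∫ r in s..1, η r) - ∫ r in s..1, η' r| ≤ e := by
        rw [← intervalIntegral.integral_sub (sku_int_sub hη hs' m1) (sku_int_sub hη' hs' m1)]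
        have b1 := intervalIntegral.abs_integral_le_integral_abs (f := fun r => η r - η' r) (μ := volume) hs.2
        have b2 := intervalIntegral.integral_add_adjacent_intervals (sku_int_sub habs m0 hs') (sku_int_sub habs hs' m1)
        have b3 : 0 ≤ ∫ t in (0 : ℝ)..s, |η t - η' t| := intervalIntegral.integral_nonneg hs.1.le (fun _ _ => abs_nonneg _)
        rw [he]
        linarith
      rw [Real.norm_eq_abs, sq_sub_sq, abs_mul]
      have a4 : |(∫ r in s..1, η r) + ∫ r in s..1, η' r| ≤ 2 := (abs_add_le _ _).trans (by linarith)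
      exact mul_le_mul a4 a3 (abs_nonneg _) (by norm_num))
  rw [Real.norm_eq_abs, sub_zero, abs_one, mul_one] at this
  exact this

/-! ## C. strict convexity for all coefficients -/

/-- sequential continuity in `L¹(0,1)` on the coefficients -/
def SkuCont (v0 : (ℝ → ℝ) → ℝ) : Prop :=
  ∀ α, SvCoef α → ∀ β : ℕ → ℝ → ℝ, (∀ n, SvCoef (β n)) → Tendsto (fun n => ∫ t in (0 : ℝ)..1, |β n t - α t|) atTop (𝓝 0) →
    Tendsto (fun n => v0 (β n)) atTop (𝓝 (v0 α))

/-- (U+): coercive midpoint convexity on ALL coefficients -/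
def SkuConv (κ : ℝ) (v0 : (ℝ → ℝ) → ℝ) : Prop :=
  ∀ α α', SvCoef α → SvCoef α' → κ * skuQ (fun r => α r - α' r) ≤ (v0 α + v0 α') / 2 - v0 (fun t => (α t + α' t) / 2)

/-- (U+) on the dyadic step profiles only -/
def SkuConvDy (κ : ℝ) (v0 : (ℝ → ℝ) → ℝ) : Prop :=
  ∀ (n : ℕ) (α α' : ℝ → ℝ), SvCoef α → SvCoef α' → κ * skuQ (fun r => skuDy n α r - skuDy n α' r)
    ≤ (v0 (skuDy n α) + v0 (skuDy n α')) / 2 - v0 (skuDy n (fun t => (α t + α' t) / 2))

/-- the link with the classical solutions -/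
def SkuStep (T : ℝ) (v0 : (ℝ → ℝ) → ℝ) : Prop :=
  ∀ (n : ℕ) (α : ℝ → ℝ), SvCoef α → ∃ W : SkuSol T (skuDy n α), W.V 0 0 = v0 (skuDy n α)

theorem sku_exit_eqns_cite : True := by
  have := @skuDy.eq_1
  have := @skuQ.eq_1
  have := @SkuCont.eq_1
  have := @SkuConv.eq_1
  have := @SkuConvDy.eq_1
  have := @SkuStep.eq_1
  trivial

theorem sku_convDy_of_step {T : ℝ} (hT : 0 < T) {v0 : (ℝ → ℝ) → ℝ} (hS : SkuStep T v0) : SkuConvDy (skuKap T) v0 := by
  intro n α α' h h'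
  obtain ⟨W1, e1⟩ := hS n α h
  obtain ⟨W2, e2⟩ := hS n α' h'
  obtain ⟨Wb, eb⟩ := hS n _ (sku_coef_avg h h')
  rw [← e1, ← e2, ← eb]
  exact sku_sconv hT (sku_dy_coef n h).2 (sku_dy_coef n h').2 (sku_coef_int01 (sku_dy_coef n h)) (sku_coef_int01 (sku_dy_coef n h'))
    (fun t _ => sku_dy_rc n α t) (fun t _ => sku_dy_rc n α' t) W1 W2 Wb

/-- **from the dyadic steps to all coefficients** -/
theorem sku_conv_of_dy {κ : ℝ} {v0 : (ℝ → ℝ) → ℝ} (hc : SkuCont v0) (hd : SkuConvDy κ v0) : SkuConv κ v0 := by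
  intro α α' h h'
  have hav := sku_coef_avg h h'
  have l1 := hc α h _ (fun n => sku_dy_coef n h) (sku_dy_tendsto h)
  have l2 := hc α' h' _ (fun n => sku_dy_coef n h') (sku_dy_tendsto h')
  have l3 := hc _ hav _ (fun n => sku_dy_coef n hav) (sku_dy_tendsto hav)
  have l4 : Tendsto (fun n => skuQ (fun r => skuDy n α r - skuDy n α' r)) atTop (𝓝 (skuQ (fun r => α r - α' r))) := by
    rw [tendsto_iff_norm_sub_tendsto_zero]
    have hz : Tendsto (fun n => 2 * ((∫ t in (0 : ℝ)..1, |skuDy n α t - α t|) + ∫ t in (0 : ℝ)..1, |skuDy n α' t - α' t|)) atTop (𝓝 0) := by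
      have := ((sku_dy_tendsto h).add (sku_dy_tendsto h')).const_mul 2
      simpa using this
    refine squeeze_zero (fun n => norm_nonneg _) (fun n => ?_) hz
    have hq := sku_Q_lip (η := fun r => skuDy n α r - skuDy n α' r) (η' := fun r => α r - α' r)
      (sv_eta_int (sku_dy_coef n h') (sku_dy_coef n h)) (sv_eta_int h' h)
      (fun t ht => sv_eta_abs (sku_dy_coef n h') (sku_dy_coef n h) ht) (fun t ht => sv_eta_abs h' h ht)
    rw [Real.norm_eq_abs]
    refine hq.trans ?_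
    apply mul_le_mul_of_nonneg_left _ (by norm_num)
    rw [← intervalIntegral.integral_add (sku_abs_int h (sku_dy_coef n h)) (sku_abs_int h' (sku_dy_coef n h'))]
    apply intervalIntegral.integral_mono_on zero_le_one
      ((sv_eta_int (sku_dy_coef n h') (sku_dy_coef n h)).sub (sv_eta_int h' h)).abs
      ((sku_abs_int h (sku_dy_coef n h)).add (sku_abs_int h' (sku_dy_coef n h')))
    intro t _
    have : skuDy n α t - skuDy n α' t - (α t - α' t) = (skuDy n α t - α t) - (skuDy n α' t - α' t) := by ring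
    rw [this]
    exact abs_sub _ _
  exact le_of_tendsto_of_tendsto' (l4.const_mul κ) (((l1.add l2).div_const 2).sub l3) (fun n => hd n α α' h h')

theorem sku_pkg_cont {T : ℝ} (S : SvPkg T) (hT : 0 < T) : SkuCont S.v0 := fun _ h _ hβ hl => sku_v0_tendsto S hT h hβ hl

/-- **QUANTITATIVE STRICT CONVEXITY of `v0`** on all coefficients, from classical solutions on the dyadic steps -/
theorem sku_pkg_sconv {T : ℝ} (S : SvPkg T) (hT : 0 < T) (hS : SkuStep T S.v0) : SkuConv (skuKap T) S.v0 :=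
  sku_conv_of_dy (sku_pkg_cont S hT) (sku_convDy_of_step hT hS)

/-! ## D. the Parisi functional: strict convexity, coercivity, uniqueness -/

theorem sku_lin_int {α : ℝ → ℝ} (h : SvCoef α) : IntervalIntegrable (fun s : ℝ => s * α s) volume 0 1 :=
  (sku_coef_int01 h).continuousOn_mul (g := fun s : ℝ => s) continuousOn_id

/-- the Parisi functional of `v0` -/
noncomputable def skuP (T : ℝ) (v0 : (ℝ → ℝ) → ℝ) (α : ℝ → ℝ) : ℝ := v0 α - T / 2 * ∫ s in (0 : ℝ)..1, s * α s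

theorem sku_P_pkg {T : ℝ} (S : SvPkg T) (α : ℝ → ℝ) : S.P α = skuP T S.v0 α := rfl

theorem sku_P_conv {T κ : ℝ} {v0 : (ℝ → ℝ) → ℝ} (hv : SkuConv κ v0) {α α' : ℝ → ℝ} (h : SvCoef α) (h' : SvCoef α') :
    κ * skuQ (fun r => α r - α' r) ≤ (skuP T v0 α + skuP T v0 α') / 2 - skuP T v0 (fun t => (α t + α' t) / 2) := by
  have key := hv α α' h h'
  unfold skuP
  have e : (∫ s in (0 : ℝ)..1, s * ((α s + α' s) / 2)) = ((∫ s in (0 : ℝ)..1, s * α s) + ∫ s in (0 : ℝ)..1, s * α' s) / 2 := by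
    rw [← intervalIntegral.integral_add (sku_lin_int h) (sku_lin_int h'), ← intervalIntegral.integral_div]
    congr 1
    funext s
    ring
  rw [e]
  linarith

theorem sku_Q_symm (α α' : ℝ → ℝ) : skuQ (fun r => α' r - α r) = skuQ (fun r => α r - α' r) := by
  unfold skuQ
  congr 1
  funext s
  have : (∫ r in s..1, (α' r - α r)) = -∫ r in s..1, (α r - α' r) := by
    rw [← intervalIntegral.integral_neg]
    congr 1
    funext r
    ring
  rw [this, neg_sq]

/-- **COERCIVITY at a minimiser** (it is enough that `α` beats the midpoint) -/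
theorem sku_coer {T κ : ℝ} {v0 : (ℝ → ℝ) → ℝ} (hv : SkuConv κ v0) {α α' : ℝ → ℝ} (h : SvCoef α) (h' : SvCoef α')
    (hmin : skuP T v0 α ≤ skuP T v0 (fun t => (α t + α' t) / 2)) : skuP T v0 α + 2 * κ * skuQ (fun r => α' r - α r) ≤ skuP T v0 α' := by
  have := sku_P_conv (T := T) hv h h'
  rw [sku_Q_symm]
  linarith

theorem sku_pkg_coer {T κ : ℝ} (S : SvPkg T) (hv : SkuConv κ S.v0) {α α' : ℝ → ℝ} (h : SvCoef α) (h' : SvCoef α')
    (hmin : S.P α ≤ S.P (fun t => (α t + α' t) / 2)) : S.P α + 2 * κ * skuQ (fun r => α' r - α r) ≤ S.P α' :=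
  sku_coer hv h h' hmin

theorem sku_dist_avg {α α' : ℝ → ℝ} (h : SvDist α) (h' : SvDist α') : SvDist (fun t => (α t + α' t) / 2) := by
  refine ⟨?_, ?_, ?_, ?_⟩
  · intro s t hst
    have := h.mono hst
    have := h'.mono hst
    simp only
    linarith
  · intro s
    exact ((h.rc s).add (h'.rc s)).div_const 2
  · intro t ht
    rw [h.neg t ht, h'.neg t ht]
    norm_num
  · intro t ht
    rw [h.top t ht, h'.top t ht]
    norm_num

/-- `Q(η) = 0` forces `η = 0` for right continuous `η` -/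
theorem sku_Q_eq_zero {η : ℝ → ℝ} (hη : IntervalIntegrable η volume 0 1) (hrc : ∀ t ∈ Ico (0 : ℝ) 1, ContinuousWithinAt η (Ici t) t)
    (hQ : skuQ η = 0) : ∀ t ∈ Ico (0 : ℝ) 1, η t = 0 := by
  have hAc := sku_prim_cont hη
  have hA : ∀ s ∈ Icc (0 : ℝ) 1, (∫ r in s..1, η r) = 0 := by
    intro s hs
    by_contra hne
    have hpos : 0 < skuQ η := by
      unfold skuQ
      apply intervalIntegral.integral_pos zero_lt_one (hAc.pow 2) (fun x _ => sq_nonneg _)
      exact ⟨s, hs, lt_of_le_of_ne (sq_nonneg _) (Ne.symm (pow_ne_zero 2 hne))⟩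
    linarith
  intro t ht
  have h1 := sku_prim_deriv hη ht ((hrc t ht).mono Ioi_subset_Ici_self)
  have h2 : HasDerivWithinAt (fun u => ∫ x in u..1, η x) 0 (Ici t) t := by
    have hc : HasDerivWithinAt (fun _ : ℝ => (0 : ℝ)) 0 (Ici t) t := hasDerivWithinAt_const _ _ _
    refine hc.congr_of_eventuallyEq ?_ (hA t ⟨ht.1, ht.2.le⟩)
    have hev : ∀ᶠ u in 𝓝[Ici t] t, u < 1 := (gt_mem_nhds ht.2 : ∀ᶠ u in 𝓝 t, u < 1).filter_mono nhdsWithin_le_nhds
    filter_upwards [hev, self_mem_nhdsWithin] with u hu hu'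
    exact hA u ⟨le_trans ht.1 hu', hu.le⟩
  have := (uniqueDiffWithinAt_Ici t).eq_deriv _ h1 h2
  linarith

/-- **UNIQUENESS of the scalar Parisi minimiser** (PE Lemma 5.8, first half).   TEX[PE:prof:scalar-minimizer] -/
theorem sku_unique {T κ : ℝ} {v0 : (ℝ → ℝ) → ℝ} (hκ : 0 < κ) (hv : SkuConv κ v0) {α α' : ℝ → ℝ} (hα : SvDist α) (hα' : SvDist α')
    (hmin : ∀ β, SvDist β → skuP T v0 α ≤ skuP T v0 β) (hmin' : ∀ β, SvDist β → skuP T v0 α' ≤ skuP T v0 β) : α = α' := by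
  have h := sv_dist_coef hα
  have h' := sv_dist_coef hα'
  have hc := sku_coer hv h h' (hmin _ (sku_dist_avg hα hα'))
  have h1 := hmin' α hα
  have hQ0 := sku_Q_nonneg (fun r => α' r - α r)
  have hQ : skuQ (fun r => α' r - α r) = 0 := by
    by_contra hne
    have : 0 < skuQ (fun r => α' r - α r) := lt_of_le_of_ne hQ0 (Ne.symm hne)
    have : 0 < 2 * κ * skuQ (fun r => α' r - α r) := by positivity
    linarith
  have hz := sku_Q_eq_zero (sv_eta_int h h') (fun t _ => (hα'.rc t).sub (hα.rc t)) hQ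
  funext t
  rcases lt_or_ge t 0 with h0 | h0
  · rw [hα.neg t h0, hα'.neg t h0]
  · rcases lt_or_ge t 1 with h1 | h1
    · have := hz t ⟨h0, h1⟩
      linarith
    · rw [hα.top t h1, hα'.top t h1]

theorem sku_pkg_unique {T κ : ℝ} (S : SvPkg T) (hκ : 0 < κ) (hv : SkuConv κ S.v0) {α α' : ℝ → ℝ} (hα : SvDist α) (hα' : SvDist α')
    (hmin : ∀ β, SvDist β → S.P α ≤ S.P β) (hmin' : ∀ β, SvDist β → S.P α' ≤ S.P β) : α = α' :=
  sku_unique hκ hv hα hα' hmin hmin'

/-! ## D'. the tangent form -/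

theorem sku_avg_tendsto {ψ : ℝ → ℝ} (hψ : ContinuousOn ψ (Icc 0 1)) {ε : ℕ → ℝ} (hε0 : ∀ k, ε k ∈ Icc (0 : ℝ) 1)
    (hε : Tendsto ε atTop (𝓝 0)) : Tendsto (fun k => ∫ θ in (0 : ℝ)..1, ψ (θ * ε k)) atTop (𝓝 (ψ 0)) := by
  rw [Metric.tendsto_atTop]
  intro e he
  obtain ⟨d, hd, hdc⟩ := (Metric.continuousOn_iff.1 hψ) 0 ⟨le_rfl, zero_le_one⟩ (e / 2) (by linarith)
  obtain ⟨N, hN⟩ := (Metric.tendsto_atTop.1 hε) d hd
  refine ⟨N, fun k hk => ?_⟩
  have hk' := hN k hk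
  rw [Real.dist_eq, sub_zero, abs_of_nonneg (hε0 k).1] at hk'
  have hmem : ∀ θ ∈ Icc (0 : ℝ) 1, θ * ε k ∈ Icc (0 : ℝ) 1 := fun θ hθ =>
    ⟨mul_nonneg hθ.1 (hε0 k).1, by nlinarith [hθ.1, hθ.2, (hε0 k).1, (hε0 k).2]⟩
  have hcomp : ContinuousOn (fun θ : ℝ => ψ (θ * ε k)) (Icc 0 1) := hψ.comp (by fun_prop) hmem
  have hint : IntervalIntegrable (fun θ : ℝ => ψ (θ * ε k)) volume 0 1 := by
    apply ContinuousOn.intervalIntegrable
    rwa [uIcc_of_le zero_le_one]
  have e1 : (∫ θ in (0 : ℝ)..1, ψ (θ * ε k)) - ψ 0 = ∫ θ in (0 : ℝ)..1, (ψ (θ * ε k) - ψ 0) := by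
    rw [intervalIntegral.integral_sub hint intervalIntegrable_const, intervalIntegral.integral_const]
    simp
  rw [Real.dist_eq, e1]
  have := intervalIntegral.norm_integral_le_of_norm_le_const (a := 0) (b := 1) (f := fun θ => ψ (θ * ε k) - ψ 0) (C := e / 2) (by
    intro θ hθ
    rw [uIoc_of_le zero_le_one] at hθ
    have hθ' : θ ∈ Icc (0 : ℝ) 1 := ⟨hθ.1.le, hθ.2⟩
    have h1 := hmem θ hθ'
    have h2 : dist (θ * ε k) 0 < d := by
      rw [Real.dist_eq, sub_zero, abs_of_nonneg h1.1]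
      nlinarith [hθ'.1, hθ'.2, (hε0 k).1]
    have h3 := hdc (θ * ε k) h1 h2
    rw [Real.dist_eq] at h3
    exact h3.le)
  rw [Real.norm_eq_abs, sub_zero, abs_one, mul_one] at this
  linarith

theorem sku_Q_smul (c : ℝ) (η : ℝ → ℝ) : skuQ (fun r => c * η r) = c ^ 2 * skuQ η := by
  unfold skuQ
  rw [← intervalIntegral.integral_const_mul]
  congr 1
  funext s
  rw [intervalIntegral.integral_const_mul, mul_pow]

/-- **TANGENT FORM of the strict convexity**: first variation + `4 κ_T Q`.      TEX[LL:eq:G2] (core) -/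
theorem sku_pkg_tangent {T κ : ℝ} (S : SvPkg T) (hv : SkuConv κ S.v0) {α α' : ℝ → ℝ} (h : SvCoef α) (h' : SvCoef α') :
    S.v0 α + T / 2 * (∫ t in (0 : ℝ)..1, (α' t - α t) * S.Gam α t) + 4 * κ * skuQ (fun r => α' r - α r) ≤ S.v0 α' := by
  obtain ⟨Q0, hQ0⟩ : ∃ Q0, Q0 = skuQ (fun r => α' r - α r) := ⟨_, rfl⟩
  rw [← hQ0]
  set g : ℝ → ℝ := fun θ => S.v0 (fun s => α s + θ * (α' s - α s)) with hg
  set ψ : ℝ → ℝ := fun θ => ∫ t in (0 : ℝ)..1, (α' t - α t) * S.Gam (fun s => α s + θ * (α' s - α s)) t with hψ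
  have hα0 : (fun s => α s + (0 : ℝ) * (α' s - α s)) = α := by
    funext s
    ring
  have hα1 : (fun s => α s + (1 : ℝ) * (α' s - α s)) = α' := by
    funext s
    ring
  have hg0 : g 0 = S.v0 α := by rw [hg]; simp only; rw [hα0]
  have hg1 : g 1 = S.v0 α' := by rw [hg]; simp only; rw [hα1]
  have hψ0 : ψ 0 = ∫ t in (0 : ℝ)..1, (α' t - α t) * S.Gam α t := by rw [hψ]; simp only; rw [hα0]
  -- (1) midpoint inequality on `[0, θ]`
  have hmid : ∀ θ ∈ Icc (0 : ℝ) 1, g (θ / 2) ≤ (g 0 + g θ) / 2 - κ * θ ^ 2 * Q0 := by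
    intro θ hθ
    have := hv _ _ h (sv_coef_seg h h' hθ)
    have e1 : (fun t => (α t + (α t + θ * (α' t - α t))) / 2) = fun s => α s + θ / 2 * (α' s - α s) := by
      funext t
      ring
    have e2 : (fun r => α r - (α r + θ * (α' r - α r))) = fun r => (-θ) * (α' r - α r) := by
      funext r
      ring
    rw [e1, e2, sku_Q_smul, ← hQ0, neg_sq] at this
    rw [hg0]
    simp only [hg]
    linarith
  -- (2) induction
  have hind : ∀ k : ℕ, 2 ^ k * (g (1 / 2 ^ k) - g 0) ≤ (g 1 - g 0) - 4 * κ * Q0 * (1 - 1 / 2 ^ k) := by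
    intro k
    induction k with
    | zero => simp
    | succ k ih =>
      have hp : (0 : ℝ) < 2 ^ k := by positivity
      have hmem : (1 : ℝ) / 2 ^ k ∈ Icc (0 : ℝ) 1 := by
        refine ⟨by positivity, ?_⟩
        rw [div_le_one hp]
        exact one_le_pow₀ (by norm_num)
      have h1 := hmid _ hmem
      have e3 : (1 : ℝ) / 2 ^ k / 2 = 1 / 2 ^ (k + 1) := by
        rw [pow_succ]
        field_simp
      rw [e3] at h1
      have h2 : 2 ^ (k + 1) * (g (1 / 2 ^ (k + 1)) - g 0) ≤ 2 ^ (k + 1) * ((g (1 / 2 ^ k) - g 0) / 2 - κ * (1 / 2 ^ k) ^ 2 * Q0) :=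
        mul_le_mul_of_nonneg_left (by linarith) (by positivity)
      have e4 : (2 : ℝ) ^ (k + 1) * ((g (1 / 2 ^ k) - g 0) / 2 - κ * (1 / 2 ^ k) ^ 2 * Q0)
          = 2 ^ k * (g (1 / 2 ^ k) - g 0) - 2 * κ * Q0 * (1 / 2 ^ k) := by
        rw [pow_succ]
        field_simp
      have e5 : 4 * κ * Q0 * (1 - 1 / 2 ^ (k + 1)) = 4 * κ * Q0 * (1 - 1 / 2 ^ k) + 2 * κ * Q0 * (1 / 2 ^ k) := by
        rw [← e3]
        ring
      rw [e4] at h2
      rw [e5]
      linarith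
  -- (3) the difference quotients
  have hquot : ∀ k : ℕ, 2 ^ k * (g (1 / 2 ^ k) - g 0) = T / 2 * ∫ θ in (0 : ℝ)..1, ψ (θ * (1 / 2 ^ k)) := by
    intro k
    obtain ⟨ε, hε⟩ : ∃ ε : ℝ, ε = 1 / 2 ^ k := ⟨_, rfl⟩
    have hp : (0 : ℝ) < 2 ^ k := by positivity
    have hεI : ε ∈ Icc (0 : ℝ) 1 := by
      rw [hε]
      refine ⟨by positivity, ?_⟩
      rw [div_le_one hp]
      exact one_le_pow₀ (by norm_num)
    rw [← hε]
    have hv := S.var α _ h (sv_coef_seg h h' hεI)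
    have e1 : ∀ θ : ℝ, (∫ t in (0 : ℝ)..1, ((α t + ε * (α' t - α t)) - α t) *
        S.Gam (fun s => α s + θ * ((α s + ε * (α' s - α s)) - α s)) t) = ε * ψ (θ * ε) := by
      intro θ
      rw [hψ]
      simp only
      rw [← intervalIntegral.integral_const_mul]
      have e2 : (fun s => α s + θ * ((α s + ε * (α' s - α s)) - α s)) = fun s => α s + θ * ε * (α' s - α s) := by
        funext s
        ring
      rw [e2]
      congr 1
      funext t
      ring
    simp only [e1] at hv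
    rw [intervalIntegral.integral_const_mul] at hv
    rw [hg0]
    simp only [hg]
    rw [hv]
    have : (2 : ℝ) ^ k * ε = 1 := by
      rw [hε]
      field_simp
    calc (2 : ℝ) ^ k * (T / 2 * (ε * ∫ θ in (0 : ℝ)..1, ψ (θ * ε))) = (2 ^ k * ε) * (T / 2 * ∫ θ in (0 : ℝ)..1, ψ (θ * ε)) := by ring
      _ = T / 2 * ∫ θ in (0 : ℝ)..1, ψ (θ * ε) := by rw [this, one_mul]
  -- (4) the limit
  have hεt : Tendsto (fun k : ℕ => (1 : ℝ) / 2 ^ k) atTop (𝓝 0) := by
    have := tendsto_pow_atTop_nhds_zero_of_lt_one (r := (1 / 2 : ℝ)) (by norm_num) (by norm_num)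
    refine this.congr (fun n => ?_)
    rw [one_div, inv_pow, one_div]
  have hl1 := (sku_avg_tendsto (sv_psi_cont S h h') (ε := fun k : ℕ => (1 : ℝ) / 2 ^ k) (fun k => by
    have hp : (0 : ℝ) < 2 ^ k := by positivity
    refine ⟨by positivity, ?_⟩
    rw [div_le_one hp]
    exact one_le_pow₀ (by norm_num)) hεt).const_mul (T / 2)
  have hl2 : Tendsto (fun k : ℕ => (g 1 - g 0) - 4 * κ * Q0 * (1 - 1 / 2 ^ k)) atTop (𝓝 ((g 1 - g 0) - 4 * κ * Q0 * (1 - 0))) :=
    tendsto_const_nhds.sub ((tendsto_const_nhds.sub hεt).const_mul _)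
  have hfin := le_of_tendsto_of_tendsto' hl1 hl2 (fun k => by
    rw [← hquot k]
    exact hind k)
  rw [hg0, hg1] at hfin
  rw [← hψ0]
  linarith

/-! ## E. existence -/

theorem sku_P_tendsto {T : ℝ} {v0 : (ℝ → ℝ) → ℝ} (hc : SkuCont v0) {α : ℝ → ℝ} (h : SvCoef α) {β : ℕ → ℝ → ℝ} (hβ : ∀ n, SvCoef (β n))
    (hl : Tendsto (fun n => ∫ t in (0 : ℝ)..1, |β n t - α t|) atTop (𝓝 0)) :
    Tendsto (fun n => skuP T v0 (β n)) atTop (𝓝 (skuP T v0 α)) := by
  unfold skuP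
  refine (hc α h β hβ hl).sub (Tendsto.const_mul _ ?_)
  rw [tendsto_iff_norm_sub_tendsto_zero]
  refine squeeze_zero (fun n => norm_nonneg _) (fun n => ?_) hl
  rw [← intervalIntegral.integral_sub (sku_lin_int (hβ n)) (sku_lin_int h)]
  refine intervalIntegral.norm_integral_le_of_norm_le zero_le_one (Eventually.of_forall (fun t ht => ?_)) (sku_abs_int h (hβ n))
  rw [← mul_sub, Real.norm_eq_abs, abs_mul, abs_of_pos ht.1]
  exact mul_le_of_le_one_left (abs_nonneg _) ht.2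

/-- right continuous normalisation of a monotone function with values in `[0,1]` on `[0,1]` -/
theorem sku_normalise {g : ℝ → ℝ} (hg : Monotone g) (hb : ∀ x ∈ Icc (0 : ℝ) 1, g x ∈ Icc (0 : ℝ) 1) :
    ∃ α, SvDist α ∧ ∀ᵐ t ∂(volume : Measure ℝ), t ∈ Ioc (0 : ℝ) 1 → α t = g t := by
  set g1 : ℝ → ℝ := fun t => if t < 0 then 0 else if t < 1 then g t else 1 with hg1
  have hm : Monotone g1 := by
    intro s t hst
    simp only [hg1]
    by_cases hs0 : s < 0
    · rw [if_pos hs0]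
      by_cases ht0 : t < 0
      · rw [if_pos ht0]
      · rw [if_neg ht0]
        by_cases ht1 : t < 1
        · rw [if_pos ht1]
          exact (hb t ⟨not_lt.1 ht0, ht1.le⟩).1
        · rw [if_neg ht1]
          exact zero_le_one
    · have ht0 : ¬ t < 0 := fun hc => hs0 (lt_of_le_of_lt hst hc)
      rw [if_neg hs0, if_neg ht0]
      by_cases ht1 : t < 1
      · rw [if_pos ht1, if_pos (lt_of_le_of_lt hst ht1)]
        exact hg hst
      · rw [if_neg ht1]
        by_cases hs1 : s < 1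
        · rw [if_pos hs1]
          exact (hb s ⟨not_lt.1 hs0, hs1.le⟩).2
        · rw [if_neg hs1]
  refine ⟨fun t => hm.stieltjesFunction t, ⟨hm.stieltjesFunction.mono, hm.stieltjesFunction.right_continuous, ?_, ?_⟩, ?_⟩
  · intro t ht
    rw [hm.stieltjesFunction_eq]
    apply rightLim_eq_of_tendsto
    apply tendsto_const_nhds.congr'
    have hev : ∀ᶠ u in 𝓝[>] t, u < 0 := (gt_mem_nhds ht : ∀ᶠ u in 𝓝 t, u < 0).filter_mono nhdsWithin_le_nhds
    filter_upwards [hev] with u hu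
    simp only [hg1]
    rw [if_pos hu]
  · intro t ht
    rw [hm.stieltjesFunction_eq]
    apply rightLim_eq_of_tendsto
    apply tendsto_const_nhds.congr'
    filter_upwards [self_mem_nhdsWithin] with u hu
    have hu1 : (1 : ℝ) < u := lt_of_le_of_lt ht hu
    simp only [hg1]
    rw [if_neg (by linarith), if_neg (by linarith)]
  · have hcount := hm.countable_not_continuousAt
    have hnull : (volume : Measure ℝ) ({x | ¬ContinuousAt g1 x} ∪ {1}) = 0 :=
      (hcount.union (countable_singleton 1)).measure_zero _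
    have hae : ∀ᵐ t ∂(volume : Measure ℝ), t ∉ ({x | ¬ContinuousAt g1 x} ∪ {1} : Set ℝ) := measure_eq_zero_iff_ae_notMem.1 hnull
    filter_upwards [hae] with t ht ht01
    have hc : ContinuousAt g1 t := by
      by_contra hc
      exact ht (Or.inl hc)
    have ht1 : t ≠ 1 := fun hc => ht (Or.inr hc)
    show hm.stieltjesFunction t = g t
    rw [hm.stieltjesFunction_eq, hc.continuousWithinAt.rightLim_eq]
    simp only [hg1]
    rw [if_neg (by linarith [ht01.1]), if_pos (lt_of_le_of_ne ht01.2 ht1)]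

/-- **EXISTENCE of a minimiser** of the scalar Parisi functional among the distribution functions on `[0,1]` -/
theorem sku_exists {T : ℝ} {v0 : (ℝ → ℝ) → ℝ} (hc : SkuCont v0) : ∃ α, SvDist α ∧ ∀ β, SvDist β → skuP T v0 α ≤ skuP T v0 β := by
  set K : Set ℝ := {x | ∃ α, SvDist α ∧ skuP T v0 α = x} with hK
  have hseq : IsSeqCompact K := by
    intro x hx
    choose a ha hax using hx
    obtain ⟨φ, g, hφ, hgm, hgb, _, hL1⟩ := sk_helly_L1 volume (Icc (0 : ℝ) 1) measurableSet_Icc (by simp) a 0 1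
      (fun n => (sv_dist_coef (ha n)).1) (fun n => (sv_dist_coef (ha n)).2)
    obtain ⟨α, hα, hae⟩ := sku_normalise hgm hgb
    refine ⟨skuP T v0 α, ⟨α, hα, rfl⟩, φ, hφ, ?_⟩
    have hl : Tendsto (fun k => ∫ t in (0 : ℝ)..1, |a (φ k) t - α t|) atTop (𝓝 0) := by
      refine hL1.congr (fun k => ?_)
      rw [intervalIntegral.integral_of_le zero_le_one, integral_Icc_eq_integral_Ioc]
      apply setIntegral_congr_ae measurableSet_Ioc
      filter_upwards [hae] with t ht ht01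
      rw [ht ht01]
    have := sku_P_tendsto (T := T) hc (sv_dist_coef hα) (fun k => sv_dist_coef (ha (φ k))) hl
    refine this.congr (fun k => ?_)
    exact hax (φ k)
  have hne : K.Nonempty := by
    have h0 : SvDist (svCdf (Measure.dirac 0)) := sv_dist_cdf (Measure.dirac 0) (by simp)
    exact ⟨_, _, h0, rfl⟩
  obtain ⟨x, ⟨α, hα, hx⟩, hleast⟩ := hseq.isCompact.exists_isLeast hne
  refine ⟨α, hα, fun β hβ => ?_⟩
  rw [hx]
  exact hleast ⟨β, hβ, rfl⟩

theorem sku_pkg_exists {T : ℝ} (S : SvPkg T) (hT : 0 < T) : ∃ α, SvDist α ∧ ∀ β, SvDist β → S.P α ≤ S.P β :=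
  sku_exists (sku_pkg_cont S hT)

end Claimed.Agent.R286
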