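import Claimed.Agent.R286.Sc.VarK

/-!
# Row 286 (S0533), BOX-C (scalar block), unit C6 VARIATION + GAPS, file 3: QUANTILES      (OWNER helper108)

`svQ α u = inf {s | u ≤ α s}` = the quantile of the distribution function `α` (`SvDist α` of `Sc/VarK.lean`).
* `svq_le_iff`, `svq_lt_iff` : Galois connection `svQ α u ≤ s ↔ u ≤ α s` for `u ∈ (0,1]`;  `svq_self`, `svq_mem`, `svq_mono`, `svq_pos`, `svq_apply`, `svq_apply'`.
* `svq_continuousOn` : strictly increasing `α` on `[0,q]`, `α = 1` on `[q,∞)`  ⟹  the quantile is continuous on `(0,1)` (atoms allowed).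
* `svq_bounds`, `svq_slope` : `α(s)/s → κ > 0`  ⟹  `c u ≤ svQ α u ≤ C u` on `(0,1]`,  `svQ α u / u → 1/κ`.
* EXIT `sv_quantile` : PE Lemma 5.8, last sentence, for a minimiser (from `sv_thmA`, `sv_kappa`).
DUALITY KIT (Mathlib + `SvDist` only; for the bridge quantile <-> distribution function of C9 / PE Sec 5 / LL 03):
* `svA z s = |{w ∈ (0,1) : z w ≤ s}|` (same shape as `A0` of `LL/PathsDefs.lean`), `svLaw z` = law of `z`;  `svq_A_dist : SvDist (svA z)`;  `svq_A_Q : svA (svQ α) = α`;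
  `svq_Q_A_le/_ge/_eq/_ae` : `svQ (svA z)` is the left-continuous version of `z` (equal everywhere on `(0,1)` if continuous, a.e. always).
* `svq_law_Q`, `svq_integral_law`, `svq_transfer` : `∫₀¹ α f = ∫₀¹ ∫_{q(u)}^1 f`;   `svq_layer` : `∫₀¹ q² = 1 - 2 ∫₀¹ s α(s) ds`;   `svq_L1` : `∫₀¹ |q - q'| = ∫₀¹ |α - α'|`.
* `SvQuant`, `svq_min_of_quant`, `svq_quant_of_min`;  EXIT `sv_quantile_min` : PE Lemma 5.8 for a minimiser in the QUANTILE parametrisation.
Sorry-free.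
-/

set_option autoImplicit false

namespace Claimed.Agent.R286

open MeasureTheory Set Filter Topology

/-- the quantile (generalised inverse) of a distribution function -/
noncomputable def svQ (α : ℝ → ℝ) (u : ℝ) : ℝ := sInf {s | u ≤ α s}

/-! ## 1. Galois connection -/

theorem svq_set_nonempty {α : ℝ → ℝ} (h : SvDist α) {u : ℝ} (hu : u ≤ 1) : ({s | u ≤ α s} : Set ℝ).Nonempty :=
  ⟨1, by simpa [h.top 1 le_rfl] using hu⟩

theorem svq_set_bdd {α : ℝ → ℝ} (h : SvDist α) {u : ℝ} (hu : 0 < u) : BddBelow ({s | u ≤ α s} : Set ℝ) := by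
  refine ⟨0, fun s hs => ?_⟩
  by_contra hneg
  have : α s = 0 := h.neg s (not_le.mp hneg)
  have hs' : u ≤ α s := hs
  linarith

/-- the infimum is attained (right-continuity) -/
theorem svq_self {α : ℝ → ℝ} (h : SvDist α) {u : ℝ} (hu : u ∈ Ioc (0:ℝ) 1) : u ≤ α (svQ α u) := by
  set s0 := svQ α u with hs0
  have hne := svq_set_nonempty h hu.2
  have hbd := svq_set_bdd h hu.1
  -- for every `t > s0`, `u ≤ α t`
  have h1 : ∀ t, s0 < t → u ≤ α t := by
    intro t ht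
    obtain ⟨s, hs, hst⟩ := exists_lt_of_csInf_lt hne ht
    exact le_trans hs (h.mono hst.le)
  have h2 : Tendsto α (𝓝[>] s0) (𝓝 (α s0)) := (h.rc s0).tendsto.mono_left (nhdsWithin_mono _ Ioi_subset_Ici_self)
  exact ge_of_tendsto h2 (by filter_upwards [self_mem_nhdsWithin] with t ht using h1 t ht)

theorem svq_le_iff {α : ℝ → ℝ} (h : SvDist α) {u : ℝ} (hu : u ∈ Ioc (0:ℝ) 1) (s : ℝ) :
    svQ α u ≤ s ↔ u ≤ α s :=
  ⟨fun hs => le_trans (svq_self h hu) (h.mono hs), fun hs => csInf_le (svq_set_bdd h hu.1) hs⟩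

theorem svq_lt_iff {α : ℝ → ℝ} (h : SvDist α) {u : ℝ} (hu : u ∈ Ioc (0:ℝ) 1) (s : ℝ) :
    s < svQ α u ↔ α s < u := by
  rw [← not_le, svq_le_iff h hu, not_le]

theorem svq_mem {α : ℝ → ℝ} (h : SvDist α) {u : ℝ} (hu : u ∈ Ioc (0:ℝ) 1) : svQ α u ∈ Icc (0:ℝ) 1 := by
  constructor
  · by_contra hneg
    have := svq_self h hu
    rw [h.neg _ (not_le.mp hneg)] at this
    linarith [hu.1]
  · rw [svq_le_iff h hu, h.top 1 le_rfl]; exact hu.2

theorem svq_mono {α : ℝ → ℝ} (h : SvDist α) : MonotoneOn (svQ α) (Ioc 0 1) := by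
  intro u hu v hv huv
  rw [svq_le_iff h hu]
  exact le_trans huv (svq_self h hv)

theorem svq_pos {α : ℝ → ℝ} (h : SvDist α) (h0 : α 0 = 0) {u : ℝ} (hu : u ∈ Ioc (0:ℝ) 1) : 0 < svQ α u := by
  rw [svq_lt_iff h hu, h0]; exact hu.1

/-- left inverse at points of strict increase -/
theorem svq_apply {α : ℝ → ℝ} (h : SvDist α) {s : ℝ} (hs : α s ∈ Ioc (0:ℝ) 1) (hst : ∀ t < s, α t < α s) :
    svQ α (α s) = s := by
  apply le_antisymm
  · rw [svq_le_iff h hs]
  · by_contra hlt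
    have := hst _ (not_le.mp hlt)
    exact absurd (svq_self h hs) (not_le.mpr this)

/-- right inverse at points of continuity -/
theorem svq_apply' {α : ℝ → ℝ} (h : SvDist α) {u : ℝ} (hu : u ∈ Ioc (0:ℝ) 1)
    (hc : ContinuousWithinAt α (Iic (svQ α u)) (svQ α u)) : α (svQ α u) = u := by
  apply le_antisymm _ (svq_self h hu)
  have h2 : Tendsto α (𝓝[<] (svQ α u)) (𝓝 (α (svQ α u))) :=
    hc.tendsto.mono_left (nhdsWithin_mono _ Iio_subset_Iic_self)
  apply le_of_tendsto h2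
  filter_upwards [self_mem_nhdsWithin] with t ht
  exact ((svq_lt_iff h hu t).mp ht).le

/-! ## 2. the quantile of a distribution function which is strictly increasing on its support `[0,q]` -/

theorem svq_le_top {α : ℝ → ℝ} (h : SvDist α) {q : ℝ} (htop : ∀ t, q ≤ t → α t = 1) {u : ℝ} (hu : u ∈ Ioc (0:ℝ) 1) :
    svQ α u ≤ q := by
  rw [svq_le_iff h hu, htop q le_rfl]; exact hu.2

/-- **continuity of the quantile** (full interval support) -/
theorem svq_continuousOn {α : ℝ → ℝ} (h : SvDist α) {q : ℝ} (h0 : α 0 = 0) (hsm : StrictMonoOn α (Icc 0 q))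
    (htop : ∀ t, q ≤ t → α t = 1) : ContinuousOn (svQ α) (Ioo 0 1) := by
  intro u0 hu0
  have hu0' : u0 ∈ Ioc (0:ℝ) 1 := ⟨hu0.1, hu0.2.le⟩
  apply ContinuousAt.continuousWithinAt
  rw [Metric.continuousAt_iff]
  intro ε hε
  set s0 := svQ α u0 with hs0
  have hs0pos : 0 < s0 := svq_pos h h0 hu0'
  have hs0q : s0 ≤ q := svq_le_top h htop hu0'
  -- right side
  have hR : ∃ δ > 0, ∀ u ∈ Ioc (0:ℝ) 1, u < u0 + δ → svQ α u < s0 + ε := by
    by_cases hcase : q < s0 + ε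
    · exact ⟨1, one_pos, fun u hu _ => lt_of_le_of_lt (svq_le_top h htop hu) hcase⟩
    · have hcase : s0 + ε ≤ q := not_lt.mp hcase
      set t := s0 + ε / 2 with ht
      have h1 : α s0 < α t := hsm ⟨hs0pos.le, hs0q⟩ ⟨by positivity, by linarith⟩ (by linarith)
      have h2 : u0 ≤ α s0 := svq_self h hu0'
      refine ⟨α t - u0, by linarith, fun u hu hlt => ?_⟩
      have : svQ α u ≤ t := by rw [svq_le_iff h hu]; linarith
      linarith
  -- left side
  have hL : ∃ δ > 0, ∀ u ∈ Ioc (0:ℝ) 1, u0 - δ < u → s0 - ε < svQ α u := by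
    set t := max (s0 - ε) (s0 / 2) with ht
    have ht0 : 0 < t := lt_of_lt_of_le (by positivity) (le_max_right _ _)
    have hts : t < s0 := max_lt (by linarith) (by linarith)
    have h1 : α t < u0 := (svq_lt_iff h hu0' t).mp hts
    refine ⟨u0 - α t, by linarith, fun u hu hlt => ?_⟩
    have : t < svQ α u := by rw [svq_lt_iff h hu]; linarith
    exact lt_of_le_of_lt (le_max_left _ _) this
  obtain ⟨δ1, hδ1, hR⟩ := hR
  obtain ⟨δ2, hδ2, hL⟩ := hL
  refine ⟨min (min δ1 δ2) (min u0 (1 - u0)), ?_, fun u hu => ?_⟩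
  · apply lt_min (lt_min hδ1 hδ2) (lt_min hu0.1 (by linarith [hu0.2]))
  · rw [Real.dist_eq] at hu ⊢
    have hu1 := abs_lt.mp hu
    have a1 : min (min δ1 δ2) (min u0 (1 - u0)) ≤ δ1 := (min_le_left _ _).trans (min_le_left _ _)
    have a2 : min (min δ1 δ2) (min u0 (1 - u0)) ≤ δ2 := (min_le_left _ _).trans (min_le_right _ _)
    have a3 : min (min δ1 δ2) (min u0 (1 - u0)) ≤ u0 := (min_le_right _ _).trans (min_le_left _ _)
    have a4 : min (min δ1 δ2) (min u0 (1 - u0)) ≤ 1 - u0 := (min_le_right _ _).trans (min_le_right _ _)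
    have hmem : u ∈ Ioc (0:ℝ) 1 := ⟨by linarith [hu1.1], by linarith [hu1.2]⟩
    rw [abs_lt]
    exact ⟨by linarith [hL u hmem (by linarith [hu1.1])], by linarith [hR u hmem (by linarith [hu1.2])]⟩

/-- **two-sided comparison with the mass** -/
theorem svq_bounds {α : ℝ → ℝ} (h : SvDist α) {κ : ℝ} (hκ : 0 < κ)
    (hlim : Tendsto (fun s => α s / s) (𝓝[>] 0) (𝓝 κ)) :
    ∃ c C : ℝ, 0 < c ∧ 0 < C ∧ ∀ u ∈ Ioc (0:ℝ) 1, c * u ≤ svQ α u ∧ svQ α u ≤ C * u := by
  have h1 : ∀ᶠ s in 𝓝[>] (0:ℝ), α s / s ∈ Ioo (κ / 2) (2 * κ) :=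
    hlim.eventually (Ioo_mem_nhds (by linarith) (by linarith))
  rw [eventually_nhdsWithin_iff, Metric.eventually_nhds_iff] at h1
  obtain ⟨δ, hδ, hh⟩ := h1
  set s0 := min (δ / 2) 1 with hs0
  have hs0pos : 0 < s0 := lt_min (by positivity) one_pos
  have hs01 : s0 ≤ 1 := min_le_right _ _
  have hb : ∀ s ∈ Ioc 0 s0, κ / 2 * s ≤ α s ∧ α s ≤ 2 * κ * s := by
    intro s hs
    have := hh (y := s) (by
      rw [Real.dist_eq, sub_zero, abs_of_pos hs.1]
      have : s0 ≤ δ / 2 := min_le_left _ _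
      linarith [hs.2]) hs.1
    constructor
    · have := this.1
      rw [lt_div_iff₀ hs.1] at this
      exact this.le
    · have := this.2
      rw [div_lt_iff₀ hs.1] at this
      exact this.le
  refine ⟨min (1 / (2 * κ)) s0, 2 / (κ * s0), lt_min (by positivity) hs0pos, by positivity, fun u hu => ⟨?_, ?_⟩⟩
  · -- lower bound
    set s := svQ α u with hs
    have hsu : u ≤ α s := svq_self h hu
    have hs0' : 0 ≤ s := (svq_mem h hu).1
    by_cases hcase : s ≤ s0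
    · have hspos : 0 < s := by
        rcases eq_or_lt_of_le hs0' with h0 | h0
        · exfalso
          -- `α 0 = 0` follows from the slope
          have : α 0 ≤ 0 := by
            apply le_of_forall_pos_le_add
            intro e he
            set r := min s0 (e / (2 * κ)) with hr
            have hrpos : 0 < r := lt_min hs0pos (by positivity)
            have h2 := (hb r ⟨hrpos, min_le_left _ _⟩).2
            have h3 : α 0 ≤ α r := h.mono hrpos.le
            have h4 : 2 * κ * r ≤ 2 * κ * (e / (2 * κ)) :=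
              mul_le_mul_of_nonneg_left (min_le_right _ _) (by positivity)
            have h5 : 2 * κ * (e / (2 * κ)) = e := by field_simp
            linarith
          rw [← h0] at hsu
          linarith [hu.1]
        · exact h0
      have h2 := (hb s ⟨hspos, hcase⟩).2
      have h3 : min (1 / (2 * κ)) s0 * u ≤ 1 / (2 * κ) * u :=
        mul_le_mul_of_nonneg_right (min_le_left _ _) hu.1.le
      have h4 : 1 / (2 * κ) * u ≤ 1 / (2 * κ) * (2 * κ * s) :=
        mul_le_mul_of_nonneg_left (hsu.trans h2) (by positivity)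
      have h5 : 1 / (2 * κ) * (2 * κ * s) = s := by field_simp
      linarith
    · have hcase : s0 < s := not_le.mp hcase
      have h3 : min (1 / (2 * κ)) s0 * u ≤ s0 * u :=
        mul_le_mul_of_nonneg_right (min_le_right _ _) hu.1.le
      have h4 : s0 * u ≤ s0 * 1 := mul_le_mul_of_nonneg_left hu.2 hs0pos.le
      linarith
  · -- upper bound
    by_cases hcase : u ≤ κ * s0 / 2
    · set s := 2 * u / κ with hs
      have hspos : 0 < s := by have := hu.1; positivity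
      have hss0 : s ≤ s0 := by
        rw [hs, div_le_iff₀ hκ]; linarith
      have h2 := (hb s ⟨hspos, hss0⟩).1
      have h3 : κ / 2 * s = u := by rw [hs]; field_simp
      have h4 : svQ α u ≤ s := by rw [svq_le_iff h hu]; linarith
      have h5 : s ≤ 2 / (κ * s0) * u := by
        rw [hs]
        have : 2 * u / κ = 2 / (κ * 1) * u := by field_simp
        rw [this]
        apply mul_le_mul_of_nonneg_right _ hu.1.le
        apply div_le_div_of_nonneg_left (by norm_num) (by positivity)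
        exact mul_le_mul_of_nonneg_left hs01 hκ.le
      linarith
    · have hcase : κ * s0 / 2 < u := not_le.mp hcase
      have h1 : svQ α u ≤ 1 := (svq_mem h hu).2
      have h2 : 1 ≤ 2 / (κ * s0) * u := by
        rw [div_mul_eq_mul_div, le_div_iff₀ (by positivity)]
        linarith
      linarith

/-- the quantile tends to `0+` at `0+` -/
theorem svq_tendsto_zero {α : ℝ → ℝ} (h : SvDist α) {κ : ℝ} (hκ : 0 < κ)
    (hlim : Tendsto (fun s => α s / s) (𝓝[>] 0) (𝓝 κ)) :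
    Tendsto (svQ α) (𝓝[>] 0) (𝓝[>] 0) := by
  obtain ⟨c, C, hc, hC, hb⟩ := svq_bounds h hκ hlim
  rw [tendsto_nhdsWithin_iff]
  constructor
  · have h1 : Tendsto (fun u : ℝ => c * u) (𝓝[>] 0) (𝓝 0) := by
      have : Tendsto (fun u : ℝ => c * u) (𝓝 0) (𝓝 (c * 0)) := (continuous_const.mul continuous_id).tendsto 0
      rw [mul_zero] at this
      exact this.mono_left nhdsWithin_le_nhds
    have h2 : Tendsto (fun u : ℝ => C * u) (𝓝[>] 0) (𝓝 0) := by
      have : Tendsto (fun u : ℝ => C * u) (𝓝 0) (𝓝 (C * 0)) := (continuous_const.mul continuous_id).tendsto 0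
      rw [mul_zero] at this
      exact this.mono_left nhdsWithin_le_nhds
    apply tendsto_of_tendsto_of_tendsto_of_le_of_le' h1 h2
    · filter_upwards [Ioc_mem_nhdsGT one_pos] with u hu using (hb u hu).1
    · filter_upwards [Ioc_mem_nhdsGT one_pos] with u hu using (hb u hu).2
  · filter_upwards [Ioc_mem_nhdsGT one_pos] with u hu
    exact lt_of_lt_of_le (mul_pos hc hu.1) (hb u hu).1

/-- **initial slope of the quantile**: `q(u) ~ u / κ` -/
theorem svq_slope {α : ℝ → ℝ} (h : SvDist α) {q κ : ℝ} (hq : 0 < q) (hcont : ContinuousOn α (Ico 0 q)) (hκ : 0 < κ)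
    (hlim : Tendsto (fun s => α s / s) (𝓝[>] 0) (𝓝 κ)) :
    Tendsto (fun u => svQ α u / u) (𝓝[>] 0) (𝓝 κ⁻¹) := by
  have h0 := svq_tendsto_zero h hκ hlim
  have h1 : Tendsto (fun u => α (svQ α u) / svQ α u) (𝓝[>] 0) (𝓝 κ) := hlim.comp h0
  have h2 : Tendsto (fun u => (α (svQ α u) / svQ α u)⁻¹) (𝓝[>] 0) (𝓝 κ⁻¹) := h1.inv₀ hκ.ne'
  refine h2.congr' ?_
  have h3 : ∀ᶠ u in 𝓝[>] (0:ℝ), svQ α u ∈ Ioo 0 q := h0.eventually (Ioo_mem_nhdsGT hq)
  filter_upwards [h3, Ioc_mem_nhdsGT one_pos] with u hu hu1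
  have hc : ContinuousWithinAt α (Iic (svQ α u)) (svQ α u) := by
    have : ContinuousAt α (svQ α u) := hcont.continuousAt (Ico_mem_nhds hu.1 hu.2)
    exact this.continuousWithinAt
  rw [svq_apply' h hu1 hc, inv_div]

/-- **PE Lemma 5.8, last sentence**: the quantile of the minimiser is continuous at every mass in `(0,1)`, is comparable with the mass,
and `q_T(u) ~ u / κ_T` at zero.   TEX[PE:prof:scalar-minimizer] (the part "quantile") -/
theorem sv_quantile {T : ℝ} (S : SvPkgK T) (hT : 1 < T) {α : ℝ → ℝ} (hα : SvDist α)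
    (hmin : ∀ α', SvDist α' → S.P α ≤ S.P α') :
    ContinuousOn (svQ α) (Ioo 0 1) ∧ MonotoneOn (svQ α) (Ioc 0 1) ∧ (∀ u ∈ Ioc (0:ℝ) 1, svQ α u ∈ Ioo (0:ℝ) 1) ∧
      (∃ c C : ℝ, 0 < c ∧ 0 < C ∧ ∀ u ∈ Ioc (0:ℝ) 1, c * u ≤ svQ α u ∧ svQ α u ≤ C * u) ∧
      Tendsto (fun u => svQ α u / u) (𝓝[>] 0) (𝓝 (T * S.N4 α 0 / (2 * S.M3 α 0))⁻¹) := by
  obtain ⟨q, hq, _, _, _, h4, h5, h6, h7⟩ := sv_thmA S.toSvPkg hT hα hmin
  obtain ⟨hκ, hlim⟩ := sv_kappa S hT hα hmin
  refine ⟨svq_continuousOn hα h4 h5 h7, svq_mono hα, fun u hu => ⟨svq_pos hα h4 hu, ?_⟩,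
    svq_bounds hα hκ hlim, svq_slope hα hq.1 h6 hκ hlim⟩
  exact lt_of_le_of_lt (svq_le_top hα h7 hu) hq.2

/-! ## 3. duality between quantiles and distribution functions -/

/-- the distribution function of a quantile `z : (0,1) → [0,1]` -/
noncomputable def svA (z : ℝ → ℝ) (s : ℝ) : ℝ := volume.real {w | w ∈ Ioo (0:ℝ) 1 ∧ z w ≤ s}

/-- the law of `z` under the Lebesgue measure of `(0,1)` -/
noncomputable def svLaw (z : ℝ → ℝ) : Measure ℝ := Measure.map z (volume.restrict (Ioo 0 1))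

theorem svq_aem {z : ℝ → ℝ} (hm : MonotoneOn z (Ioo 0 1)) : AEMeasurable z (volume.restrict (Ioo 0 1)) :=
  aemeasurable_restrict_of_monotoneOn measurableSet_Ioo hm

theorem svq_law_prob {z : ℝ → ℝ} (hm : MonotoneOn z (Ioo 0 1)) : IsProbabilityMeasure (svLaw z) := by
  have : IsProbabilityMeasure (volume.restrict (Ioo (0:ℝ) 1)) := ⟨by simp⟩
  exact Measure.isProbabilityMeasure_map (svq_aem hm)

theorem svq_law_cdf {z : ℝ → ℝ} (hm : MonotoneOn z (Ioo 0 1)) : svCdf (svLaw z) = svA z := by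
  funext s
  unfold svCdf svA svLaw
  rw [measureReal_def, measureReal_def, Measure.map_apply_of_aemeasurable (svq_aem hm) measurableSet_Iic]
  -- the preimage is only null-measurable: use `restrict_apply₀'`
  rw [Measure.restrict_apply₀' measurableSet_Ioo.nullMeasurableSet]
  congr 2
  ext w
  simp only [mem_inter_iff, mem_preimage, mem_Iic, mem_ofPred_eq]
  tauto

theorem svq_law_car {z : ℝ → ℝ} (hm : MonotoneOn z (Ioo 0 1)) (hz : ∀ w ∈ Ioo (0:ℝ) 1, z w ∈ Icc (0:ℝ) 1) :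
    svLaw z (Icc 0 1)ᶜ = 0 := by
  unfold svLaw
  rw [Measure.map_apply_of_aemeasurable (svq_aem hm) measurableSet_Icc.compl,
    Measure.restrict_apply₀' measurableSet_Ioo.nullMeasurableSet]
  have : z ⁻¹' (Icc 0 1)ᶜ ∩ Ioo 0 1 = ∅ := by
    ext w
    simp only [mem_inter_iff, mem_preimage, mem_compl_iff, mem_empty_iff_false, iff_false, not_and]
    intro h1 h2
    exact h1 (hz w h2)
  rw [this]; simp

theorem svq_A_dist {z : ℝ → ℝ} (hm : MonotoneOn z (Ioo 0 1)) (hz : ∀ w ∈ Ioo (0:ℝ) 1, z w ∈ Icc (0:ℝ) 1) :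
    SvDist (svA z) := by
  have := svq_law_prob hm
  rw [← svq_law_cdf hm]
  exact sv_dist_cdf _ (svq_law_car hm hz)

theorem svq_dist_mem {α : ℝ → ℝ} (h : SvDist α) (s : ℝ) : α s ∈ Icc (0:ℝ) 1 := by
  constructor
  · have := h.mono (min_le_left s (-1))
    rw [h.neg (min s (-1)) (lt_of_le_of_lt (min_le_right _ _) (by norm_num))] at this
    exact this
  · have := h.mono (le_max_left s 1)
    rw [h.top (max s 1) (le_max_right _ _)] at this
    exact this

theorem svq_vol {p : ℝ} (hp : p ∈ Icc (0:ℝ) 1) : volume.real {w | w ∈ Ioo (0:ℝ) 1 ∧ w ≤ p} = p := by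
  have h1 : {w | w ∈ Ioo (0:ℝ) 1 ∧ w ≤ p} ⊆ Ioc 0 p := fun w hw => ⟨hw.1.1, hw.2⟩
  have h2 : Ioo 0 p ⊆ {w | w ∈ Ioo (0:ℝ) 1 ∧ w ≤ p} := fun w hw => ⟨⟨hw.1, hw.2.trans_le hp.2⟩, hw.2.le⟩
  apply le_antisymm
  · have := measureReal_mono (μ := volume) h1 (by simp)
    simpa [Real.volume_real_Ioc_of_le hp.1] using this
  · have := measureReal_mono (μ := volume) h2 (measure_ne_top_of_subset h1 (by simp))
    simpa [Real.volume_real_Ioo_of_le hp.1] using this

/-- the distribution function of the quantile of `α` is `α` -/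
theorem svq_A_Q {α : ℝ → ℝ} (h : SvDist α) : svA (svQ α) = α := by
  funext s
  unfold svA
  have : {w | w ∈ Ioo (0:ℝ) 1 ∧ svQ α w ≤ s} = {w | w ∈ Ioo (0:ℝ) 1 ∧ w ≤ α s} := by
    ext w
    simp only [mem_ofPred_eq]
    constructor
    · rintro ⟨h1, h2⟩; exact ⟨h1, (svq_le_iff h ⟨h1.1, h1.2.le⟩ s).mp h2⟩
    · rintro ⟨h1, h2⟩; exact ⟨h1, (svq_le_iff h ⟨h1.1, h1.2.le⟩ s).mpr h2⟩
  rw [this, svq_vol (svq_dist_mem h s)]

/-- the quantile of the distribution function of `z` is the left-continuous version of `z`: upper bound -/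
theorem svq_Q_A_le {z : ℝ → ℝ} (hm : MonotoneOn z (Ioo 0 1)) (hz : ∀ w ∈ Ioo (0:ℝ) 1, z w ∈ Icc (0:ℝ) 1)
    {u : ℝ} (hu : u ∈ Ioo (0:ℝ) 1) : svQ (svA z) u ≤ z u := by
  rw [svq_le_iff (svq_A_dist hm hz) ⟨hu.1, hu.2.le⟩]
  unfold svA
  have h1 : {w | w ∈ Ioo (0:ℝ) 1 ∧ w ≤ u} ⊆ {w | w ∈ Ioo (0:ℝ) 1 ∧ z w ≤ z u} :=
    fun w hw => ⟨hw.1, hm hw.1 hu hw.2⟩
  have h2 : {w | w ∈ Ioo (0:ℝ) 1 ∧ z w ≤ z u} ⊆ Ioo 0 1 := fun w hw => hw.1
  have := measureReal_mono (μ := volume) h1 (measure_ne_top_of_subset h2 (by simp))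
  rwa [svq_vol ⟨hu.1.le, hu.2.le⟩] at this

/-- lower bound -/
theorem svq_Q_A_ge {z : ℝ → ℝ} (hm : MonotoneOn z (Ioo 0 1)) (hz : ∀ w ∈ Ioo (0:ℝ) 1, z w ∈ Icc (0:ℝ) 1)
    {u u' : ℝ} (hu : u ∈ Ioo (0:ℝ) 1) (hu' : 0 < u') (huu : u' < u) : z u' ≤ svQ (svA z) u := by
  by_contra hlt
  have hlt := not_le.mp hlt
  have h0 := svq_self (svq_A_dist hm hz) (u := u) ⟨hu.1, hu.2.le⟩
  set s := svQ (svA z) u with hs
  have hu'm : u' ∈ Ioo (0:ℝ) 1 := ⟨hu', huu.trans hu.2⟩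
  have h1 : {w | w ∈ Ioo (0:ℝ) 1 ∧ z w ≤ s} ⊆ {w | w ∈ Ioo (0:ℝ) 1 ∧ w ≤ u'} := by
    intro w hw
    refine ⟨hw.1, ?_⟩
    by_contra hw'
    have := hm hu'm hw.1 (not_le.mp hw').le
    linarith [hw.2]
  have h2 : {w | w ∈ Ioo (0:ℝ) 1 ∧ w ≤ u'} ⊆ Ioo 0 1 := fun w hw => hw.1
  have := measureReal_mono (μ := volume) h1 (measure_ne_top_of_subset h2 (by simp))
  rw [svq_vol ⟨hu'.le, hu'm.2.le⟩] at this
  unfold svA at h0
  linarith

/-- a quantile whose canonical version is continuous IS the canonical version -/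
theorem svq_Q_A_eq {z : ℝ → ℝ} (hm : MonotoneOn z (Ioo 0 1)) (hz : ∀ w ∈ Ioo (0:ℝ) 1, z w ∈ Icc (0:ℝ) 1)
    (hc : ContinuousOn (svQ (svA z)) (Ioo 0 1)) : ∀ u ∈ Ioo (0:ℝ) 1, z u = svQ (svA z) u := by
  intro u hu
  apply le_antisymm _ (svq_Q_A_le hm hz hu)
  have h1 : ContinuousAt (svQ (svA z)) u := hc.continuousAt (Ioo_mem_nhds hu.1 hu.2)
  have h2 : Tendsto (svQ (svA z)) (𝓝[>] u) (𝓝 (svQ (svA z) u)) := h1.tendsto.mono_left nhdsWithin_le_nhds
  apply ge_of_tendsto h2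
  filter_upwards [Ioo_mem_nhdsGT hu.2] with v hv
  exact svq_Q_A_ge hm hz ⟨hu.1.trans hv.1, hv.2⟩ hu.1 hv.1

/-- a quantile agrees a.e. with its canonical version -/
theorem svq_Q_A_ae {z : ℝ → ℝ} (hm : MonotoneOn z (Ioo 0 1)) (hz : ∀ w ∈ Ioo (0:ℝ) 1, z w ∈ Icc (0:ℝ) 1) :
    ∀ᵐ u ∂(volume.restrict (Ioo (0:ℝ) 1)), z u = svQ (svA z) u := by
  have hd := svq_A_dist hm hz
  have hmQ : MonotoneOn (svQ (svA z)) (Ioo 0 1) := (svq_mono hd).mono Ioo_subset_Ioc_self
  have hcount := hmQ.countable_not_continuousWithinAt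
  have hnull : volume {x | x ∈ Ioo (0:ℝ) 1 ∧ ¬ContinuousWithinAt (svQ (svA z)) (Ioo 0 1) x} = 0 :=
    hcount.measure_zero _
  rw [ae_restrict_iff' measurableSet_Ioo]
  have : ∀ᵐ u ∂(volume : Measure ℝ), u ∉ {x | x ∈ Ioo (0:ℝ) 1 ∧ ¬ContinuousWithinAt (svQ (svA z)) (Ioo 0 1) x} :=
    measure_eq_zero_iff_ae_notMem.mp hnull
  filter_upwards [this] with u hu hu1
  have hcw : ContinuousWithinAt (svQ (svA z)) (Ioo 0 1) u := by
    by_contra hn
    exact hu ⟨hu1, hn⟩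
  apply le_antisymm _ (svq_Q_A_le hm hz hu1)
  have h1 : ContinuousAt (svQ (svA z)) u := hcw.continuousAt (Ioo_mem_nhds hu1.1 hu1.2)
  have h2 : Tendsto (svQ (svA z)) (𝓝[>] u) (𝓝 (svQ (svA z) u)) := h1.tendsto.mono_left nhdsWithin_le_nhds
  apply ge_of_tendsto h2
  filter_upwards [Ioo_mem_nhdsGT hu1.2] with v hv
  exact svq_Q_A_ge hm hz ⟨hu1.1.trans hv.1, hv.2⟩ hu1.1 hv.1

/-! ## 4. transfer of integrals -/

theorem svq_measure_ext {μ ν : Measure ℝ} [IsProbabilityMeasure μ] [IsProbabilityMeasure ν]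
    (h : svCdf μ = svCdf ν) : μ = ν := by
  apply Measure.eq_of_cdf
  ext t
  rw [ProbabilityTheory.cdf_eq_real, ProbabilityTheory.cdf_eq_real]
  exact congrFun h t

/-- the law of the quantile of `svCdf μ` is `μ` -/
theorem svq_law_Q (μ : Measure ℝ) [IsProbabilityMeasure μ] (hμ : μ (Icc 0 1)ᶜ = 0) :
    svLaw (svQ (svCdf μ)) = μ := by
  have hd := sv_dist_cdf μ hμ
  have hm : MonotoneOn (svQ (svCdf μ)) (Ioo 0 1) := (svq_mono hd).mono Ioo_subset_Ioc_self
  have := svq_law_prob hm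
  apply svq_measure_ext
  rw [svq_law_cdf hm, svq_A_Q hd]

/-- change of variables `s = svQ α u` -/
theorem svq_integral_law {z : ℝ → ℝ} (hm : MonotoneOn z (Ioo 0 1)) {g : ℝ → ℝ}
    (hg : AEStronglyMeasurable g (svLaw z)) : ∫ u in (0:ℝ)..1, g (z u) = ∫ s, g s ∂(svLaw z) := by
  rw [intervalIntegral.integral_of_le zero_le_one, integral_Ioc_eq_integral_Ioo]
  unfold svLaw at hg ⊢
  rw [integral_map (svq_aem hm) hg]

/-- **layer cake, general form**: `∫₀¹ α f = ∫₀¹ (∫_{q(u)}^1 f) du` -/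
theorem svq_transfer {α : ℝ → ℝ} (h : SvDist α) {f : ℝ → ℝ} (hf : ContinuousOn f (Icc 0 1)) :
    ∫ t in (0:ℝ)..1, α t * f t = ∫ u in (0:ℝ)..1, ∫ t in (svQ α u)..1, f t := by
  obtain ⟨μ, hp, hcar, hc⟩ := sv_dist_measure h
  have hm : MonotoneOn (svQ α) (Ioo 0 1) := (svq_mono h).mono Ioo_subset_Ioc_self
  obtain ⟨hi, he⟩ := sv_fubini μ hf
  rw [hc] at he
  rw [he]
  have hlaw : svLaw (svQ α) = μ := by rw [← hc]; exact svq_law_Q μ hcar
  have h1 := svq_integral_law hm (g := svGraw f) (by rw [hlaw]; exact hi.aestronglyMeasurable)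
  rw [hlaw] at h1
  rw [← h1]
  apply intervalIntegral.integral_congr_ae
  refine Eventually.of_forall fun u hu => ?_
  rw [uIoc_of_le zero_le_one] at hu
  exact sv_Graw_eq (svq_mem h hu)

/-- **layer cake**: `∫₀¹ q(u)² du = 1 - 2 ∫₀¹ s α(s) ds`   (PE, before Lemma 5.8) -/
theorem svq_layer {α : ℝ → ℝ} (h : SvDist α) :
    ∫ u in (0:ℝ)..1, svQ α u ^ 2 = 1 - 2 * ∫ s in (0:ℝ)..1, s * α s := by
  have h1 := svq_transfer h (f := fun t => t) continuousOn_id
  have h2 : ∀ u : ℝ, (∫ t in (svQ α u)..1, t) = (1 - svQ α u ^ 2) / 2 := by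
    intro u
    rw [integral_id]; ring
  simp only [h2] at h1
  have hm : MonotoneOn (svQ α) (Ioc 0 1) := svq_mono h
  have hint : IntervalIntegrable (fun u => svQ α u ^ 2) volume 0 1 := by
    rw [intervalIntegrable_iff_integrableOn_Ioc_of_le zero_le_one]
    have hmeas : AEStronglyMeasurable (svQ α) (volume.restrict (Ioc 0 1)) :=
      (aemeasurable_restrict_of_monotoneOn measurableSet_Ioc hm).aestronglyMeasurable
    refine Integrable.of_bound (hmeas.pow 2) 1 ?_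
    rw [ae_restrict_iff' measurableSet_Ioc]
    refine Eventually.of_forall fun u hu => ?_
    have := svq_mem h hu
    rw [Real.norm_eq_abs, abs_of_nonneg (by positivity)]
    exact pow_le_one₀ this.1 this.2
  have h3 : (∫ u in (0:ℝ)..1, (1 - svQ α u ^ 2) / 2) = (1 - ∫ u in (0:ℝ)..1, svQ α u ^ 2) / 2 := by
    rw [intervalIntegral.integral_div, intervalIntegral.integral_sub (by simp) hint]
    simp
  rw [h3] at h1
  have h4 : (∫ s in (0:ℝ)..1, s * α s) = ∫ t in (0:ℝ)..1, α t * t := by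
    apply intervalIntegral.integral_congr
    intro t _
    simp only
    ring
  rw [h4, h1]; ring

/-! ## 5. the `L¹` isometry -/

theorem svq_ind_le {a : ℝ} (ha : a ∈ Icc (0:ℝ) 1) :
    IntegrableOn (fun u : ℝ => if u ≤ a then (1:ℝ) else 0) (Ioc 0 1) ∧
      ∫ u in Ioc (0:ℝ) 1, (if u ≤ a then (1:ℝ) else 0) = a := by
  have e : (fun u : ℝ => if u ≤ a then (1:ℝ) else 0) = (Iic a).indicator (fun _ => (1:ℝ)) := by
    funext u; simp [indicator]
  rw [e]
  constructor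
  · exact (integrableOn_const (by simp)).indicator measurableSet_Iic
  · rw [setIntegral_indicator measurableSet_Iic]
    have : Ioc (0:ℝ) 1 ∩ Iic a = Ioc 0 a := by
      ext u; constructor
      · rintro ⟨h1, h2⟩; exact ⟨h1.1, h2⟩
      · rintro ⟨h1, h2⟩; exact ⟨⟨h1, h2.trans ha.2⟩, h2⟩
    rw [this]
    simp [ha.1]

theorem svq_ind_ge {a : ℝ} (ha : a ∈ Icc (0:ℝ) 1) :
    IntegrableOn (fun s : ℝ => if a ≤ s then (1:ℝ) else 0) (Ioc 0 1) ∧
      ∫ s in Ioc (0:ℝ) 1, (if a ≤ s then (1:ℝ) else 0) = 1 - a := by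
  have e : (fun s : ℝ => if a ≤ s then (1:ℝ) else 0) = (Ici a).indicator (fun _ => (1:ℝ)) := by
    funext u; simp [indicator]
  rw [e]
  constructor
  · exact (integrableOn_const (by simp)).indicator measurableSet_Ici
  · have := sv_Graw_eq (f := fun _ => (1:ℝ)) ha
    unfold svGraw at this
    rw [this]; simp

theorem svq_ind_int1 {a b : ℝ} (ha : a ∈ Icc (0:ℝ) 1) (hb : b ∈ Icc (0:ℝ) 1) :
    ∫ u in Ioc (0:ℝ) 1, |(if u ≤ a then (1:ℝ) else 0) - (if u ≤ b then (1:ℝ) else 0)| = |a - b| := by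
  wlog hab : a ≤ b generalizing a b
  · have := this hb ha (not_le.mp hab).le
    rw [abs_sub_comm a b, ← this]
    congr 1; funext u; rw [abs_sub_comm]
  have e : (fun u : ℝ => |(if u ≤ a then (1:ℝ) else 0) - (if u ≤ b then (1:ℝ) else 0)|) =
      fun u => (if u ≤ b then (1:ℝ) else 0) - (if u ≤ a then (1:ℝ) else 0) := by
    funext u
    by_cases h1 : u ≤ a
    · have h2 : u ≤ b := h1.trans hab
      simp [h1, h2]
    · by_cases h2 : u ≤ b <;> simp [h1, h2]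
  rw [e, integral_sub (svq_ind_le hb).1 (svq_ind_le ha).1, (svq_ind_le hb).2, (svq_ind_le ha).2,
    abs_sub_comm, abs_of_nonneg (by linarith)]

theorem svq_ind_int2 {a b : ℝ} (ha : a ∈ Icc (0:ℝ) 1) (hb : b ∈ Icc (0:ℝ) 1) :
    ∫ s in Ioc (0:ℝ) 1, |(if a ≤ s then (1:ℝ) else 0) - (if b ≤ s then (1:ℝ) else 0)| = |a - b| := by
  wlog hab : a ≤ b generalizing a b
  · have := this hb ha (not_le.mp hab).le
    rw [abs_sub_comm a b, ← this]
    congr 1; funext u; rw [abs_sub_comm]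
  have e : (fun s : ℝ => |(if a ≤ s then (1:ℝ) else 0) - (if b ≤ s then (1:ℝ) else 0)|) =
      fun s => (if a ≤ s then (1:ℝ) else 0) - (if b ≤ s then (1:ℝ) else 0) := by
    funext s
    by_cases h1 : b ≤ s
    · have h2 : a ≤ s := hab.trans h1
      simp [h1, h2]
    · by_cases h2 : a ≤ s <;> simp [h1, h2]
  rw [e, integral_sub (svq_ind_ge ha).1 (svq_ind_ge hb).1, (svq_ind_ge hb).2, (svq_ind_ge ha).2,
    abs_sub_comm, abs_of_nonneg (by linarith)]
  ring

/-- **`L¹` isometry**: `∫₀¹ |q - q'| du = ∫₀¹ |α - α'| ds` -/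
theorem svq_L1 {α α' : ℝ → ℝ} (h : SvDist α) (h' : SvDist α') :
    ∫ u in (0:ℝ)..1, |svQ α u - svQ α' u| = ∫ s in (0:ℝ)..1, |α s - α' s| := by
  rw [intervalIntegral.integral_of_le zero_le_one, intervalIntegral.integral_of_le zero_le_one]
  set F : ℝ → ℝ → ℝ := fun u s => |(if u ≤ α s then (1:ℝ) else 0) - (if u ≤ α' s then (1:ℝ) else 0)| with hF
  have hFm : Measurable (Function.uncurry F) := by
    have m1 : Measurable (fun p : ℝ × ℝ => if p.1 ≤ α p.2 then (1:ℝ) else 0) :=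
      Measurable.ite (measurableSet_le measurable_fst (h.mono.measurable.comp measurable_snd))
        measurable_const measurable_const
    have m2 : Measurable (fun p : ℝ × ℝ => if p.1 ≤ α' p.2 then (1:ℝ) else 0) :=
      Measurable.ite (measurableSet_le measurable_fst (h'.mono.measurable.comp measurable_snd))
        measurable_const measurable_const
    exact (m1.sub m2).abs
  have hFi : Integrable (Function.uncurry F)
      ((volume.restrict (Ioc (0:ℝ) 1)).prod (volume.restrict (Ioc (0:ℝ) 1))) := by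
    apply Integrable.of_bound hFm.aestronglyMeasurable 1
    refine Eventually.of_forall fun p => ?_
    simp only [Function.uncurry, hF, Real.norm_eq_abs, abs_abs]
    by_cases h1 : p.1 ≤ α p.2 <;> by_cases h2 : p.1 ≤ α' p.2 <;> simp [h1, h2]
  have e1 : ∀ u ∈ Ioc (0:ℝ) 1, |svQ α u - svQ α' u| = ∫ s in Ioc (0:ℝ) 1, F u s := by
    intro u hu
    rw [← svq_ind_int2 (svq_mem h hu) (svq_mem h' hu)]
    congr 1; funext s
    simp only [hF, svq_le_iff h hu, svq_le_iff h' hu]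
  have e2 : ∀ s, |α s - α' s| = ∫ u in Ioc (0:ℝ) 1, F u s := by
    intro s
    rw [← svq_ind_int1 (svq_dist_mem h s) (svq_dist_mem h' s)]
  rw [setIntegral_congr_fun measurableSet_Ioc e1, integral_integral_swap hFi]
  simp only [e2]

/-! ## 6. minimisers in the quantile parametrisation -/

/-- admissible quantiles (same shape as `IsQuant` of `LL/PathsDefs.lean`) -/
def SvQuant (z : ℝ → ℝ) : Prop := MonotoneOn z (Ioo 0 1) ∧ ∀ w ∈ Ioo (0:ℝ) 1, z w ∈ Icc (0:ℝ) 1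

theorem svq_quant {α : ℝ → ℝ} (h : SvDist α) : SvQuant (svQ α) :=
  ⟨(svq_mono h).mono Ioo_subset_Ioc_self, fun _ hw => svq_mem h ⟨hw.1, hw.2.le⟩⟩

/-- a minimiser in the quantile parametrisation gives a minimiser among the distribution functions -/
theorem svq_min_of_quant {P : (ℝ → ℝ) → ℝ} {obj : (ℝ → ℝ) → ℝ} {c0 : ℝ}
    (hobj : ∀ z, SvQuant z → obj z = P (svA z) + c0) {z : ℝ → ℝ} (hz : SvQuant z)
    (hmin : ∀ z', SvQuant z' → obj z ≤ obj z') : ∀ α', SvDist α' → P (svA z) ≤ P α' := by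
  intro α' hα'
  have h1 := hmin _ (svq_quant hα')
  rw [hobj z hz, hobj _ (svq_quant hα'), svq_A_Q hα'] at h1
  linarith

/-- and conversely -/
theorem svq_quant_of_min {P : (ℝ → ℝ) → ℝ} {obj : (ℝ → ℝ) → ℝ} {c0 : ℝ}
    (hobj : ∀ z, SvQuant z → obj z = P (svA z) + c0) {α : ℝ → ℝ} (hα : SvDist α)
    (hmin : ∀ α', SvDist α' → P α ≤ P α') : ∀ z', SvQuant z' → obj (svQ α) ≤ obj z' := by
  intro z' hz'
  rw [hobj _ (svq_quant hα), hobj z' hz', svq_A_Q hα]
  linarith [hmin _ (svq_A_dist hz'.1 hz'.2)]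

/-- **PE Lemma 5.8 in the quantile parametrisation.**   `obj` = any objective on quantiles which is the Parisi functional of the
distribution function up to a constant (PE: `f_spin(T q) + (T/4) ∫ q² = P(α) - T/4`).   A minimising quantile `z` is (everywhere on `(0,1)`) the
canonical quantile of its distribution function, it is continuous on `(0,1)`, comparable with the mass, with slope `1/κ_T` at `0`. -/
theorem sv_quantile_min {T : ℝ} (S : SvPkgK T) (hT : 1 < T) {obj : (ℝ → ℝ) → ℝ} {c0 : ℝ}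
    (hobj : ∀ z, SvQuant z → obj z = S.P (svA z) + c0) {z : ℝ → ℝ} (hz : SvQuant z)
    (hmin : ∀ z', SvQuant z' → obj z ≤ obj z') :
    SvDist (svA z) ∧ (∀ α', SvDist α' → S.P (svA z) ≤ S.P α') ∧ (∀ u ∈ Ioo (0:ℝ) 1, z u = svQ (svA z) u) ∧
      ContinuousOn z (Ioo 0 1) ∧ (∀ u ∈ Ioo (0:ℝ) 1, z u ∈ Ioo (0:ℝ) 1) ∧
      (∃ c C : ℝ, 0 < c ∧ 0 < C ∧ ∀ u ∈ Ioo (0:ℝ) 1, c * u ≤ z u ∧ z u ≤ C * u) ∧
      Tendsto (fun u => z u / u) (𝓝[>] 0) (𝓝 (T * S.N4 (svA z) 0 / (2 * S.M3 (svA z) 0))⁻¹) := by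
  have hd := svq_A_dist hz.1 hz.2
  have hm := svq_min_of_quant (P := S.P) hobj hz hmin
  obtain ⟨h1, _, h3, ⟨c, C, hc, hC, h4⟩, h5⟩ := sv_quantile S hT hd hm
  have he := svq_Q_A_eq hz.1 hz.2 h1
  refine ⟨hd, hm, he, h1.congr he, fun u hu => ?_, ⟨c, C, hc, hC, fun u hu => ?_⟩, ?_⟩
  · rw [he u hu]; exact h3 u ⟨hu.1, hu.2.le⟩
  · rw [he u hu]; exact h4 u ⟨hu.1, hu.2.le⟩
  · refine h5.congr' ?_
    filter_upwards [Ioo_mem_nhdsGT one_pos] with u hu
    rw [he u hu]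

end Claimed.Agent.R286
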