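import Claimed.Agent.R286.Sc.Mom
import Claimed.Agent.R286.Sc.MomG
import Claimed.Agent.R286.Sc.CurvX
import Claimed.Agent.R286.Sc.Fv
import Claimed.Agent.R286.Sc.Bound
import Claimed.Agent.R286.Sc.GenP
import Claimed.Agent.R286.Sc.Hopf
import Claimed.Agent.R286.Sc.UpGen
import Claimed.Agent.R286.Sc.UqExit
import Claimed.Agent.R286.Sc.Top
import Claimed.Agent.R286.Sc.VarQ

/-!
# Row 286 (S0533), BOX-C (scalar block), unit C9 PKG: THE PE SCALAR PACKAGE      (HEAD + OWNER helper229; chief helper183; ADV helper250)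

THE INSTANCE of the abstract records `SvPkg`, `SvPkgK` (`Sc/VarL, VarK`) for the SK scalar objects of `Sc/GenDefs.lean`, and the exits PE Lemma 5.8 / statement (L) / LL Lemma paths:base-profile.
PE units: time `q ∈ [0,1]`, coefficient `α : [0,1] → [0,1]` nondecreasing (`SvCoef`), variance time `t = T q`, terminal datum `scLC 1 = log cosh`, `V_q = -(T/2)(V_zz + α V_z²)`, `Γ̂(q) = E V_z(q, Z_q)²`.

## 0. definitions
* `pkPol F α τ t p z` = value at `z` of the jet polynomial `p ∈ MvPolynomial ℕ ℝ` (algebra `scmD, scmQ, scmR` of `Sc/Mom.lean`, helper197):  `X k ↦ scaD (k+1) F α τ t z`      (`= scmObsA p F α τ t z`);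
* `pkMv F α τ p t = scaEx F α τ t (pkPol ..) = E p(∂V)(t, Z_t)`  (VARIANCE time; `= scmMa p F α τ t`);   `pk_mv_Gam .. pk_mv_M13`: `scaGam = pkMv (X 0 ^ 2)`, `scaM2 = (X 1 ^ 2)`, `scaM3 = (X 1 ^ 3)`, `scaN3 = (X 2 ^ 2)`, `scaN4 = (X 3 ^ 2)`, `scaM13 = (X 1 * X 2 ^ 2)`;
* PE units: `pkA T α t = α (t / T)`, `pkMom T α p q = pkMv (scLC 1) (pkA T α) T p (T q)`, `pkV0 T α = scVa .. 0 0` (`= skUpV T α` of helper159), `pkP T α` the Parisi functional.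

## 1. TOOLKIT STATEMENTS (VARIANCE time, general terminal mass `a`, `F = scLC a`, `ScCoef a τ α`): ALL CLOSED, THIS FILE HAS NO OPEN STATEMENT
 by citation: `pk_t_stab` (`scm_Ma_stab`, `Sc/MomG.lean`, helper48), `pk_t_fv2` (`sfv_fv2`, `Sc/Fv.lean`, helper197), `pk_t_cont`, `pk_t_dyn`, `pk_t_mlim` (`Sc/MomG.lean`, helper48), `pk_t_curv` (`sc_cvx_curv`, `Sc/CurvX.lean`, 183 / 265), regularity, convexity (`Sc/Gen.lean`), convergence of the laws (`Sc/GenP.lean`), Hopf bound (`Sc/Hopf.lean`), lower bounds (`Sc/Bound.lean`), uniqueness (`Sc/UpGen.lean`), existence (`Sc/UqExit.lean`), `p_top < 1` (`Sc/Top.lean`).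
## 2. THIS UNIT (229): linearity / positivity / Jensen, parity, RS value, PE wrappers.
## 3. EXITS:  `pkPkg T hT : SvPkgK T` (**the instance**),  `pkAlT T` (the minimiser `α_T`), `pk_alT_dist / _min / _unique`, `pkKap T`, `pk_58` (PE Lemma 5.8),  `pk_base` (statement (L) + LL Lemma paths:base-profile, PE time).
-/

set_option autoImplicit false

namespace Claimed.Agent.R286

open MeasureTheory Set Filter Topology MvPolynomial

/-! ## 0. definitions -/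

/-- a polynomial in the derivatives of `V_α(t,·)`: `X k ↦ ∂_z^(k+1) V_α(t, z)` -/
noncomputable def pkPol (F α : ℝ → ℝ) (τ t : ℝ) (p : MvPolynomial ℕ ℝ) (z : ℝ) : ℝ :=
  MvPolynomial.eval (fun k => scaD (k + 1) F α τ t z) p

/-- moment curve of a general coefficient, variance time -/
noncomputable def pkMv (F α : ℝ → ℝ) (τ : ℝ) (p : MvPolynomial ℕ ℝ) (t : ℝ) : ℝ := scaEx F α τ t (pkPol F α τ t p)

/-- the coefficient in variance time -/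
noncomputable def pkA (T : ℝ) (α : ℝ → ℝ) (t : ℝ) : ℝ := α (t / T)

/-- moment curve, PE time -/
noncomputable def pkMom (T : ℝ) (α : ℝ → ℝ) (p : MvPolynomial ℕ ℝ) (q : ℝ) : ℝ := pkMv (scLC 1) (pkA T α) T p (T * q)

/-- `V_α(0,0)` -/
noncomputable def pkV0 (T : ℝ) (α : ℝ → ℝ) : ℝ := scVa (scLC 1) (pkA T α) T 0 0

/-- the Parisi functional in PE units -/
noncomputable def pkP (T : ℝ) (α : ℝ → ℝ) : ℝ := pkV0 T α - T / 2 * ∫ s in (0:ℝ)..1, s * α s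

theorem pk_mv_Gam (F α : ℝ → ℝ) (τ t : ℝ) : pkMv F α τ (X 0 ^ 2) t = scaGam F α τ t := by
  unfold pkMv scaGam; congr 1; funext z; simp [pkPol]
theorem pk_mv_M2 (F α : ℝ → ℝ) (τ t : ℝ) : pkMv F α τ (X 1 ^ 2) t = scaM2 F α τ t := by
  unfold pkMv scaM2; congr 1; funext z; simp [pkPol]
theorem pk_mv_M3 (F α : ℝ → ℝ) (τ t : ℝ) : pkMv F α τ (X 1 ^ 3) t = scaM3 F α τ t := by
  unfold pkMv scaM3; congr 1; funext z; simp [pkPol]
theorem pk_mv_N3 (F α : ℝ → ℝ) (τ t : ℝ) : pkMv F α τ (X 2 ^ 2) t = scaN3 F α τ t := by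
  unfold pkMv scaN3; congr 1; funext z; simp [pkPol]
theorem pk_mv_N4 (F α : ℝ → ℝ) (τ t : ℝ) : pkMv F α τ (X 3 ^ 2) t = scaN4 F α τ t := by
  unfold pkMv scaN4; congr 1; funext z; simp [pkPol]
theorem pk_mv_M13 (F α : ℝ → ℝ) (τ t : ℝ) : pkMv F α τ (X 1 * X 2 ^ 2) t = scaM13 F α τ t := by
  unfold pkMv scaM13; congr 1; funext z; simp [pkPol]

/-! ## 1. toolkit statements (variance time) -/

theorem pk_LC_BI (a : ℝ) : ScBI (scLC a) := sc_logcosh_BI a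

/-- The derivatives of `V_α(t,·)` of order `≥ 1` are bounded with all their derivatives. -/
theorem pk_t_reg {a τ : ℝ} (_ha : 0 < a) (hτ : 0 < τ) {α : ℝ → ℝ} (hα : ScCoef a τ α) (k n : ℕ) {t : ℝ}
    (ht : t ∈ Icc 0 τ) : ScBd n (scaD (k + 1) (scLC a) α τ t) := scg_aD_Bd (pk_LC_BI a) hτ.le hα k n ht.1

/-- `V_α(t,·)` is convex. -/
theorem pk_t_w_nonneg {a τ : ℝ} (ha : 0 < a) (hτ : 0 < τ) {α : ℝ → ℝ} (hα : ScCoef a τ α) {t : ℝ} (ht : t ∈ Icc 0 τ)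
    (z : ℝ) : 0 ≤ scaD 2 (scLC a) α τ t z :=
  scg_w_nonneg (pk_LC_BI a) (fun z => ((scb_LC_cont ha).d2_pos z).le) hτ.le hα ht.1 z

/-- The laws of `Z_t` along the dyadic approximants converge (smooth bounded tests). -/
theorem pk_t_lim {a τ : ℝ} (_ha : 0 < a) (hτ : 0 < τ) {α : ℝ → ℝ} (hα : ScCoef a τ α) {φ : ℝ → ℝ} (hφ : ∀ n, ScBd n φ)
    {t : ℝ} (ht : t ∈ Icc 0 τ) :
    Tendsto (fun n => scEx (scLC a) (scDy α τ n) t φ) atTop (𝓝 (scaEx (scLC a) α τ t φ)) := by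
  obtain ⟨M, hM⟩ := (hφ 2).scN
  exact sgp_P_tendsto_bd (pk_LC_BI a) hτ.le hα hM le_rfl ht.1 ht.2 0

/-- OWNER 197 / 48 (`Sc/MomG.lean`, `scm_M_tendsto`).   The dyadic moments converge. -/
theorem pk_t_mlim {a τ : ℝ} (ha : 0 < a) (hτ : 0 < τ) {α : ℝ → ℝ} (hα : ScCoef a τ α) (p : MvPolynomial ℕ ℝ) {t : ℝ}
    (ht : t ∈ Icc 0 τ) : Tendsto (fun n => scmM p (scLC a) (scDy α τ n) t) atTop (𝓝 (pkMv (scLC a) α τ p t)) :=
  scm_Ma_lim (pk_LC_BI a) hα hτ.le p (scg_dy_apx hτ.le hα) ht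

/-- OWNER 197 / 48 (`Sc/MomG.lean`, `scm_Ma_cont`).   Moment curves are continuous. -/
theorem pk_t_cont {a τ : ℝ} (ha : 0 < a) (hτ : 0 < τ) {α : ℝ → ℝ} (hα : ScCoef a τ α) (p : MvPolynomial ℕ ℝ) :
    ContinuousOn (pkMv (scLC a) α τ p) (Icc 0 τ) := scm_Ma_cont (pk_LC_BI a) hα hτ.le p

/-- OWNER 197 / 48 (`Sc/MomG.lean`, `scm_moment_gen`; FS (6.4)).   **DYNKIN for the moment curves of a general coefficient.**   TEX[PE:prof:scalar-derivatives] -/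
theorem pk_t_dyn {a τ : ℝ} (ha : 0 < a) (hτ : 0 < τ) {α : ℝ → ℝ} (hα : ScCoef a τ α) (p : MvPolynomial ℕ ℝ) :
    ∀ s ∈ Icc 0 τ, ∀ t ∈ Icc 0 τ, pkMv (scLC a) α τ p t - pkMv (scLC a) α τ p s
      = ∫ r in s..t, (pkMv (scLC a) α τ (scmQ p) r + α r * pkMv (scLC a) α τ (scmR p) r) :=
  fun _ hs _ ht => scm_moment_gen' (pk_LC_BI a) hα p hs ht

/-- OWNER 197 / 48 (`Sc/MomG.lean`, `scm_Ma_stab`).   `L¹`-continuity of the moment curves in the coefficient. -/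
theorem pk_t_stab {a τ : ℝ} (ha : 0 < a) (hτ : 0 < τ) (p : MvPolynomial ℕ ℝ) :
    ∀ ε > 0, ∃ δ > 0, ∀ α α', ScCoef a τ α → ScCoef a τ α' → (∫ r in (0 : ℝ)..τ, |α r - α' r|) < δ →
      ∀ t ∈ Icc 0 τ, |pkMv (scLC a) α τ p t - pkMv (scLC a) α' τ p t| ≤ ε := by
  intro ε hε
  obtain ⟨L, hL⟩ := (pk_LC_BI a 1).2.1
  obtain ⟨δ, hδ, h⟩ := scm_Ma_stab ha.le hτ.le (pk_LC_BI a) hL p hε
  exact ⟨δ, hδ, fun α α' hα hα' hd t ht => h α' α hα' hα hd.le t ht⟩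

/-- `sfv_fv2` (`Sc/Fv.lean`, helper197).   **First variation**, two-sided bound of the difference quotient (S7.1). -/
theorem pk_t_fv2 {a τ : ℝ} (ha : 0 < a) (hτ : 0 < τ) : ∀ α α', ScCoef a τ α → ScCoef a τ α' →
    ∀ e > 0, ∃ ε₀ > 0, ∀ ε, 0 < ε → ε ≤ ε₀ → ε ≤ 1 →
    |scVa (scLC a) (fun s => α s + ε * (α' s - α s)) τ 0 0 - scVa (scLC a) α τ 0 0
      - ε * (1 / 2 * ∫ t in (0:ℝ)..τ, (α' t - α t) * pkMv (scLC a) α τ (X 0 ^ 2) t)| ≤ ε * e := by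
  simp only [pk_mv_Gam]
  exact sfv_fv2 (pk_LC_BI a) hτ.le

/-- OWNER 183 (C5 CURV: `sc_cvx_curv`, `Sc/CurvX.lean`).   Strict curvature on positive plateaus.   TEX[FS:prop:gap-curvature] -/
theorem pk_t_curv {a τ : ℝ} (ha : 0 < a) (hτ : 0 < τ) {α : ℝ → ℝ} (hα : ScCoef a τ α) (x y c : ℝ) (hx : 0 ≤ x)
    (hxy : x < y) (hy : y ≤ τ) (hc : 0 < c) (hpl : ∀ t ∈ Ioo x y, α t = c) (x' y' : ℝ) (h1 : x < x') (h2 : x' < y')
    (h3 : y' < y) : ∃ κ > 0, ConvexOn ℝ (Icc x' y') (fun t => pkMv (scLC a) α τ (X 1 ^ 2) t - κ * t ^ 2) := by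
  simp only [pk_mv_M2]
  exact sc_cvx_curv ha hτ hα hx hy hc hpl h1 h2.le h3

/-! ## 2b. this unit: the functional `scaEx` on smooth bounded tests (variance time) -/

/-- polynomials in the derivatives are smooth bounded tests -/
theorem pk_pol_reg {a τ : ℝ} (ha : 0 < a) (hτ : 0 < τ) {α : ℝ → ℝ} (hα : ScCoef a τ α) {t : ℝ} (ht : t ∈ Icc 0 τ)
    (p : MvPolynomial ℕ ℝ) (n : ℕ) : ScBd n (pkPol (scLC a) α τ t p) := by
  induction p using MvPolynomial.induction_on with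
  | C c =>
    have : pkPol (scLC a) α τ t (C c) = fun _ => c := by funext z; simp [pkPol]
    rw [this]; exact ScBd.const n c
  | add p q hp hq =>
    have : pkPol (scLC a) α τ t (p + q) = fun z => pkPol (scLC a) α τ t p z + pkPol (scLC a) α τ t q z := by
      funext z; simp [pkPol]
    rw [this]; exact hp.add hq
  | mul_X p k hp =>
    have : pkPol (scLC a) α τ t (p * X k) = fun z => pkPol (scLC a) α τ t p z * scaD (k + 1) (scLC a) α τ t z := by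
      funext z; simp [pkPol]
    rw [this]; exact hp.mul (pk_t_reg ha hτ hα k n ht)

theorem pk_ex_add {a τ : ℝ} (ha : 0 < a) (hτ : 0 < τ) {α : ℝ → ℝ} (hα : ScCoef a τ α) {t : ℝ} (ht : t ∈ Icc 0 τ)
    {φ ψ : ℝ → ℝ} (hφ : ∀ n, ScBd n φ) (hψ : ∀ n, ScBd n ψ) :
    scaEx (scLC a) α τ t (fun z => φ z + ψ z) = scaEx (scLC a) α τ t φ + scaEx (scLC a) α τ t ψ := by
  have h1 := pk_t_lim ha hτ hα (φ := fun z => φ z + ψ z) (fun n => (hφ n).add (hψ n)) ht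
  have h2 := (pk_t_lim ha hτ hα hφ ht).add (pk_t_lim ha hτ hα hψ ht)
  refine tendsto_nhds_unique h1 (h2.congr fun n => ?_)
  simp only [scEx]
  rw [sc_Pt_add (pk_LC_BI a) (hφ 0).scE (hψ 0).scE]

theorem pk_ex_smul {a τ : ℝ} (ha : 0 < a) (hτ : 0 < τ) {α : ℝ → ℝ} (hα : ScCoef a τ α) {t : ℝ} (ht : t ∈ Icc 0 τ)
    (c : ℝ) {φ : ℝ → ℝ} (hφ : ∀ n, ScBd n φ) :
    scaEx (scLC a) α τ t (fun z => c * φ z) = c * scaEx (scLC a) α τ t φ := by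
  have h1 := pk_t_lim ha hτ hα (φ := fun z => c * φ z) (fun n => (hφ n).const_mul c) ht
  have h2 := (pk_t_lim ha hτ hα hφ ht).const_mul c
  refine tendsto_nhds_unique h1 (h2.congr fun n => ?_)
  simp only [scEx]
  rw [sc_Pt_const_mul]

theorem pk_ex_nonneg {a τ : ℝ} (ha : 0 < a) (hτ : 0 < τ) {α : ℝ → ℝ} (hα : ScCoef a τ α) {t : ℝ} (ht : t ∈ Icc 0 τ)
    {φ : ℝ → ℝ} (hφ : ∀ n, ScBd n φ) (h0 : ∀ z, 0 ≤ φ z) : 0 ≤ scaEx (scLC a) α τ t φ :=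
  ge_of_tendsto' (pk_t_lim ha hτ hα hφ ht) fun _ => sc_Pt_nonneg (pk_LC_BI a) (hφ 0).scE h0 _ _ _ _

theorem pk_ex_const {a τ : ℝ} (ha : 0 < a) (hτ : 0 < τ) {α : ℝ → ℝ} (hα : ScCoef a τ α) {t : ℝ} (ht : t ∈ Icc 0 τ)
    (c : ℝ) : scaEx (scLC a) α τ t (fun _ => c) = c := by
  have h1 := pk_t_lim ha hτ hα (φ := fun _ => c) (fun n => ScBd.const n c) ht
  refine tendsto_nhds_unique h1 (tendsto_const_nhds.congr fun n => ?_)
  simp only [scEx]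
  rw [sc_Pt_const (pk_LC_BI a)]

/-! ## 2c. this unit: the moment curves (variance time) -/

section mv
variable {a τ : ℝ} (ha : 0 < a) (hτ : 0 < τ) {α : ℝ → ℝ} (hα : ScCoef a τ α) {t : ℝ} (ht : t ∈ Icc 0 τ)
include ha hτ hα ht

theorem pk_mv_add (p p' : MvPolynomial ℕ ℝ) :
    pkMv (scLC a) α τ (p + p') t = pkMv (scLC a) α τ p t + pkMv (scLC a) α τ p' t := by
  unfold pkMv
  rw [← pk_ex_add ha hτ hα ht (pk_pol_reg ha hτ hα ht p) (pk_pol_reg ha hτ hα ht p')]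
  congr 1; funext z; simp [pkPol]

theorem pk_mv_smul (c : ℝ) (p : MvPolynomial ℕ ℝ) : pkMv (scLC a) α τ (C c * p) t = c * pkMv (scLC a) α τ p t := by
  unfold pkMv
  rw [← pk_ex_smul ha hτ hα ht c (pk_pol_reg ha hτ hα ht p)]
  congr 1; funext z; simp [pkPol]

theorem pk_mv_C (c : ℝ) : pkMv (scLC a) α τ (C c) t = c := by
  unfold pkMv
  have : pkPol (scLC a) α τ t (C c) = fun _ => c := by funext z; simp [pkPol]
  rw [this, pk_ex_const ha hτ hα ht c]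

theorem pk_mv_nonneg {p : MvPolynomial ℕ ℝ} (h : ∀ z, 0 ≤ pkPol (scLC a) α τ t p z) : 0 ≤ pkMv (scLC a) α τ p t :=
  pk_ex_nonneg ha hτ hα ht (pk_pol_reg ha hτ hα ht p) h

theorem pk_mv_sq_nonneg (p : MvPolynomial ℕ ℝ) : 0 ≤ pkMv (scLC a) α τ (p ^ 2) t :=
  pk_mv_nonneg ha hτ hα ht fun z => by simp only [pkPol, map_pow]; positivity

/-- Jensen: `(E w)² ≤ E w²` -/
theorem pk_mv_jensen2 : pkMv (scLC a) α τ (X 1) t ^ 2 ≤ pkMv (scLC a) α τ (X 1 ^ 2) t := by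
  set m := pkMv (scLC a) α τ (X 1) t with hm
  have h : 0 ≤ pkMv (scLC a) α τ (X 1 ^ 2 + (C (-2 * m) * X 1 + C (m ^ 2))) t :=
    pk_mv_nonneg ha hτ hα ht fun z => by
      simp only [pkPol, map_add, map_mul, map_pow, eval_X, eval_C]
      nlinarith [sq_nonneg (scaD (1 + 1) (scLC a) α τ t z - m)]
  rw [pk_mv_add ha hτ hα ht, pk_mv_add ha hτ hα ht, pk_mv_smul ha hτ hα ht, pk_mv_C ha hτ hα ht, ← hm] at h
  nlinarith

/-- Jensen for the cube (`w ≥ 0`): `(E w)³ ≤ E w³` -/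
theorem pk_mv_jensen3 (hm0 : 0 ≤ pkMv (scLC a) α τ (X 1) t) :
    pkMv (scLC a) α τ (X 1) t ^ 3 ≤ pkMv (scLC a) α τ (X 1 ^ 3) t := by
  set m := pkMv (scLC a) α τ (X 1) t with hm
  have h : 0 ≤ pkMv (scLC a) α τ (X 1 ^ 3 + (C (-3 * m ^ 2) * X 1 + C (2 * m ^ 3))) t :=
    pk_mv_nonneg ha hτ hα ht fun z => by
      simp only [pkPol, map_add, map_mul, map_pow, eval_X, eval_C]
      have hw := pk_t_w_nonneg ha hτ hα ht z
      set w := scaD (1 + 1) (scLC a) α τ t z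
      have : w ^ 3 + (-3 * m ^ 2 * w + 2 * m ^ 3) = (w - m) ^ 2 * (w + 2 * m) := by ring
      rw [this]
      exact mul_nonneg (sq_nonneg _) (by linarith)
  rw [pk_mv_add ha hτ hα ht, pk_mv_add ha hτ hα ht, pk_mv_smul ha hτ hα ht, pk_mv_C ha hτ hα ht, ← hm] at h
  nlinarith

end mv

/-! ## 2d. this unit: the time `0`, parity, the replica symmetric value -/

theorem pk_ex_zero (F α : ℝ → ℝ) (τ : ℝ) (φ : ℝ → ℝ) : scaEx F α τ 0 φ = φ 0 := by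
  unfold scaEx scPa
  simp only [sc_Pt_self]
  exact tendsto_const_nhds.limUnder_eq

theorem pk_Va_even {F : ℝ → ℝ} (h : ∀ z, F (-z) = F z) (α : ℝ → ℝ) (τ t z : ℝ) : scVa F α τ t (-z) = scVa F α τ t z := by
  unfold scVa
  congr 1; funext n
  exact sc_Vt_even h _ _ _

theorem pk_LC_even (a z : ℝ) : scLC a (-z) = scLC a z := by simp [scLC]

/-- odd derivatives of an even function vanish at `0` -/
theorem pk_odd_deriv_zero {f : ℝ → ℝ} (h : ∀ z, f (-z) = f z) (k : ℕ) : deriv^[2 * k + 1] f 0 = 0 := by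
  have h1 := iteratedDeriv_comp_neg (2 * k + 1) f 0
  have h2 : (fun x => f (-x)) = f := funext h
  rw [h2, neg_zero, iteratedDeriv_eq_iterate] at h1
  have h3 : ((-1 : ℝ)) ^ (2 * k + 1) = -1 := by rw [pow_succ, pow_mul]; norm_num
  rw [h3] at h1
  simp only [smul_eq_mul] at h1
  linarith

theorem pk_mv_Gam_zero (a : ℝ) (α : ℝ → ℝ) (τ : ℝ) : pkMv (scLC a) α τ (X 0 ^ 2) 0 = 0 := by
  unfold pkMv
  rw [pk_ex_zero]
  simp only [pkPol, map_pow, eval_X]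
  have := pk_odd_deriv_zero (pk_Va_even (pk_LC_even a) α τ 0) 0
  unfold scaD
  rw [show 0 + 1 = 2 * 0 + 1 from rfl, this]; norm_num

theorem pk_mv_N3_zero (a : ℝ) (α : ℝ → ℝ) (τ : ℝ) : pkMv (scLC a) α τ (X 2 ^ 2) 0 = 0 := by
  unfold pkMv
  rw [pk_ex_zero]
  simp only [pkPol, map_pow, eval_X]
  have := pk_odd_deriv_zero (pk_Va_even (pk_LC_even a) α τ 0) 1
  unfold scaD
  rw [show 2 + 1 = 2 * 1 + 1 from rfl, this]; norm_num

/-- annealed profile: `V = scLC a + a τ / 2` at the time `0` -/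
theorem pk_Va_rs {a τ : ℝ} (ha : 0 < a) (hτ : 0 < τ) {α : ℝ → ℝ} (h1 : ∀ t ∈ Icc 0 τ, α t = a) :
    scVa (scLC a) α τ 0 = fun z => scLC a z + a * τ / 2 := by
  funext z
  unfold scVa
  have key : ∀ n : ℕ, scVt (scLC a) (scDy α τ n) 0 z = scLC a z + a * τ / 2 := by
    intro n
    have hpos : ScPos (scDy α τ n) := by
      intro p hp
      rw [sc_dy_eq_uni] at hp
      obtain ⟨k, _, rfl⟩ := sc_uni_mem hp
      exact div_nonneg hτ.le (by positivity)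
    have hm : ∀ p ∈ scDy α τ n, p.1 = a := by
      intro p hp
      rw [sc_dy_eq_uni] at hp
      obtain ⟨k, hk, rfl⟩ := sc_uni_mem hp
      apply h1
      have := sc_dy_cell_mem hτ.le hk.le
      rwa [← mul_div_assoc] at this
    rw [sc_Vt_zero _ hpos]
    have := sc_V_logcosh ha.ne' hpos hm
    rw [sc_dy_len] at this
    exact congrFun this z
  simp only [key]
  exact tendsto_const_nhds.limUnder_eq

theorem pk_mv_rs {a τ : ℝ} (ha : 0 < a) (hτ : 0 < τ) {α : ℝ → ℝ} (h1 : ∀ t ∈ Icc 0 τ, α t = a) :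
    pkMv (scLC a) α τ (X 1 ^ 2) 0 = a ^ 2 := by
  unfold pkMv
  rw [pk_ex_zero]
  simp only [pkPol, map_pow, eval_X]
  unfold scaD
  rw [pk_Va_rs ha hτ h1]
  have e : deriv (fun z => scLC a z + a * τ / 2) = deriv (scLC a) := by
    funext z; rw [deriv_add_const]
  simp only [Function.iterate_succ, Function.iterate_zero, Function.comp, id]
  rw [e]
  have := congrFun (scb_LC_deriv2 ha.ne') 0
  simp only [mul_zero, Real.tanh_zero] at this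
  rw [show deriv (deriv (scLC a)) 0 = a * (1 - 0 ^ 2) from this]
  ring

/-! ## 2d'. lower bounds -/

/-- `E V_zz(t, Z_t) ≥ c(a,τ) > 0`, and `1 - Γ(τ) = E sech²(a Z_τ) ≥ c` (S6.1). -/
theorem pk_t_sech {a τ : ℝ} (ha : 0 < a) (hτ : 0 < τ) : ∃ c > 0, ∀ α, ScCoef a τ α →
    (∀ t ∈ Icc 0 τ, c ≤ pkMv (scLC a) α τ (X 1) t) ∧ pkMv (scLC a) α τ (X 0 ^ 2) τ ≤ 1 - c := by
  have he : 0 < Real.exp (-3 * a ^ 2 * τ) := Real.exp_pos _
  refine ⟨min (a * Real.exp (-3 * a ^ 2 * τ)) (Real.exp (-3 * a ^ 2 * τ)), lt_min (mul_pos ha he) he, fun α hα => ⟨fun t ht => ?_, ?_⟩⟩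
  · refine le_trans (min_le_left _ _) (ge_of_tendsto' (pk_t_mlim ha hτ hα (X 1) ht) fun n => ?_)
    have h := scb_Ew_lower (scb_LC_cont ha) ha.le (fun z => by rw [scb_LC_deriv2 ha.ne']; exact le_rfl)
      (sc_dy_adm hτ.le hα n) ht.1 (by rw [sc_dy_len]; exact ht.2) 1
    rw [sc_dy_len, pow_one] at h
    refine h.trans (le_of_eq ?_)
    unfold scmM
    congr 1; funext z; simp [scmObs]
  · have h1 : pkMv (scLC a) α τ (X 0 ^ 2) τ ≤ 1 - Real.exp (-3 * a ^ 2 * τ) := by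
      refine le_of_tendsto' (pk_t_mlim ha hτ hα (X 0 ^ 2) ⟨hτ.le, le_rfl⟩) fun n => ?_
      have h := scb_Gam_end ha (sc_dy_adm hτ.le hα n)
      rw [sc_dy_len] at h
      refine le_trans (le_of_eq ?_) h
      unfold scmM scGam
      congr 1; funext z; simp [scmObs]
    linarith [min_le_right (a * Real.exp (-3 * a ^ 2 * τ)) (Real.exp (-3 * a ^ 2 * τ))]

/-- `V_zzzz(0,0)² > 0` (Hopf bound, helper141).   TEX[PE:prof:scalar-derivatives] (strict curvature) -/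
theorem pk_t_N4 {a τ : ℝ} (ha : 0 < a) (hτ : 0 < τ) {α : ℝ → ℝ} (hα : ScCoef a τ α) :
    0 < pkMv (scLC a) α τ (X 3 ^ 2) 0 := by
  unfold pkMv
  rw [pk_ex_zero]
  simp only [pkPol, map_pow, eval_X]
  have h := sch_aD4 ha hτ.le hα
  have h2 : 0 < 2 * a ^ 3 * Real.exp (-(7 * a ^ 2 * τ)) := by positivity
  have h3 : scaD (3 + 1) (scLC a) α τ 0 0 < 0 := by
    have : scaD (3 + 1) (scLC a) α τ 0 0 = scaD 4 (scLC a) α τ 0 0 := rfl
    rw [this]; linarith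
  exact sq_pos_of_neg h3

/-! ## 2e. this unit: PE wrappers -/

theorem pk_coef {T : ℝ} (hT : 0 < T) {α : ℝ → ℝ} (hα : SvCoef α) : ScCoef 1 T (pkA T α) := by
  have hmem : ∀ t ∈ Icc 0 T, t / T ∈ Icc (0:ℝ) 1 := fun t ht => ⟨div_nonneg ht.1 hT.le, (div_le_one hT).2 ht.2⟩
  exact ⟨fun s hs t ht hst => hα.1 (hmem s hs) (hmem t ht) (div_le_div_of_nonneg_right hst hT.le),
    fun t ht => hα.2 _ (hmem t ht)⟩

theorem pk_time {T : ℝ} (hT : 0 < T) {q : ℝ} (hq : q ∈ Icc (0:ℝ) 1) : T * q ∈ Icc 0 T :=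
  ⟨mul_nonneg hT.le hq.1, by nlinarith [hq.2]⟩

theorem pk_A_mul {T : ℝ} (hT : 0 < T) (α : ℝ → ℝ) (r : ℝ) : pkA T α (T * r) = α r := by
  unfold pkA; rw [mul_div_cancel_left₀ _ hT.ne']

theorem pk_mom_cont {T : ℝ} (hT : 0 < T) {α : ℝ → ℝ} (hα : SvCoef α) (p : MvPolynomial ℕ ℝ) :
    ContinuousOn (pkMom T α p) (Icc 0 1) :=
  (pk_t_cont one_pos hT (pk_coef hT hα) p).comp (continuous_const.mul continuous_id).continuousOn
    (fun _ hq => pk_time hT hq)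

/-- **DYNKIN**, PE time.   TEX[PE:prof:scalar-derivatives] -/
theorem pk_dyn {T : ℝ} (hT : 0 < T) {α : ℝ → ℝ} (hα : SvCoef α) (p : MvPolynomial ℕ ℝ) :
    ∀ s ∈ Icc (0:ℝ) 1, ∀ t ∈ Icc (0:ℝ) 1,
      pkMom T α p t - pkMom T α p s = T * ∫ r in s..t, (pkMom T α (scmQ p) r + α r * pkMom T α (scmR p) r) := by
  intro s hs t ht
  unfold pkMom
  rw [pk_t_dyn one_pos hT (pk_coef hT hα) p _ (pk_time hT hs) _ (pk_time hT ht),
    ← intervalIntegral.mul_integral_comp_mul_left]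
  simp only [pk_A_mul hT]

theorem pk_fv2 {T : ℝ} (hT : 0 < T) : ∀ α α', SvCoef α → SvCoef α' → ∀ e > 0, ∃ ε₀ > 0, ∀ ε, 0 < ε → ε ≤ ε₀ → ε ≤ 1 →
    |pkV0 T (fun s => α s + ε * (α' s - α s)) - pkV0 T α
      - ε * (T / 2 * ∫ t in (0:ℝ)..1, (α' t - α t) * pkMom T α (X 0 ^ 2) t)| ≤ ε * e := by
  intro α α' hα hα' e he
  obtain ⟨ε₀, h0, h⟩ := pk_t_fv2 one_pos hT (pkA T α) (pkA T α') (pk_coef hT hα) (pk_coef hT hα') e he
  refine ⟨ε₀, h0, fun ε h1 h2 h3 => ?_⟩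
  have h4 := h ε h1 h2 h3
  have e1 := intervalIntegral.mul_integral_comp_mul_left (a := 0) (b := 1)
    (f := fun t => (pkA T α' t - pkA T α t) * pkMv (scLC 1) (pkA T α) T (X 0 ^ 2) t) T
  simp only [pk_A_mul hT, mul_zero, mul_one] at e1
  rw [← e1] at h4
  have e2 : T / 2 * (∫ t in (0:ℝ)..1, (α' t - α t) * pkMom T α (X 0 ^ 2) t)
      = 1 / 2 * (T * ∫ t in (0:ℝ)..1, (α' t - α t) * pkMv (scLC 1) (pkA T α) T (X 0 ^ 2) (T * t)) := by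
    unfold pkMom; ring
  rw [e2]
  exact h4

/-- I3 -/
theorem pk_cont {T : ℝ} (hT : 0 < T) (p : MvPolynomial ℕ ℝ) : ∀ α, SvCoef α → ∀ ε > 0, ∃ δ > 0, ∀ α', SvCoef α' →
    (∫ t in (0:ℝ)..1, |α' t - α t|) < δ → ∀ t ∈ Icc (0:ℝ) 1, |pkMom T α' p t - pkMom T α p t| < ε := by
  intro α hα ε hε
  obtain ⟨δ, hδ, h⟩ := pk_t_stab one_pos hT p (ε / 2) (half_pos hε)
  refine ⟨δ / T, div_pos hδ hT, fun α' hα' hd t ht => ?_⟩
  have e1 := intervalIntegral.mul_integral_comp_mul_left (a := 0) (b := 1)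
    (f := fun t => |pkA T α' t - pkA T α t|) T
  simp only [pk_A_mul hT, mul_zero, mul_one] at e1
  have h1 := h (pkA T α') (pkA T α) (pk_coef hT hα') (pk_coef hT hα)
    (by rw [← e1]; rwa [lt_div_iff₀ hT, mul_comm] at hd) (T * t) (pk_time hT ht)
  unfold pkMom
  linarith

theorem pk_mom_smul {T : ℝ} (hT : 0 < T) {α : ℝ → ℝ} (hα : SvCoef α) (c : ℝ) (p : MvPolynomial ℕ ℝ) {q : ℝ}
    (hq : q ∈ Icc (0:ℝ) 1) : pkMom T α (C c * p) q = c * pkMom T α p q :=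
  pk_mv_smul one_pos hT (pk_coef hT hα) (pk_time hT hq) c p

theorem pk_mom_zero {T : ℝ} (hT : 0 < T) {α : ℝ → ℝ} (hα : SvCoef α) {q : ℝ} (hq : q ∈ Icc (0:ℝ) 1) :
    pkMom T α 0 q = 0 := by
  have := pk_mv_C one_pos hT (pk_coef hT hα) (pk_time hT hq) 0
  rwa [map_zero] at this

theorem pk_mom_sq_nonneg {T : ℝ} (hT : 0 < T) {α : ℝ → ℝ} (hα : SvCoef α) (p : MvPolynomial ℕ ℝ) {q : ℝ}
    (hq : q ∈ Icc (0:ℝ) 1) : 0 ≤ pkMom T α (p ^ 2) q :=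
  pk_mv_sq_nonneg one_pos hT (pk_coef hT hα) (pk_time hT hq) p

/-- I4.   TEX[PE:prof:scalar-derivatives] -/
theorem pk_Gam_eq {T : ℝ} (hT : 0 < T) {α : ℝ → ℝ} (hα : SvCoef α) : ∀ t ∈ Icc (0:ℝ) 1,
    pkMom T α (X 0 ^ 2) t = T * ∫ s in (0:ℝ)..t, pkMom T α (X 1 ^ 2) s := by
  intro t ht
  have h := pk_dyn hT hα (X 0 ^ 2) 0 ⟨le_rfl, zero_le_one⟩ t ht
  have h0 : pkMom T α (X 0 ^ 2) 0 = 0 := by unfold pkMom; rw [mul_zero]; exact pk_mv_Gam_zero _ _ _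
  rw [h0, sub_zero, scm_alg_u2.1, scm_alg_u2.2] at h
  rw [h]
  congr 1
  apply intervalIntegral.integral_congr
  intro r hr
  rw [uIcc_of_le ht.1] at hr
  simp only
  rw [pk_mom_zero hT hα ⟨hr.1, hr.2.trans ht.2⟩]; ring

/-- I5.   TEX[PE:prof:scalar-derivatives] -/
theorem pk_M2_eq {T : ℝ} (hT : 0 < T) {α : ℝ → ℝ} (hα : SvCoef α) : ∀ s ∈ Icc (0:ℝ) 1, ∀ t ∈ Icc (0:ℝ) 1,
    pkMom T α (X 1 ^ 2) t - pkMom T α (X 1 ^ 2) s
      = T * ∫ r in s..t, (pkMom T α (X 2 ^ 2) r - 2 * α r * pkMom T α (X 1 ^ 3) r) := by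
  intro s hs t ht
  rw [pk_dyn hT hα (X 1 ^ 2) s hs t ht, scm_alg_w2.1, scm_alg_w2.2, ← neg_mul, ← C_neg]
  congr 1
  apply intervalIntegral.integral_congr
  intro r hr
  simp only
  rw [pk_mom_smul hT hα _ _ (uIcc_subset_Icc hs ht hr)]; ring

/-- I8.   TEX[PE:prof:scalar-derivatives] -/
theorem pk_N3_eq {T : ℝ} (hT : 0 < T) {α : ℝ → ℝ} (hα : SvCoef α) : ∀ t ∈ Icc (0:ℝ) 1,
    pkMom T α (X 2 ^ 2) t = T * ∫ r in (0:ℝ)..t, (pkMom T α (X 3 ^ 2) r - 6 * α r * pkMom T α (X 1 * X 2 ^ 2) r) := by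
  intro t ht
  have h := pk_dyn hT hα (X 2 ^ 2) 0 ⟨le_rfl, zero_le_one⟩ t ht
  have h0 : pkMom T α (X 2 ^ 2) 0 = 0 := by unfold pkMom; rw [mul_zero]; exact pk_mv_N3_zero _ _ _
  rw [h0, sub_zero, scm_alg_v32.1, scm_alg_v32.2, ← neg_mul, ← C_neg] at h
  rw [h]
  congr 1
  apply intervalIntegral.integral_congr
  intro r hr
  rw [uIcc_of_le ht.1] at hr
  simp only
  rw [pk_mom_smul hT hα _ _ ⟨hr.1, hr.2.trans ht.2⟩]; ring

/-- lower bounds of `E V_zz`, `E V_zz²`, `E V_zz³`, and `Γ̂(1) < 1` -/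
theorem pk_pos {T : ℝ} (hT : 0 < T) : ∃ c > 0, ∀ α, SvCoef α →
    (∀ q ∈ Icc (0:ℝ) 1, c ^ 2 ≤ pkMom T α (X 1 ^ 2) q ∧ c ^ 3 ≤ pkMom T α (X 1 ^ 3) q) ∧
      pkMom T α (X 0 ^ 2) 1 ≤ 1 - c := by
  obtain ⟨c, hc, h⟩ := pk_t_sech one_pos hT
  refine ⟨c, hc, fun α hα => ?_⟩
  obtain ⟨h1, h2⟩ := h _ (pk_coef hT hα)
  refine ⟨fun q hq => ?_, by unfold pkMom; rwa [mul_one]⟩
  have hq' := pk_time hT hq
  have h3 := h1 _ hq'
  have j2 := pk_mv_jensen2 one_pos hT (pk_coef hT hα) hq'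
  have j3 := pk_mv_jensen3 one_pos hT (pk_coef hT hα) hq' (hc.le.trans h3)
  exact ⟨(pow_le_pow_left₀ hc.le h3 2).trans j2, (pow_le_pow_left₀ hc.le h3 3).trans j3⟩

theorem pk_curv {T : ℝ} (hT : 0 < T) {α : ℝ → ℝ} (hα : SvCoef α) (a b c : ℝ) (ha : 0 ≤ a) (hab : a < b) (hb : b ≤ 1)
    (hc : 0 < c) (hpl : ∀ t ∈ Ioo a b, α t = c) (a' b' : ℝ) (h1 : a < a') (h2 : a' < b') (h3 : b' < b) :
    ∃ κ > 0, ConvexOn ℝ (Icc a' b') (fun t => pkMom T α (X 1 ^ 2) t - κ * t ^ 2) := by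
  obtain ⟨κ, hκ, hcv⟩ := pk_t_curv one_pos hT (pk_coef hT hα) (T * a) (T * b) c (mul_nonneg hT.le ha)
    (mul_lt_mul_of_pos_left hab hT) (by nlinarith) hc
    (fun t ht => by
      unfold pkA
      exact hpl _ ⟨(lt_div_iff₀ hT).2 (by linarith [ht.1, mul_comm a T]), (div_lt_iff₀ hT).2 (by linarith [ht.2, mul_comm b T])⟩)
    (T * a') (T * b') (mul_lt_mul_of_pos_left h1 hT) (mul_lt_mul_of_pos_left h2 hT) (mul_lt_mul_of_pos_left h3 hT)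
  refine ⟨κ * T ^ 2, by positivity, ?_⟩
  have h4 := hcv.comp_linearMap (LinearMap.mulLeft ℝ T)
  have hset : (LinearMap.mulLeft ℝ T) ⁻¹' Icc (T * a') (T * b') = Icc a' b' := by
    ext x
    simp only [mem_preimage, LinearMap.mulLeft_apply, mem_Icc]
    rw [mul_le_mul_iff_right₀ hT, mul_le_mul_iff_right₀ hT]
  rw [hset] at h4
  have e : (fun t => pkMom T α (X 1 ^ 2) t - κ * T ^ 2 * t ^ 2)
      = (fun t => pkMv (scLC 1) (pkA T α) T (X 1 ^ 2) t - κ * t ^ 2) ∘ ⇑(LinearMap.mulLeft ℝ T) := by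
    funext q
    simp only [Function.comp, LinearMap.mulLeft_apply, pkMom]
    ring
  rw [e]
  exact h4

/-! ## 3. EXITS -/

/-- **THE INSTANCE** of `SvPkg`, `SvPkgK` for the SK scalar objects. -/
noncomputable def pkPkg (T : ℝ) (hT : 0 < T) : SvPkgK T where
  v0 := pkV0 T
  Gam := fun α => pkMom T α (X 0 ^ 2)
  M2 := fun α => pkMom T α (X 1 ^ 2)
  M3 := fun α => pkMom T α (X 1 ^ 3)
  N3 := fun α => pkMom T α (X 2 ^ 2)
  N4 := fun α => pkMom T α (X 3 ^ 2)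
  M13 := fun α => pkMom T α (X 1 * X 2 ^ 2)
  var := sv_var_of_fv2 (pk_fv2 hT) (pk_cont hT _) (fun _ hα => pk_mom_cont hT hα _)
  cont := pk_cont hT _
  Gam_eq := fun _ hα => pk_Gam_eq hT hα
  M2_cont := fun _ hα => pk_mom_cont hT hα _
  Gam_one := fun α hα => by
    obtain ⟨c, hc, h⟩ := pk_pos hT
    linarith [(h α hα).2]
  M2_eq := fun _ hα => pk_M2_eq hT hα
  N3_cont := fun _ hα => pk_mom_cont hT hα _
  M3_cont := fun _ hα => pk_mom_cont hT hα _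
  N3_zero := fun α _ => by unfold pkMom; rw [mul_zero]; exact pk_mv_N3_zero _ _ _
  M3_pos := fun α hα t ht => by
    obtain ⟨c, hc, h⟩ := pk_pos hT
    exact lt_of_lt_of_le (by positivity) ((h α hα).1 t ht).2
  N3_pos := fun α hα b hb h0 =>
    sv_N3_pos_of hT (pk_N3_eq hT hα) (pk_mom_cont hT hα _) (fun t ht => pk_mom_sq_nonneg hT hα _ ht)
      (by unfold pkMom; rw [mul_zero]; exact pk_t_N4 one_pos hT (pk_coef hT hα)) hb h0
  curv := fun _ hα => pk_curv hT hα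
  rs := fun α _ h1 => by
    unfold pkMom
    rw [mul_zero, pk_mv_rs one_pos hT (fun t ht => by
      unfold pkA; exact h1 _ ⟨div_nonneg ht.1 hT.le, (div_le_one hT).2 ht.2⟩)]
    norm_num
  N3_eq := fun _ hα => pk_N3_eq hT hα
  N4_cont := fun _ hα => pk_mom_cont hT hα _
  M13_cont := fun _ hα => pk_mom_cont hT hα _
  N4_pos := fun α hα => by unfold pkMom; rw [mul_zero]; exact pk_t_N4 one_pos hT (pk_coef hT hα)

theorem pk_P_eq (T : ℝ) (hT : 0 < T) (α : ℝ → ℝ) : (pkPkg T hT).P α = pkP T α := rfl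

/-- Existence of a minimiser (helper141: Helly + `L¹`-continuity). -/
theorem pk_exists_min {T : ℝ} (hT : 0 < T) : ∃ α, SvDist α ∧ ∀ α', SvDist α' → pkP T α ≤ pkP T α' :=
  sku_pkg_exists (pkPkg T hT).toSvPkg hT

/-- Uniqueness of the minimiser (helper159: (U+)).   TEX[PE:prof:scalar-minimizer] (the part "uniqueness") -/
theorem pk_unique_min {T : ℝ} (hT : 0 < T) {α β : ℝ → ℝ} (hα : SvDist α) (hβ : SvDist β)
    (hmα : ∀ α', SvDist α' → pkP T α ≤ pkP T α') (hmβ : ∀ α', SvDist α' → pkP T β ≤ pkP T α') : α = β :=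
  sk_up_unique hT hα hβ hmα hmβ

/-- **the minimising distribution `α_T`** of the scalar problem (PE units) -/
noncomputable def pkAlT (T : ℝ) : ℝ → ℝ := if h : 0 < T then Classical.choose (pk_exists_min h) else fun _ => 0

theorem pk_alT_dist {T : ℝ} (hT : 0 < T) : SvDist (pkAlT T) := by
  unfold pkAlT; rw [dif_pos hT]; exact (Classical.choose_spec (pk_exists_min hT)).1

theorem pk_alT_min {T : ℝ} (hT : 0 < T) : ∀ α', SvDist α' → pkP T (pkAlT T) ≤ pkP T α' := by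
  unfold pkAlT; rw [dif_pos hT]; exact (Classical.choose_spec (pk_exists_min hT)).2

/-- TEX[PE:prof:scalar-minimizer] (uniqueness) -/
theorem pk_alT_unique {T : ℝ} (hT : 0 < T) {β : ℝ → ℝ} (hβ : SvDist β) (hm : ∀ α', SvDist α' → pkP T β ≤ pkP T α') :
    β = pkAlT T := pk_unique_min hT hβ (pk_alT_dist hT) hm (pk_alT_min hT)

/-- the initial density `κ_T` -/
noncomputable def pkKap (T : ℝ) : ℝ := T * pkMom T (pkAlT T) (X 3 ^ 2) 0 / (2 * pkMom T (pkAlT T) (X 1 ^ 3) 0)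

/-- **PE Lemma 5.8** (uniqueness: `pk_alT_unique`): initial density, continuity and two-sided linear bounds of the quantile.   TEX[PE:prof:scalar-minimizer] -/
theorem pk_58 {T : ℝ} (hT : 1 < T) :
    0 < pkKap T ∧ Tendsto (fun s => pkAlT T s / s) (𝓝[>] 0) (𝓝 (pkKap T)) ∧
      ContinuousOn (svQ (pkAlT T)) (Ioo 0 1) ∧ MonotoneOn (svQ (pkAlT T)) (Ioc 0 1) ∧
      (∀ u ∈ Ioc (0:ℝ) 1, svQ (pkAlT T) u ∈ Ioo (0:ℝ) 1) ∧
      (∃ c C : ℝ, 0 < c ∧ 0 < C ∧ ∀ u ∈ Ioc (0:ℝ) 1, c * u ≤ svQ (pkAlT T) u ∧ svQ (pkAlT T) u ≤ C * u) ∧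
      Tendsto (fun u => svQ (pkAlT T) u / u) (𝓝[>] 0) (𝓝 (pkKap T)⁻¹) := by
  have hT0 : 0 < T := by linarith
  obtain ⟨h1, h2⟩ := sv_kappa (pkPkg T hT0) hT (pk_alT_dist hT0) (pk_alT_min hT0)
  obtain ⟨h3, h4, h5, h6, h7⟩ := sv_quantile (pkPkg T hT0) hT (pk_alT_dist hT0) (pk_alT_min hT0)
  exact ⟨h1, h2, h3, h4, h5, h6, h7⟩

/-- **Statement (L) + LL Lemma paths:base-profile** (PE time `q = ξ / T`): support `[0, q_*]`, self-consistency, `T E V_zz² = 1`, the ratio formula, no atom at `0`, strict monotonicity,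
smoothness of every moment curve and of the active-side distribution function up to both end points, strict top plateau `p_top ∈ (0,1)`.
TEX[LL:paths:base-profile]   TEX[FS:thm:main] -/
theorem pk_base {T : ℝ} (hT : 1 < T) : ∃ q ∈ Ioo (0:ℝ) 1,
    (∀ s ∈ Icc 0 q, pkMom T (pkAlT T) (X 0 ^ 2) s = s) ∧ (∀ s ∈ Icc 0 q, T * pkMom T (pkAlT T) (X 1 ^ 2) s = 1) ∧
    (∀ s ∈ Ico 0 q, pkAlT T s = pkMom T (pkAlT T) (X 2 ^ 2) s / (2 * pkMom T (pkAlT T) (X 1 ^ 3) s)) ∧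
    pkAlT T 0 = 0 ∧ StrictMonoOn (pkAlT T) (Icc 0 q) ∧ ContinuousOn (pkAlT T) (Ico 0 q) ∧ (∀ t, q ≤ t → pkAlT T t = 1) ∧
    (∀ (r : ℕ) (p : MvPolynomial ℕ ℝ), ContDiffOn ℝ r (pkMom T (pkAlT T) p) (Icc 0 q)) ∧
    (∀ r : ℕ, ContDiffOn ℝ r (fun s => pkMom T (pkAlT T) (X 2 ^ 2) s / (2 * pkMom T (pkAlT T) (X 1 ^ 3) s)) (Icc 0 q)) ∧
    pkMom T (pkAlT T) (X 2 ^ 2) q / (2 * pkMom T (pkAlT T) (X 1 ^ 3) q) ∈ Ioo (0:ℝ) 1 ∧
    Tendsto (pkAlT T) (𝓝[<] q) (𝓝 (pkMom T (pkAlT T) (X 2 ^ 2) q / (2 * pkMom T (pkAlT T) (X 1 ^ 3) q))) := by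
  have hT0 : 0 < T := by linarith
  have hd := pk_alT_dist hT0
  have hc := sv_dist_coef hd
  obtain ⟨q, hq, h1, h2, h3, h4, h5, h6, h7⟩ := sv_thmA (pkPkg T hT0).toSvPkg hT hd (pk_alT_min hT0)
  have hsub : Icc 0 q ⊆ Icc (0:ℝ) 1 := Icc_subset_Icc le_rfl hq.2.le
  have hb := fun r : ℕ => sv_boot scmQ (fun p => scmR p) (pkMom T (pkAlT T)) (pkAlT T) T hq.1 (X 2 ^ 2) (X 1 ^ 3)
    (fun p => (pk_mom_cont hT0 hc p).mono hsub)
    (fun p s hs t ht => pk_dyn hT0 hc p s (hsub hs) t (hsub ht))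
    (fun t ht => (pkPkg T hT0).M3_pos _ hc t (hsub ht)) h3 r
  have hqq : q ∈ Icc 0 q := ⟨hq.1.le, le_rfl⟩
  obtain ⟨h8, h9⟩ := svt_ptop (pkPkg T hT0).toSvPkg hT0 hd hq (h1 q hqq) (h2 q hqq) h3 h4 h5 h7
  exact ⟨q, hq, h1, h2, h3, h4, h5, h6, h7, fun r p => (hb r).1 p, fun r => (hb r).2, h8, h9⟩

end Claimed.Agent.R286
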