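import Claimed.Agent.R286.Sc.Top
import Claimed.Agent.R286.Sc.VarQ
import Claimed.Agent.R286.Lib.SmoothExt
import Claimed.Agent.R286.LL.PathsDefs

/-!
# Row 286 (S0533), BOX-C exit (E3): LL LEMMA `paths:base-profile`      (OWNER helper68; prefix `svt_`)

* `svt_smooth`  : a ratio which is `C^r` on `[0,q]` for every `r` and coincides with the monotone `α` on `[0,q)` has a GLOBAL `C^∞` extension `At`
                  (`Lib/SmoothExt.lean`: Borel + flat gluing), `α = At` on `[0,q)`, `At' ≥ 0` on `[0,q]`.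
* `svt_dens`    : `α(s)/s → κ > 0` gives `At'(0) = κ` and `At' ≥ κ/2` on some `[0,δ]`      ("`A_0' ≥ c > 0` near zero").
* **`svt_base_profile`** : the structure `LlBaseProfile 𝔹 T` of `LL/PathsDefs.lean` (helper272), ALL fields, from FIVE closed hypotheses on the concrete `𝔹`:
    `hobj`  the LL objective is the Parisi functional of 229's package: `𝔹.scObj T z = S.P (svA z) + c0` for every quantile `z`      (link S8 + layer cake `svq_layer`);
    `hex`   a minimising distribution function exists      (unit C8, `pk_exists_min`);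
    `hG`, `hG1`    `𝔹.scG (α(·/T)) 1 ξ = S.Gam α (ξ/T)`, `𝔹.scG1 (α(·/T)) 1 ξ = S.M2 α (ξ/T)`      (change of time `ξ = T s`);
    `hboot` the bootstrap      (`scm_exit_smooth` of `Sc/Mom.lean` = `sv_boot` of `Sc/VarB.lean`).
TEX[LL:paths:base-profile]
-/

set_option autoImplicit false

namespace Claimed.Agent.R286

open MeasureTheory Set Filter Topology

/-- global smooth representative of the active side -/
theorem svt_smooth {α f : ℝ → ℝ} {q : ℝ} (hq : 0 < q) (hf : ∀ r : ℕ, ContDiffOn ℝ r f (Icc 0 q))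
    (hα : ∀ s ∈ Ico 0 q, α s = f s) (hmono : MonotoneOn α (Ico 0 q)) :
    ∃ At : ℝ → ℝ, ContDiff ℝ (⊤ : ℕ∞) At ∧ (∀ s ∈ Icc 0 q, At s = f s) ∧ (∀ s ∈ Ico 0 q, α s = At s) ∧
      ∀ s ∈ Icc 0 q, 0 ≤ deriv At s := by
  obtain ⟨At, hAt, hEq⟩ := sxt_extend' hq hf
  have hEq' : ∀ s ∈ Ico 0 q, α s = At s := fun s hs => by rw [hα s hs, hEq s ⟨hs.1, hs.2.le⟩]
  refine ⟨At, hAt, hEq, hEq', ?_⟩
  have hin : ∀ s ∈ Ioo 0 q, 0 ≤ deriv At s := by
    intro s hs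
    have hm : MonotoneOn At (Ioo 0 q) := by
      intro x hx y hy hxy
      rw [← hEq' x ⟨hx.1.le, hx.2⟩, ← hEq' y ⟨hy.1.le, hy.2⟩]
      exact hmono ⟨hx.1.le, hx.2⟩ ⟨hy.1.le, hy.2⟩ hxy
    have := hm.derivWithin_nonneg (x := s)
    rwa [derivWithin_of_isOpen isOpen_Ioo hs] at this
  have hdc : Continuous (deriv At) := hAt.continuous_deriv (by simp)
  intro s hs
  have hcl : s ∈ closure (Ioo 0 q) := by rw [closure_Ioo hq.ne]; exact hs
  exact le_on_closure (f := fun _ => (0:ℝ)) (g := deriv At) hin continuousOn_const hdc.continuousOn hcl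

/-- positive density near zero -/
theorem svt_dens {α At : ℝ → ℝ} {q κ : ℝ} (hq : 0 < q) (hAt : ContDiff ℝ (⊤ : ℕ∞) At)
    (hEq : ∀ s ∈ Ico 0 q, α s = At s) (h0 : α 0 = 0) (hκ : 0 < κ)
    (hlim : Tendsto (fun s => α s / s) (𝓝[>] 0) (𝓝 κ)) :
    deriv At 0 = κ ∧ ∃ δ > 0, ∀ s ∈ Icc 0 δ, κ / 2 ≤ deriv At s := by
  have hd : HasDerivAt At (deriv At 0) 0 := (hAt.differentiable (by simp)).differentiableAt.hasDerivAt
  have hA0 : At 0 = 0 := by rw [← hEq 0 ⟨le_rfl, hq⟩, h0]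
  have h1 : Tendsto (slope At 0) (𝓝[>] 0) (𝓝 (deriv At 0)) := by
    have := hd.tendsto_slope
    exact this.mono_left (nhdsWithin_mono _ (fun x hx => (ne_of_gt hx : x ≠ 0)))
  have h2 : Tendsto (slope At 0) (𝓝[>] 0) (𝓝 κ) := by
    apply hlim.congr'
    filter_upwards [Ioo_mem_nhdsGT hq] with s hs
    rw [slope_def_field, hA0, sub_zero, sub_zero, hEq s ⟨hs.1.le, hs.2⟩]
  have h3 : deriv At 0 = κ := tendsto_nhds_unique h1 h2
  refine ⟨h3, ?_⟩
  have hdc : Continuous (deriv At) := hAt.continuous_deriv (by simp)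
  have h4 : ∀ᶠ s in 𝓝 (0:ℝ), κ / 2 < deriv At s := by
    apply hdc.continuousAt.eventually_const_lt
    rw [h3]; linarith
  obtain ⟨ε, hε, hball⟩ := Metric.eventually_nhds_iff.1 h4
  refine ⟨ε / 2, by linarith, fun s hs => (hball ?_).le⟩
  rw [Real.dist_eq, sub_zero, abs_of_nonneg hs.1]
  linarith [hs.2]

/-- `A_0` of LL is the distribution function of the quantile in the time `ξ = T s` -/
theorem svt_A0_eq (𝔹 : LlBase) {T : ℝ} (hT : 0 < T) (ξ : ℝ) : 𝔹.A0 T ξ = svA (𝔹.zMin T) (ξ / T) := by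
  unfold LlBase.A0 svA
  rw [measureReal_def]
  congr 2
  ext w
  simp only [Set.mem_ofPred_eq]
  rw [le_div_iff₀' hT]

/-- the canonical quantile is an admissible quantile of LL (closed interval) -/
theorem svt_quant_Q {α : ℝ → ℝ} (h : SvDist α) : LlBase.IsQuant (svQ α) := by
  have h0 : svQ α 0 = 0 := by
    unfold svQ
    have : {s | (0:ℝ) ≤ α s} = univ := by
      ext s; simp only [Set.mem_ofPred_eq, mem_univ, iff_true]; exact (svq_dist_mem h s).1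
    rw [this, Real.sInf_univ]
  have hmem : ∀ w ∈ Icc (0:ℝ) 1, svQ α w ∈ Icc (0:ℝ) 1 := by
    intro w hw
    rcases hw.1.eq_or_lt with e | e
    · rw [← e, h0]; exact ⟨le_rfl, zero_le_one⟩
    · exact svq_mem h ⟨e, hw.2⟩
  refine ⟨fun x hx y hy hxy => ?_, hmem⟩
  rcases hx.1.eq_or_lt with e | e
  · rw [← e, h0]; exact (hmem y hy).1
  · exact svq_mono h ⟨e, hx.2⟩ ⟨e.trans_le hxy, hy.2⟩ hxy

theorem svt_quant_sv {z : ℝ → ℝ} (hz : LlBase.IsQuant z) : SvQuant z :=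
  ⟨hz.1.mono Ioo_subset_Icc_self, fun w hw => hz.2 w (Ioo_subset_Icc_self hw)⟩

/-- **LL Lemma `paths:base-profile`**, core: from the two minimality statements.   TEX[LL:paths:base-profile] -/
theorem svt_base_profile_core (𝔹 : LlBase) {T : ℝ} (hT : 1 < T) (S : SvPkgK T)
    (hmin : 𝔹.IsMinZ T (𝔹.zMin T))
    (hm0 : ∀ α', SvDist α' → S.P (svA (𝔹.zMin T)) ≤ S.P α')
    (hG : ∀ α, SvDist α → ∀ ξ ∈ Icc 0 T, 𝔹.scG (fun ξ => α (ξ / T)) 1 ξ = S.Gam α (ξ / T))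
    (hG1 : ∀ α, SvDist α → ∀ ξ ∈ Icc 0 T, 𝔹.scG1 (fun ξ => α (ξ / T)) 1 ξ = S.M2 α (ξ / T))
    (hboot : ∀ α, SvDist α → ∀ q ∈ Ioo (0:ℝ) 1, (∀ s ∈ Ico 0 q, α s = S.N3 α s / (2 * S.M3 α s)) →
      ∀ r : ℕ, ContDiffOn ℝ r (fun s => S.N3 α s / (2 * S.M3 α s)) (Icc 0 q)) :
    LlBaseProfile 𝔹 T := by
  have hT0 : 0 < T := by linarith
  obtain ⟨α, hαdef⟩ : ∃ α : ℝ → ℝ, α = svA (𝔹.zMin T) := ⟨_, rfl⟩
  have hd : SvDist (svA (𝔹.zMin T)) := svq_A_dist (svt_quant_sv hmin.1).1 (svt_quant_sv hmin.1).2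
  have hm := hm0
  rw [← hαdef] at hd hm
  have hA0 : 𝔹.A0 T = fun ξ => α (ξ / T) := by
    funext ξ; rw [svt_A0_eq 𝔹 hT0, hαdef]
  obtain ⟨q, hq, h1, h2, h3, h4, h5, h6, h7, h8, h9⟩ := svt_ptop_min S.toSvPkg hT hd hm
  obtain ⟨hκ, hlim⟩ := sv_kappa S hT hd hm
  have hqq : q ∈ Icc 0 q := ⟨hq.1.le, le_rfl⟩
  -- the top of the support
  have hxi : 𝔹.xiS T = T * q := by
    unfold LlBase.xiS
    apply IsLeast.csInf_eq
    constructor
    · refine ⟨(mul_pos hT0 hq.1).le, ?_⟩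
      rw [hA0]; simp only
      rw [mul_div_cancel_left₀ _ hT0.ne']
      exact h7 q le_rfl
    · intro ξ hξ
      obtain ⟨hξ0, hξ1⟩ := hξ
      rw [hA0] at hξ1
      simp only at hξ1
      by_contra hlt
      rw [not_le] at hlt
      have hs : ξ / T < q := by rw [div_lt_iff₀' hT0]; exact hlt
      have := h5 (show ξ / T ∈ Icc 0 q from ⟨div_nonneg hξ0 hT0.le, hs.le⟩) hqq hs
      rw [hξ1, h7 q le_rfl] at this
      exact lt_irrefl _ this
  -- p_top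
  have hpt : 𝔹.pTop T = S.N3 α q / (2 * S.M3 α q) := by
    unfold LlBase.pTop
    rw [hxi, hA0]
    have himg : (fun ξ => α (ξ / T)) '' Iio (T * q) = α '' Iio q := by
      ext y
      constructor
      · rintro ⟨ξ, hξ, rfl⟩
        exact ⟨ξ / T, by rw [mem_Iio, div_lt_iff₀' hT0]; exact hξ, rfl⟩
      · rintro ⟨s, hs, rfl⟩
        exact ⟨T * s, mul_lt_mul_of_pos_left hs hT0, by simp only; rw [mul_div_cancel_left₀ _ hT0.ne']⟩
    rw [himg]
    exact tendsto_nhds_unique (hd.mono.tendsto_nhdsLT q) h9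
  obtain ⟨At, hAt, hAf, hAe, -⟩ := svt_smooth hq.1 (hboot α hd q hq h3) h3
    (fun x _ y _ hxy => hd.mono hxy)
  obtain ⟨hAk, -⟩ := svt_dens hq.1 hAt hAe h4 hκ hlim
  -- the representative in the LL time
  obtain ⟨AL, hAL⟩ : ∃ AL : ℝ → ℝ, AL = fun ξ => At (ξ / T) := ⟨_, rfl⟩
  have hALc : ContDiff ℝ (⊤ : ℕ∞) AL := by rw [hAL]; exact hAt.comp (contDiff_id.div_const T)
  have hALe : ∀ ξ ∈ Ico 0 (T * q), 𝔹.A0 T ξ = AL ξ := by
    intro ξ hξ
    rw [hA0, hAL]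
    exact hAe _ ⟨div_nonneg hξ.1 hT0.le, by rw [div_lt_iff₀' hT0]; exact hξ.2⟩
  have hALd : deriv AL 0 = T * S.N4 α 0 / (2 * S.M3 α 0) / T := by
    have hd1 : HasDerivAt At (deriv At (0 / T)) (0 / T) :=
      (hAt.differentiable (by simp)).differentiableAt.hasDerivAt
    have hd2 : HasDerivAt (fun ξ : ℝ => ξ / T) (1 / T) 0 := (hasDerivAt_id (0:ℝ)).div_const T
    have hd3 := hd1.comp (0:ℝ) hd2
    have e : deriv AL 0 = deriv At (0 / T) * (1 / T) := by rw [hAL]; exact hd3.deriv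
    rw [e, zero_div, hAk]; ring
  have hTq : 0 < T * q := mul_pos hT0 hq.1
  have hkap : 𝔹.kapT T = T * S.N4 α 0 / (2 * S.M3 α 0) := by
    unfold LlBase.kapT
    have hw : HasDerivWithinAt (𝔹.A0 T) (deriv AL 0) (Ici 0) 0 := by
      have h0 : HasDerivAt AL (deriv AL 0) 0 := (hALc.differentiable (by simp)).differentiableAt.hasDerivAt
      apply h0.hasDerivWithinAt.congr_of_eventuallyEq
      · filter_upwards [Ico_mem_nhdsGE hTq] with ξ hξ
        exact hALe ξ hξ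
      · exact hALe 0 ⟨le_rfl, hTq⟩
    rw [hw.derivWithin (uniqueDiffOn_Ici (0:ℝ) 0 self_mem_Ici), hALd]
    field_simp
  have hle : ∀ m < q, α m ≤ S.N3 α q / (2 * S.M3 α q) := by
    intro m hm
    apply ge_of_tendsto h9
    filter_upwards [Ioo_mem_nhdsLT hm] with r hr
    exact hd.mono hr.1.le
  have hsIcc : ∀ ξ ∈ Icc 0 (T * q), ξ / T ∈ Icc 0 q := fun ξ hξ =>
    ⟨div_nonneg hξ.1 hT0.le, by rw [div_le_iff₀' hT0]; exact hξ.2⟩
  have hξT : ∀ ξ ∈ Icc 0 (T * q), ξ ∈ Icc 0 T := fun ξ hξ => ⟨hξ.1, le_trans hξ.2 (by nlinarith [hq.2])⟩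
  refine ⟨hmin, ?_, ?_, ?_, ?_, ?_, ?_, ?_, ?_, ?_, ?_, ?_, ?_⟩
  · rw [hxi]; exact hTq
  · rw [hxi]; nlinarith [hq.2]
  · intro ξ hξ
    rw [hxi] at hξ
    rw [hA0, hG α hd ξ (hξT ξ hξ), h1 _ (hsIcc ξ hξ)]
  · intro ξ hξ
    rw [hxi] at hξ
    rw [hA0, hG1 α hd ξ (hξT ξ hξ), eq_div_iff hT0.ne', mul_comm]
    exact h2 _ (hsIcc ξ hξ)
  · rw [hA0]
    intro x y hxy
    exact hd.mono (div_le_div_of_nonneg_right hxy hT0.le)
  · intro ξ hξ
    rw [hA0]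
    simp only
    rcases hξ.eq_or_lt with h | h
    · rw [h, zero_div, h4]
    · exact hd.neg _ (div_neg_of_neg_of_pos h hT0)
  · intro ξ hξ
    rw [hxi] at hξ
    rw [hA0]
    exact h7 _ (by rw [le_div_iff₀' hT0]; exact hξ)
  · rw [hxi, hA0]
    intro x hx y hy hxy
    exact h5 (hsIcc x hx) (hsIcc y hy) (div_lt_div_of_pos_right hxy hT0)
  · refine ⟨fun k => iteratedDeriv k AL, ?_, ?_, ?_, ?_⟩
    · intro ξ hξ
      rw [hxi] at hξ
      simp only [iteratedDeriv_zero]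
      exact hALe ξ hξ
    · simp only [iteratedDeriv_zero]
      rw [hxi, hpt, hAL]
      simp only
      rw [mul_div_cancel_left₀ _ hT0.ne']
      exact hAf q hqq
    · simp only [iteratedDeriv_one]
      rw [hkap, hALd]
    · intro k ξ _
      simp only
      have hdiff : Differentiable ℝ (iteratedDeriv k AL) :=
        hALc.differentiable_iteratedDeriv k (by exact_mod_cast WithTop.coe_lt_top _)
      have := (hdiff ξ).hasDerivAt
      rw [← iteratedDeriv_succ] at this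
      exact this.hasDerivWithinAt
  · rw [hkap]; exact hκ
  · rw [hpt]; exact h8
  · intro ξ hξ
    rw [hxi] at hξ
    rw [hpt, hA0]
    simp only
    have hs : ξ / T < q := by rw [div_lt_iff₀' hT0]; exact hξ
    set s0 := max (ξ / T) 0 with hs0
    have hs0q : s0 < q := max_lt hs hq.1
    have hmid : s0 < (s0 + q) / 2 ∧ (s0 + q) / 2 < q := ⟨by linarith, by linarith⟩
    have e1 : α (ξ / T) ≤ α s0 := hd.mono (le_max_left _ _)
    have e2 : α s0 < α ((s0 + q) / 2) :=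
      h5 ⟨le_max_right _ _, hs0q.le⟩ ⟨le_trans (le_max_right _ _) hmid.1.le, hmid.2.le⟩ hmid.1
    have e3 := hle _ hmid.2
    linarith

/-- **LL Lemma `paths:base-profile`** from FIVE closed hypotheses on the concrete `𝔹`.   TEX[LL:paths:base-profile] -/
theorem svt_base_profile (𝔹 : LlBase) {T : ℝ} (hT : 1 < T) (S : SvPkgK T) {c0 : ℝ}
    (hobj : ∀ z, LlBase.IsQuant z → 𝔹.scObj T z = S.P (svA z) + c0)
    (hex : ∃ α, SvDist α ∧ ∀ α', SvDist α' → S.P α ≤ S.P α')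
    (hG : ∀ α, SvDist α → ∀ ξ ∈ Icc 0 T, 𝔹.scG (fun ξ => α (ξ / T)) 1 ξ = S.Gam α (ξ / T))
    (hG1 : ∀ α, SvDist α → ∀ ξ ∈ Icc 0 T, 𝔹.scG1 (fun ξ => α (ξ / T)) 1 ξ = S.M2 α (ξ / T))
    (hboot : ∀ α, SvDist α → ∀ q ∈ Ioo (0:ℝ) 1, (∀ s ∈ Ico 0 q, α s = S.N3 α s / (2 * S.M3 α s)) →
      ∀ r : ℕ, ContDiffOn ℝ r (fun s => S.N3 α s / (2 * S.M3 α s)) (Icc 0 q)) :
    LlBaseProfile 𝔹 T := by
  obtain ⟨α, hα, hαm⟩ := hex
  have hex' : ∃ z, 𝔹.IsMinZ T z := by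
    refine ⟨svQ α, svt_quant_Q hα, fun z' hz' => ?_⟩
    rw [hobj _ (svt_quant_Q hα), hobj z' hz', svq_A_Q hα]
    linarith [hαm _ (svq_A_dist (svt_quant_sv hz').1 (svt_quant_sv hz').2)]
  have hmin : 𝔹.IsMinZ T (𝔹.zMin T) := Classical.epsilon_spec hex'
  refine svt_base_profile_core 𝔹 hT S hmin (fun α' hα' => ?_) hG hG1 hboot
  have h1 := hmin.2 _ (svt_quant_Q hα')
  rw [hobj _ hmin.1, hobj _ (svt_quant_Q hα'), svq_A_Q hα'] at h1
  linarith

end Claimed.Agent.R286
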