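import Claimed.Agent.R286.Sc.VarQ
import Claimed.Agent.R286.Lib.Helly
import Claimed.Agent.R286.Sc.UpGen

/-!
# Row 286 (S0533), PE Lemma 5.8 (prof:scalar-minimizer): COERCIVITY => UNIQUENESS, WELL-POSEDNESS IN `L¹`      (OWNER helper149; prefix `svc_`, concrete exits `par_`)

On top of (U+) of helper159 (`sk_up_unit`, `Sc/UpGen.lean`); vocabulary `SvCoef`, `SvDist` of helper229, `svQ`, `svA`, `SvQuant` of helper108.
ABSTRACT INPUT = the BARE midpoint inequality  `SvcU v0 c` :  `c svcQ (α₁ - α₂) ≤ v0 α₁ / 2 + v0 α₂ / 2 - v0 ((α₁+α₂)/2)` for all `SvCoef`,   `svcQ a = ∫₀¹ (∫ₜ¹ a)²`.      INSTANCE: `par_U` (below), `v0 = skUpV T` (`= pkV0 T` by `rfl`).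
* `svc_coer`   : `P(α) - P(α⋆) ≥ 2 c svcQ (α - α⋆)` as soon as `α⋆` beats the midpoint.
* `svc_sup`, `svc_interp`, `svc_wp` : `|∫ₜ¹ a|³ ≤ 3 svcQ a`,  `‖α - α'‖₁ ≤ 3 h + 2 sup|A| / h`,  hence `svcQ` small ⟹ `L¹` small, UNIFORMLY over pairs of coefficients.
* `svc_unique` : the minimiser among `SvDist` is unique.      * `svc_wellposed` : almost minimisers are `L¹`-close to the minimiser.
* `svc_L1_quant` : `∫₀¹ |z - z'| = ∫₀¹ |svA z - svA z'|` for ARBITRARY quantiles (`SvQuant`).      * `svc_exists` : existence (Helly) from an `L¹`-Lipschitz bound of `v0`.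
CONCRETE EXITS (`svcP (skUpV T) T = pkP T` by `rfl`):  `par_U`, `par_unique` (= `pk_unique_min` of `Sc/Pkg.lean`), `par_wp_dist`, `par_wp_quant`.
TEX[PE:prof:scalar-minimizer] (uniqueness; well-posedness = the form used by PE Prop 5.9 without subsequences).
-/

set_option autoImplicit false

namespace Claimed.Agent.R286

open MeasureTheory Set Filter Topology

noncomputable section

/-- the quadratic form of (U+) -/
def svcQ (a : ℝ → ℝ) : ℝ := ∫ t in (0:ℝ)..1, (∫ x in t..1, a x) ^ 2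

/-- monotone extension to the line -/
def svcExt (α : ℝ → ℝ) (t : ℝ) : ℝ := α (max 0 (min t 1))

/-- the abstract input: the bare midpoint inequality (U+) -/
def SvcU (v0 : (ℝ → ℝ) → ℝ) (c : ℝ) : Prop := ∀ α1 α2, SvCoef α1 → SvCoef α2 →
  c * svcQ (fun t => α1 t - α2 t) ≤ 1 / 2 * v0 α1 + 1 / 2 * v0 α2 - v0 (fun t => (α1 t + α2 t) / 2)

/-! ## 0. extension, shift -/

theorem svc_ext_eq (α : ℝ → ℝ) {t : ℝ} (ht : t ∈ Icc (0:ℝ) 1) : svcExt α t = α t := by
  unfold svcExt; rw [min_eq_left ht.2, max_eq_right ht.1]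

theorem svc_ext_arg (t : ℝ) : max 0 (min t 1) ∈ Icc (0:ℝ) 1 :=
  ⟨le_max_left _ _, max_le zero_le_one (min_le_right _ _)⟩

theorem svc_ext_mono {α : ℝ → ℝ} (h : SvCoef α) : Monotone (svcExt α) := fun u v huv =>
  h.1 (svc_ext_arg u) (svc_ext_arg v) (max_le_max le_rfl (min_le_min huv le_rfl))

theorem svc_ext_mem {α : ℝ → ℝ} (h : SvCoef α) (t : ℝ) : svcExt α t ∈ Icc (0:ℝ) 1 := h.2 _ (svc_ext_arg t)

/-- the shift estimate for monotone functions with values in `[0,1]` -/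
theorem svc_shift {f : ℝ → ℝ} (hf : Monotone f) (h01 : ∀ t, f t ∈ Icc (0:ℝ) 1) (a b : ℝ) {h : ℝ} (hh : 0 ≤ h) :
    ∫ t in a..b, (f (t + h) - f t) ≤ h := by
  have hi : ∀ x y : ℝ, IntervalIntegrable f volume x y := fun x y => hf.intervalIntegrable
  have hi' : IntervalIntegrable (fun t => f (t + h)) volume a b :=
    (hf.comp (fun x y hxy => by simpa using hxy : Monotone fun t : ℝ => t + h)).intervalIntegrable
  rw [intervalIntegral.integral_sub hi' (hi a b), intervalIntegral.integral_comp_add_right,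
    intervalIntegral.integral_interval_sub_interval_comm (hi _ _) (hi _ _) (hi _ _)]
  have h1 : ∫ x in (a + h)..a, f x = -∫ x in a..(a + h), f x := intervalIntegral.integral_symm _ _
  have h2 : ∫ x in (b + h)..b, f x = -∫ x in b..(b + h), f x := intervalIntegral.integral_symm _ _
  have h3 : 0 ≤ ∫ x in a..(a + h), f x :=
    intervalIntegral.integral_nonneg (by linarith) (fun x _ => (h01 x).1)
  have h4 : ∫ x in b..(b + h), f x ≤ ∫ _x in b..(b + h), (1:ℝ) :=
    intervalIntegral.integral_mono_on (by linarith) (hi _ _) intervalIntegrable_const (fun x _ => (h01 x).2)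
  simp only [intervalIntegral.integral_const, add_sub_cancel_left, smul_eq_mul, mul_one] at h4
  rw [h1, h2]; linarith

theorem svc_abs_int {α α' : ℝ → ℝ} (h : SvCoef α) (h' : SvCoef α') : IntervalIntegrable (fun t => |α t - α' t|) volume 0 1 :=
  (sv_eta_int h' h).abs

/-! ## 2. the primitive and the quadratic form -/

theorem svc_sub_int {a : ℝ → ℝ} (hi : IntervalIntegrable a volume 0 1) {s t : ℝ} (hs : s ∈ Icc (0:ℝ) 1) (ht : t ∈ Icc (0:ℝ) 1) :
    IntervalIntegrable a volume s t :=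
  hi.mono_set (by rw [uIcc_of_le zero_le_one]; exact uIcc_subset_Icc hs ht)

theorem svc_A_cont {a : ℝ → ℝ} (hi : IntervalIntegrable a volume 0 1) : ContinuousOn (fun t => ∫ x in t..1, a x) (Icc 0 1) := by
  have h1 : ContinuousOn (fun t => ∫ x in (0:ℝ)..t, a x) (Icc 0 1) := by
    have := intervalIntegral.continuousOn_primitive_interval (μ := volume) (f := a) (a := 0) (b := 1)
      (by rw [uIcc_of_le zero_le_one]; exact (intervalIntegrable_iff_integrableOn_Icc_of_le zero_le_one).1 hi)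
    rwa [uIcc_of_le zero_le_one] at this
  have h2 : ContinuousOn (fun t => (∫ x in (0:ℝ)..1, a x) - ∫ x in (0:ℝ)..t, a x) (Icc 0 1) := continuousOn_const.sub h1
  apply h2.congr
  intro t ht
  simp only
  rw [intervalIntegral.integral_interval_sub_left hi (svc_sub_int hi ⟨le_rfl, zero_le_one⟩ ht)]

theorem svc_A_sub {a : ℝ → ℝ} (hi : IntervalIntegrable a volume 0 1) {s t : ℝ} (hs : s ∈ Icc (0:ℝ) 1) (ht : t ∈ Icc (0:ℝ) 1) :
    (∫ x in s..1, a x) - ∫ x in t..1, a x = ∫ x in s..t, a x := by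
  rw [sub_eq_iff_eq_add]
  exact (intervalIntegral.integral_add_adjacent_intervals (svc_sub_int hi hs ht) (svc_sub_int hi ht ⟨zero_le_one, le_rfl⟩)).symm

theorem svc_A_lip {a : ℝ → ℝ} (hb : ∀ t ∈ Icc (0:ℝ) 1, |a t| ≤ 1) {s t : ℝ} (hs : s ∈ Icc (0:ℝ) 1) (ht : t ∈ Icc (0:ℝ) 1) :
    |∫ x in s..t, a x| ≤ |t - s| := by
  have := intervalIntegral.norm_integral_le_of_norm_le_const (a := s) (b := t) (f := a) (C := 1) (by
    intro x hx
    rw [Real.norm_eq_abs]
    exact hb x (uIcc_subset_Icc hs ht (uIoc_subset_uIcc hx)))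
  rwa [Real.norm_eq_abs, one_mul] at this

theorem svc_Asq_int {a : ℝ → ℝ} (hi : IntervalIntegrable a volume 0 1) {s t : ℝ} (hs : s ∈ Icc (0:ℝ) 1) (ht : t ∈ Icc (0:ℝ) 1) :
    IntervalIntegrable (fun t => (∫ x in t..1, a x) ^ 2) volume s t :=
  (((svc_A_cont hi).pow 2).mono (uIcc_subset_Icc hs ht)).intervalIntegrable

theorem svc_Q_nonneg (a : ℝ → ℝ) : 0 ≤ svcQ a :=
  intervalIntegral.integral_nonneg zero_le_one (fun _ _ => sq_nonneg _)

/-! ## 4. coercivity at a minimiser -/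

/-- the Parisi functional (`= SvPkg.P` by `rfl`) -/
def svcP (v0 : (ℝ → ℝ) → ℝ) (T : ℝ) (α : ℝ → ℝ) : ℝ := v0 α - T / 2 * ∫ s in (0:ℝ)..1, s * α s

theorem svc_P_eq {T : ℝ} (S : SvPkg T) (α : ℝ → ℝ) : S.P α = svcP S.v0 T α := rfl

theorem svc_lin_int {α : ℝ → ℝ} (h : SvCoef α) : IntervalIntegrable (fun s => s * α s) volume 0 1 :=
  (sv_coef_int h ⟨le_rfl, zero_le_one⟩ ⟨zero_le_one, le_rfl⟩).continuousOn_mul continuousOn_id

/-- **COERCIVITY**: it is enough that `α⋆` beats the midpoint -/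
theorem svc_coer {v0 : (ℝ → ℝ) → ℝ} {c : ℝ} (H : SvcU v0 c) (T : ℝ) {α αs : ℝ → ℝ} (h : SvCoef α) (hs : SvCoef αs)
    (hmid : svcP v0 T αs ≤ svcP v0 T (fun t => (α t + αs t) / 2)) :
    2 * c * svcQ (fun t => α t - αs t) ≤ svcP v0 T α - svcP v0 T αs := by
  have hu := H α αs h hs
  have e : ∫ s in (0:ℝ)..1, s * ((α s + αs s) / 2) = 1 / 2 * (∫ s in (0:ℝ)..1, s * α s) + 1 / 2 * ∫ s in (0:ℝ)..1, s * αs s := by
    rw [← intervalIntegral.integral_const_mul, ← intervalIntegral.integral_const_mul,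
      ← intervalIntegral.integral_add ((svc_lin_int h).const_mul _) ((svc_lin_int hs).const_mul _)]
    congr 1; funext s; ring
  unfold svcP at hmid ⊢
  rw [e] at hmid
  nlinarith

/-! ## 5. `svcQ` controls the `L¹` distance -/

/-- `|∫ₜ¹ a|³ ≤ 3 ∫₀¹ (∫ₛ¹ a)² ds` for `|a| ≤ 1` -/
theorem svc_sup {a : ℝ → ℝ} (hi : IntervalIntegrable a volume 0 1) (hb : ∀ t ∈ Icc (0:ℝ) 1, |a t| ≤ 1) {t0 : ℝ} (ht0 : t0 ∈ Icc (0:ℝ) 1) :
    |∫ x in t0..1, a x| ^ 3 ≤ 3 * svcQ a := by
  have z0 : (0:ℝ) ∈ Icc (0:ℝ) 1 := ⟨le_rfl, zero_le_one⟩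
  have z1 : (1:ℝ) ∈ Icc (0:ℝ) 1 := ⟨zero_le_one, le_rfl⟩
  set m : ℝ := |∫ x in t0..1, a x| with hm
  have hm0 : 0 ≤ m := abs_nonneg _
  have hm1 : m ≤ 1 - t0 := by
    have := svc_A_lip hb ht0 z1
    rwa [abs_of_nonneg (by linarith [ht0.2] : (0:ℝ) ≤ 1 - t0)] at this
  have hE : t0 + m ∈ Icc (0:ℝ) 1 := ⟨by linarith [ht0.1], by linarith⟩
  have h1 : ∫ t in t0..(t0 + m), (m + t0 - t) ^ 2 = m ^ 3 / 3 := by
    rw [intervalIntegral.integral_comp_sub_left (fun x => x ^ 2) (m + t0), integral_pow]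
    have e1 : m + t0 - (t0 + m) = 0 := by ring
    have e2 : m + t0 - t0 = m := by ring
    rw [e1, e2]; norm_num
  have h2 : ∫ t in t0..(t0 + m), (m + t0 - t) ^ 2 ≤ ∫ t in t0..(t0 + m), (∫ x in t..1, a x) ^ 2 := by
    apply intervalIntegral.integral_mono_on (by linarith) (Continuous.intervalIntegrable (by fun_prop) _ _) (svc_Asq_int hi ht0 hE)
    intro t ht
    have ht' : t ∈ Icc (0:ℝ) 1 := ⟨le_trans ht0.1 ht.1, le_trans ht.2 hE.2⟩
    have h3 := svc_A_lip hb ht0 ht'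
    rw [← svc_A_sub hi ht0 ht', abs_of_nonneg (by linarith [ht.1] : 0 ≤ t - t0)] at h3
    have h4 : m - |∫ x in t..1, a x| ≤ t - t0 := le_trans (le_trans (le_abs_self _) (abs_abs_sub_abs_le _ _)) h3
    have h5 : 0 ≤ m + t0 - t := by linarith [ht.2]
    rw [← sq_abs (∫ x in t..1, a x)]
    exact pow_le_pow_left₀ h5 (by linarith) 2
  have h3 : ∫ t in t0..(t0 + m), (∫ x in t..1, a x) ^ 2 ≤ svcQ a :=
    intervalIntegral.integral_mono_interval ht0.1 (by linarith) hE.2 (Eventually.of_forall fun _ => sq_nonneg _) (svc_Asq_int hi z0 z1)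
  linarith

/-- interpolation: for differences of monotone functions the primitive controls the `L¹` norm -/
theorem svc_interp {α α' : ℝ → ℝ} (h : SvCoef α) (h' : SvCoef α') {M hh : ℝ}
    (hM : ∀ t ∈ Icc (0:ℝ) 1, |∫ x in t..1, (α x - α' x)| ≤ M) (hh0 : 0 < hh) (hh1 : hh ≤ 1) :
    ∫ t in (0:ℝ)..1, |α t - α' t| ≤ 3 * hh + 2 * M / hh := by
  have z0 : (0:ℝ) ∈ Icc (0:ℝ) 1 := ⟨le_rfl, zero_le_one⟩
  have z1 : (1:ℝ) ∈ Icc (0:ℝ) 1 := ⟨zero_le_one, le_rfl⟩
  have zh : 1 - hh ∈ Icc (0:ℝ) 1 := ⟨by linarith, by linarith⟩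
  have hM0 : 0 ≤ M := le_trans (abs_nonneg _) (hM 1 z1)
  have hi := sv_eta_int h' h
  have hia := svc_abs_int h h'
  have hm := svc_ext_mono h
  have hm' := svc_ext_mono h'
  have hsplit := intervalIntegral.integral_add_adjacent_intervals (svc_sub_int hia z0 zh) (svc_sub_int hia zh z1)
  -- the last piece
  have hlast : ∫ t in (1 - hh)..1, |α t - α' t| ≤ hh := by
    have : ∫ t in (1 - hh)..1, |α t - α' t| ≤ ∫ _t in (1 - hh)..1, (1:ℝ) := by
      apply intervalIntegral.integral_mono_on (by linarith) (svc_sub_int hia zh z1) intervalIntegrable_const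
      intro t ht
      exact sv_eta_abs h' h ⟨le_trans zh.1 ht.1, ht.2⟩
    simpa using this
  -- the pointwise bound
  have hpt : ∀ t ∈ Icc (0:ℝ) (1 - hh), |α t - α' t| ≤
      2 * M / hh + ((svcExt α (t + hh) - svcExt α t) + (svcExt α' (t + hh) - svcExt α' t)) := by
    intro t ht
    have ht' : t ∈ Icc (0:ℝ) 1 := ⟨ht.1, by linarith [ht.2]⟩
    have hth : t + hh ∈ Icc (0:ℝ) 1 := ⟨by linarith [ht.1], by linarith [ht.2]⟩
    rw [svc_ext_eq α ht', svc_ext_eq α hth, svc_ext_eq α' ht', svc_ext_eq α' hth]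
    have hA : |∫ x in t..(t + hh), (α x - α' x)| ≤ 2 * M := by
      rw [← svc_A_sub hi ht' hth]
      exact le_trans (abs_sub _ _) (by linarith [hM t ht', hM (t + hh) hth])
    have i1 := sv_coef_int h ht' hth
    have i2 := sv_coef_int h' ht' hth
    rw [intervalIntegral.integral_sub i1 i2] at hA
    have lo : ∀ {β : ℝ → ℝ}, SvCoef β → hh * β t ≤ ∫ x in t..(t + hh), β x := by
      intro β hβ
      have : ∫ _x in t..(t + hh), β t ≤ ∫ x in t..(t + hh), β x := by
        apply intervalIntegral.integral_mono_on (by linarith) intervalIntegrable_const (sv_coef_int hβ ht' hth)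
        intro x hx
        exact hβ.1 ht' ⟨le_trans ht'.1 hx.1, le_trans hx.2 hth.2⟩ hx.1
      simpa using this
    have up : ∀ {β : ℝ → ℝ}, SvCoef β → ∫ x in t..(t + hh), β x ≤ hh * β (t + hh) := by
      intro β hβ
      have : ∫ x in t..(t + hh), β x ≤ ∫ _x in t..(t + hh), β (t + hh) := by
        apply intervalIntegral.integral_mono_on (by linarith) (sv_coef_int hβ ht' hth) intervalIntegrable_const
        intro x hx
        exact hβ.1 ⟨le_trans ht'.1 hx.1, le_trans hx.2 hth.2⟩ hth hx.2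
      simpa using this
    have hA' := abs_le.1 hA
    have m1 := h.1 ht' hth (by linarith)
    have m2 := h'.1 ht' hth (by linarith)
    have k1 : hh * (α t - α' (t + hh)) ≤ 2 * M := by nlinarith [lo h, up h', hA'.2]
    have k2 : hh * (α' t - α (t + hh)) ≤ 2 * M := by nlinarith [lo h', up h, hA'.1]
    have k1' : α t - α' (t + hh) ≤ 2 * M / hh := by rw [le_div_iff₀ hh0]; linarith
    have k2' : α' t - α (t + hh) ≤ 2 * M / hh := by rw [le_div_iff₀ hh0]; linarith
    rw [abs_le]; constructor <;> linarith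
  have hshI : ∀ {β : ℝ → ℝ}, SvCoef β → IntervalIntegrable (fun t => svcExt β (t + hh) - svcExt β t) volume 0 (1 - hh) := by
    intro β hβ
    exact ((svc_ext_mono hβ).comp (fun x y hxy => by simpa using hxy : Monotone fun t : ℝ => t + hh)).intervalIntegrable.sub
      (svc_ext_mono hβ).intervalIntegrable
  have hfirst : ∫ t in (0:ℝ)..(1 - hh), |α t - α' t| ≤ 2 * M / hh + 2 * hh := by
    have h1 : ∫ t in (0:ℝ)..(1 - hh), |α t - α' t| ≤ ∫ t in (0:ℝ)..(1 - hh),
        (2 * M / hh + ((svcExt α (t + hh) - svcExt α t) + (svcExt α' (t + hh) - svcExt α' t))) :=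
      intervalIntegral.integral_mono_on zh.1 (svc_sub_int hia z0 zh) (intervalIntegrable_const.add ((hshI h).add (hshI h'))) hpt
    rw [intervalIntegral.integral_add intervalIntegrable_const ((hshI h).add (hshI h')),
      intervalIntegral.integral_add (hshI h) (hshI h')] at h1
    have s1 := svc_shift hm (svc_ext_mem h) 0 (1 - hh) hh0.le
    have s2 := svc_shift hm' (svc_ext_mem h') 0 (1 - hh) hh0.le
    have c1 : ∫ _t in (0:ℝ)..(1 - hh), 2 * M / hh ≤ 2 * M / hh := by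
      rw [intervalIntegral.integral_const, sub_zero, smul_eq_mul]
      have : 0 ≤ 2 * M / hh := by positivity
      nlinarith
    linarith
  linarith

/-- **`svcQ` small ⟹ `L¹` small**, uniformly over pairs of coefficients -/
theorem svc_wp {δ : ℝ} (hδ : 0 < δ) : ∃ η > 0, ∀ α α', SvCoef α → SvCoef α' → svcQ (fun t => α t - α' t) ≤ η →
    ∫ t in (0:ℝ)..1, |α t - α' t| ≤ δ := by
  set hh : ℝ := min (δ / 6) 1 with hhd
  have hh0 : 0 < hh := lt_min (by linarith) one_pos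
  have hh1 : hh ≤ 1 := min_le_right _ _
  have hh2 : hh ≤ δ / 6 := min_le_left _ _
  set M0 : ℝ := δ * hh / 4 with hM0
  have hM0p : 0 < M0 := by positivity
  refine ⟨M0 ^ 3 / 3, by positivity, ?_⟩
  intro α α' h h' hQ
  have hM : ∀ t ∈ Icc (0:ℝ) 1, |∫ x in t..1, (α x - α' x)| ≤ M0 := by
    intro t ht
    have := svc_sup (sv_eta_int h' h) (fun t ht => sv_eta_abs h' h ht) ht
    have h3 : |∫ x in t..1, (α x - α' x)| ^ 3 ≤ M0 ^ 3 := by linarith
    exact (pow_le_pow_iff_left₀ (abs_nonneg _) hM0p.le (by norm_num)).1 h3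
  have := svc_interp h h' hM hh0 hh1
  have e : 2 * M0 / hh = δ / 2 := by rw [hM0]; field_simp; ring
  rw [e] at this
  linarith

/-! ## 6. uniqueness -/

theorem svc_mid_dist {α1 α2 : ℝ → ℝ} (h1 : SvDist α1) (h2 : SvDist α2) : SvDist (fun t => (α1 t + α2 t) / 2) where
  mono := fun s t hst => by have := h1.mono hst; have := h2.mono hst; simp only; linarith
  rc := fun s => ((h1.rc s).add (h2.rc s)).div_const 2
  neg := fun t ht => by rw [h1.neg t ht, h2.neg t ht]; norm_num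
  top := fun t ht => by rw [h1.top t ht, h2.top t ht]; norm_num

/-- two distribution functions with `svcQ (α - α') = 0` are equal -/
theorem svc_eq_of_Q {α α' : ℝ → ℝ} (h : SvDist α) (h' : SvDist α') (hQ : svcQ (fun t => α t - α' t) ≤ 0) : α = α' := by
  have hc := sv_dist_coef h
  have hc' := sv_dist_coef h'
  have hi := sv_eta_int hc' hc
  have hA : ∀ t ∈ Icc (0:ℝ) 1, ∫ x in t..1, (α x - α' x) = 0 := by
    intro t ht
    have h1 := svc_sup hi (fun t ht => sv_eta_abs hc' hc ht) ht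
    have h2 : |∫ x in t..1, (α x - α' x)| ^ 3 ≤ 0 := by linarith
    have h3 : |∫ x in t..1, (α x - α' x)| ^ 3 = 0 := le_antisymm h2 (by positivity)
    exact abs_eq_zero.1 (pow_eq_zero_iff (by norm_num) |>.1 h3)
  funext s
  rcases lt_or_ge s 0 with hs | hs
  · rw [h.neg s hs, h'.neg s hs]
  rcases lt_or_ge s 1 with hs1 | hs1
  · have hs' : s ∈ Icc (0:ℝ) 1 := ⟨hs, hs1.le⟩
    have := sv_rc_zero (f := fun t => α t - α' t) hs1
      (fun t ht => svc_sub_int hi hs' ⟨le_trans hs ht.1.le, ht.2.le⟩) ((h.rc s).sub (h'.rc s))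
      (fun t ht => by
        have ht' : t ∈ Icc (0:ℝ) 1 := ⟨le_trans hs ht.1.le, ht.2.le⟩
        rw [← svc_A_sub hi hs' ht', hA s hs', hA t ht', sub_zero])
    linarith
  · rw [h.top s hs1, h'.top s hs1]

/-- **UNIQUENESS** of the minimising distribution.   TEX[PE:prof:scalar-minimizer] -/
theorem svc_unique {v0 : (ℝ → ℝ) → ℝ} {c : ℝ} (hc : 0 < c) (H : SvcU v0 c) (T : ℝ) {α α' : ℝ → ℝ} (h : SvDist α) (h' : SvDist α')
    (hmin : ∀ β, SvDist β → svcP v0 T α ≤ svcP v0 T β) (hle : svcP v0 T α' ≤ svcP v0 T α) : α' = α := by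
  have h1 := svc_coer H T (sv_dist_coef h') (sv_dist_coef h) (hmin _ (svc_mid_dist h' h))
  apply svc_eq_of_Q h' h
  nlinarith

/-! ## 7. well-posedness and existence -/

/-- **WELL-POSEDNESS**: almost minimisers are `L¹`-close to the minimiser -/
theorem svc_wellposed {v0 : (ℝ → ℝ) → ℝ} {c : ℝ} (hc : 0 < c) (H : SvcU v0 c) (T : ℝ) {δ : ℝ} (hδ : 0 < δ) :
    ∃ η > 0, ∀ α αs, SvDist α → SvDist αs → (∀ β, SvDist β → svcP v0 T αs ≤ svcP v0 T β) → svcP v0 T α ≤ svcP v0 T αs + η →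
      ∫ t in (0:ℝ)..1, |α t - αs t| ≤ δ := by
  obtain ⟨η, hη, hw⟩ := svc_wp hδ
  refine ⟨2 * c * η, by positivity, ?_⟩
  intro α αs h hs hmin hle
  have h1 := svc_coer H T (sv_dist_coef h) (sv_dist_coef hs) (hmin _ (svc_mid_dist h hs))
  apply hw α αs (sv_dist_coef h) (sv_dist_coef hs)
  have h2 : 2 * c * svcQ (fun t => α t - αs t) ≤ 2 * c * η := by linarith
  exact le_of_mul_le_mul_left h2 (by positivity)

/-- the Parisi functional is `L¹`-Lipschitz -/
theorem svc_P_lip {v0 : (ℝ → ℝ) → ℝ} {L : ℝ}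
    (H : ∀ α α', SvCoef α → SvCoef α' → |v0 α - v0 α'| ≤ L * ∫ t in (0:ℝ)..1, |α t - α' t|) (T : ℝ) {α α' : ℝ → ℝ} (h : SvCoef α) (h' : SvCoef α') :
    |svcP v0 T α - svcP v0 T α'| ≤ (L + |T| / 2) * ∫ t in (0:ℝ)..1, |α t - α' t| := by
  have h1 := H α α' h h'
  have h2 : |(∫ s in (0:ℝ)..1, s * α s) - ∫ s in (0:ℝ)..1, s * α' s| ≤ ∫ t in (0:ℝ)..1, |α t - α' t| := by
    rw [← intervalIntegral.integral_sub (svc_lin_int h) (svc_lin_int h')]
    refine le_trans (intervalIntegral.abs_integral_le_integral_abs zero_le_one) ?_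
    apply intervalIntegral.integral_mono_on zero_le_one ((svc_lin_int h).sub (svc_lin_int h')).abs (svc_abs_int h h')
    intro s hs
    rw [← mul_sub, abs_mul, abs_of_nonneg hs.1]
    exact mul_le_of_le_one_left (abs_nonneg _) hs.2
  unfold svcP
  have e : v0 α - T / 2 * (∫ s in (0:ℝ)..1, s * α s) - (v0 α' - T / 2 * ∫ s in (0:ℝ)..1, s * α' s) =
      (v0 α - v0 α') - T / 2 * ((∫ s in (0:ℝ)..1, s * α s) - ∫ s in (0:ℝ)..1, s * α' s) := by ring
  rw [e]
  refine le_trans (abs_sub _ _) ?_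
  rw [abs_mul, abs_div, abs_of_pos (by norm_num : (0:ℝ) < 2), add_mul]
  exact add_le_add h1 (mul_le_mul_of_nonneg_left h2 (by positivity))

/-- the `L¹` isometry for arbitrary quantiles -/
theorem svc_L1_quant {z z' : ℝ → ℝ} (hz : SvQuant z) (hz' : SvQuant z') :
    ∫ u in (0:ℝ)..1, |z u - z' u| = ∫ s in (0:ℝ)..1, |svA z s - svA z' s| := by
  rw [← svq_L1 (svq_A_dist hz.1 hz.2) (svq_A_dist hz'.1 hz'.2)]
  rw [intervalIntegral.integral_of_le zero_le_one, intervalIntegral.integral_of_le zero_le_one,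
    integral_Ioc_eq_integral_Ioo, integral_Ioc_eq_integral_Ioo]
  apply integral_congr_ae
  filter_upwards [svq_Q_A_ae hz.1 hz.2, svq_Q_A_ae hz'.1 hz'.2] with u h1 h2
  rw [← h1, ← h2]

theorem svc_dist_one : SvDist (fun t : ℝ => if t < 0 then (0:ℝ) else 1) where
  mono := by
    intro s t hst
    simp only
    split_ifs with h1 h2 h2
    · exact le_rfl
    · exact zero_le_one
    · exact absurd (lt_of_le_of_lt hst h2) h1
    · exact le_rfl
  rc := by
    intro s
    rcases lt_or_ge s 0 with hs | hs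
    · apply ContinuousAt.continuousWithinAt
      apply (continuousAt_const (y := (0:ℝ))).congr
      filter_upwards [Iio_mem_nhds hs] with t ht
      rw [if_pos (show t < 0 from ht)]
    · apply (continuousWithinAt_const (b := (1:ℝ))).congr
      · intro t ht
        exact if_neg (not_lt.2 (le_trans hs ht))
      · exact if_neg (not_lt.2 hs)
  neg := fun t ht => if_pos ht
  top := fun t ht => if_neg (not_lt.2 (le_trans zero_le_one ht))

/-- **EXISTENCE** of a minimising distribution (Helly).   TEX[PE:prof:scalar-minimizer] -/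
theorem svc_exists {v0 : (ℝ → ℝ) → ℝ} {L : ℝ} (hL : 0 ≤ L)
    (H : ∀ α α', SvCoef α → SvCoef α' → |v0 α - v0 α'| ≤ L * ∫ t in (0:ℝ)..1, |α t - α' t|) (T : ℝ) :
    ∃ αs, SvDist αs ∧ ∀ β, SvDist β → svcP v0 T αs ≤ svcP v0 T β := by
  set K : ℝ := L + |T| / 2 with hK
  have hK0 : 0 ≤ K := by positivity
  set S : Set ℝ := (svcP v0 T) '' {α | SvDist α} with hS
  have hne : S.Nonempty := ⟨_, _, svc_dist_one, rfl⟩
  have hbd : BddBelow S := by
    refine ⟨svcP v0 T (fun t : ℝ => if t < 0 then (0:ℝ) else 1) - K, ?_⟩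
    rintro _ ⟨α, hα, rfl⟩
    have hα' : SvDist α := hα
    have h1 := svc_P_lip H T (sv_dist_coef hα') (sv_dist_coef svc_dist_one)
    have h2 : ∫ t in (0:ℝ)..1, |α t - (if t < 0 then (0:ℝ) else 1)| ≤ 1 := by
      have : ∫ t in (0:ℝ)..1, |α t - (if t < 0 then (0:ℝ) else 1)| ≤ ∫ _t in (0:ℝ)..1, (1:ℝ) := by
        apply intervalIntegral.integral_mono_on zero_le_one (svc_abs_int (sv_dist_coef hα') (sv_dist_coef svc_dist_one)) intervalIntegrable_const
        intro t ht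
        exact sv_eta_abs (sv_dist_coef svc_dist_one) (sv_dist_coef hα') ht
      simpa using this
    rw [← hK] at h1
    have h3 := (abs_le.1 h1).1
    have h4 : K * ∫ t in (0:ℝ)..1, |α t - (if t < 0 then (0:ℝ) else 1)| ≤ K := by nlinarith
    linarith
  obtain ⟨u, _, hu, huS⟩ := exists_seq_tendsto_sInf hne hbd
  choose a ha hau using huS
  have ha' : ∀ k, SvDist (a k) := ha
  obtain ⟨φ, g, hφ, hgm, hg01, _, hgL⟩ := sk_helly_L1 volume (Ioo (0:ℝ) 1) measurableSet_Ioo (by simp) (fun k => svQ (a k)) 0 1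
    (fun k => (svq_quant (ha' k)).1) (fun k => (svq_quant (ha' k)).2)
  have hgq : SvQuant g := ⟨hgm.monotoneOn _, hg01⟩
  have hd : SvDist (svA g) := svq_A_dist hgq.1 hgq.2
  refine ⟨svA g, hd, ?_⟩
  -- `L¹` convergence of the distribution functions
  have hconv : Tendsto (fun k => ∫ s in (0:ℝ)..1, |a (φ k) s - svA g s|) atTop (𝓝 0) := by
    refine hgL.congr (fun k => ?_)
    have e := svc_L1_quant (svq_quant (ha' (φ k))) hgq
    rw [svq_A_Q (ha' (φ k))] at e
    rw [← e, intervalIntegral.integral_of_le zero_le_one, integral_Ioc_eq_integral_Ioo]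
  have hPconv : Tendsto (fun k => svcP v0 T (a (φ k))) atTop (𝓝 (svcP v0 T (svA g))) := by
    rw [tendsto_iff_dist_tendsto_zero]
    have hz : Tendsto (fun k => K * ∫ s in (0:ℝ)..1, |a (φ k) s - svA g s|) atTop (𝓝 0) := by
      simpa using hconv.const_mul K
    refine squeeze_zero (fun _ => dist_nonneg) (fun k => ?_) hz
    rw [Real.dist_eq]
    exact svc_P_lip H T (sv_dist_coef (ha' (φ k))) (sv_dist_coef hd)
  have hu' : Tendsto (fun k => svcP v0 T (a (φ k))) atTop (𝓝 (sInf S)) := by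
    have := hu.comp hφ.tendsto_atTop
    refine this.congr (fun k => ?_)
    exact (hau (φ k)).symm
  have heq := tendsto_nhds_unique hPconv hu'
  intro β hβ
  rw [heq]
  exact csInf_le hbd ⟨β, hβ, rfl⟩

/-! ## 8. the concrete exits: `v0 = skUpV T = pkV0 T` -/

/-- the constant of (U+) -/
def parC (T : ℝ) : ℝ := T ^ 3 / 16 * Real.exp (-(18 * T))

theorem par_C_pos {T : ℝ} (hT : 0 < T) : 0 < parC T := by unfold parC; positivity

/-- **the instance of `SvcU`** (helper159's `sk_up_unit`) -/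
theorem par_U {T : ℝ} (hT : 0 < T) : SvcU (skUpV T) (parC T) := by
  intro α1 α2 h1 h2
  have := sk_up_unit hT h1.1 h1.2 h2.1 h2.2
  unfold parC svcQ
  linarith

/-- **UNIQUENESS** (= `pk_unique_min` of `Sc/Pkg.lean`: `svcP (skUpV T) T = pkP T` by `rfl`).   TEX[PE:prof:scalar-minimizer] -/
theorem par_unique {T : ℝ} (hT : 0 < T) {α β : ℝ → ℝ} (hα : SvDist α) (hβ : SvDist β)
    (hmα : ∀ α', SvDist α' → svcP (skUpV T) T α ≤ svcP (skUpV T) T α')
    (hmβ : ∀ α', SvDist α' → svcP (skUpV T) T β ≤ svcP (skUpV T) T α') : α = β :=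
  svc_unique (par_C_pos hT) (par_U hT) T hβ hα hmβ (hmα β hβ)

/-- **COERCIVITY** at the minimiser -/
theorem par_coer {T : ℝ} (hT : 0 < T) {α αs : ℝ → ℝ} (hα : SvDist α) (hs : SvDist αs)
    (hmin : ∀ β, SvDist β → svcP (skUpV T) T αs ≤ svcP (skUpV T) T β) :
    2 * parC T * svcQ (fun t => α t - αs t) ≤ svcP (skUpV T) T α - svcP (skUpV T) T αs :=
  svc_coer (par_U hT) T (sv_dist_coef hα) (sv_dist_coef hs) (hmin _ (svc_mid_dist hα hs))

/-- **WELL-POSEDNESS on distribution functions** -/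
theorem par_wp_dist {T : ℝ} (hT : 0 < T) {δ : ℝ} (hδ : 0 < δ) :
    ∃ η > 0, ∀ α αs, SvDist α → SvDist αs → (∀ β, SvDist β → svcP (skUpV T) T αs ≤ svcP (skUpV T) T β) →
      svcP (skUpV T) T α ≤ svcP (skUpV T) T αs + η → ∫ t in (0:ℝ)..1, |α t - αs t| ≤ δ :=
  svc_wellposed (par_C_pos hT) (par_U hT) T hδ

/-- **WELL-POSEDNESS on quantiles**: `obj` = any objective on quantiles equal to the Parisi functional of the distribution function up to a constant -/
theorem par_wp_quant {T : ℝ} (hT : 0 < T) {obj : (ℝ → ℝ) → ℝ} {c0 : ℝ}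
    (hobj : ∀ z, SvQuant z → obj z = svcP (skUpV T) T (svA z) + c0) {zs : ℝ → ℝ} (hzs : SvQuant zs)
    (hmin : ∀ z, SvQuant z → obj zs ≤ obj z) {δ : ℝ} (hδ : 0 < δ) :
    ∃ η > 0, ∀ z, SvQuant z → obj z ≤ obj zs + η → ∫ u in (0:ℝ)..1, |z u - zs u| ≤ δ := by
  obtain ⟨η, hη, hw⟩ := par_wp_dist hT hδ
  refine ⟨η, hη, fun z hz hle => ?_⟩
  rw [svc_L1_quant hz hzs]
  apply hw _ _ (svq_A_dist hz.1 hz.2) (svq_A_dist hzs.1 hzs.2) (svq_min_of_quant hobj hzs hmin)
  rw [hobj z hz, hobj zs hzs] at hle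
  linarith

end

end Claimed.Agent.R286
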