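import Claimed.Agent.R286.Defs.Clk
import Claimed.Agent.R286.Defs.GhDeriv
import Claimed.Agent.R286.Defs.Tr
import Claimed.Agent.R286.Sc.GenDefs

/-!
# Row 286, BOX-C, unit S8 (LINK), part 1: the one-site hierarchy IS the scalar step calculus      (OWNER helper102; chief helper183; prefix `slk`)

`n = 1`, no matrix clock (`db = 0`).   A step path `P : SkStp` has the scalar profile `slkPi P = [(m, dh)]` (variance time), the revealed field of the one-site
model is `slkZ x = x σ`, the terminal datum is `scLC a = a⁻¹ log cosh (a z)` (uniform prior on `± 1`).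
* `slk_F`      `skF 1 a P (slkZ x) = scV (scLC a) (slkPi P) x`            (continuation)
* `slk_Pr`     `skPr 1 a P = scV (scLC a) (slkPi P) 0 - a * scLen (slkPi P) / 2`      (self corrected pressure)
* `slk_D`, `slk_A`      planted transition density / operator `ghA = scTr`
* `slk_E`, `slk_E_sp`   planted mean: `ghE = scP`, `ghE (spin) = ∂_x V`;      `slk_H`  `ghH (spin, spin) = ∂_x² V`
* `slk_Fld`    `trFld` (law of the field after `t` stages) `= scP` of the first `t` steps;   time forms `slk_V_time`, `slk_Fld_time` (`scVt`, `scPt` at the cumulative time `slkT P t`)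
-/

set_option autoImplicit false

namespace Claimed.Agent.R286

open MeasureTheory ProbabilityTheory Filter Topology Set

/-- the scalar profile (mass, variance) of the field clock of a step path -/
def slkPi (P : SkStp) : List (ℝ × ℝ) := P.map fun e => (e.m, e.dh)

/-- the one-site spin -/
def slkSp : SkCfg 1 → ℝ := fun σ => skSp σ 0

/-- the one-site field `x σ` -/
def slkZ (x : ℝ) : SkCfg 1 → ℝ := fun σ => x * skSp σ 0

/-- no matrix clock -/
def SlkOk (P : SkStp) : Prop := ∀ e ∈ P, e.db = 0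

/-- cumulative variance time after `t` revelations -/
def slkT (P : SkStp) (t : ℕ) : ℝ := scLen (slkPi (P.take t))

theorem slk_eqns_cite : True := by
  have := @slkPi.eq_1
  have := @slkSp.eq_1
  have := @slkZ.eq_1
  have := @SlkOk.eq_1
  have := @slkT.eq_1
  trivial

/-! ## 0. the two configurations, one driver -/

theorem slk_sum (f : SkCfg 1 → ℝ) : ∑ σ, f σ = f (fun _ => true) + f (fun _ => false) := by
  rw [← (Equiv.funUnique (Fin 1) Bool).symm.sum_comp f, Fintype.sum_bool]
  rfl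

theorem slk_sp_true : skSp (n := 1) (fun _ => true) 0 = 1 := by simp [skSp, Claims.C0461.pmSpin]

theorem slk_sp_false : skSp (n := 1) (fun _ => false) 0 = -1 := by simp [skSp, Claims.C0461.pmSpin]

theorem slk_base_ok {a : ℝ} (ha : 0 < a) : (skBase 1 a).Ok := by
  refine ⟨fun s => ?_, ?_, ha⟩
  · simp [skBase, ghUnif]
  · simp [skBase, ghUnif]

theorem slk_Z_add (x y : ℝ) : slkZ x + slkZ y = slkZ (x + y) := by
  funext σ
  simp [slkZ]
  ring

theorem slk_Z_zero : slkZ 0 = 0 := by
  funext σ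
  simp [slkZ]

theorem slk_Z_smul (x t : ℝ) : slkZ x + t • slkSp = slkZ (x + t) := by
  funext σ
  simp [slkZ, slkSp]
  ring

/-- the increment of the field -/
theorem slk_inc (e : SkInc) (he : e.db = 0) (ξ : SkDr 1 → ℝ) :
    (e.lv 1).inc ξ = slkZ (Real.sqrt e.dh * ξ (Sum.inr 0)) := by
  funext σ
  simp [GhLv.inc, SkInc.lv, ghLvF, skPhi, slkZ, he]
  ring

/-- a function of the field driver only -/
theorem slk_int {f : ℝ → ℝ} (hf : AEStronglyMeasurable f (gaussianReal 0 1)) :
    ∫ ξ, f (ξ (Sum.inr 0)) ∂ghStd (SkDr 1) = ∫ g, f g ∂gaussianReal 0 1 :=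
  integral_comp_eval (μ := fun _ : SkDr 1 => gaussianReal 0 1) (i := Sum.inr 0) hf

/-! ## 1. continuation and pressure -/

theorem slk_F0 (a x : ℝ) : ghF0 (skBase 1 a) (slkZ x) = scLC a x := by
  unfold ghF0 scLC
  rw [slk_sum]
  simp only [slkZ, slk_sp_true, slk_sp_false, skBase, ghUnif]
  congr 2
  rw [Real.cosh_eq]
  simp
  ring

theorem slk_LC_BI (a : ℝ) : ScBI (scLC a) := sc_logcosh_BI a

theorem slk_V_BI (a : ℝ) (π : List (ℝ × ℝ)) : ScBI (scV (scLC a) π) := sc_V_BI (slk_LC_BI a) π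

theorem slk_V_cont (a : ℝ) (π : List (ℝ × ℝ)) : Continuous (scV (scLC a) π) := (slk_V_BI a π 1).1.continuous

theorem SlkOk.tail {e : SkInc} {P : SkStp} (h : SlkOk (e :: P)) : SlkOk P := fun e' he' => h e' (List.mem_cons_of_mem _ he')

theorem SlkOk.head {e : SkInc} {P : SkStp} (h : SlkOk (e :: P)) : e.db = 0 := h e List.mem_cons_self

/-- **the continuation of the one-site model is the scalar continuation** -/
theorem slk_F (a : ℝ) : ∀ (P : SkStp), SlkOk P → ∀ x, skF 1 a P (slkZ x) = scV (scLC a) (slkPi P) x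
  | [], _, x => slk_F0 a x
  | e :: P, h, x => by
      have IH := slk_F a P h.tail
      have hc := slk_V_cont a (slkPi P)
      have e1 : ∀ ξ : SkDr 1 → ℝ, ghF (skBase 1 a) (skLvs 1 P) (slkZ x + (e.lv 1).inc ξ)
          = scV (scLC a) (slkPi P) (x + Real.sqrt e.dh * ξ (Sum.inr 0)) := by
        intro ξ
        rw [slk_inc e h.head, slk_Z_add]
        exact IH _
      show ghT (ghStd (SkDr 1)) e.m (fun ξ => ghF (skBase 1 a) (skLvs 1 P) (slkZ x + (e.lv 1).inc ξ))
        = scStep e.m e.dh (scV (scLC a) (slkPi P)) x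
      simp only [e1]
      unfold ghT scStep scW scHeat
      rw [slk_int (f := fun g => scV (scLC a) (slkPi P) (x + Real.sqrt e.dh * g)) (by fun_prop),
        slk_int (f := fun g => Real.exp (e.m * scV (scLC a) (slkPi P) (x + Real.sqrt e.dh * g))) (by fun_prop)]

theorem slk_len (P : SkStp) : scLen (slkPi P) = skTotH P := by
  induction P with
  | nil => rfl
  | cons e P ih =>
    have : skTotH (e :: P) = e.dh + skTotH P := by simp [skTotH]
    rw [this, ← ih]; rfl

theorem slk_totB {P : SkStp} (h : SlkOk P) : skTotB P = 0 := by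
  induction P with
  | nil => rfl
  | cons e P ih =>
    simp only [skTotB, List.map_cons, List.sum_cons, h.head, zero_add]
    exact ih h.tail

/-- **the self corrected pressure of the one-site model** -/
theorem slk_Pr (a : ℝ) {P : SkStp} (h : SlkOk P) : skPr 1 a P = scV (scLC a) (slkPi P) 0 - a * scLen (slkPi P) / 2 := by
  unfold skPr
  rw [← slk_Z_zero, slk_F a P h, slk_totB h, slk_len]
  simp
  ring

/-- the same with a source -/
theorem slk_PrS (a : ℝ) {P : SkStp} (h : SlkOk P) (x : ℝ) :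
    skPrS 1 a P (slkZ x) = scV (scLC a) (slkPi P) x - a * scLen (slkPi P) / 2 := by
  unfold skPrS
  rw [slk_F a P h, slk_totB h, slk_len]
  simp
  ring

/-! ## 2. planted transition -/

/-- density of the planted transition -/
theorem slk_D (a : ℝ) {e : SkInc} {P : SkStp} (h : SlkOk (e :: P)) (x : ℝ) (ξ : SkDr 1 → ℝ) :
    ghD (skBase 1 a) (e.lv 1) (skLvs 1 P) (slkZ x) ξ
      = Real.exp (e.m * scV (scLC a) (slkPi P) (x + Real.sqrt e.dh * ξ (Sum.inr 0))) / scW e.m e.dh (scV (scLC a) (slkPi P)) x := by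
  have h1 : ghF (skBase 1 a) (skLvs 1 P) (slkZ x + (e.lv 1).inc ξ)
      = scV (scLC a) (slkPi P) (x + Real.sqrt e.dh * ξ (Sum.inr 0)) := by
    rw [slk_inc e h.head, slk_Z_add]
    exact slk_F a P h.tail _
  have h2 : ghF (skBase 1 a) (e.lv 1 :: skLvs 1 P) (slkZ x) = scStep e.m e.dh (scV (scLC a) (slkPi P)) x := slk_F a (e :: P) h x
  unfold ghD
  rw [h1, h2, mul_sub, Real.exp_sub]
  congr 1
  exact sc_exp_step (slk_V_BI a _ 1) e.m e.dh x

/-- **the planted transition operator is `scTr`** -/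
theorem slk_A (a : ℝ) {e : SkInc} {P : SkStp} (h : SlkOk (e :: P)) {g : (SkCfg 1 → ℝ) → ℝ}
    (hg : Measurable fun y => g (slkZ y)) (x : ℝ) :
    ghA (skBase 1 a) (e.lv 1) (skLvs 1 P) g (slkZ x) = scTr e.m e.dh (scV (scLC a) (slkPi P)) (fun y => g (slkZ y)) x := by
  have hc := slk_V_cont a (slkPi P)
  unfold ghA scTr
  simp only [slk_D a h, slk_inc e h.head, slk_Z_add]
  have e1 : ∀ ξ : SkDr 1 → ℝ, Real.exp (e.m * scV (scLC a) (slkPi P) (x + Real.sqrt e.dh * ξ (Sum.inr 0)))
        / scW e.m e.dh (scV (scLC a) (slkPi P)) x * g (slkZ (x + Real.sqrt e.dh * ξ (Sum.inr 0)))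
      = (fun y => g (slkZ (x + Real.sqrt e.dh * y)) * Real.exp (e.m * scV (scLC a) (slkPi P) (x + Real.sqrt e.dh * y))
        / scW e.m e.dh (scV (scLC a) (slkPi P)) x) (ξ (Sum.inr 0)) := by
    intro ξ
    simp only
    ring
  simp only [e1]
  rw [slk_int (f := fun y => g (slkZ (x + Real.sqrt e.dh * y)) * Real.exp (e.m * scV (scLC a) (slkPi P) (x + Real.sqrt e.dh * y))
        / scW e.m e.dh (scV (scLC a) (slkPi P)) x), integral_div]
  · rfl
  · apply Measurable.aestronglyMeasurable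
    have h1 : Measurable fun y : ℝ => g (slkZ (x + Real.sqrt e.dh * y)) := hg.comp (by fun_prop)
    have h2 : Measurable fun y : ℝ => Real.exp (e.m * scV (scLC a) (slkPi P) (x + Real.sqrt e.dh * y)) :=
      Continuous.measurable (by fun_prop)
    exact (h1.mul h2).div_const _

/-! ## 3. planted means -/

/-- terminal Gibbs mean of a function of one spin, as a function of the field -/
noncomputable def slkM (a : ℝ) (Φ : SkCfg 1 → ℝ) (y : ℝ) : ℝ :=
  (Φ (fun _ => true) + Φ (fun _ => false)) / 2 + (Φ (fun _ => true) - Φ (fun _ => false)) / 2 * Real.tanh (a * y)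

theorem slkM_eqns_cite : True := by
  have := @slkM.eq_1
  trivial

theorem slk_tanh_E (a : ℝ) : ScE 0 (fun y => Real.tanh (a * y)) := by
  refine ⟨?_, ScG.of_bdd (C := 1) fun z => (Real.abs_tanh_lt_one _).le⟩
  have : Continuous Real.tanh := continuous_iff_continuousAt.2 fun x => (sc_hasDerivAt_tanh x).continuousAt
  exact this.comp (by fun_prop)

theorem slk_M_E (a : ℝ) (Φ : SkCfg 1 → ℝ) : ScE 0 (slkM a Φ) :=
  (ScE.const 0 _).add ((slk_tanh_E a).const_mul _)

theorem slk_M_sp (a : ℝ) : slkM a slkSp = fun y => Real.tanh (a * y) := by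
  funext y
  simp [slkM, slkSp, slk_sp_true, slk_sp_false]

theorem slk_M_const (a c : ℝ) : slkM a (fun _ => c) = fun _ => c := by
  funext y
  simp [slkM]

theorem slk_P_E {G φ : ℝ → ℝ} (hG : ScBI G) (hφ : ScE 0 φ) : ∀ π : List (ℝ × ℝ), ScE 0 (scP G π φ)
  | [] => hφ
  | p :: π => sc_tr_E (n := 0) (sc_V_BI hG π 1) (slk_P_E hG hφ π) p.1 p.2

theorem slk_E0 (a : ℝ) (Φ : SkCfg 1 → ℝ) (y : ℝ) : ∑ s, ghGw (skBase 1 a) (slkZ y) s * Φ s = slkM a Φ y := by
  have hc : 0 < Real.exp (a * y) + Real.exp (-(a * y)) := by positivity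
  unfold ghGw slkM
  simp only [slk_sum, slkZ, slk_sp_true, slk_sp_false, skBase, ghUnif, Real.tanh_eq_sinh_div_cosh, Real.sinh_eq, Real.cosh_eq]
  simp only [mul_one, mul_neg]
  field_simp
  ring

/-- **the planted mean of a function of the spin** -/
theorem slk_E (a : ℝ) (Φ : SkCfg 1 → ℝ) : ∀ (P : SkStp), SlkOk P → ∀ x,
    ghE (skBase 1 a) (skLvs 1 P) Φ (slkZ x) = scP (scLC a) (slkPi P) (slkM a Φ) x
  | [], _, x => slk_E0 a Φ x
  | e :: P, h, x => by
      have IH := slk_E a Φ P h.tail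
      have e1 : (fun y => ghE (skBase 1 a) (skLvs 1 P) Φ (slkZ y)) = scP (scLC a) (slkPi P) (slkM a Φ) := funext IH
      show ghA (skBase 1 a) (e.lv 1) (skLvs 1 P) (ghE (skBase 1 a) (skLvs 1 P) Φ) (slkZ x) = _
      rw [slk_A a h (by rw [e1]; exact (slk_P_E (slk_LC_BI a) (slk_M_E a Φ) _).continuous.measurable), e1]
      rfl

theorem slk_LC_deriv {a : ℝ} (ha : a ≠ 0) : deriv (scLC a) = fun y => Real.tanh (a * y) := by
  funext z
  have hl : HasDerivAt (fun z => a * z) a z := by simpa using (hasDerivAt_id z).const_mul a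
  have h1 : HasDerivAt (fun z => Real.cosh (a * z)) (Real.sinh (a * z) * a) z := (Real.hasDerivAt_cosh (a * z)).comp z hl
  have h2 := (h1.log (Real.cosh_pos _).ne').const_mul a⁻¹
  refine (h2.congr_deriv ?_).deriv
  rw [Real.tanh_eq_sinh_div_cosh]
  field_simp

/-- **the planted mean of the spin is `u = ∂_x V`** -/
theorem slk_E_sp {a : ℝ} (ha : a ≠ 0) {P : SkStp} (h : SlkOk P) (x : ℝ) :
    ghE (skBase 1 a) (skLvs 1 P) slkSp (slkZ x) = deriv (scV (scLC a) (slkPi P)) x := by
  rw [slk_E a slkSp P h, slk_M_sp, sc_V_deriv (slk_LC_BI a), slk_LC_deriv ha]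

theorem slk_nn {P : SkStp} (h : ∀ e ∈ P, 0 ≤ e.m) : GhNn (skLvs 1 P) := by
  intro l hl
  obtain ⟨e, he, rfl⟩ := List.mem_map.1 hl
  exact h e he

/-- **the Hessian of the one-site continuation is `w = ∂_x² V`** -/
theorem slk_H {a : ℝ} (ha : 0 < a) {P : SkStp} (h : SlkOk P) (hm : ∀ e ∈ P, 0 ≤ e.m) (x : ℝ) :
    ghH (skBase 1 a) (skLvs 1 P) slkSp slkSp (slkZ x) = deriv^[2] (scV (scLC a) (slkPi P)) x := by
  have h1 := gh_v_hess (slk_base_ok ha) slkSp slkSp (slk_nn hm) (slkZ x)
  have e1 : (fun t : ℝ => ghE (skBase 1 a) (skLvs 1 P) slkSp (slkZ x + t • slkSp))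
      = fun t => deriv (scV (scLC a) (slkPi P)) (x + t) := by
    funext t
    rw [slk_Z_smul, slk_E_sp ha.ne' h]
  rw [e1] at h1
  have h2 : HasDerivAt (deriv (scV (scLC a) (slkPi P))) (deriv (deriv (scV (scLC a) (slkPi P))) x) x :=
    ((slk_V_BI a (slkPi P) 2).2.2.1 x).hasDerivAt
  have h3 : HasDerivAt (fun t => deriv (scV (scLC a) (slkPi P)) (x + t)) (deriv (deriv (scV (scLC a) (slkPi P))) x) 0 := by
    have := HasDerivAt.comp_const_add x 0 (f := deriv (scV (scLC a) (slkPi P))) (f' := deriv (deriv (scV (scLC a) (slkPi P))) x)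
      (by simpa using h2)
    exact this
  exact h1.unique h3

/-! ## 4. the law of the field after `t` stages -/

theorem slk_V_take_drop (F : ℝ → ℝ) (π : List (ℝ × ℝ)) (t : ℕ) : scV (scV F (π.drop t)) (π.take t) = scV F π := by
  rw [← sc_V_append, List.take_append_drop]

theorem slk_Pi_take (P : SkStp) (t : ℕ) : slkPi (P.take t) = (slkPi P).take t := by simp [slkPi, List.map_take]

theorem slk_Pi_drop (P : SkStp) (t : ℕ) : slkPi (P.drop t) = (slkPi P).drop t := by simp [slkPi, List.map_drop]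

/-- **the law of the field after `t` stages** -/
theorem slk_Fld (a : ℝ) {f : (SkCfg 1 → ℝ) → ℝ} (hf : ScE 0 fun y => f (slkZ y)) : ∀ (P : SkStp), SlkOk P → ∀ (t : ℕ) (x : ℝ),
    trFld (skBase 1 a) (skLvs 1 P) t (slkZ x) f
      = scP (scV (scLC a) (slkPi (P.drop t))) (slkPi (P.take t)) (fun y => f (slkZ y)) x
  | [], _, t, x => by simp [skLvs, trFld, slkPi, scP]
  | e :: P, _, 0, x => by simp [skLvs, trFld, slkPi, scP]
  | e :: P, h, t + 1, x => by
      have IH := slk_Fld a hf P h.tail t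
      have e1 : (fun y => trFld (skBase 1 a) (skLvs 1 P) t (slkZ y) f)
          = scP (scV (scLC a) (slkPi (P.drop t))) (slkPi (P.take t)) (fun y => f (slkZ y)) := funext IH
      show ghA (skBase 1 a) (e.lv 1) (skLvs 1 P) (fun z => trFld (skBase 1 a) (skLvs 1 P) t z f) (slkZ x) = _
      rw [slk_A a h (by rw [e1]; exact (slk_P_E (slk_V_BI a _) hf _).continuous.measurable), e1]
      simp only [List.take_succ_cons, List.drop_succ_cons]
      show _ = scTr e.m e.dh (scV (scV (scLC a) (slkPi (P.drop t))) (slkPi (P.take t)))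
        (scP (scV (scLC a) (slkPi (P.drop t))) (slkPi (P.take t)) fun y => f (slkZ y)) x
      rw [slk_Pi_take, slk_Pi_drop, slk_V_take_drop]

/-! ## 5. time forms: the stage `t` sits at the variance time `scLen (π.take t)` -/

theorem slk_pos_take {π : List (ℝ × ℝ)} (h : ScPos π) (t : ℕ) : ScPos (π.take t) := fun p hp => h p (List.mem_of_mem_take hp)

/-- the continuation at the time of the stage `t` -/
theorem slk_Vt_take (F : ℝ → ℝ) : ∀ {π : List (ℝ × ℝ)}, ScPos π → ∀ t : ℕ, scVt F π (scLen (π.take t)) = scV F (π.drop t)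
  | [], _, t => by simp [scVt, scV]
  | p :: π, h, 0 => by simpa [scLen] using sc_Vt_zero F h
  | p :: π, h, t + 1 => by
      have h0 := sc_len_nonneg (slk_pos_take h.of_cons t)
      simp only [List.take_succ_cons, List.drop_succ_cons, scLen, scVt]
      rw [if_pos (by linarith), add_sub_cancel_left]
      exact slk_Vt_take F h.of_cons t

/-- the transition from time `0` to the time of the stage `t` -/
theorem slk_Pt_take (F φ : ℝ → ℝ) : ∀ {π : List (ℝ × ℝ)}, ScPos π → ∀ t : ℕ,
    scPt F π 0 (scLen (π.take t)) φ = scP (scV F (π.drop t)) (π.take t) φ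
  | [], _, t => by simp [scPt, scP]
  | p :: π, h, 0 => by simpa [scLen, scP] using sc_Pt_self F (p :: π) 0 φ
  | p :: π, h, t + 1 => by
      have h0 := sc_len_nonneg (slk_pos_take h.of_cons t)
      have hp : 0 ≤ p.2 := h p List.mem_cons_self
      have IH := slk_Pt_take F φ h.of_cons t
      simp only [List.take_succ_cons, List.drop_succ_cons, scLen, scPt, scP]
      rw [slk_V_take_drop]
      by_cases h1 : p.2 ≤ 0
      · have hp0 : p.2 = 0 := le_antisymm h1 hp
        rw [if_pos h1, hp0, sc_tr_var_zero]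
        simpa using IH
      · rw [if_neg h1]
        by_cases h2 : p.2 + scLen (π.take t) ≤ p.2
        · have hz : scLen (π.take t) = 0 := by linarith
          rw [if_pos h2, hz, ← IH, hz, sc_Pt_self]
          simp [sc_step_var_zero]
        · rw [if_neg h2, add_sub_cancel_left, IH, sub_zero]

theorem slk_pos {P : SkStp} (h : ∀ e ∈ P, 0 ≤ e.dh) : ScPos (slkPi P) := by
  intro p hp
  obtain ⟨e, he, rfl⟩ := List.mem_map.1 hp
  exact h e he

theorem slk_T_eq (P : SkStp) (t : ℕ) : slkT P t = skCumH P t := by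
  unfold slkT skCumH
  rw [slk_len]; rfl

/-- the continuation after `t` stages, time form -/
theorem slk_F_time (a : ℝ) {P : SkStp} (h : SlkOk P) (hh : ∀ e ∈ P, 0 ≤ e.dh) (t : ℕ) (x : ℝ) :
    skF 1 a (P.drop t) (slkZ x) = scVt (scLC a) (slkPi P) (slkT P t) x := by
  rw [slk_F a _ (fun e he => h e (List.mem_of_mem_drop he)), slkT, slk_Pi_take, slk_Vt_take _ (slk_pos hh), slk_Pi_drop]

/-- the planted mean of the spin after `t` stages is `u(T_t, ·)` -/
theorem slk_E_time {a : ℝ} (ha : a ≠ 0) {P : SkStp} (h : SlkOk P) (hh : ∀ e ∈ P, 0 ≤ e.dh) (t : ℕ) (x : ℝ) :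
    ghE (skBase 1 a) (skLvs 1 (P.drop t)) slkSp (slkZ x) = scD 1 (scLC a) (slkPi P) (slkT P t) x := by
  rw [slk_E_sp ha (fun e he => h e (List.mem_of_mem_drop he)), scD, slkT, slk_Pi_take, slk_Vt_take _ (slk_pos hh), slk_Pi_drop]
  rfl

/-- the law of the field after `t` stages, time form -/
theorem slk_Fld_time (a : ℝ) {f : (SkCfg 1 → ℝ) → ℝ} (hf : ScE 0 fun y => f (slkZ y)) {P : SkStp} (h : SlkOk P)
    (hh : ∀ e ∈ P, 0 ≤ e.dh) (t : ℕ) (x : ℝ) :
    trFld (skBase 1 a) (skLvs 1 P) t (slkZ x) f = scPt (scLC a) (slkPi P) 0 (slkT P t) (fun y => f (slkZ y)) x := by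
  rw [slk_Fld a hf P h, slkT, slk_Pi_take, slk_Pt_take _ _ (slk_pos hh), slk_Pi_drop]

end Claimed.Agent.R286
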