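import Claimed.Agent.R286.Sc.Gen
import Claimed.Agent.R286.Sc.App
import Claimed.Agent.R286.LL.PathsSc

/-!
# Row 286, scalar block, unit C11 (`exit_scgen`): the `V`-fields of `LscMod.Ok`      OWNER helper107 (head of the unit: helper95, chief helper183).   Prefix `lsi_`.

`LscMod.Ok` (`LL/PathsSc.lean`, helper272) wants ONE continuation `V A j ξ z` on `[0,∞)` without horizon, normalised by `V = j⁻¹ log cosh (j z) - j ξ / 2` after `Ξ`.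
* DEF  `lsiV A j ξ z = lim_n (scVa (scLC j) A n ξ z - j n / 2)`   (the sequence is eventually constant);
* KEY  `lsi_V_eq`:  for every horizon `R ≥ max Ξ ξ`:  `lsiV A j ξ = scVa (scLC j) A R ξ - j R / 2`;   `lsi_D_eq`: `∂_z^k lsiV = scaD k (scLC j) A R ξ` (`k ≥ 1`);
* general facts on `scVa` used here (they complete `Sc/Gen.lean`): `lsi_Va_add_const`, `lsi_gen_step` (Cole-Hopf on a stretch of constant mass), `lsi_ann`, `lsi_horizon`,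
  `lsi_gen_chi_lo` (`α (1 - u²) ≤ w`, B03 S3.6), `lsi_gen_bound` (tau-free bounds, uniform in the terminal datum);
* FIELDS in the exact shapes of `LscMod.Ok` with `M.V := lsiV`: `lsi_V_top, lsi_V_T, lsi_V_even, lsi_V_bd, lsi_u_le, lsi_chi_lo, lsi_chi_hi, lsi_chi_pos, lsi_V_step`.
TEX[LL:paths:lift] (scalar model, continuation part), TEX[FS:lem:regularity] (general coefficient).
-/

set_option autoImplicit false

namespace Claimed.Agent.R286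

open MeasureTheory ProbabilityTheory Filter Topology Set

/-- the continuation of the scalar model on `[0,∞)`: no horizon -/
noncomputable def lsiV (A : ℝ → ℝ) (j ξ z : ℝ) : ℝ := limUnder atTop fun n : ℕ => scVa (scLC j) A n ξ z - j * n / 2

/-! ## 1. complements on general profiles -/

theorem LscProf.le_top {j Ξ : ℝ} {A : ℝ → ℝ} (h : LscProf j Ξ A) {t : ℝ} (ht : 0 ≤ t) : A t ≤ j := by
  have := h.mono (mem_Ici.2 ht) (mem_Ici.2 (ht.trans (le_max_left t Ξ))) (le_max_left t Ξ)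
  rwa [h.top _ (le_max_right t Ξ)] at this

theorem LscProf.coef {j Ξ : ℝ} {A : ℝ → ℝ} (h : LscProf j Ξ A) (R : ℝ) : ScCoef j R A :=
  ⟨h.mono.mono fun _ ht => ht.1, fun _ ht => ⟨h.nonneg.trans (h.mono (mem_Ici.2 le_rfl) (mem_Ici.2 ht.1) ht.1), h.le_top ht.1⟩⟩

theorem ScCoef.shift {a τ : ℝ} {α : ℝ → ℝ} (hα : ScCoef a τ α) {s : ℝ} (hs : 0 ≤ s) :
    ScCoef a (τ - s) (fun r => α (s + r)) := by
  refine ⟨fun x hx y hy hxy => hα.1 ⟨by linarith [hx.1], by linarith [hx.2]⟩ ⟨by linarith [hy.1], by linarith [hy.2]⟩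
    (by linarith), fun t ht => hα.2 _ ⟨by linarith [ht.1], by linarith [ht.2]⟩⟩

theorem lsi_B_const (n : ℕ) (c : ℝ) : ScB n (fun _ : ℝ => c) := by
  induction n generalizing c with
  | zero => exact continuous_const
  | succ n ih =>
    refine ⟨differentiable_const c, ⟨0, fun z => by simp⟩, ?_⟩
    have : deriv (fun _ : ℝ => c) = fun _ => 0 := by funext z; simp
    rw [this]; exact ih 0

theorem lsi_BI_add_const {F : ℝ → ℝ} (hF : ScBI F) (c : ℝ) : ScBI (fun z => F z + c) :=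
  fun n => (hF n).add (lsi_B_const n c)

theorem lsi_Va_add_const {F : ℝ → ℝ} (hF : ScBI F) (c : ℝ) {a τ : ℝ} {α : ℝ → ℝ} (hτ : 0 ≤ τ) (hα : ScCoef a τ α) {t : ℝ}
    (ht : 0 ≤ t) : scVa (fun z => F z + c) α τ t = fun z => scVa F α τ t z + c := by
  funext z
  have h1 : Tendsto (fun n => scVt F (scDy α τ n) t z) atTop (𝓝 (scVa F α τ t z)) :=
    scg_D_tendsto hF hτ hα (scg_dy_apx hτ hα) 0 ht z
  have e : (fun n : ℕ => scVt (fun z => F z + c) (scDy α τ n) t z) = fun n => scVt F (scDy α τ n) t z + c := by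
    funext n
    rw [sc_Vt_add_const hF c]
  unfold scVa at h1 ⊢
  rw [e]
  exact (h1.add_const c).limUnder_eq

/-- **Cole-Hopf on a stretch of constant mass** -/
theorem lsi_gen_step {F : ℝ → ℝ} (hF : ScBI F) {a τ : ℝ} {α : ℝ → ℝ} (hα : ScCoef a τ α) {s t m : ℝ} (hs : 0 ≤ s)
    (hst : s ≤ t) (ht : t ≤ τ) (hm : ∀ r ∈ Ico s t, α r = m) : scVa F α τ s = scStep m (t - s) (scVa F α τ t) := by
  rcases hst.eq_or_lt with rfl | hlt
  · rw [sub_self, sc_step_var_zero]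
  have hτ : 0 ≤ τ := (hs.trans hst).trans ht
  have hG : ScBI (scVa F α τ t) := scg_Va_BI hF hτ hα (hs.trans hst)
  have h1 := scg_restrict hF hα hs hst ht
  have h2 := scg_shift hG (hα.sub_interval ht) hs hst (le_refl (0 : ℝ))
  rw [add_zero] at h2
  have hms : α s = m := hm s ⟨le_rfl, hlt⟩
  have hm0 := hα.2 s ⟨hs, hst.trans ht⟩
  have hadm : ScAdm a [(m, t - s)] := by
    intro p hp
    rw [List.mem_singleton] at hp
    subst hp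
    exact ⟨hms ▸ hm0.1, hms ▸ hm0.2, by simpa using hst⟩
  have h3 := scg_step hG ((hα.sub_interval ht).shift hs) (π := [(m, t - s)]) hadm (List.pairwise_singleton _ _)
    (by simp [scLen]) (fun r hr => by
      have : ¬ (t - s ≤ r) := not_le.2 hr.2
      simp only [scAl, this, if_false]
      exact hm _ ⟨by linarith [hr.1], by linarith [hr.2]⟩) (le_refl (0 : ℝ))
  rw [← h1, ← h2, h3, sc_Vt_zero _ hadm.pos]
  rfl

/-- the annealed piece -/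
theorem lsi_ann {j : ℝ} (hj : 0 < j) {A : ℝ → ℝ} {R R' : ℝ} (h0 : 0 ≤ R) (hRR : R ≤ R') (hc : ScCoef j R' A)
    (hA : ∀ r ∈ Ico R R', A r = j) : scVa (scLC j) A R' R = fun z => scLC j z + j * (R' - R) / 2 := by
  rw [lsi_gen_step (sc_LC_BI j) hc h0 hRR le_rfl hA, scg_Va_of_le _ _ (h0.trans hRR) le_rfl]
  exact sc_step_logcosh hj.ne' (sub_nonneg.2 hRR)

/-- **horizon independence** -/
theorem lsi_horizon {j : ℝ} (hj : 0 < j) {A : ℝ → ℝ} {R R' : ℝ} (hRR : R ≤ R') (hc : ScCoef j R' A)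
    (hA : ∀ r ∈ Ico R R', A r = j) {ξ : ℝ} (h0 : 0 ≤ ξ) (hξ : ξ ≤ R) :
    scVa (scLC j) A R' ξ = fun z => scVa (scLC j) A R ξ z + j * (R' - R) / 2 := by
  rw [← scg_restrict (sc_LC_BI j) hc h0 hξ hRR, lsi_ann hj (h0.trans hξ) hRR hc hA]
  exact lsi_Va_add_const (sc_LC_BI j) _ (h0.trans hξ) (hc.sub_interval hRR) h0

/-- one step keeps `m (1 - u²) ≤ w` -/
theorem lsi_step_lo {G : ℝ → ℝ} (hG : ScB 2 G) {m : ℝ} (h : ∀ z, m * (1 - deriv G z ^ 2) ≤ deriv (deriv G) z) (s z : ℝ) :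
    m * (1 - deriv (scStep m s G) z ^ 2) ≤ deriv (deriv (scStep m s G)) z := by
  have hG1 : ScB 1 G := hG.of_succ
  have hu : ScE 0 (deriv G) := (hG.deriv_bd).of_succ.scE
  have hw : ScE 0 (deriv (deriv G)) := (hG.deriv_bd).deriv.scE
  have hu2 : ScE 0 (fun y => deriv G y ^ 2) := hu.pow 2
  rw [sc_step_deriv2 hG, sc_step_deriv hG1]
  have h1 : scTr m s G (fun y => m * (1 - deriv G y ^ 2)) z ≤ scTr m s G (deriv (deriv G)) z :=
    sc_tr_mono hG1 (((ScE.const 0 1).sub hu2).const_mul m) hw h m s z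
  have h2 : scTr m s G (fun y => m * (1 - deriv G y ^ 2)) z
      = m * (1 - scTr m s G (fun y => deriv G y ^ 2) z) := by
    rw [sc_tr_const_mul, sc_tr_sub hG1 (ScE.const 0 1) hu2, sc_tr_const hG1]
  rw [h2] at h1
  linarith

theorem lsi_Mf_after (π : List (ℝ × ℝ)) (t : ℝ) : scMf (scAfter π t) = scAl π t := by
  induction π generalizing t with
  | nil => rfl
  | cons p π ih =>
    by_cases h1 : p.2 ≤ t
    · simp only [scAfter, scAl, if_pos h1]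
      exact ih _
    · simp only [scAfter, scAl, if_neg h1]
      rfl

theorem lsi_V_lo {a : ℝ} {F : ℝ → ℝ} (h : ScAd a F) (hlo : ∀ z, a * (1 - deriv F z ^ 2) ≤ deriv (deriv F) z)
    {π : List (ℝ × ℝ)} (hπ : ScAdm a π) (hi : ScInc π) (z : ℝ) :
    scMf π * (1 - deriv (scV F π) z ^ 2) ≤ deriv (deriv (scV F π)) z := by
  induction π generalizing z with
  | nil =>
    show (0 : ℝ) * _ ≤ deriv (deriv F) z
    rw [zero_mul]
    exact (h.pos z).le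
  | cons p π ih =>
    have hπ' : ScAdm a π := hπ.of_cons
    have hG : ScAd a (scV F π) := h.scV hπ'
    show p.1 * (1 - deriv (scStep p.1 p.2 (scV F π)) z ^ 2) ≤ deriv (deriv (scStep p.1 p.2 (scV F π))) z
    refine lsi_step_lo (hG.B 2) (fun y => ?_) p.2 z
    have h1 : 0 ≤ 1 - deriv (scV F π) y ^ 2 := by
      have := hG.lip y
      have h2 : deriv (scV F π) y ^ 2 ≤ 1 := by
        rw [← sq_abs]
        exact pow_le_one₀ (abs_nonneg _) this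
      linarith
    cases π with
    | nil =>
      exact (mul_le_mul_of_nonneg_right (hπ p List.mem_cons_self).2.1 h1).trans (hlo y)
    | cons q π' =>
      have hpq : p.1 ≤ q.1 := (List.pairwise_cons.1 hi).1 q List.mem_cons_self
      exact (mul_le_mul_of_nonneg_right hpq h1).trans (ih hπ' hi.of_cons y)

/-- B03 S3.6 (lower half) for step profiles: `α(t) (1 - u²) ≤ w` -/
theorem lsi_prof_lo {a : ℝ} {F : ℝ → ℝ} (h : ScAd a F) (hlo : ∀ z, a * (1 - deriv F z ^ 2) ≤ deriv (deriv F) z)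
    {π : List (ℝ × ℝ)} (hπ : ScAdm a π) (hi : ScInc π) (t z : ℝ) :
    scAl π t * (1 - scD 1 F π t z ^ 2) ≤ scD 2 F π t z := by
  have := lsi_V_lo h hlo (sc_after_adm hπ t) (sc_after_inc hi t) z
  rw [lsi_Mf_after] at this
  rw [scD_one, scD_two, sc_Vt_after]
  exact this

/-- B03 S3.6 (lower half) for general profiles -/
theorem lsi_gen_chi_lo {a : ℝ} {F : ℝ → ℝ} (h : ScAd a F) (hlo : ∀ z, a * (1 - deriv F z ^ 2) ≤ deriv (deriv F) z)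
    {τ : ℝ} {α : ℝ → ℝ} (hα : ScCoef a τ α) {t : ℝ} (h0 : 0 ≤ t) (ht : t < τ) (z : ℝ) :
    α t * (1 - scaD 1 F α τ t z ^ 2) ≤ scaD 2 F α τ t z := by
  have hτ : 0 ≤ τ := h0.trans ht.le
  have hτ' : 0 < τ - t := sub_pos.2 ht
  have hα' : ScCoef a (τ - t) (fun r => α (t + r)) := hα.shift h0
  have e : scVa F (fun r => α (t + r)) (τ - t) 0 = scVa F α τ t := by
    have := scg_shift h.B hα h0 ht.le (le_refl (0 : ℝ))
    rwa [add_zero] at this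
  have eD : ∀ k, scaD k F α τ t = scaD k F (fun r => α (t + r)) (τ - t) 0 := fun k => by
    unfold scaD
    rw [e]
  rw [eD 1, eD 2]
  have l1 := scg_dy_tendsto h.B hτ'.le hα' 1 (le_refl (0 : ℝ)) z
  have l2 := scg_dy_tendsto h.B hτ'.le hα' 2 (le_refl (0 : ℝ)) z
  refine le_of_tendsto_of_tendsto ((tendsto_const_nhds.sub (l1.pow 2)).const_mul (α t)) l2
    (Eventually.of_forall fun n => ?_)
  have h1 := lsi_prof_lo h hlo (sc_dy_adm hτ'.le hα' n) (sc_dy_inc hτ'.le hα' n) 0 z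
  have h2 : scAl (scDy (fun r => α (t + r)) (τ - t) n) 0 = α t := by
    have hc : (0 : ℝ) < (τ - t) / 2 ^ n := div_pos hτ' (by positivity)
    rw [sc_dy_al_cell _ _ n 0 (by positivity) (by simp) (by simpa using hc)]
    simp
  rwa [h2] at h1

/-- tau-free bounds, uniform in the terminal datum -/
theorem lsi_gen_bound {a : ℝ} (ha : 0 ≤ a) (n : ℕ) {B : ℝ} (hB : 0 ≤ B) : ∃ C : ℝ, 0 ≤ C ∧
    ∀ (F : ℝ → ℝ) (τ : ℝ) (α : ℝ → ℝ), ScBI F → ScN n B (deriv F) → 0 ≤ τ → ScCoef a τ α →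
      ∀ k ≤ n, ∀ t, 0 ≤ t → ∀ z, |scaD (k + 1) F α τ t z| ≤ C := by
  obtain ⟨C, hC, H⟩ := sc_tau_D ha n hB
  refine ⟨C, hC, fun F τ α hF hN hτ hα k hk t ht z => ?_⟩
  exact sck_limit_abs_le (scg_dy_tendsto hF hτ hα (k + 1) ht z)
    (Eventually.of_forall fun m => H F _ hF hN (sc_dy_adm hτ hα m) (sc_dy_inc hτ hα m) k hk t z)

theorem lsi_N_scale (j : ℝ) (n : ℕ) : ∀ {M : ℝ} {φ : ℝ → ℝ}, ScN n M φ → ScN n (M * (max 1 |j|) ^ n) (fun z => φ (j * z)) := by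
  have hc : (1 : ℝ) ≤ max 1 |j| := le_max_left _ _
  induction n with
  | zero =>
    intro M φ h
    exact ⟨h.1.comp (continuous_const.mul continuous_id), fun z => by simpa using h.2 (j * z)⟩
  | succ n ih =>
    intro M φ h
    have hM : 0 ≤ M := h.nonneg
    have hd : ∀ z, HasDerivAt (fun z => φ (j * z)) (j * deriv φ (j * z)) z := fun z => by
      have h1 : HasDerivAt (fun z : ℝ => j * z) j z := by simpa using (hasDerivAt_id z).const_mul j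
      have := ((h.2.1 (j * z)).hasDerivAt).comp z h1
      rw [mul_comm] at this
      exact this
    refine ⟨fun z => (h.1 (j * z)).trans ?_, fun z => (hd z).differentiableAt, ?_⟩
    · exact le_mul_of_one_le_right hM (one_le_pow₀ hc)
    · have e : deriv (fun z => φ (j * z)) = fun z => j * deriv φ (j * z) := funext fun z => (hd z).deriv
      rw [e]
      refine ((ih h.2.2).const_mul j).weaken ?_
      have h2 : |j| ≤ max 1 |j| := le_max_right _ _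
      calc |j| * (M * max 1 |j| ^ n) ≤ max 1 |j| * (M * max 1 |j| ^ n) :=
            mul_le_mul_of_nonneg_right h2 (mul_nonneg hM (by positivity))
        _ = M * max 1 |j| ^ (n + 1) := by ring

/-- the terminal data `scLC j`, `|j| ≤ J`, are uniformly bounded in `ScN` -/
theorem lsi_LC_N (n : ℕ) (J : ℝ) : ∃ B : ℝ, 0 ≤ B ∧ ∀ j, |j| ≤ J → j ≠ 0 → ScN n B (deriv (scLC j)) := by
  obtain ⟨A, hA0, hA⟩ := sc_tau_logcosh n 1
  rw [sc_logcosh_deriv1 one_ne_zero] at hA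
  refine ⟨A * (max 1 J) ^ n, by positivity, fun j hj hj0 => ?_⟩
  have e : deriv (scLC j) = fun z => Real.tanh (j * z) := sc_logcosh_deriv1 hj0
  rw [e]
  have h1 := lsi_N_scale j n hA
  simp only [one_mul] at h1
  refine h1.weaken (mul_le_mul_of_nonneg_left ?_ hA0)
  exact pow_le_pow_left₀ (by positivity) (max_le_max le_rfl hj) n

theorem lsi_LC_ad {j : ℝ} (hj : 0 < j) : ScAd j (scLC j) := ScAd.logcosh hj

theorem lsi_LC_deriv2 {j : ℝ} (hj : 0 < j) (z : ℝ) : deriv (deriv (scLC j)) z = j * scSech j z :=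
  sc_logcosh_deriv2 hj.ne' z

theorem lsi_LC_lo {j : ℝ} (hj : 0 < j) (z : ℝ) : j * (1 - deriv (scLC j) z ^ 2) ≤ deriv (deriv (scLC j)) z := by
  rw [lsi_LC_deriv2 hj z]
  have e : deriv (scLC j) = fun z => Real.tanh (j * z) := sc_logcosh_deriv1 hj.ne'
  rw [e]
  exact le_rfl

/-! ## 2. the model without horizon -/

/-- **KEY**: any horizon `R ≥ max Ξ ξ` computes `lsiV` -/
theorem lsi_V_eq {A : ℝ → ℝ} {j Ξ : ℝ} (hj : 0 < j) (hA : LscProf j Ξ A) {R ξ : ℝ} (hR : Ξ ≤ R) (h0 : 0 ≤ ξ) (hξ : ξ ≤ R) :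
    lsiV A j ξ = fun z => scVa (scLC j) A R ξ z - j * R / 2 := by
  funext z
  unfold lsiV
  refine Tendsto.limUnder_eq ?_
  refine tendsto_const_nhds.congr' ?_
  filter_upwards [eventually_ge_atTop ⌈R⌉₊] with n hn
  have hRn : R ≤ (n : ℝ) := (Nat.le_ceil R).trans (by exact_mod_cast hn)
  rw [lsi_horizon hj hRn (hA.coef n) (fun r hr => hA.top r (hR.trans hr.1)) h0 hξ]
  ring

theorem lsi_D_eq {A : ℝ → ℝ} {j Ξ : ℝ} (hj : 0 < j) (hA : LscProf j Ξ A) {R ξ : ℝ} (hR : Ξ ≤ R) (h0 : 0 ≤ ξ) (hξ : ξ ≤ R)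
    (k : ℕ) : deriv^[k + 1] (lsiV A j ξ) = scaD (k + 1) (scLC j) A R ξ := by
  rw [lsi_V_eq hj hA hR h0 hξ]
  unfold scaD
  rw [Function.iterate_succ_apply, Function.iterate_succ_apply]
  congr 1
  funext z
  exact deriv_sub_const _

/-! ## 3. the fields -/

theorem lsi_V_top {A : ℝ → ℝ} {j Ξ : ℝ} (hj : 0 < j) (hA : LscProf j Ξ A) (ξ : ℝ) (hξ : Ξ ≤ ξ) (z : ℝ) :
    lsiV A j ξ z = j⁻¹ * Real.log (Real.cosh (j * z)) - j * ξ / 2 := by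
  have h0 : 0 ≤ ξ := hA.Xi0.trans hξ
  rw [lsi_V_eq hj hA hξ h0 le_rfl, scg_Va_of_le _ _ h0 le_rfl]
  rfl

theorem lsi_V_T {A : ℝ → ℝ} {j Ξ : ℝ} (hj : 0 < j) (hA : LscProf j Ξ A) (R : ℝ) (n : ℕ) :
    ScT (Icc 0 R) n fun ξ => lsiV A j ξ := by
  have hR' : 0 ≤ max R Ξ := hA.Xi0.trans (le_max_right _ _)
  have h1 : ScT (Icc 0 R) n (scaD 0 (scLC j) A (max R Ξ)) := scg_aD_T (sc_LC_BI j) hR' (hA.coef _) 0 n R
  have h2 : ScT (Icc 0 R) n (fun _ _ => j * max R Ξ / 2) := (ScE.const n _).scT _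
  refine (h1.sub h2).congr fun ξ hξ z => ?_
  rw [lsi_V_eq hj hA (le_max_right R Ξ) hξ.1 (hξ.2.trans (le_max_left _ _))]
  rfl

theorem lsi_V_even {A : ℝ → ℝ} {j Ξ : ℝ} (hj : 0 < j) (hA : LscProf j Ξ A) (ξ : ℝ) (hξ : 0 ≤ ξ) (z : ℝ) :
    lsiV A j ξ (-z) = lsiV A j ξ z := by
  have hR : Ξ ≤ max Ξ ξ := le_max_left _ _
  have hξR : ξ ≤ max Ξ ξ := le_max_right _ _
  rw [lsi_V_eq hj hA hR hξ hξR]
  have := scg_aD_parity (sc_LC_BI j) (lsi_LC_ad hj).even (hξ.trans hξR) (hA.coef _) 0 hξ z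
  rw [pow_zero, one_mul] at this
  show scVa (scLC j) A (max Ξ ξ) ξ (-z) - _ = scVa (scLC j) A (max Ξ ξ) ξ z - _
  rw [show scVa (scLC j) A (max Ξ ξ) ξ (-z) = scVa (scLC j) A (max Ξ ξ) ξ z from this]

theorem lsi_V_bd (J : ℝ) (k : ℕ) (hk : 1 ≤ k) : ∃ C : ℝ, ∀ (A : ℝ → ℝ) (j Ξ : ℝ), 1 ≤ j → j ≤ J → LscProf j Ξ A →
    ∀ ξ, 0 ≤ ξ → ∀ z, |deriv^[k] (lsiV A j ξ) z| ≤ C := by
  obtain ⟨B, hB0, hB⟩ := lsi_LC_N (k - 1) J
  obtain ⟨C, _, hC⟩ := lsi_gen_bound (le_max_right J 0) (k - 1) hB0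
  refine ⟨C, fun A j Ξ hj1 hjJ hA ξ hξ z => ?_⟩
  have hj : 0 < j := zero_lt_one.trans_le hj1
  have hR : Ξ ≤ max Ξ ξ := le_max_left _ _
  have hξR : ξ ≤ max Ξ ξ := le_max_right _ _
  obtain ⟨i, rfl⟩ : ∃ i, k = i + 1 := ⟨k - 1, by omega⟩
  rw [lsi_D_eq hj hA hR hξ hξR i]
  exact hC (scLC j) _ A (sc_LC_BI j) (hB j (by rw [abs_of_pos hj]; exact hjJ) hj.ne') (hξ.trans hξR)
    ((hA.coef _).weaken (hjJ.trans (le_max_left _ _))) i (by omega) ξ hξ z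

theorem lsi_u_le {A : ℝ → ℝ} {j Ξ : ℝ} (hj : 0 < j) (hA : LscProf j Ξ A) (ξ : ℝ) (hξ : 0 ≤ ξ) (z : ℝ) :
    |deriv^[1] (lsiV A j ξ) z| ≤ 1 := by
  have hR : Ξ ≤ max Ξ ξ := le_max_left _ _
  have hξR : ξ ≤ max Ξ ξ := le_max_right _ _
  rw [lsi_D_eq hj hA hR hξ hξR 0]
  exact scg_u_le (sc_LC_BI j) (lsi_LC_ad hj).lip (hξ.trans hξR) (hA.coef _) hξ z

theorem lsi_chi_lo {A : ℝ → ℝ} {j Ξ : ℝ} (hj : 0 < j) (hA : LscProf j Ξ A) (ξ : ℝ) (hξ : 0 ≤ ξ) (z : ℝ) :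
    A ξ * (1 - deriv^[1] (lsiV A j ξ) z ^ 2) ≤ deriv^[2] (lsiV A j ξ) z := by
  have hR : Ξ ≤ max Ξ ξ + 1 := (le_max_left _ _).trans (by linarith)
  have hξR : ξ < max Ξ ξ + 1 := (le_max_right _ _).trans_lt (by linarith)
  rw [lsi_D_eq hj hA hR hξ hξR.le 0, lsi_D_eq hj hA hR hξ hξR.le 1]
  exact lsi_gen_chi_lo (lsi_LC_ad hj) (lsi_LC_lo hj) (hA.coef _) hξ hξR z

theorem lsi_chi_hi {A : ℝ → ℝ} {j Ξ : ℝ} (hj : 0 < j) (hA : LscProf j Ξ A) (ξ : ℝ) (hξ : 0 ≤ ξ) (z : ℝ) :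
    deriv^[2] (lsiV A j ξ) z ≤ j * (1 - deriv^[1] (lsiV A j ξ) z ^ 2) := by
  have hR : Ξ ≤ max Ξ ξ := le_max_left _ _
  have hξR : ξ ≤ max Ξ ξ := le_max_right _ _
  rw [lsi_D_eq hj hA hR hξ hξR 0, lsi_D_eq hj hA hR hξ hξR 1]
  exact scg_w_le (lsi_LC_ad hj) (hξ.trans hξR) (hA.coef _) hξ z

theorem lsi_chi_pos {A : ℝ → ℝ} {j Ξ : ℝ} (hj : 0 < j) (hA : LscProf j Ξ A) (ξ : ℝ) (hξ : 0 ≤ ξ) (z : ℝ) :
    0 < deriv^[2] (lsiV A j ξ) z := by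
  have hR : Ξ ≤ max Ξ ξ := le_max_left _ _
  have hξR : ξ ≤ max Ξ ξ := le_max_right _ _
  rw [lsi_D_eq hj hA hR hξ hξR 1]
  exact (scg_Va_ad (lsi_LC_ad hj) hj (fun y => (lsi_LC_deriv2 hj y).ge) (hξ.trans hξR) (hA.coef _) hξ).pos z

theorem lsi_V_step {A : ℝ → ℝ} {j Ξ : ℝ} (hj : 0 < j) (hA : LscProf j Ξ A) {s t m : ℝ} (hs : 0 ≤ s) (hst : s ≤ t)
    (hm : ∀ r ∈ Ico s t, A r = m) : lsiV A j s = scStep m (t - s) (lsiV A j t) := by
  have ht0 : 0 ≤ t := hs.trans hst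
  have hR : Ξ ≤ max Ξ t := le_max_left _ _
  have htR : t ≤ max Ξ t := le_max_right _ _
  rw [lsi_V_eq hj hA hR hs (hst.trans htR), lsi_V_eq hj hA hR ht0 htR,
    lsi_gen_step (sc_LC_BI j) (hA.coef _) hs hst htR hm]
  have hG : ScBI (scVa (scLC j) A (max Ξ t) t) := scg_Va_BI (sc_LC_BI j) (ht0.trans htR) (hA.coef _) ht0
  have := sc_step_add_const (hG 1) m (t - s) (-(j * max Ξ t / 2))
  simp only [← sub_eq_add_neg] at this
  exact this.symm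

/-- check of the shapes: the nine `V`-fields of `LscMod.Ok` for any model with `V := lsiV` -/
theorem lsi_V_fields (P : (ℝ → ℝ) → ℝ → ℝ → ℝ → (ℝ → ℝ) → ℝ → ℝ)
    (Dyn : (ℝ → ℝ) → ℝ → ℝ → ℝ → (ℝ → ℝ → ℝ) → (ℝ → ℝ → ℝ) → Prop) :
    let M : LscMod := ⟨lsiV, P, Dyn⟩
    (∀ {A : ℝ → ℝ} {j Ξ : ℝ}, 0 < j → LscProf j Ξ A → ∀ ξ, Ξ ≤ ξ → ∀ z, M.V A j ξ z = j⁻¹ * Real.log (Real.cosh (j * z)) - j * ξ / 2) ∧
    (∀ {A : ℝ → ℝ} {j Ξ : ℝ}, 0 < j → LscProf j Ξ A → ∀ (R : ℝ) (n : ℕ), ScT (Icc 0 R) n fun ξ => M.V A j ξ) ∧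
    (∀ {A : ℝ → ℝ} {j Ξ : ℝ}, 0 < j → LscProf j Ξ A → ∀ ξ, 0 ≤ ξ → ∀ z, M.V A j ξ (-z) = M.V A j ξ z) ∧
    (∀ (J : ℝ) (k : ℕ), 1 ≤ k → ∃ C : ℝ, ∀ (A : ℝ → ℝ) (j Ξ : ℝ), 1 ≤ j → j ≤ J → LscProf j Ξ A → ∀ ξ, 0 ≤ ξ → ∀ z, |M.D k A j ξ z| ≤ C) ∧
    (∀ {A : ℝ → ℝ} {j Ξ : ℝ}, 0 < j → LscProf j Ξ A → ∀ ξ, 0 ≤ ξ → ∀ z, |M.D 1 A j ξ z| ≤ 1) ∧
    (∀ {A : ℝ → ℝ} {j Ξ : ℝ}, 0 < j → LscProf j Ξ A → ∀ ξ, 0 ≤ ξ → ∀ z, A ξ * (1 - M.D 1 A j ξ z ^ 2) ≤ M.D 2 A j ξ z) ∧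
    (∀ {A : ℝ → ℝ} {j Ξ : ℝ}, 0 < j → LscProf j Ξ A → ∀ ξ, 0 ≤ ξ → ∀ z, M.D 2 A j ξ z ≤ j * (1 - M.D 1 A j ξ z ^ 2)) ∧
    (∀ {A : ℝ → ℝ} {j Ξ : ℝ}, 0 < j → LscProf j Ξ A → ∀ ξ, 0 ≤ ξ → ∀ z, 0 < M.D 2 A j ξ z) ∧
    (∀ {A : ℝ → ℝ} {j Ξ : ℝ}, 0 < j → LscProf j Ξ A → ∀ {s t m : ℝ}, 0 ≤ s → s ≤ t → (∀ r ∈ Ico s t, A r = m) →
      M.V A j s = scStep m (t - s) (M.V A j t)) :=
  ⟨lsi_V_top, lsi_V_T, lsi_V_even, lsi_V_bd, lsi_u_le, lsi_chi_lo, lsi_chi_hi, lsi_chi_pos, lsi_V_step⟩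

end Claimed.Agent.R286
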