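import Claimed.Agent.R286.Sc.HeatT

/-!
# Row 286, scalar block, layer S1: one Cole-Hopf step of the Parisi recursion

CONTRACT FILE (head: helper95); plan: `origin/helper95:notes/R286/B03_helper95.md`, section S1.

`F` = continuation after the step (any function of the bounded class `ScB`), `m` = mass, `s` = variance of the step.
* `scW m s F   = heat s (exp (m F))`
* `scStep m s F = m⁻¹ log (scW m s F)` (`heat s F` if `m = 0`): continuation before the step;
* `scTr m s F φ = heat s (φ exp (m F)) / scW m s F`: planted transition operator `E[φ(Z_after) | Z_before = z]`.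
On the time interval `[t₀, t₁]` the continuation is `r ↦ scStep m (t₁ - r) F`; it solves `V_r = -(V_zz + m V_z²)/2`,
and `sc_tr_dynkin` is the Dynkin (Ito in expectation) formula of the planted diffusion inside the step.

OWNERS (02:15Z; prove in place, land lemma by lemma, touch only your leaves, helpers prefix `sc_`):
 A + B up to `sc_tr_const_mul` = helper88;   B from `sc_tr_mono` to `sc_step_logcosh` = helper86;   C = helper81;
 D `sc_W_T, sc_step_T, sc_tr_T, sc_tr_T', sc_step_deriv_bdd` = helper85;   D `sc_step_pde, pde_iter, sc_tr_backward, sc_tr_dynkin` = helper78;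
 E = helper96.
-/

set_option autoImplicit false

namespace Claimed.Agent.R286

open MeasureTheory ProbabilityTheory Filter Topology Set

noncomputable def scW (m s : ℝ) (F : ℝ → ℝ) (z : ℝ) : ℝ := scHeat s (fun y => Real.exp (m * F y)) z

noncomputable def scStep (m s : ℝ) (F : ℝ → ℝ) (z : ℝ) : ℝ :=
  if m = 0 then scHeat s F z else m⁻¹ * Real.log (scW m s F z)

noncomputable def scTr (m s : ℝ) (F φ : ℝ → ℝ) (z : ℝ) : ℝ :=
  scHeat s (fun y => φ y * Real.exp (m * F y)) z / scW m s F z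

/-- bounded, with `n` bounded derivatives (the last one continuous) -/
def ScBd (n : ℕ) (φ : ℝ → ℝ) : Prop := (∃ C : ℝ, ∀ z, |φ z| ≤ C) ∧ ScB n φ

/-! ## A. the class `ScBd` -/

theorem ScBd.of_succ {n : ℕ} {φ : ℝ → ℝ} (h : ScBd (n + 1) φ) : ScBd n φ := ⟨h.1, h.2.of_succ⟩

theorem ScBd.deriv {n : ℕ} {φ : ℝ → ℝ} (h : ScBd (n + 1) φ) : ScBd n (deriv φ) := ⟨h.2.2.1, h.2.2.2⟩

theorem ScB.deriv_bd {n : ℕ} {F : ℝ → ℝ} (h : ScB (n + 1) F) : ScBd n (deriv F) := ⟨h.2.1, h.2.2⟩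

theorem ScBd.scE {n : ℕ} {φ : ℝ → ℝ} (h : ScBd n φ) : ScE n φ := by
  obtain ⟨C, hC⟩ := h.1
  exact h.2.scE_of_bdd hC

theorem ScB.const (n : ℕ) (c : ℝ) : ScB n (fun _ => c) := by
  induction n generalizing c with
  | zero => exact continuous_const
  | succ n ih =>
    have e : _root_.deriv (fun _ : ℝ => c) = fun _ => 0 := by
      ext z; simp
    refine ⟨differentiable_const c, ⟨0, fun z => by simp⟩, ?_⟩
    rw [e]
    exact ih 0

theorem ScBd.const (n : ℕ) (c : ℝ) : ScBd n (fun _ => c) := by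
  exact ⟨⟨|c|, fun _ => le_rfl⟩, ScB.const n c⟩

theorem ScBd.add {n : ℕ} {φ ψ : ℝ → ℝ} (hφ : ScBd n φ) (hψ : ScBd n ψ) : ScBd n (fun z => φ z + ψ z) := by
  obtain ⟨C, hC⟩ := hφ.1
  obtain ⟨D, hD⟩ := hψ.1
  exact ⟨⟨C + D, fun z => (abs_add_le _ _).trans (add_le_add (hC z) (hD z))⟩, hφ.2.add hψ.2⟩

theorem ScBd.sub {n : ℕ} {φ ψ : ℝ → ℝ} (hφ : ScBd n φ) (hψ : ScBd n ψ) : ScBd n (fun z => φ z - ψ z) := by
  obtain ⟨C, hC⟩ := hφ.1
  obtain ⟨D, hD⟩ := hψ.1
  have e : (fun z => φ z - ψ z) = fun z => φ z + -1 * ψ z := by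
    funext z; ring
  refine ⟨⟨C + D, fun z => (abs_sub _ _).trans (add_le_add (hC z) (hD z))⟩, ?_⟩
  rw [e]
  exact hφ.2.add (hψ.2.const_mul (-1))

theorem ScBd.mul {n : ℕ} {φ ψ : ℝ → ℝ} (hφ : ScBd n φ) (hψ : ScBd n ψ) : ScBd n (fun z => φ z * ψ z) := by
  induction n generalizing φ ψ with
  | zero =>
    obtain ⟨C, hC⟩ := hφ.1
    obtain ⟨D, hD⟩ := hψ.1
    refine ⟨⟨C * D, fun z => ?_⟩, Continuous.mul hφ.2 hψ.2⟩
    rw [abs_mul]
    exact mul_le_mul (hC z) (hD z) (abs_nonneg _) ((abs_nonneg _).trans (hC z))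
  | succ n ih =>
    obtain ⟨C, hC⟩ := hφ.1
    obtain ⟨D, hD⟩ := hψ.1
    have e : _root_.deriv (fun z => φ z * ψ z)
        = fun z => _root_.deriv φ z * ψ z + φ z * _root_.deriv ψ z := by
      ext z; exact deriv_fun_mul (hφ.2.1 z) (hψ.2.1 z)
    have hd : ScBd n (fun z => _root_.deriv φ z * ψ z + φ z * _root_.deriv ψ z) :=
      (ih hφ.deriv hψ.of_succ).add (ih hφ.of_succ hψ.deriv)
    refine ⟨⟨C * D, fun z => ?_⟩, hφ.2.1.mul hψ.2.1, ?_, ?_⟩
    · rw [abs_mul]
      exact mul_le_mul (hC z) (hD z) (abs_nonneg _) ((abs_nonneg _).trans (hC z))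
    · rw [e]; exact hd.1
    · rw [e]; exact hd.2

theorem ScBd.const_mul {n : ℕ} {φ : ℝ → ℝ} (c : ℝ) (hφ : ScBd n φ) : ScBd n (fun z => c * φ z) := by
  obtain ⟨C, hC⟩ := hφ.1
  refine ⟨⟨|c| * C, fun z => ?_⟩, hφ.2.const_mul c⟩
  rw [abs_mul]
  exact mul_le_mul_of_nonneg_left (hC z) (abs_nonneg _)

theorem ScBd.pow {n : ℕ} {φ : ℝ → ℝ} (hφ : ScBd n φ) (k : ℕ) : ScBd n (fun z => φ z ^ k) := by
  induction k with
  | zero => simpa using ScBd.const n 1
  | succ k ih =>
    have e : (fun z => φ z ^ (k + 1)) = fun z => φ z ^ k * φ z := by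
      funext z; rw [pow_succ]
    rw [e]
    exact ih.mul hφ

/-! ## B. algebra of one step -/

/-- `exp (m F)` is in `ScE 0` -/
theorem sc_expF_E0 {F : ℝ → ℝ} (hF : ScB 1 F) (m : ℝ) : ScE 0 (fun y => Real.exp (m * F y)) :=
  (hF.exp m).of_succ

/-- `φ exp (m F)` is in `ScE 0` -/
theorem sc_mulexpF_E0 {F φ : ℝ → ℝ} (hF : ScB 1 F) (hφ : ScE 0 φ) (m : ℝ) :
    ScE 0 (fun y => φ y * Real.exp (m * F y)) :=
  hφ.mul_exp hF hF.of_succ m

theorem sc_W_pos {F : ℝ → ℝ} (hF : ScB 1 F) (m s z : ℝ) : 0 < scW m s F z := by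
  exact sc_heat_pos (sc_expF_E0 hF m) (fun _ => Real.exp_pos _) s z

theorem sc_W_ge_exp {F : ℝ → ℝ} (hF : ScB 1 F) (m s z : ℝ) :
    Real.exp (m * scHeat s F z) ≤ scW m s F z := by
  have h := sc_heat_exp_ge (hF.const_mul m) s z
  rw [sc_heat_const_mul] at h
  exact h

theorem sc_W_inv_le {F : ℝ → ℝ} (hF : ScB 1 F) (m s z : ℝ) :
    (scW m s F z)⁻¹ ≤ scW (-m) s F z := by
  have h1 := sc_W_ge_exp hF m s z
  have h2 := sc_W_ge_exp hF (-m) s z
  calc (scW m s F z)⁻¹ ≤ (Real.exp (m * scHeat s F z))⁻¹ :=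
        inv_anti₀ (Real.exp_pos _) h1
    _ = Real.exp (-m * scHeat s F z) := by rw [← Real.exp_neg]; congr 1; ring
    _ ≤ _ := h2

/-- two sided bound: `exp (-|m| (|F 0| + L |z| + L sqrt s)) ≤ W`, written as growth of the inverse, uniform in `s ∈ [0, S]` -/
theorem sc_W_inv_growth {F : ℝ → ℝ} (hF : ScB 1 F) (m S : ℝ) :
    ∃ C c : ℝ, ∀ s ∈ Icc 0 S, ∀ z, (scW m s F z)⁻¹ ≤ C * Real.exp (c * |z|) := by
  obtain ⟨C, c, hC, hc, h⟩ := (sc_expF_E0 hF (-m)).2.nonneg
  refine ⟨2 * C * Real.exp (c ^ 2 * S / 2), c, fun s hs z => ?_⟩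
  refine (sc_W_inv_le hF m s z).trans ?_
  have h1 := sc_heat_growth hc h hs.1 z
  refine (le_abs_self _).trans (h1.trans ?_)
  apply mul_le_mul_of_nonneg_right _ (Real.exp_pos _).le
  apply mul_le_mul_of_nonneg_left _ (by positivity)
  apply Real.exp_le_exp.2
  have := hs.2
  have h2 : 0 ≤ c ^ 2 := by positivity
  nlinarith

theorem sc_W_zero_mass (s : ℝ) (F : ℝ → ℝ) (z : ℝ) : scW 0 s F z = 1 := by
  simp [scW, scHeat]

theorem sc_exp_step {F : ℝ → ℝ} (hF : ScB 1 F) (m s z : ℝ) :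
    Real.exp (m * scStep m s F z) = scW m s F z := by
  by_cases hm : m = 0
  · subst hm
    simp [sc_W_zero_mass]
  · simp only [scStep, if_neg hm]
    rw [← mul_assoc, mul_inv_cancel₀ hm, one_mul, Real.exp_log (sc_W_pos hF m s z)]

theorem sc_step_var_zero (m : ℝ) (F : ℝ → ℝ) : scStep m 0 F = F := by
  funext z
  by_cases hm : m = 0
  · simp [scStep, hm, sc_heat_zero]
  · simp only [scStep, if_neg hm, scW, sc_heat_zero, Real.log_exp]
    rw [← mul_assoc, inv_mul_cancel₀ hm, one_mul]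

theorem sc_tr_var_zero (m : ℝ) (F φ : ℝ → ℝ) : scTr m 0 F φ = φ := by
  funext z
  simp only [scTr, scW, sc_heat_zero]
  exact mul_div_cancel_right₀ _ (Real.exp_pos _).ne'

theorem sc_tr_mass_zero (s : ℝ) (F φ : ℝ → ℝ) : scTr 0 s F φ = scHeat s φ := by
  funext z
  simp [scTr, sc_W_zero_mass]

theorem sc_W_add_const (m s c : ℝ) (F : ℝ → ℝ) (z : ℝ) :
    scW m s (fun z => F z + c) z = Real.exp (m * c) * scW m s F z := by
  have e : (fun y => Real.exp (m * (F y + c))) = fun y => Real.exp (m * c) * Real.exp (m * F y) := by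
    funext y; rw [← Real.exp_add]; congr 1; ring
  simp only [scW]
  rw [e, sc_heat_const_mul]

/-- adding a constant to the continuation -/
theorem sc_step_add_const {F : ℝ → ℝ} (hF : ScB 1 F) (m s c : ℝ) :
    scStep m s (fun z => F z + c) = fun z => scStep m s F z + c := by
  funext z
  by_cases hm : m = 0
  · simp only [scStep, if_pos hm]
    rw [sc_heat_add hF.scE.of_succ (ScE.const 0 c), sc_heat_const]
  · simp only [scStep, if_neg hm]
    rw [sc_W_add_const, Real.log_mul (Real.exp_pos _).ne' (sc_W_pos hF m s z).ne', Real.log_exp]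
    field_simp
    ring

theorem sc_tr_add_const (m s c : ℝ) (F φ : ℝ → ℝ) : scTr m s (fun z => F z + c) φ = scTr m s F φ := by
  funext z
  have e : (fun y => φ y * Real.exp (m * (F y + c)))
      = fun y => Real.exp (m * c) * (φ y * Real.exp (m * F y)) := by
    funext y
    have : Real.exp (m * (F y + c)) = Real.exp (m * c) * Real.exp (m * F y) := by
      rw [← Real.exp_add]; congr 1; ring
    rw [this]; ring
  simp only [scTr]
  rw [sc_W_add_const, e, sc_heat_const_mul]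
  exact mul_div_mul_left _ _ (Real.exp_pos _).ne'

theorem sc_W_step {F : ℝ → ℝ} (hF : ScB 1 F) (m : ℝ) {s s' : ℝ} (hs : 0 ≤ s) (hs' : 0 ≤ s') :
    scW m s (scStep m s' F) = scW m (s + s') F := by
  funext z
  have e : (fun y => Real.exp (m * scStep m s' F y)) = scHeat s' (fun y => Real.exp (m * F y)) := by
    funext y; exact sc_exp_step hF m s' y
  simp only [scW]
  rw [e, sc_heat_heat (sc_expF_E0 hF m) hs hs']

theorem sc_step_step {F : ℝ → ℝ} (hF : ScB 1 F) (m : ℝ) {s s' : ℝ} (hs : 0 ≤ s) (hs' : 0 ≤ s') :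
    scStep m s (scStep m s' F) = scStep m (s + s') F := by
  funext z
  by_cases hm : m = 0
  · subst hm
    have e : scStep 0 s' F = scHeat s' F := by funext y; simp [scStep]
    simp only [scStep, if_true]
    rw [e, sc_heat_heat hF.scE.of_succ hs hs']
  · have := congrFun (sc_W_step hF m hs hs') z
    rw [scStep, if_neg hm, this, scStep, if_neg hm]

theorem sc_tr_tr {F φ : ℝ → ℝ} (hF : ScB 1 F) (hφ : ScE 0 φ) (m : ℝ) {s s' : ℝ} (hs : 0 ≤ s) (hs' : 0 ≤ s') :
    scTr m s (scStep m s' F) (scTr m s' F φ) = scTr m (s + s') F φ := by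
  funext z
  have e : (fun y => scTr m s' F φ y * Real.exp (m * scStep m s' F y))
      = scHeat s' (fun y => φ y * Real.exp (m * F y)) := by
    funext y
    rw [sc_exp_step hF m s' y]
    simp only [scTr]
    exact div_mul_cancel₀ _ (sc_W_pos hF m s' y).ne'
  rw [scTr, e, sc_heat_heat (sc_mulexpF_E0 hF hφ m) hs hs', sc_W_step hF m hs hs', scTr]

theorem sc_tr_const {F : ℝ → ℝ} (hF : ScB 1 F) (m s c : ℝ) : scTr m s F (fun _ => c) = fun _ => c := by
  funext z
  simp only [scTr]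
  rw [sc_heat_const_mul]
  exact mul_div_cancel_right₀ _ (sc_W_pos hF m s z).ne'

theorem sc_tr_add {F φ ψ : ℝ → ℝ} (hF : ScB 1 F) (hφ : ScE 0 φ) (hψ : ScE 0 ψ) (m s : ℝ) :
    scTr m s F (fun z => φ z + ψ z) = fun z => scTr m s F φ z + scTr m s F ψ z := by
  funext z
  have e : (fun y => (φ y + ψ y) * Real.exp (m * F y))
      = fun y => φ y * Real.exp (m * F y) + ψ y * Real.exp (m * F y) := by
    funext y; ring
  simp only [scTr]
  rw [e, sc_heat_add (sc_mulexpF_E0 hF hφ m) (sc_mulexpF_E0 hF hψ m), add_div]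

theorem sc_tr_sub {F φ ψ : ℝ → ℝ} (hF : ScB 1 F) (hφ : ScE 0 φ) (hψ : ScE 0 ψ) (m s : ℝ) :
    scTr m s F (fun z => φ z - ψ z) = fun z => scTr m s F φ z - scTr m s F ψ z := by
  funext z
  have e : (fun y => (φ y - ψ y) * Real.exp (m * F y))
      = fun y => φ y * Real.exp (m * F y) - ψ y * Real.exp (m * F y) := by
    funext y; ring
  simp only [scTr]
  rw [e, sc_heat_sub (sc_mulexpF_E0 hF hφ m) (sc_mulexpF_E0 hF hψ m), sub_div]

theorem sc_tr_const_mul (m s c : ℝ) (F φ : ℝ → ℝ) :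
    scTr m s F (fun z => c * φ z) = fun z => c * scTr m s F φ z := by
  funext z
  have e : (fun y => c * φ y * Real.exp (m * F y)) = fun y => c * (φ y * Real.exp (m * F y)) := by
    funext y; ring
  simp only [scTr]
  rw [e, sc_heat_const_mul, mul_div_assoc]

theorem sc_tr_mono {F φ ψ : ℝ → ℝ} (hF : ScB 1 F) (hφ : ScE 0 φ) (hψ : ScE 0 ψ) (h : ∀ z, φ z ≤ ψ z) (m s z : ℝ) :
    scTr m s F φ z ≤ scTr m s F ψ z := by
  exact div_le_div_of_nonneg_right
    (sc_heat_mono (hφ.mul_exp hF hF.of_succ m) (hψ.mul_exp hF hF.of_succ m)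
      (fun y => mul_le_mul_of_nonneg_right (h y) (Real.exp_pos _).le) s z) (sc_W_pos hF m s z).le

theorem sc_tr_pos {F φ : ℝ → ℝ} (hF : ScB 1 F) (hφ : ScE 0 φ) (h : ∀ z, 0 < φ z) (m s z : ℝ) :
    0 < scTr m s F φ z := by
  exact div_pos (sc_heat_pos (hφ.mul_exp hF hF.of_succ m) (fun y => mul_pos (h y) (Real.exp_pos _)) s z)
    (sc_W_pos hF m s z)

theorem sc_tr_abs_le {F φ : ℝ → ℝ} (hF : ScB 1 F) (hφ : Continuous φ) {C : ℝ} (h : ∀ z, |φ z| ≤ C) (m s z : ℝ) :
    |scTr m s F φ z| ≤ C := by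
  have hE : ScE 0 φ := ⟨hφ, ScG.of_bdd h⟩
  have h1 := sc_tr_mono hF hE (ScE.const 0 C) (fun y => (abs_le.1 (h y)).2) m s z
  have h2 := sc_tr_mono hF (ScE.const 0 (-C)) hE (fun y => (abs_le.1 (h y)).1) m s z
  rw [sc_tr_const hF m s C] at h1
  rw [sc_tr_const hF m s (-C)] at h2
  exact abs_le.2 ⟨h2, h1⟩

/-- Cauchy-Schwarz -/
theorem sc_tr_mul_sq_le {F φ ψ : ℝ → ℝ} (hF : ScB 1 F) (hφ : ScE 0 φ) (hψ : ScE 0 ψ) (m s z : ℝ) :
    scTr m s F (fun y => φ y * ψ y) z ^ 2 ≤ scTr m s F (fun y => φ y ^ 2) z * scTr m s F (fun y => ψ y ^ 2) z := by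
  have key : ∀ t : ℝ, 0 ≤ scTr m s F (fun y => ψ y ^ 2) z * (t * t) + 2 * scTr m s F (fun y => φ y * ψ y) z * t
      + scTr m s F (fun y => φ y ^ 2) z := by
    intro t
    have h0 : scTr m s F (fun _ => (0 : ℝ)) z ≤ scTr m s F (fun y => (φ y + t * ψ y) ^ 2) z :=
      sc_tr_mono hF (ScE.const 0 0) ((hφ.add (hψ.const_mul t)).pow 2) (fun y => sq_nonneg _) m s z
    rw [sc_tr_const hF m s 0] at h0
    have e : (fun y => (φ y + t * ψ y) ^ 2)
        = fun y => (φ y ^ 2 + (2 * t) * (φ y * ψ y)) + (t * t) * ψ y ^ 2 := by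
      funext y; ring
    rw [e, sc_tr_add hF ((hφ.pow 2).add ((hφ.mul hψ).const_mul (2 * t))) ((hψ.pow 2).const_mul (t * t)) m s] at h0
    simp only at h0
    rw [sc_tr_add hF (hφ.pow 2) ((hφ.mul hψ).const_mul (2 * t)) m s, sc_tr_const_mul, sc_tr_const_mul] at h0
    simp only at h0
    linarith
  have hd := discrim_le_zero key
  unfold discrim at hd
  nlinarith

theorem sc_tr_sq_le {F φ : ℝ → ℝ} (hF : ScB 1 F) (hφ : ScE 0 φ) (m s z : ℝ) :
    scTr m s F φ z ^ 2 ≤ scTr m s F (fun y => φ y ^ 2) z := by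
  have h := sc_tr_mul_sq_le hF hφ (ScE.const 0 1) m s z
  have e1 : (fun y => φ y * (1 : ℝ)) = φ := by funext y; simp
  have e2 : (fun _ : ℝ => (1 : ℝ) ^ 2) = fun _ => 1 := by funext y; simp
  rw [e1, e2, sc_tr_const hF m s 1, mul_one] at h
  exact h

theorem sc_step_even {F : ℝ → ℝ} (h : ∀ z, F (-z) = F z) (m s z : ℝ) : scStep m s F (-z) = scStep m s F z := by
  have hW : scW m s F (-z) = scW m s F z :=
    sc_heat_even (f := fun y => Real.exp (m * F y)) (fun y => by rw [h]) s z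
  unfold scStep
  split_ifs
  · exact sc_heat_even h s z
  · rw [hW]

theorem sc_tr_even {F φ : ℝ → ℝ} (h : ∀ z, F (-z) = F z) (hφ : ∀ z, φ (-z) = φ z) (m s z : ℝ) :
    scTr m s F φ (-z) = scTr m s F φ z := by
  have hW : scW m s F (-z) = scW m s F z :=
    sc_heat_even (f := fun y => Real.exp (m * F y)) (fun y => by rw [h]) s z
  unfold scTr
  rw [hW, sc_heat_even (f := fun y => φ y * Real.exp (m * F y)) (fun y => by rw [h, hφ]) s z]

theorem sc_tr_odd {F φ : ℝ → ℝ} (h : ∀ z, F (-z) = F z) (hφ : ∀ z, φ (-z) = - φ z) (m s z : ℝ) :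
    scTr m s F φ (-z) = - scTr m s F φ z := by
  have hW : scW m s F (-z) = scW m s F z :=
    sc_heat_even (f := fun y => Real.exp (m * F y)) (fun y => by rw [h]) s z
  unfold scTr
  rw [hW, sc_heat_odd (f := fun y => φ y * Real.exp (m * F y)) (fun y => by rw [h, hφ, neg_mul]) s z, neg_div]

/-- on odd functions the transition is given by the positive Dirichlet kernel on the half line -/
theorem sc_tr_odd_kernel {F φ : ℝ → ℝ} (hF : ScB 1 F) (h : ∀ z, F (-z) = F z) (hφ : ScE 0 φ)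
    (hodd : ∀ z, φ (-z) = - φ z) (m : ℝ) {s : ℝ} (hs : 0 < s) (z : ℝ) :
    scTr m s F φ z = (∫ y in Ioi (0 : ℝ), φ y * Real.exp (m * F y) * scK s z y) / scW m s F z := by
  unfold scTr
  rw [sc_heat_odd_kernel (hφ.mul_exp hF hF.of_succ m) (fun y => by rw [h, hodd, neg_mul]) hs z]

/-- the explicit annealed step: mass `a`, continuation `a⁻¹ log cosh (a z)` -/
theorem sc_step_logcosh {a : ℝ} (ha : a ≠ 0) {s : ℝ} (hs : 0 ≤ s) :
    scStep a s (fun z => a⁻¹ * Real.log (Real.cosh (a * z))) =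
      fun z => a⁻¹ * Real.log (Real.cosh (a * z)) + a * s / 2 := by
  funext z
  have e : (fun y => Real.exp (a * (a⁻¹ * Real.log (Real.cosh (a * y))))) = fun y => Real.cosh (a * y) := by
    funext y
    rw [← mul_assoc, mul_inv_cancel₀ ha, one_mul, Real.exp_log (Real.cosh_pos _)]
  unfold scStep scW
  rw [if_neg ha, e, sc_heat_cosh hs, Real.log_mul (Real.exp_pos _).ne' (Real.cosh_pos _).ne', Real.log_exp]
  field_simp
  ring

/-! ## C. space derivatives -/

theorem sc_W_hasDerivAt {F : ℝ → ℝ} (hF : ScB 1 F) (m s z : ℝ) :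
    HasDerivAt (scW m s F) (scHeat s (fun y => m * deriv F y * Real.exp (m * F y)) z) z := by
  have h1 : ScE 1 (fun y => Real.exp (m * F y)) := hF.exp m
  have h2 : deriv (fun y => Real.exp (m * F y)) = fun y => m * deriv F y * Real.exp (m * F y) := by
    funext y
    have hd : HasDerivAt F (deriv F y) y := (hF.1 y).hasDerivAt
    have := ((hd.const_mul m).exp).deriv
    rw [this]; ring
  have h3 := sc_heat_hasDerivAt h1 s z
  rw [h2] at h3
  exact h3

theorem sc_step_hasDerivAt {F : ℝ → ℝ} (hF : ScB 1 F) (m s z : ℝ) :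
    HasDerivAt (scStep m s F) (scTr m s F (deriv F) z) z := by
  by_cases hm : m = 0
  · subst hm
    have h1 : scStep 0 s F = scHeat s F := by
      funext y; simp [scStep]
    rw [h1, sc_tr_mass_zero]
    exact sc_heat_hasDerivAt hF.scE s z
  · have h1 : scStep m s F = fun y => m⁻¹ * Real.log (scW m s F y) := by
      funext y; simp [scStep, hm]
    rw [h1]
    have hW := sc_W_hasDerivAt hF m s z
    have hpos := sc_W_pos hF m s z
    have h2 := (hW.log hpos.ne').const_mul m⁻¹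
    refine h2.congr_deriv ?_
    have h3 : (fun y => m * deriv F y * Real.exp (m * F y)) = fun y => m * (deriv F y * Real.exp (m * F y)) := by
      funext y; ring
    rw [h3, sc_heat_const_mul]
    unfold scTr
    field_simp

theorem sc_step_deriv {F : ℝ → ℝ} (hF : ScB 1 F) (m s : ℝ) : deriv (scStep m s F) = scTr m s F (deriv F) :=
  funext fun z => (sc_step_hasDerivAt hF m s z).deriv

theorem sc_tr_hasDerivAt {F φ : ℝ → ℝ} (hF : ScB 1 F) (hφ : ScE 1 φ) (m s z : ℝ) :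
    HasDerivAt (scTr m s F φ)
      (scTr m s F (deriv φ) z
        + m * (scTr m s F (fun y => φ y * deriv F y) z - scTr m s F φ z * scTr m s F (deriv F) z)) z := by
  have hE : ScE 1 (fun y => Real.exp (m * F y)) := hF.exp m
  have hN : ScE 1 (fun y => φ y * Real.exp (m * F y)) := hφ.mul hE
  have hF' : ScE 0 (deriv F) := (hF.scE).deriv
  have hdN : deriv (fun y => φ y * Real.exp (m * F y)) =
      fun y => deriv φ y * Real.exp (m * F y) + m * (φ y * deriv F y * Real.exp (m * F y)) := by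
    funext y
    have hd : HasDerivAt F (deriv F y) y := (hF.1 y).hasDerivAt
    have hp : HasDerivAt φ (deriv φ y) y := (hφ.differentiable y).hasDerivAt
    have : HasDerivAt (fun y => φ y * Real.exp (m * F y)) _ y := hp.fun_mul ((hd.const_mul m).exp)
    rw [this.deriv]; ring
  have h1 := sc_heat_hasDerivAt hN s z
  rw [hdN] at h1
  have hA : ScE 0 (fun y => deriv φ y * Real.exp (m * F y)) := hφ.deriv.mul hE.of_succ
  have hB : ScE 0 (fun y => φ y * deriv F y * Real.exp (m * F y)) := (hφ.of_succ.mul hF').mul hE.of_succ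
  have h2 : scHeat s (fun y => deriv φ y * Real.exp (m * F y) + m * (φ y * deriv F y * Real.exp (m * F y))) z
      = scHeat s (fun y => deriv φ y * Real.exp (m * F y)) z
        + m * scHeat s (fun y => φ y * deriv F y * Real.exp (m * F y)) z := by
    have := congrFun (sc_heat_add hA (hB.const_mul m) s) z
    rw [this, sc_heat_const_mul]
  rw [h2] at h1
  have hW := sc_W_hasDerivAt hF m s z
  have h3 : (fun y => m * deriv F y * Real.exp (m * F y)) = fun y => m * (deriv F y * Real.exp (m * F y)) := by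
    funext y; ring
  rw [h3, sc_heat_const_mul] at hW
  have hpos := sc_W_pos hF m s z
  have h4 := h1.div hW hpos.ne'
  have h5 : scTr m s F φ = fun y => scHeat s (fun y => φ y * Real.exp (m * F y)) y / scW m s F y := by
    funext y; rfl
  rw [h5]
  refine HasDerivAt.congr_deriv (f' := _) h4 ?_
  unfold scTr
  field_simp
  ring

/-- second derivative of a step -/
theorem sc_step_deriv2 {F : ℝ → ℝ} (hF : ScB 2 F) (m s z : ℝ) :
    deriv (deriv (scStep m s F)) z = scTr m s F (deriv (deriv F)) z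
      + m * (scTr m s F (fun y => deriv F y ^ 2) z - scTr m s F (deriv F) z ^ 2) := by
  rw [sc_step_deriv hF.of_succ]
  have h1 : ScE 1 (deriv F) := (hF.scE).deriv
  rw [(sc_tr_hasDerivAt hF.of_succ h1 m s z).deriv]
  have h2 : (fun y => deriv F y * deriv F y) = fun y => deriv F y ^ 2 := by
    funext y; ring
  rw [h2]; ring

theorem sc_heat_max_zero (s : ℝ) (f : ℝ → ℝ) : scHeat s f = scHeat (max s 0) f := by
  rcases le_total 0 s with h | h
  · rw [max_eq_left h]
  · rw [max_eq_right h]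
    funext z
    unfold scHeat
    rw [Real.sqrt_eq_zero_of_nonpos h, Real.sqrt_zero]

theorem sc_tr_deriv_eq {F φ : ℝ → ℝ} (hF : ScB 1 F) (hφ : ScE 1 φ) (m s : ℝ) :
    deriv (scTr m s F φ) = fun z => scTr m s F (deriv φ) z
        + m * (scTr m s F (fun y => φ y * deriv F y) z - scTr m s F φ z * scTr m s F (deriv F) z) :=
  funext fun z => (sc_tr_hasDerivAt hF hφ m s z).deriv

theorem sc_tr_E_zero {F φ : ℝ → ℝ} (hF : ScB 1 F) (hφ : ScE 0 φ) (m s : ℝ) : ScE 0 (scTr m s F φ) := by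
  have hE : ScE 1 (fun y => Real.exp (m * F y)) := hF.exp m
  have hN : ScE 0 (scHeat s (fun y => φ y * Real.exp (m * F y))) := sc_heat_E (hφ.mul hE.of_succ) s
  have hW : ScE 0 (scW m s F) := sc_heat_E hE.of_succ s
  refine ⟨?_, ?_⟩
  · have : scTr m s F φ = fun y => scHeat s (fun y => φ y * Real.exp (m * F y)) y / scW m s F y := by
      funext y; rfl
    rw [this]
    exact hN.1.div hW.1 (fun y => (sc_W_pos hF m s y).ne')
  · obtain ⟨C, c, hC⟩ := hN.2
    obtain ⟨C', c', hC'⟩ := sc_W_inv_growth hF m (max s 0)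
    refine ⟨C * C', c + c', fun z => ?_⟩
    have h1 : (scW m s F z)⁻¹ ≤ C' * Real.exp (c' * |z|) := by
      have := hC' (max s 0) ⟨le_max_right _ _, le_rfl⟩ z
      unfold scW at this ⊢
      rwa [← sc_heat_max_zero] at this
    have hpos := sc_W_pos hF m s z
    unfold scTr
    rw [div_eq_mul_inv, abs_mul, abs_of_pos (inv_pos.mpr hpos)]
    calc |scHeat s (fun y => φ y * Real.exp (m * F y)) z| * (scW m s F z)⁻¹
        ≤ (C * Real.exp (c * |z|)) * (C' * Real.exp (c' * |z|)) :=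
          mul_le_mul (hC z) h1 (inv_pos.mpr hpos).le ((abs_nonneg _).trans (hC z))
      _ = C * C' * Real.exp ((c + c') * |z|) := by
          rw [add_mul, Real.exp_add]; ring

theorem sc_tr_E {n : ℕ} {F φ : ℝ → ℝ} (hF : ScB (n + 1) F) (hφ : ScE n φ) (m s : ℝ) : ScE n (scTr m s F φ) := by
  induction n generalizing φ with
  | zero => exact sc_tr_E_zero hF hφ m s
  | succ n ih =>
    have hF1 : ScB 1 F := hF.mono (by omega)
    have hφ1 : ScE 1 φ := hφ.mono (by omega)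
    have h0 := ih hF.of_succ hφ.of_succ
    have hF' : ScE n (deriv F) := (hF.scE).deriv.of_succ
    refine ⟨h0.continuous, h0.growth, fun z => (sc_tr_hasDerivAt hF1 hφ1 m s z).differentiableAt, ?_⟩
    rw [sc_tr_deriv_eq hF1 hφ1]
    exact (ih hF.of_succ hφ.deriv).add
      (((ih hF.of_succ (hφ.of_succ.mul hF')).sub (h0.mul (ih hF.of_succ hF'))).const_mul m)

theorem sc_tr_Bd {n : ℕ} {F φ : ℝ → ℝ} (hF : ScB (n + 1) F) (hφ : ScBd n φ) (m s : ℝ) :
    ScBd n (scTr m s F φ) := by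
  induction n generalizing φ with
  | zero =>
    obtain ⟨C, hC⟩ := hφ.1
    exact ⟨⟨C, fun z => sc_tr_abs_le hF hφ.2 hC m s z⟩, (sc_tr_E_zero hF hφ.scE m s).1⟩
  | succ n ih =>
    have hF1 : ScB 1 F := hF.mono (by omega)
    have hφ1 : ScE 1 φ := hφ.scE.mono (by omega)
    have h0 := ih hF.of_succ hφ.of_succ
    have hF' : ScBd n (deriv F) := hF.deriv_bd.of_succ
    have hd : ScBd n (deriv (scTr m s F φ)) := by
      rw [sc_tr_deriv_eq hF1 hφ1]
      exact (ih hF.of_succ hφ.deriv).add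
        (((ih hF.of_succ (hφ.of_succ.mul hF')).sub (h0.mul (ih hF.of_succ hF'))).const_mul m)
    exact ⟨h0.1, fun z => (sc_tr_hasDerivAt hF1 hφ1 m s z).differentiableAt, hd.1, hd.2⟩

theorem sc_step_B {n : ℕ} {F : ℝ → ℝ} (hF : ScB (n + 1) F) (m s : ℝ) : ScB (n + 1) (scStep m s F) := by
  have hF1 : ScB 1 F := hF.mono (by omega)
  have hd : ScBd n (deriv (scStep m s F)) := by
    rw [sc_step_deriv hF1]
    exact sc_tr_Bd hF hF.deriv_bd m s
  exact ⟨fun z => (sc_step_hasDerivAt hF1 m s z).differentiableAt, hd.1, hd.2⟩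

theorem sc_step_deriv_le {F : ℝ → ℝ} (hF : ScB 1 F) {L : ℝ} (h : ∀ z, |deriv F z| ≤ L) (m s z : ℝ) :
    |deriv (scStep m s F) z| ≤ L := by
  rw [sc_step_deriv hF]
  exact sc_tr_abs_le hF hF.2.2 h m s z

theorem sc_step_convex {F : ℝ → ℝ} (hF : ScB 2 F) (h : ∀ z, 0 ≤ deriv (deriv F) z) {m : ℝ} (hm : 0 ≤ m) (s z : ℝ) :
    0 ≤ deriv (deriv (scStep m s F)) z := by
  rw [sc_step_deriv2 hF]
  have hF1 : ScB 1 F := hF.of_succ
  have h1 : ScE 0 (deriv (deriv F)) := (hF.scE).deriv.deriv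
  have h2 : ScE 0 (deriv F) := (hF.scE).deriv.of_succ
  have h3 : 0 ≤ scTr m s F (deriv (deriv F)) z := by
    have := sc_tr_mono hF1 (ScE.const 0 0) h1 h m s z
    rwa [sc_tr_const hF1] at this
  have h4 := sc_tr_sq_le hF1 h2 m s z
  have h5 : 0 ≤ m * (scTr m s F (fun y => deriv F y ^ 2) z - scTr m s F (deriv F) z ^ 2) :=
    mul_nonneg hm (by linarith)
  linarith

theorem sc_step_strict_convex {F : ℝ → ℝ} (hF : ScB 2 F) (h : ∀ z, 0 < deriv (deriv F) z) {m : ℝ} (hm : 0 ≤ m)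
    (s z : ℝ) : 0 < deriv (deriv (scStep m s F)) z := by
  rw [sc_step_deriv2 hF]
  have hF1 : ScB 1 F := hF.of_succ
  have h1 : ScE 0 (deriv (deriv F)) := (hF.scE).deriv.deriv
  have h2 : ScE 0 (deriv F) := (hF.scE).deriv.of_succ
  have h3 : 0 < scTr m s F (deriv (deriv F)) z := sc_tr_pos hF1 h1 h m s z
  have h4 := sc_tr_sq_le hF1 h2 m s z
  have h5 : 0 ≤ m * (scTr m s F (fun y => deriv F y ^ 2) z - scTr m s F (deriv F) z ^ 2) :=
    mul_nonneg hm (by linarith)
  linarith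

/-! ## D. the step as a function of the time `r ∈ [t₀, t₁]` -/

/-- `ScT I n` only looks at the times `r ∈ I` -/
theorem sc_T_congr {I : Set ℝ} {n : ℕ} {ψ χ : ℝ → ℝ → ℝ} (hψ : ScT I n ψ) (h : ∀ r ∈ I, χ r = ψ r) :
    ScT I n χ := by
  induction n generalizing ψ χ with
  | zero =>
    refine ⟨hψ.1.congr fun p hp => by rw [h p.1 hp.1], ?_⟩
    obtain ⟨C, c, hC⟩ := hψ.2
    exact ⟨C, c, fun r hr z => by rw [h r hr]; exact hC r hr z⟩
  | succ n ih =>
    refine ⟨hψ.1.congr fun p hp => by rw [h p.1 hp.1], ?_, fun r hr => by rw [h r hr]; exact hψ.2.2.1 r hr,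
      ih hψ.2.2.2 fun r hr => by rw [h r hr]⟩
    obtain ⟨C, c, hC⟩ := hψ.2.1
    exact ⟨C, c, fun r hr z => by rw [h r hr]; exact hC r hr z⟩

theorem sc_T_deriv {I : Set ℝ} {n : ℕ} {ψ : ℝ → ℝ → ℝ} (h : ScT I (n + 1) ψ) :
    ScT I n (fun r => deriv (ψ r)) := h.2.2.2

theorem sc_T_iter {I : Set ℝ} {n : ℕ} (k : ℕ) {ψ : ℝ → ℝ → ℝ} (h : ScT I (n + k) ψ) :
    ScT I n (fun r => deriv^[k] (ψ r)) := by
  induction k generalizing ψ with
  | zero => exact h
  | succ k ih =>
    have : ScT I (n + k) (fun r => deriv (ψ r)) := sc_T_deriv (by simpa [add_assoc] using h)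
    simpa only [Function.iterate_succ_apply] using ih this

theorem sc_W_invGU {F : ℝ → ℝ} (hF : ScB 1 F) (m t₀ t₁ : ℝ) :
    ScGU (Icc t₀ t₁) (fun r z => (scW m (t₁ - r) F z)⁻¹) := by
  obtain ⟨C, c, h⟩ := sc_W_inv_growth hF m (t₁ - t₀)
  refine ⟨C, c, fun r hr z => ?_⟩
  rw [abs_of_pos (inv_pos.2 (sc_W_pos hF m _ z))]
  exact h _ ⟨by linarith [hr.2], by linarith [hr.1]⟩ z

theorem sc_W_T {n : ℕ} {F : ℝ → ℝ} (hF : ScB (n + 1) F) (m t₀ t₁ : ℝ) :
    ScT (Icc t₀ t₁) (n + 1) (fun r => scW m (t₁ - r) F) := by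
  exact sc_heat_T (hF.exp m) t₀ t₁

theorem sc_step_T {n : ℕ} {F : ℝ → ℝ} (hF : ScB (n + 1) F) (m t₀ t₁ : ℝ) :
    ScT (Icc t₀ t₁) (n + 1) (fun r => scStep m (t₁ - r) F) := by
  have hF1 : ScB 1 F := hF.mono (by omega)
  by_cases hm : m = 0
  · have : (fun r => scStep m (t₁ - r) F) = fun r => scHeat (t₁ - r) F := by
      funext r z; simp [scStep, hm]
    rw [this]
    exact sc_heat_T hF.scE t₀ t₁
  · have : (fun r => scStep m (t₁ - r) F) = fun r z => m⁻¹ * Real.log (scW m (t₁ - r) F z) := by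
      funext r z; simp [scStep, hm]
    rw [this]
    exact ((sc_W_T hF m t₀ t₁).log (fun r _ z => sc_W_pos hF1 m _ z) (sc_W_invGU hF1 m t₀ t₁)).const_mul m⁻¹

/-- backward transition `r ↦ E[ψ(Z_{t₁}) | Z_r = z]` -/
theorem sc_tr_T {n : ℕ} {F ψ : ℝ → ℝ} (hF : ScB (n + 1) F) (hψ : ScE n ψ) (m t₀ t₁ : ℝ) :
    ScT (Icc t₀ t₁) n (fun r => scTr m (t₁ - r) F ψ) := by
  have hF1 : ScB 1 F := hF.mono (by omega)
  have h1 : ScT (Icc t₀ t₁) n (fun r => scHeat (t₁ - r) (fun y => ψ y * Real.exp (m * F y))) :=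
    sc_heat_T (hψ.mul (hF.exp m).of_succ) t₀ t₁
  have h2 := (sc_W_T hF m t₀ t₁).of_succ.inv (fun r _ z => sc_W_pos hF1 m _ z) (sc_W_invGU hF1 m t₀ t₁)
  refine sc_T_congr (h1.mul h2) fun r _ => ?_
  funext z
  rw [scTr, div_eq_mul_inv]

/-- inside a step: `E[g(Z_r) | Z_{t₀} = z] = heat (r - t₀) (g W_r) z / W_{t₀} z` -/
theorem sc_tr_fwd_eq {F : ℝ → ℝ} (hF : ScB 1 F) (m : ℝ) {t₀ t₁ r : ℝ} (hr : r ∈ Icc t₀ t₁) (g : ℝ → ℝ) (z : ℝ) :
    scTr m (r - t₀) (scStep m (t₁ - r) F) g z =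
      scHeat (r - t₀) (fun y => g y * scW m (t₁ - r) F y) z * (scW m (t₁ - t₀) F z)⁻¹ := by
  have e1 : (fun y => Real.exp (m * scStep m (t₁ - r) F y)) = scW m (t₁ - r) F :=
    funext fun y => sc_exp_step hF m _ y
  have e2 : scW m (r - t₀) (scStep m (t₁ - r) F) = scW m (t₁ - t₀) F := by
    funext y
    have := sc_heat_heat (hF.exp m).of_succ (s := r - t₀) (s' := t₁ - r) (by linarith [hr.1])
      (by linarith [hr.2])
    have e3 : r - t₀ + (t₁ - r) = t₁ - t₀ := by ring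
    rw [e3] at this
    show scHeat (r - t₀) (fun y => Real.exp (m * scStep m (t₁ - r) F y)) y = _
    rw [e1]
    exact congrFun this y
  have e4 : (fun y => g y * Real.exp (m * scStep m (t₁ - r) F y)) = fun y => g y * scW m (t₁ - r) F y := by
    funext y; rw [sc_exp_step hF m _ y]
  rw [scTr, e2, e4, div_eq_mul_inv]

/-- forward transition of a time dependent test function `r ↦ E[φ_r(Z_r) | Z_{t₀} = z]` -/
theorem sc_tr_T' {n : ℕ} {F : ℝ → ℝ} {φ : ℝ → ℝ → ℝ} (hF : ScB (n + 1) F) (m t₀ t₁ : ℝ)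
    (hφ : ScT (Icc t₀ t₁) n φ) :
    ScT (Icc t₀ t₁) n (fun r => scTr m (r - t₀) (scStep m (t₁ - r) F) (φ r)) := by
  have hF1 : ScB 1 F := hF.mono (by omega)
  have h1 : ScT (Icc t₀ t₁) n (fun r => scHeat (r - t₀) (fun y => φ r y * scW m (t₁ - r) F y)) :=
    sc_heat_T_time (hφ.mul (sc_W_T hF m t₀ t₁).of_succ)
  have h2 : ScT (Icc t₀ t₁) n (fun _ z => (scW m (t₁ - t₀) F z)⁻¹) := by
    have h3 : ScT (Icc t₀ t₁) n (fun _ => scW m (t₁ - t₀) F) :=
      ((sc_heat_E (hF.exp m) (t₁ - t₀)).of_succ).scT _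
    refine h3.inv (fun _ _ z => sc_W_pos hF1 m _ z) ?_
    obtain ⟨C, c, h⟩ := sc_W_invGU hF1 m t₀ t₁
    by_cases hle : t₀ ≤ t₁
    · exact ⟨C, c, fun _ _ z => h t₀ ⟨le_rfl, hle⟩ z⟩
    · exact ⟨0, 0, fun r hr z => absurd (hr.1.trans hr.2) hle⟩
  refine sc_T_congr (h1.mul h2) fun r hr => ?_
  funext z
  exact sc_tr_fwd_eq hF1 m hr (φ r) z

/-- a family of functions, bounded with `n` derivatives, uniformly in the parameter -/
def ScBU : ℕ → (ℝ → ℝ → ℝ) → Prop
  | 0, Φ => ∃ C : ℝ, ∀ s z, |Φ s z| ≤ C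
  | n + 1, Φ => (∃ C : ℝ, ∀ s z, |Φ s z| ≤ C) ∧ (∀ s, Differentiable ℝ (Φ s)) ∧
      ScBU n (fun s => deriv (Φ s))

theorem ScBU.bdd {n : ℕ} {Φ : ℝ → ℝ → ℝ} (h : ScBU n Φ) : ∃ C : ℝ, ∀ s z, |Φ s z| ≤ C := by
  cases n with
  | zero => exact h
  | succ n => exact h.1

theorem ScBU.of_succ {n : ℕ} {Φ : ℝ → ℝ → ℝ} (h : ScBU (n + 1) Φ) : ScBU n Φ := by
  induction n generalizing Φ with
  | zero => exact h.1
  | succ n ih => exact ⟨h.1, h.2.1, ih h.2.2⟩

theorem ScBU.add {n : ℕ} {Φ Ψ : ℝ → ℝ → ℝ} (hΦ : ScBU n Φ) (hΨ : ScBU n Ψ) :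
    ScBU n (fun s z => Φ s z + Ψ s z) := by
  induction n generalizing Φ Ψ with
  | zero =>
    obtain ⟨C, hC⟩ := hΦ
    obtain ⟨D, hD⟩ := hΨ
    exact ⟨C + D, fun s z => (abs_add_le _ _).trans (add_le_add (hC s z) (hD s z))⟩
  | succ n ih =>
    obtain ⟨C, hC⟩ := hΦ.1
    obtain ⟨D, hD⟩ := hΨ.1
    refine ⟨⟨C + D, fun s z => (abs_add_le _ _).trans (add_le_add (hC s z) (hD s z))⟩,
      fun s => (hΦ.2.1 s).add (hΨ.2.1 s), ?_⟩
    have : (fun s => deriv (fun z => Φ s z + Ψ s z)) = fun s z => deriv (Φ s) z + deriv (Ψ s) z := by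
      funext s z
      exact deriv_fun_add (hΦ.2.1 s z) (hΨ.2.1 s z)
    rw [this]
    exact ih hΦ.2.2 hΨ.2.2

theorem ScBU.const_mul {n : ℕ} {Φ : ℝ → ℝ → ℝ} (c : ℝ) (hΦ : ScBU n Φ) :
    ScBU n (fun s z => c * Φ s z) := by
  induction n generalizing Φ with
  | zero =>
    obtain ⟨C, hC⟩ := hΦ
    exact ⟨|c| * C, fun s z => by rw [abs_mul]; exact mul_le_mul_of_nonneg_left (hC s z) (abs_nonneg c)⟩
  | succ n ih =>
    obtain ⟨C, hC⟩ := hΦ.1
    refine ⟨⟨|c| * C, fun s z => by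
      rw [abs_mul]; exact mul_le_mul_of_nonneg_left (hC s z) (abs_nonneg c)⟩,
      fun s => (hΦ.2.1 s).const_mul c, ?_⟩
    have : (fun s => deriv (fun z => c * Φ s z)) = fun s z => c * deriv (Φ s) z := by
      funext s z
      exact deriv_const_mul c (hΦ.2.1 s z)
    rw [this]
    exact ih hΦ.2.2

theorem ScBU.mul {n : ℕ} {Φ Ψ : ℝ → ℝ → ℝ} (hΦ : ScBU n Φ) (hΨ : ScBU n Ψ) :
    ScBU n (fun s z => Φ s z * Ψ s z) := by
  induction n generalizing Φ Ψ with
  | zero =>
    obtain ⟨C, hC⟩ := hΦ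
    obtain ⟨D, hD⟩ := hΨ
    exact ⟨C * D, fun s z => by
      rw [abs_mul]
      exact mul_le_mul (hC s z) (hD s z) (abs_nonneg _) ((abs_nonneg _).trans (hC s z))⟩
  | succ n ih =>
    obtain ⟨C, hC⟩ := hΦ.1
    obtain ⟨D, hD⟩ := hΨ.1
    refine ⟨⟨C * D, fun s z => by
      rw [abs_mul]
      exact mul_le_mul (hC s z) (hD s z) (abs_nonneg _) ((abs_nonneg _).trans (hC s z))⟩,
      fun s => (hΦ.2.1 s).mul (hΨ.2.1 s), ?_⟩
    have : (fun s => deriv (fun z => Φ s z * Ψ s z))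
        = fun s z => deriv (Φ s) z * Ψ s z + Φ s z * deriv (Ψ s) z := by
      funext s z
      exact deriv_fun_mul (hΦ.2.1 s z) (hΨ.2.1 s z)
    rw [this]
    exact (ih hΦ.2.2 hΨ.of_succ).add (ih hΦ.of_succ hΨ.2.2)

theorem ScBU.iter {n : ℕ} {Φ : ℝ → ℝ → ℝ} (h : ScBU n Φ) (j : ℕ) (hj : j ≤ n) :
    ∃ C : ℝ, ∀ s z, |deriv^[j] (Φ s) z| ≤ C := by
  induction j generalizing n Φ with
  | zero => exact h.bdd
  | succ j ih =>
    obtain ⟨n, rfl⟩ : ∃ n', n = n' + 1 := ⟨n - 1, by omega⟩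
    simpa only [Function.iterate_succ_apply] using ih h.2.2 (by omega)

/-- the planted transition of a bounded function: all derivatives bounded uniformly in the variance -/
theorem sc_tr_BU {n : ℕ} {F φ : ℝ → ℝ} (hF : ScB (n + 1) F) (hφ : ScBd n φ) (m : ℝ) :
    ScBU n (fun s => scTr m s F φ) := by
  induction n generalizing φ with
  | zero =>
    obtain ⟨C, hC⟩ := hφ.1
    exact ⟨C, fun s z => sc_tr_abs_le hF hφ.2 hC m s z⟩
  | succ n ih =>
    have hF1 : ScB 1 F := hF.mono (by omega)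
    have hF' : ScB (n + 1) F := hF.of_succ
    obtain ⟨C, hC⟩ := hφ.1
    have hφ1 : ScE 1 φ := hφ.scE.mono (by omega)
    refine ⟨⟨C, fun s z => sc_tr_abs_le hF1 hφ.scE.continuous hC m s z⟩,
      fun s z => (sc_tr_hasDerivAt hF1 hφ1 m s z).differentiableAt, ?_⟩
    have : (fun s => deriv (scTr m s F φ)) = fun s z => scTr m s F (deriv φ) z
        + m * (scTr m s F (fun y => φ y * deriv F y) z
          + (-1) * (scTr m s F φ z * scTr m s F (deriv F) z)) := by
      funext s z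
      rw [(sc_tr_hasDerivAt hF1 hφ1 m s z).deriv]; ring
    rw [this]
    have hdF : ScBd n (deriv F) := hF.deriv_bd.of_succ
    exact (ih hF' hφ.deriv).add (((ih hF' (hφ.of_succ.mul hdF)).add
      (((ih hF' hφ.of_succ).mul (ih hF' hdF)).const_mul (-1))).const_mul m)

/-- the derivatives of order `1..n+1` of the step are bounded uniformly in the time -/
theorem sc_step_deriv_bdd {n : ℕ} {F : ℝ → ℝ} (hF : ScB (n + 1) F) (m S : ℝ) (k : ℕ) (hk1 : 1 ≤ k)
    (hk : k ≤ n + 1) : ∃ C : ℝ, ∀ s ∈ Icc 0 S, ∀ z, |deriv^[k] (scStep m s F) z| ≤ C := by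
  obtain ⟨j, rfl⟩ : ∃ j, k = j + 1 := ⟨k - 1, by omega⟩
  obtain ⟨C, hC⟩ := (sc_tr_BU hF hF.deriv_bd m).iter j (by omega)
  refine ⟨C, fun s _ z => ?_⟩
  rw [Function.iterate_succ_apply, sc_step_deriv (hF.mono (by omega))]
  exact hC s z

/-- `W' = m V' W` -/
theorem sc_stepD_W_deriv {F : ℝ → ℝ} (hF : ScB 1 F) (m s z : ℝ) :
    deriv (scW m s F) z = m * deriv (scStep m s F) z * scW m s F z := by
  rw [(sc_W_hasDerivAt hF m s z).deriv, sc_step_deriv hF]
  have h : (fun y => m * deriv F y * Real.exp (m * F y)) = fun y => m * (deriv F y * Real.exp (m * F y)) := by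
    funext y; ring
  rw [h, sc_heat_const_mul]
  simp only [scTr]
  have := (sc_W_pos hF m s z).ne'
  field_simp

/-- two space derivatives of the heat flow -/
theorem sc_stepD_heat_deriv2 {f : ℝ → ℝ} (hf : ScE 2 f) (s : ℝ) :
    deriv (deriv (scHeat s f)) = scHeat s (deriv (deriv f)) := by
  rw [sc_heat_deriv hf.of_succ, sc_heat_deriv hf.deriv]

/-- backward heat equation -/
theorem sc_stepD_heat_back {f : ℝ → ℝ} (hf : ScE 2 f) {t₁ r : ℝ} (hr : r < t₁) (z : ℝ) :
    HasDerivAt (fun r => scHeat (t₁ - r) f z) (-(deriv (deriv (scHeat (t₁ - r) f)) z / 2)) r := by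
  have h1 := sc_heat_hasDerivAt_var hf (sub_pos.2 hr) z
  have h2 : HasDerivAt (fun r : ℝ => t₁ - r) (-1) r := by
    simpa using (hasDerivAt_id r).const_sub t₁
  have h3 := h1.scomp r h2
  rw [sc_stepD_heat_deriv2 hf]
  refine h3.congr_deriv ?_
  simp

theorem sc_stepD_expE {F : ℝ → ℝ} (hF : ScB 2 F) (m : ℝ) : ScE 2 (fun z => Real.exp (m * F z)) :=
  ScB.exp (n := 1) hF m

/-- **Parisi PDE inside a step** -/
theorem sc_step_pde {F : ℝ → ℝ} (hF : ScB 2 F) (m : ℝ) {t₁ r : ℝ} (hr : r < t₁) (z : ℝ) :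
    HasDerivAt (fun r => scStep m (t₁ - r) F z)
      (-(deriv (deriv (scStep m (t₁ - r) F)) z + m * deriv (scStep m (t₁ - r) F) z ^ 2) / 2) r := by
  have hF1 : ScB 1 F := hF.of_succ
  by_cases h0 : m = 0
  · subst h0
    have e : ∀ s, scStep 0 s F = scHeat s F := fun s => by funext y; simp [scStep]
    simp only [e]
    refine (sc_stepD_heat_back (ScB.scE (n := 1) hF) hr z).congr_deriv ?_
    ring
  · set s := t₁ - r with hs
    have hE := sc_stepD_expE hF m
    have hW : HasDerivAt (fun r => scW m (t₁ - r) F z) (-(deriv (deriv (scW m s F)) z / 2)) r :=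
      sc_stepD_heat_back hE hr z
    have hpos := sc_W_pos hF1 m s z
    have h1 : HasDerivAt (fun r => m⁻¹ * Real.log (scW m (t₁ - r) F z))
        (m⁻¹ * (-(deriv (deriv (scW m s F)) z / 2) / scW m s F z)) r := (hW.log hpos.ne').const_mul _
    have e : (fun r => scStep m (t₁ - r) F z) = fun r => m⁻¹ * Real.log (scW m (t₁ - r) F z) := by
      funext x; simp [scStep, h0]
    rw [e]
    refine h1.congr_deriv ?_
    -- `W'' = (m V'' + m² V'²) W`
    have hWd : deriv (scW m s F) = fun y => m * deriv (scStep m s F) y * scW m s F y :=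
      funext fun y => sc_stepD_W_deriv hF1 m s y
    have hSB : ScB 2 (scStep m s F) := sc_step_B (n := 1) hF m s
    have hd2 : HasDerivAt (deriv (scStep m s F)) (deriv (deriv (scStep m s F)) z) z :=
      (hSB.2.2.1 z).hasDerivAt
    have hWz : HasDerivAt (scW m s F) (m * deriv (scStep m s F) z * scW m s F z) z := by
      rw [← sc_stepD_W_deriv hF1]
      exact (sc_W_hasDerivAt hF1 m s z).differentiableAt.hasDerivAt
    have hW2 : deriv (deriv (scW m s F)) z = m * deriv (deriv (scStep m s F)) z * scW m s F z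
        + m * deriv (scStep m s F) z * (m * deriv (scStep m s F) z * scW m s F z) := by
      rw [hWd]
      exact ((hd2.const_mul m).mul hWz).deriv
    rw [hW2]
    field_simp

/-- time and iterated space derivatives commute -/
theorem sc_stepD_comm_iter {r₀ r₁ : ℝ} (k : ℕ) : ∀ {ψ χ : ℝ → ℝ → ℝ}, ScT (Icc r₀ r₁) k ψ → ScT (Icc r₀ r₁) k χ →
    (∀ r ∈ Ioo r₀ r₁, ∀ y, HasDerivAt (fun r => ψ r y) (χ r y) r) →
    ∀ r ∈ Ioo r₀ r₁, ∀ y, HasDerivAt (fun r => deriv^[k] (ψ r) y) (deriv^[k] (χ r) y) r := by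
  induction k with
  | zero => intro ψ χ _ _ hd; exact hd
  | succ k ih =>
    intro ψ χ hψ hχ hd
    exact ih (ψ := fun r => deriv (ψ r)) (χ := fun r => deriv (χ r)) hψ.2.2.2 hχ.2.2.2
      (fun r hr y => sc_deriv_comm (hψ.mono (Nat.succ_le_succ (Nat.zero_le k)))
        (hχ.mono (Nat.succ_le_succ (Nat.zero_le k))) hd hr y)

/-- the PDE differentiated `k` times in `z` -/
theorem sc_step_pde_iter {F : ℝ → ℝ} (k : ℕ) (hF : ScB (k + 3) F) (m : ℝ) {t₁ r : ℝ} (hr : r < t₁) (z : ℝ) :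
    HasDerivAt (fun r => deriv^[k] (scStep m (t₁ - r) F) z)
      (deriv^[k] (fun y => -(deriv (deriv (scStep m (t₁ - r) F)) y + m * deriv (scStep m (t₁ - r) F) y ^ 2) / 2) z)
      r := by
  have hT : ScT (Icc (r - 1) t₁) (k + 3) (fun r => scStep m (t₁ - r) F) := sc_step_T (n := k + 2) hF m (r - 1) t₁
  have hD1 : ScT (Icc (r - 1) t₁) (k + 2) (fun r => deriv (scStep m (t₁ - r) F)) := hT.2.2.2
  have hD2 : ScT (Icc (r - 1) t₁) (k + 1) (fun r => deriv (deriv (scStep m (t₁ - r) F))) := hD1.2.2.2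
  have hχ : ScT (Icc (r - 1) t₁) (k + 1) (fun r y => -(1 / 2) * (deriv (deriv (scStep m (t₁ - r) F)) y
      + m * deriv (scStep m (t₁ - r) F) y ^ 2)) :=
    (hD2.add ((hD1.of_succ.pow 2).const_mul m)).const_mul _
  have e : (fun (r y : ℝ) => -(1 / 2) * (deriv (deriv (scStep m (t₁ - r) F)) y
      + m * deriv (scStep m (t₁ - r) F) y ^ 2)) = fun r y => -(deriv (deriv (scStep m (t₁ - r) F)) y
      + m * deriv (scStep m (t₁ - r) F) y ^ 2) / 2 := by
    funext r y; ring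
  rw [e] at hχ
  exact sc_stepD_comm_iter k (hT.mono (by omega)) hχ.of_succ
    (fun x hx y => sc_step_pde (hF.mono (by omega)) m hx.2 y) r ⟨by linarith, hr⟩ z

theorem sc_quot_deriv2 {N W N1 N2 W1 W2 : ℝ → ℝ} (hN : ∀ y, HasDerivAt N (N1 y) y)
    (hN1 : ∀ y, HasDerivAt N1 (N2 y) y) (hW : ∀ y, HasDerivAt W (W1 y) y)
    (hW1 : ∀ y, HasDerivAt W1 (W2 y) y) (hpos : ∀ y, 0 < W y) (z : ℝ) :
    deriv (fun y => N y / W y) z = (N1 z * W z - N z * W1 z) / W z ^ 2 ∧
    deriv (deriv (fun y => N y / W y)) z =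
      ((N2 z * W z - N z * W2 z) * W z ^ 2 - (N1 z * W z - N z * W1 z) * (2 * W z * W1 z))
        / (W z ^ 2) ^ 2 := by
  have d1 : ∀ y, HasDerivAt (fun y => N y / W y) ((N1 y * W y - N y * W1 y) / W y ^ 2) y :=
    fun y => (hN y).div (hW y) (hpos y).ne'
  have e1 : deriv (fun y => N y / W y) = fun y => (N1 y * W y - N y * W1 y) / W y ^ 2 :=
    funext fun y => (d1 y).deriv
  refine ⟨(d1 z).deriv, ?_⟩
  rw [e1]
  have hnum : HasDerivAt (fun y => N1 y * W y - N y * W1 y) (N2 z * W z - N z * W2 z) z :=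
    (((hN1 z).mul (hW z)).sub ((hN z).mul (hW1 z))).congr_deriv (by ring)
  have hden : HasDerivAt (fun y => W y ^ 2) (2 * W z * W1 z) z :=
    ((hW z).pow 2).congr_deriv (by simp)
  exact (hnum.div hden (pow_pos (hpos z) 2).ne').deriv

/-- `W_z = m V_z W` -/
theorem sc_W_deriv_eq {F : ℝ → ℝ} (hF : ScB 1 F) (m s z : ℝ) :
    scHeat s (deriv (fun y => Real.exp (m * F y))) z = m * deriv (scStep m s F) z * scW m s F z := by
  have e1 : deriv (fun y => Real.exp (m * F y)) = fun y => m * (deriv F y * Real.exp (m * F y)) := by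
    funext y
    rw [(((hF.1 y).hasDerivAt.const_mul m).exp).deriv]; ring
  rw [e1, sc_heat_const_mul, sc_step_deriv hF, scTr]
  have := (sc_W_pos hF m s z).ne'
  field_simp

/-- backward equation in the variance variable -/
theorem sc_tr_hasDerivAt_var {F ψ : ℝ → ℝ} (hF : ScB 3 F) (hψ : ScE 2 ψ) (m : ℝ) {s : ℝ} (hs : 0 < s)
    (z : ℝ) :
    HasDerivAt (fun s => scTr m s F ψ z)
      (deriv (deriv (scTr m s F ψ)) z / 2 + m * deriv (scStep m s F) z * deriv (scTr m s F ψ) z) s := by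
  have hF1 : ScB 1 F := hF.mono (by omega)
  have hE : ScE 2 (fun y => Real.exp (m * F y)) := (hF.exp m).of_succ
  have hG : ScE 2 (fun y => ψ y * Real.exp (m * F y)) := hψ.mul hE
  have hq := sc_quot_deriv2 (N := scHeat s (fun y => ψ y * Real.exp (m * F y)))
    (W := scHeat s (fun y => Real.exp (m * F y)))
    (fun y => sc_heat_hasDerivAt hG.of_succ s y) (fun y => sc_heat_hasDerivAt hG.deriv s y)
    (fun y => sc_heat_hasDerivAt hE.of_succ s y) (fun y => sc_heat_hasDerivAt hE.deriv s y)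
    (fun y => sc_W_pos hF1 m s y) z
  have e : scTr m s F ψ = fun y => scHeat s (fun y => ψ y * Real.exp (m * F y)) y
      / scHeat s (fun y => Real.exp (m * F y)) y := rfl
  have ht : HasDerivAt (fun s => scHeat s (fun y => ψ y * Real.exp (m * F y)) z
      / scHeat s (fun y => Real.exp (m * F y)) z) _ s :=
    (sc_heat_hasDerivAt_var hG hs z).div (sc_heat_hasDerivAt_var hE hs z) (sc_W_pos hF1 m s z).ne'
  refine HasDerivAt.congr_deriv ht ?_
  rw [e, hq.1, hq.2]
  have hW1 := sc_W_deriv_eq hF1 m s z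
  have hWpos : scHeat s (fun y => Real.exp (m * F y)) z ≠ 0 := (sc_W_pos hF1 m s z).ne'
  have hmV : m * deriv (scStep m s F) z = scHeat s (deriv (fun y => Real.exp (m * F y))) z
      / scHeat s (fun y => Real.exp (m * F y)) z := by
    rw [hW1]
    show _ = m * deriv (scStep m s F) z * scHeat s (fun y => Real.exp (m * F y)) z / _
    field_simp
  rw [hmV]
  field_simp
  ring

/-- backward equation for `h(r, z) = E[ψ(Z_{t₁}) | Z_r = z]` -/
theorem sc_tr_backward {F ψ : ℝ → ℝ} (hF : ScB 3 F) (hψ : ScE 2 ψ) (m : ℝ) {t₁ r : ℝ} (hr : r < t₁) (z : ℝ) :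
    HasDerivAt (fun r => scTr m (t₁ - r) F ψ z)
      (-(deriv (deriv (scTr m (t₁ - r) F ψ)) z / 2
          + m * deriv (scStep m (t₁ - r) F) z * deriv (scTr m (t₁ - r) F ψ) z)) r := by
  have h1 := sc_tr_hasDerivAt_var hF hψ m (s := t₁ - r) (by linarith) z
  have h2 : HasDerivAt (fun r => t₁ - r) (-1) r := by simpa using (hasDerivAt_id r).const_sub t₁
  exact (h1.comp r h2).congr_deriv (by ring)

theorem sc_mul_deriv2 {f g : ℝ → ℝ} (hf : Differentiable ℝ f) (hf' : Differentiable ℝ (deriv f))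
    (hg : Differentiable ℝ g) (hg' : Differentiable ℝ (deriv g)) (y : ℝ) :
    deriv (deriv (fun y => f y * g y)) y =
      deriv (deriv f) y * g y + 2 * (deriv f y * deriv g y) + f y * deriv (deriv g) y := by
  have e1 : deriv (fun y => f y * g y) = fun y => deriv f y * g y + f y * deriv g y :=
    funext fun y => deriv_fun_mul (hf y) (hg y)
  rw [e1]
  have := (((hf' y).hasDerivAt.mul (hg y).hasDerivAt).add ((hf y).hasDerivAt.mul (hg' y).hasDerivAt))
  refine (HasDerivAt.deriv this).trans ?_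
  ring

/-- `W_r = scW m (t₁ - r) F` is backward caloric -/
theorem sc_W_backward {F : ℝ → ℝ} (hF : ScB 2 F) (m : ℝ) {t₁ r : ℝ} (hr : r < t₁) (y : ℝ) :
    HasDerivAt (fun r => scW m (t₁ - r) F y) (-(deriv (deriv (scW m (t₁ - r) F)) y) / 2) r := by
  have hE : ScE 2 (fun y => Real.exp (m * F y)) := hF.exp m
  have h1 : HasDerivAt (fun s => scW m s F y) _ (t₁ - r) :=
    sc_heat_hasDerivAt_var hE (s := t₁ - r) (by linarith) y
  have h2 : HasDerivAt (fun r => t₁ - r) (-1) r := by simpa using (hasDerivAt_id r).const_sub t₁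
  refine (h1.comp r h2).congr_deriv ?_
  have e : deriv (deriv (scW m (t₁ - r) F)) = scHeat (t₁ - r) (deriv (deriv (fun y => Real.exp (m * F y)))) := by
    show deriv (deriv (scHeat (t₁ - r) (fun y => Real.exp (m * F y)))) = _
    rw [sc_heat_deriv hE.of_succ, sc_heat_deriv hE.deriv]
  rw [e]; ring

/-- **Dynkin formula inside a step.**  `W_r = scW m (t₁ - r) F` is backward caloric, and
`(∂_r + ∂_zz / 2)(φ W) = W (φ_r + φ_zz / 2 + m V_z φ_z)`; apply `sc_heat_dynkin` to `ψ = φ W`. -/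
theorem sc_tr_dynkin {F : ℝ → ℝ} (hF : ScB 3 F) (m : ℝ) {t₀ t₁ : ℝ} (h01 : t₀ ≤ t₁) {φ φt : ℝ → ℝ → ℝ}
    (hφ : ScT (Icc t₀ t₁) 2 φ) (hφt : ScT (Icc t₀ t₁) 0 φt)
    (hd : ∀ r ∈ Ioo t₀ t₁, ∀ y, HasDerivAt (fun r => φ r y) (φt r y) r) (z : ℝ) :
    scTr m (t₁ - t₀) F (φ t₁) z - φ t₀ z =
      ∫ r in t₀..t₁, scTr m (r - t₀) (scStep m (t₁ - r) F)
        (fun y => φt r y + deriv (deriv (φ r)) y / 2 + m * deriv (scStep m (t₁ - r) F) y * deriv (φ r) y) z := by
  have hF1 : ScB 1 F := hF.mono (by omega)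
  have hF2 : ScB 2 F := hF.of_succ
  have hE : ScE 3 (fun y => Real.exp (m * F y)) := hF.exp m
  have hW : ScT (Icc t₀ t₁) 3 (fun r => scW m (t₁ - r) F) := sc_W_T hF m t₀ t₁
  have hW2 : ScT (Icc t₀ t₁) 1 (fun r => deriv (deriv (scW m (t₁ - r) F))) := sc_T_deriv (sc_T_deriv hW)
  have hψ : ScT (Icc t₀ t₁) 2 (fun r y => φ r y * scW m (t₁ - r) F y) := hφ.mul hW.of_succ
  have hψt : ScT (Icc t₀ t₁) 0 (fun r y => φt r y * scW m (t₁ - r) F y
      + φ r y * (-(deriv (deriv (scW m (t₁ - r) F)) y) / 2)) := by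
    refine sc_T_congr ((hφt.mul (hW.mono (by omega))).add
      ((hφ.mono (by omega)).mul ((hW2.mono (by omega)).const_mul (-1 / 2)))) fun r _ => ?_
    funext y; ring
  have hd' : ∀ r ∈ Ioo t₀ t₁, ∀ y, HasDerivAt (fun r => φ r y * scW m (t₁ - r) F y)
      (φt r y * scW m (t₁ - r) F y + φ r y * (-(deriv (deriv (scW m (t₁ - r) F)) y) / 2)) r :=
    fun r hr y => (hd r hr y).mul (sc_W_backward hF2 m hr.2 y)
  have key := sc_heat_dynkin h01 hψ hψt hd' z
  have hW0 : scW m (t₁ - t₀) F z ≠ 0 := (sc_W_pos hF1 m _ z).ne'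
  have eI : ∀ r ∈ uIcc t₀ t₁, scTr m (r - t₀) (scStep m (t₁ - r) F)
        (fun y => φt r y + deriv (deriv (φ r)) y / 2 + m * deriv (scStep m (t₁ - r) F) y * deriv (φ r) y) z
      = scHeat (r - t₀) (fun y => φt r y * scW m (t₁ - r) F y
          + φ r y * (-(deriv (deriv (scW m (t₁ - r) F)) y) / 2)
          + deriv (deriv (fun y => φ r y * scW m (t₁ - r) F y)) y / 2) z * (scW m (t₁ - t₀) F z)⁻¹ := by
    intro r hr
    rw [uIcc_of_le h01] at hr
    rw [sc_tr_fwd_eq hF1 m hr]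
    congr 2
    funext y
    have dW : Differentiable ℝ (scW m (t₁ - r) F) := hW.2.2.1 r hr
    have dW' : Differentiable ℝ (deriv (scW m (t₁ - r) F)) := hW.2.2.2.2.2.1 r hr
    rw [sc_mul_deriv2 (hφ.2.2.1 r hr) (hφ.2.2.2.2.2.1 r hr) dW dW']
    have e1 : deriv (scW m (t₁ - r) F) y = m * deriv (scStep m (t₁ - r) F) y * scW m (t₁ - r) F y := by
      rw [← sc_W_deriv_eq hF1 m _ y]
      show deriv (scHeat (t₁ - r) (fun y => Real.exp (m * F y))) y = _
      rw [sc_heat_deriv (hE.mono (by omega))]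
    rw [e1]; ring
  rw [intervalIntegral.integral_congr eI, intervalIntegral.integral_mul_const, ← key]
  have e0 : (fun y => φ t₁ y * scW m (t₁ - t₁) F y) = fun y => φ t₁ y * Real.exp (m * F y) := by
    funext y
    rw [sub_self]
    show φ t₁ y * scHeat 0 (fun y => Real.exp (m * F y)) y = _
    rw [sc_heat_zero]
  rw [e0, scTr]
  field_simp

/-! ## E. dependence on the mass -/

/-! ## E. dependence on the mass  (proved: helper88) -/

theorem sc_B_E0 {F : ℝ → ℝ} (hF : ScB 1 F) : ScE 0 F := (ScB.scE hF).of_succ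

theorem sc_B_exp_E0 {F : ℝ → ℝ} (hF : ScB 1 F) (m : ℝ) : ScE 0 (fun y => Real.exp (m * F y)) :=
  (ScB.exp hF m).of_succ

theorem sc_B_mul_exp_E0 {F : ℝ → ℝ} (hF : ScB 1 F) (m : ℝ) : ScE 0 (fun y => F y * Real.exp (m * F y)) :=
  (sc_B_E0 hF).mul (sc_B_exp_E0 hF m)

theorem sc_B_add_const {F : ℝ → ℝ} (hF : ScB 1 F) (c : ℝ) : ScB 1 (fun z => F z + c) := by
  obtain ⟨hd, ⟨C, hC⟩, hc⟩ := hF
  have hder : deriv (fun z => F z + c) = deriv F := by
    funext z
    simp
  refine ⟨hd.add_const c, ⟨C, fun z => ?_⟩, ?_⟩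
  · rw [hder]; exact hC z
  · rw [hder]; exact hc

/-- derivative of `W` in the mass -/
theorem sc_W_hasDerivAt_mass {F : ℝ → ℝ} (hF : ScB 1 F) (m s z : ℝ) :
    HasDerivAt (fun m => scW m s F z) (scHeat s (fun y => F y * Real.exp (m * F y)) z) m := by
  have hset : integrableExpSet (fun g => F (z + Real.sqrt s * g)) (gaussianReal 0 1) = univ := by
    ext t
    simp only [integrableExpSet, Set.mem_ofPred_eq, mem_univ, iff_true]
    exact sc_heat_integrable (sc_B_exp_E0 hF t) s z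
  have h := hasDerivAt_mgf (X := fun g => F (z + Real.sqrt s * g)) (μ := gaussianReal 0 1) (t := m)
    (by rw [hset]; simp)
  exact h

/-- entropy inequality: `log W ≤ m E_tilted F` -/
theorem sc_step_le_tr {F : ℝ → ℝ} (hF : ScB 1 F) (m s z : ℝ) :
    Real.log (scW m s F z) ≤ m * scTr m s F F z := by
  have hW := sc_W_pos hF m s z
  set c : ℝ := m * scTr m s F F z with hc
  -- pointwise: e^{mF} (1 - mF + c) ≤ e^{c}
  have hpt : ∀ y, (1 + c) * Real.exp (m * F y) - m * (F y * Real.exp (m * F y)) ≤ Real.exp c := by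
    intro y
    have h1 : (c - m * F y) + 1 ≤ Real.exp (c - m * F y) := Real.add_one_le_exp _
    have h2 : 0 < Real.exp (m * F y) := Real.exp_pos _
    have h3 : Real.exp (c - m * F y) * Real.exp (m * F y) = Real.exp c := by
      rw [← Real.exp_add]; congr 1; ring
    have h4 := mul_le_mul_of_nonneg_right h1 h2.le
    rw [h3] at h4
    linarith
  have hE1 : ScE 0 (fun y => (1 + c) * Real.exp (m * F y)) := (sc_B_exp_E0 hF m).const_mul _
  have hE2 : ScE 0 (fun y => m * (F y * Real.exp (m * F y))) := (sc_B_mul_exp_E0 hF m).const_mul _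
  have hmono := sc_heat_mono (hE1.sub hE2) (ScE.const 0 (Real.exp c)) hpt s z
  rw [sc_heat_sub hE1 hE2, sc_heat_const] at hmono
  simp only [] at hmono
  rw [sc_heat_const_mul, sc_heat_const_mul] at hmono
  simp only [] at hmono
  have hTr : scHeat s (fun y => F y * Real.exp (m * F y)) z = scTr m s F F z * scW m s F z := by
    unfold scTr
    rw [div_mul_cancel₀ _ hW.ne']
  have hWdef : scHeat s (fun y => Real.exp (m * F y)) z = scW m s F z := rfl
  rw [hTr, hWdef] at hmono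
  have h5 : scW m s F z ≤ Real.exp c := by
    have : (1 + c) * scW m s F z - m * (scTr m s F F z * scW m s F z) = scW m s F z := by
      rw [hc]; ring
    linarith
  calc Real.log (scW m s F z) ≤ Real.log (Real.exp c) := Real.log_le_log hW h5
    _ = c := Real.log_exp c

/-- derivative in the mass, first form -/
theorem sc_step_hasDerivAt_mass {F : ℝ → ℝ} (hF : ScB 1 F) {m : ℝ} (hm : 0 < m) (s z : ℝ) :
    HasDerivAt (fun m => scStep m s F z) (m⁻¹ * (scTr m s F F z - scStep m s F z)) m := by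
  have hW := sc_W_pos hF m s z
  have h1 : HasDerivAt (fun m => Real.log (scW m s F z))
      (scHeat s (fun y => F y * Real.exp (m * F y)) z / scW m s F z) m :=
    (sc_W_hasDerivAt_mass hF m s z).log hW.ne'
  have h2 : HasDerivAt (fun m : ℝ => m⁻¹) (-(m ^ 2)⁻¹) m := hasDerivAt_inv hm.ne'
  have h3 := h2.mul h1
  have hev : (fun m => scStep m s F z) =ᶠ[𝓝 m] fun m => m⁻¹ * Real.log (scW m s F z) := by
    filter_upwards [isOpen_ne.mem_nhds hm.ne'] with x hx
    unfold scStep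
    rw [if_neg hx]
  refine (h3.congr_of_eventuallyEq hev).congr_deriv ?_
  unfold scStep scTr
  rw [if_neg hm.ne']
  field_simp
  ring

theorem sc_step_mono_mass {F : ℝ → ℝ} (hF : ScB 1 F) {m m' : ℝ} (hm : 0 ≤ m) (hmm : m ≤ m') (s z : ℝ) :
    scStep m s F z ≤ scStep m' s F z := by
  -- monotone on `(0, ∞)`
  have hpos : ∀ a b : ℝ, 0 < a → a ≤ b → scStep a s F z ≤ scStep b s F z := by
    intro a b ha hab
    have hmon : MonotoneOn (fun m => scStep m s F z) (Icc a b) := by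
      apply monotoneOn_of_deriv_nonneg (convex_Icc a b)
      · intro x hx
        exact (sc_step_hasDerivAt_mass hF (lt_of_lt_of_le ha hx.1) s z).continuousAt.continuousWithinAt
      · intro x hx
        rw [interior_Icc] at hx
        exact (sc_step_hasDerivAt_mass hF (lt_trans ha hx.1) s z).differentiableAt.differentiableWithinAt
      · intro x hx
        rw [interior_Icc] at hx
        have hx0 : 0 < x := lt_trans ha hx.1
        rw [(sc_step_hasDerivAt_mass hF hx0 s z).deriv]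
        have h1 := sc_step_le_tr hF x s z
        have h2 : scStep x s F z = x⁻¹ * Real.log (scW x s F z) := by
          unfold scStep; rw [if_neg hx0.ne']
        have h3 : scStep x s F z ≤ scTr x s F F z := by
          rw [h2]
          calc x⁻¹ * Real.log (scW x s F z) ≤ x⁻¹ * (x * scTr x s F F z) :=
                mul_le_mul_of_nonneg_left h1 (inv_nonneg.mpr hx0.le)
            _ = scTr x s F F z := by field_simp
        exact mul_nonneg (inv_nonneg.mpr hx0.le) (sub_nonneg.mpr h3)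
    exact hmon (left_mem_Icc.mpr hab) (right_mem_Icc.mpr hab) hab
  rcases hm.eq_or_lt with h0 | h0
  · subst h0
    rcases hmm.eq_or_lt with h1 | h1
    · rw [← h1]
    · -- Jensen
      have hB : ScB 1 (fun y => m' * F y) := hF.const_mul m'
      have hJ := sc_heat_exp_ge hB s z
      rw [sc_heat_const_mul] at hJ
      have hW := sc_W_pos hF m' s z
      have h2 : m' * scHeat s F z ≤ Real.log (scW m' s F z) := by
        have := Real.log_le_log (Real.exp_pos _) hJ
        rwa [Real.log_exp] at this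
      unfold scStep
      rw [if_pos rfl, if_neg h1.ne']
      calc scHeat s F z = m'⁻¹ * (m' * scHeat s F z) := by field_simp
        _ ≤ m'⁻¹ * Real.log (scW m' s F z) := mul_le_mul_of_nonneg_left h2 (inv_nonneg.mpr h1.le)
  · exact hpos m m' h0 hmm

/-- monotonicity and contraction in the continuation -/
theorem sc_step_mono {F G : ℝ → ℝ} (hF : ScB 1 F) (hG : ScB 1 G) (h : ∀ z, F z ≤ G z) {m : ℝ} (hm : 0 ≤ m) (s z : ℝ) :
    scStep m s F z ≤ scStep m s G z := by
  rcases hm.eq_or_lt with h0 | h0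
  · subst h0
    unfold scStep
    rw [if_pos rfl, if_pos rfl]
    exact sc_heat_mono (sc_B_E0 hF) (sc_B_E0 hG) h s z
  · unfold scStep
    rw [if_neg h0.ne', if_neg h0.ne']
    apply mul_le_mul_of_nonneg_left _ (inv_nonneg.mpr h0.le)
    apply Real.log_le_log (sc_W_pos hF m s z)
    exact sc_heat_mono (sc_B_exp_E0 hF m) (sc_B_exp_E0 hG m)
      (fun y => Real.exp_le_exp.mpr (mul_le_mul_of_nonneg_left (h y) h0.le)) s z

theorem sc_step_contract {F G : ℝ → ℝ} (hF : ScB 1 F) (hG : ScB 1 G) {ε : ℝ} (h : ∀ z, |F z - G z| ≤ ε) {m : ℝ}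
    (hm : 0 ≤ m) (s z : ℝ) : |scStep m s F z - scStep m s G z| ≤ ε := by
  have h1 : scStep m s F z ≤ scStep m s G z + ε := by
    have := sc_step_mono hF (sc_B_add_const hG ε) (fun y => by have := (abs_le.mp (h y)).2; linarith) hm s z
    rwa [sc_step_add_const hG] at this
  have h2 : scStep m s G z ≤ scStep m s F z + ε := by
    have := sc_step_mono hG (sc_B_add_const hF ε) (fun y => by have := (abs_le.mp (h y)).1; linarith) hm s z
    rwa [sc_step_add_const hF] at this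
  rw [abs_le]
  constructor <;> linarith

/-- derivative in the mass, second form: `(1/2) ∫₀ˢ E[V_z(r, Z_r)²] dr` (Dynkin applied to `V` itself) -/
theorem sc_step_mass_formula {F : ℝ → ℝ} (hF : ScB 3 F) (m : ℝ) {s : ℝ} (hs : 0 ≤ s) (z : ℝ) :
    scTr m s F F z - scStep m s F z =
      m / 2 * ∫ r in (0 : ℝ)..s, scTr m r (scStep m (s - r) F) (fun y => deriv (scStep m (s - r) F) y ^ 2) z := by
  have hT3 : ScT (Icc 0 s) 3 (fun r => scStep m (s - r) F) := sc_step_T (n := 2) hF m 0 s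
  have d1 : ScT (Icc 0 s) 2 (fun r => deriv (scStep m (s - r) F)) := hT3.2.2.2
  have d2 : ScT (Icc 0 s) 1 (fun r => deriv (deriv (scStep m (s - r) F))) := d1.2.2.2
  have hφt : ScT (Icc 0 s) 0 (fun r y => -(deriv (deriv (scStep m (s - r) F)) y
      + m * deriv (scStep m (s - r) F) y ^ 2) / 2) := by
    have h1 : ScT (Icc 0 s) 0 (fun r y => (-(1 / 2 : ℝ)) * (deriv (deriv (scStep m (s - r) F)) y
      + m * deriv (scStep m (s - r) F) y ^ 2)) :=
      ((d2.of_succ).add (((d1.mono (Nat.zero_le 2)).pow 2).const_mul m)).const_mul _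
    have h2 : (fun (r y : ℝ) => -(deriv (deriv (scStep m (s - r) F)) y
      + m * deriv (scStep m (s - r) F) y ^ 2) / 2) = (fun r y => (-(1 / 2 : ℝ)) *
      (deriv (deriv (scStep m (s - r) F)) y + m * deriv (scStep m (s - r) F) y ^ 2)) := by
      funext r y; ring
    rw [h2]; exact h1
  have hd : ∀ r ∈ Ioo 0 s, ∀ y, HasDerivAt (fun r => scStep m (s - r) F y)
      (-(deriv (deriv (scStep m (s - r) F)) y + m * deriv (scStep m (s - r) F) y ^ 2) / 2) r :=
    fun r hr y => sc_step_pde hF.of_succ m hr.2 y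
  have hD := sc_tr_dynkin hF m hs hT3.of_succ hφt hd z
  simp only [sub_zero, sub_self] at hD
  rw [sc_step_var_zero] at hD
  rw [hD, ← intervalIntegral.integral_const_mul]
  congr 1
  funext r
  have h3 : (fun y => -(deriv (deriv (scStep m (s - r) F)) y + m * deriv (scStep m (s - r) F) y ^ 2) / 2
      + deriv (deriv (scStep m (s - r) F)) y / 2
      + m * deriv (scStep m (s - r) F) y * deriv (scStep m (s - r) F) y)
      = fun y => m / 2 * deriv (scStep m (s - r) F) y ^ 2 := by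
    funext y; ring
  rw [h3, sc_tr_const_mul]

theorem sc_W_mass_zero (s : ℝ) (F : ℝ → ℝ) (z : ℝ) : scW 0 s F z = 1 := by
  unfold scW
  simp only [zero_mul, Real.exp_zero]
  rw [sc_heat_const]

/-- continuity of the step in the mass at `m = 0` -/
theorem sc_step_continuousAt_mass_zero {F : ℝ → ℝ} (hF : ScB 1 F) (s z : ℝ) :
    ContinuousAt (fun m => scStep m s F z) 0 := by
  rw [continuousAt_iff_punctured_nhds]
  have h1 : HasDerivAt (fun m => Real.log (scW m s F z)) (scHeat s F z) 0 := by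
    have h := (sc_W_hasDerivAt_mass hF 0 s z).log (by rw [sc_W_mass_zero]; exact one_ne_zero)
    rw [sc_W_mass_zero] at h
    simpa using h
  rw [hasDerivAt_iff_tendsto_slope] at h1
  have h2 : scStep 0 s F z = scHeat s F z := by unfold scStep; rw [if_pos rfl]
  rw [h2]
  refine h1.congr' ?_
  filter_upwards [self_mem_nhdsWithin] with x hx
  have hx' : x ≠ 0 := hx
  unfold scStep
  rw [if_neg hx', slope_def_field, sc_W_mass_zero, Real.log_one]
  simp only [sub_zero]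
  rw [div_eq_inv_mul]

/-- the mass derivative is at most `s L² / 2` -/
theorem sc_step_mass_deriv_le {F : ℝ → ℝ} (hF : ScB 3 F) {L : ℝ} (hL : ∀ z, |deriv F z| ≤ L) {x : ℝ} (hx : 0 < x)
    {s : ℝ} (hs : 0 ≤ s) (z : ℝ) : x⁻¹ * (scTr x s F F z - scStep x s F z) ≤ s * L ^ 2 / 2 := by
  rw [sc_step_mass_formula hF x hs z]
  have hb : ‖∫ r in (0 : ℝ)..s, scTr x r (scStep x (s - r) F) (fun y => deriv (scStep x (s - r) F) y ^ 2) z‖
      ≤ L ^ 2 * |s - 0| := by
    apply intervalIntegral.norm_integral_le_of_norm_le_const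
    intro r _
    have hG : ScB 3 (scStep x (s - r) F) := sc_step_B (n := 2) hF x (s - r)
    have hc : Continuous (fun y => deriv (scStep x (s - r) F) y ^ 2) :=
      (hG.2.2.1.continuous).pow 2
    rw [Real.norm_eq_abs]
    apply sc_tr_abs_le (hG.mono (by norm_num)) hc
    intro y
    have h1 := sc_step_deriv_le (hF.mono (by norm_num)) hL x (s - r) y
    rw [abs_pow]
    exact pow_le_pow_left₀ (abs_nonneg _) h1 2
  rw [sub_zero, abs_of_nonneg hs, Real.norm_eq_abs] at hb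
  have hb' := (abs_le.mp hb).2
  calc x⁻¹ * (x / 2 * ∫ r in (0 : ℝ)..s, scTr x r (scStep x (s - r) F)
        (fun y => deriv (scStep x (s - r) F) y ^ 2) z)
      = (∫ r in (0 : ℝ)..s, scTr x r (scStep x (s - r) F)
        (fun y => deriv (scStep x (s - r) F) y ^ 2) z) / 2 := by field_simp
    _ ≤ s * L ^ 2 / 2 := by linarith

/-- Guerra's Lipschitz bound for one step -/
theorem sc_step_lip_mass {F : ℝ → ℝ} (hF : ScB 3 F) {L : ℝ} (hL : ∀ z, |deriv F z| ≤ L) {m m' : ℝ} (hm : 0 ≤ m)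
    (hmm : m ≤ m') {s : ℝ} (hs : 0 ≤ s) (z : ℝ) :
    scStep m' s F z - scStep m s F z ≤ (m' - m) * s * L ^ 2 / 2 := by
  have hF1 : ScB 1 F := hF.mono (by norm_num)
  have hcont : ContinuousOn (fun m => scStep m s F z) (Icc m m') := by
    intro x hx
    rcases (le_trans hm hx.1).eq_or_lt with h0 | h0
    · rw [← h0]; exact (sc_step_continuousAt_mass_zero hF1 s z).continuousWithinAt
    · exact (sc_step_hasDerivAt_mass hF1 h0 s z).continuousAt.continuousWithinAt
  have hdiff : DifferentiableOn ℝ (fun m => scStep m s F z) (interior (Icc m m')) := by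
    intro x hx
    rw [interior_Icc] at hx
    exact (sc_step_hasDerivAt_mass hF1 (lt_of_le_of_lt hm hx.1) s z).differentiableAt.differentiableWithinAt
  have hle : ∀ x ∈ interior (Icc m m'), deriv (fun m => scStep m s F z) x ≤ s * L ^ 2 / 2 := by
    intro x hx
    rw [interior_Icc] at hx
    have hx0 : 0 < x := lt_of_le_of_lt hm hx.1
    rw [(sc_step_hasDerivAt_mass hF1 hx0 s z).deriv]
    exact sc_step_mass_deriv_le hF hL hx0 hs z
  have h := (convex_Icc m m').image_sub_le_mul_sub_of_deriv_le hcont hdiff hle m (left_mem_Icc.mpr hmm) m'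
    (right_mem_Icc.mpr hmm) hmm
  calc scStep m' s F z - scStep m s F z ≤ s * L ^ 2 / 2 * (m' - m) := h
    _ = (m' - m) * s * L ^ 2 / 2 := by ring

end Claimed.Agent.R286
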