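import Mathlib

/-!
# Row 286 (S0533), BOX-C (scalar block), unit VARIATION + GAPS      (architect + prover helper229)

Statement (L) (= "Theorem S" of the box notes; replaces Lopatto 2026, Thm 1.1 + Lemma 2.2) proved from an ABSTRACT interface `SvPkg T`.
`v0 α = V_α(0,0)`, `Gam α t = E V_z(t,Z_t)^2`, `M2 = E V_zz^2`, `M3 = E V_zz^3`, `N3 = E V_zzz^2` for the scalar Parisi equation
`V_t = -(T/2)(V_zz + α V_z^2)`, `V(1,z) = log cosh z`.      The PDE cell only has to build ONE term of `SvPkg T`.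
EXIT: `sv_thmL` (sorry-free, axiom-clean).      OWNER helper229.
TEXDROP[FS:lem:no-terminal-plateau] not needed at positive temperature: `1 ∉ supp μ` because `Γ(1) < 1` (`sv_supp_lt_one`); the terminal plateau `α = 1` on `[q,1]` exists.      Source: FS variation.tex (Lemmas 6.1, 6.2, proof of Thm 1.1) adapted to the probability normalisation; notes/R286/F03_helper229.md.
-/

set_option autoImplicit false

namespace Claimed.Agent.R286

open MeasureTheory Set Filter Topology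

/-- coefficients of the scalar Parisi equation: nondecreasing `[0,1] → [0,1]` -/
def SvCoef (α : ℝ → ℝ) : Prop := MonotoneOn α (Icc 0 1) ∧ ∀ t ∈ Icc (0:ℝ) 1, α t ∈ Icc (0:ℝ) 1

/-- distribution function of a measure on the line -/
noncomputable def svCdf (μ : Measure ℝ) (t : ℝ) : ℝ := μ.real (Iic t)

/-- What VARIATION + GAPS needs from the scalar package.
INSTANCE for the SK scalar objects (PE and LL use the same one): `pkPkg T hT : SvPkgB T` in `Sc/Pkg.lean` (owner helper229; constructed, glue proved). -/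
structure SvPkg (T : ℝ) where
  v0 : (ℝ → ℝ) → ℝ
  Gam : (ℝ → ℝ) → ℝ → ℝ
  M2 : (ℝ → ℝ) → ℝ → ℝ
  M3 : (ℝ → ℝ) → ℝ → ℝ
  N3 : (ℝ → ℝ) → ℝ → ℝ
  /-- I2: variation formula, integrated form.   PROVIDER: `sv_var_of_fv2` (`Sc/VarB.lean`) gives it from the two-sided first variation at every base point + `cont`. -/
  var : ∀ α α', SvCoef α → SvCoef α' →
    v0 α' - v0 α = T / 2 * ∫ θ in (0:ℝ)..1, ∫ t in (0:ℝ)..1,
      (α' t - α t) * Gam (fun s => α s + θ * (α' s - α s)) t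
  /-- I3: continuity in `L¹` -/
  cont : ∀ α, SvCoef α → ∀ ε > 0, ∃ δ > 0, ∀ α', SvCoef α' → (∫ t in (0:ℝ)..1, |α' t - α t|) < δ →
    ∀ t ∈ Icc (0:ℝ) 1, |Gam α' t - Gam α t| < ε
  /-- I4 -/
  Gam_eq : ∀ α, SvCoef α → ∀ t ∈ Icc (0:ℝ) 1, Gam α t = T * ∫ s in (0:ℝ)..t, M2 α s
  M2_cont : ∀ α, SvCoef α → ContinuousOn (M2 α) (Icc 0 1)
  Gam_one : ∀ α, SvCoef α → Gam α 1 < 1
  /-- I5 -/
  M2_eq : ∀ α, SvCoef α → ∀ s ∈ Icc (0:ℝ) 1, ∀ t ∈ Icc (0:ℝ) 1,
    M2 α t - M2 α s = T * ∫ r in s..t, (N3 α r - 2 * α r * M3 α r)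
  N3_cont : ∀ α, SvCoef α → ContinuousOn (N3 α) (Icc 0 1)
  M3_cont : ∀ α, SvCoef α → ContinuousOn (M3 α) (Icc 0 1)
  N3_zero : ∀ α, SvCoef α → N3 α 0 = 0
  M3_pos : ∀ α, SvCoef α → ∀ t ∈ Icc (0:ℝ) 1, 0 < M3 α t
  /-- I5': heat interval at the origin -/
  N3_pos : ∀ α, SvCoef α → ∀ b ∈ Ioc (0:ℝ) 1, (∀ t ∈ Ico 0 b, α t = 0) → ∀ t ∈ Ioo 0 b, 0 < N3 α t
  /-- I6: strict curvature on positive plateaus (FS Prop 5.1 after transfer) -/
  curv : ∀ α, SvCoef α → ∀ a b c : ℝ, 0 ≤ a → a < b → b ≤ 1 → 0 < c → (∀ t ∈ Ioo a b, α t = c) →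
    ∀ a' b', a < a' → a' < b' → b' < b → ∃ κ > 0, ConvexOn ℝ (Icc a' b') (fun t => M2 α t - κ * t ^ 2)
  /-- I7: replica symmetric value -/
  rs : ∀ α, SvCoef α → (∀ t ∈ Icc (0:ℝ) 1, α t = 1) → M2 α 0 = 1

/-- the Parisi functional -/
noncomputable def SvPkg.P {T : ℝ} (S : SvPkg T) (α : ℝ → ℝ) : ℝ :=
  S.v0 α - T / 2 * ∫ s in (0:ℝ)..1, s * α s

/-! ## 1. distribution functions -/

theorem sv_cdf_mono (μ : Measure ℝ) [IsFiniteMeasure μ] : Monotone (svCdf μ) := by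
  intro s t hst
  exact measureReal_mono (Iic_subset_Iic.2 hst)

theorem sv_cdf_coef (μ : Measure ℝ) [IsProbabilityMeasure μ] : SvCoef (svCdf μ) :=
  ⟨(sv_cdf_mono μ).monotoneOn _, fun _ _ => ⟨measureReal_nonneg, measureReal_le_one⟩⟩

theorem sv_cdf_rc (μ : Measure ℝ) [IsProbabilityMeasure μ] (s : ℝ) :
    ContinuousWithinAt (svCdf μ) (Ici s) s := by
  have h : svCdf μ = fun t => ProbabilityTheory.cdf μ t := by
    funext t; rw [ProbabilityTheory.cdf_eq_real]; rfl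
  rw [h]
  exact (ProbabilityTheory.cdf μ).right_continuous s

theorem sv_coef_seg {α α' : ℝ → ℝ} (h : SvCoef α) (h' : SvCoef α') {θ : ℝ} (hθ : θ ∈ Icc (0:ℝ) 1) :
    SvCoef (fun s => α s + θ * (α' s - α s)) := by
  have e : (fun s => α s + θ * (α' s - α s)) = fun s => (1 - θ) * α s + θ * α' s := by
    funext s; ring
  rw [e]
  refine ⟨?_, ?_⟩
  · intro s hs t ht hst
    have h1 := h.1 hs ht hst
    have h2 := h'.1 hs ht hst
    have := mul_le_mul_of_nonneg_left h1 (sub_nonneg.2 hθ.2)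
    have := mul_le_mul_of_nonneg_left h2 hθ.1
    simp only
    linarith
  · intro t ht
    have h1 := h.2 t ht
    have h2 := h'.2 t ht
    have a1 := mul_nonneg (sub_nonneg.2 hθ.2) h1.1
    have a2 := mul_nonneg hθ.1 h2.1
    have a3 := mul_le_mul_of_nonneg_left h1.2 (sub_nonneg.2 hθ.2)
    have a4 := mul_le_mul_of_nonneg_left h2.2 hθ.1
    constructor <;> simp only <;> linarith

theorem sv_coef_int {α : ℝ → ℝ} (h : SvCoef α) {a b : ℝ} (ha : a ∈ Icc (0:ℝ) 1) (hb : b ∈ Icc (0:ℝ) 1) :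
    IntervalIntegrable α volume a b := by
  apply MonotoneOn.intervalIntegrable
  apply h.1.mono
  exact uIcc_subset_Icc ha hb

/-! ## 2. first variation -/

theorem sv_M2_int {T : ℝ} (S : SvPkg T) {α : ℝ → ℝ} (h : SvCoef α) {a b : ℝ} (ha : a ∈ Icc (0:ℝ) 1)
    (hb : b ∈ Icc (0:ℝ) 1) : IntervalIntegrable (S.M2 α) volume a b :=
  ((S.M2_cont α h).mono (uIcc_subset_Icc ha hb)).intervalIntegrable

theorem sv_Gam_cont {T : ℝ} (S : SvPkg T) {α : ℝ → ℝ} (h : SvCoef α) :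
    ContinuousOn (S.Gam α) (Icc 0 1) := by
  have h1 : ContinuousOn (fun t => T * ∫ s in (0:ℝ)..t, S.M2 α s) (Icc 0 1) := by
    apply ContinuousOn.mul continuousOn_const
    have := intervalIntegral.continuousOn_primitive_interval (μ := volume) (f := S.M2 α) (a := 0) (b := 1)
      (by
        rw [uIcc_of_le zero_le_one]
        exact (S.M2_cont α h).integrableOn_Icc)
    rwa [uIcc_of_le zero_le_one] at this
  exact h1.congr (fun t ht => S.Gam_eq α h t ht)

theorem sv_Gam_zero {T : ℝ} (S : SvPkg T) {α : ℝ → ℝ} (h : SvCoef α) : S.Gam α 0 = 0 := by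
  rw [S.Gam_eq α h 0 ⟨le_rfl, zero_le_one⟩]; simp

theorem sv_Gam_sub {T : ℝ} (S : SvPkg T) {α : ℝ → ℝ} (h : SvCoef α) {a b : ℝ} (ha : a ∈ Icc (0:ℝ) 1)
    (hb : b ∈ Icc (0:ℝ) 1) : S.Gam α b - S.Gam α a = ∫ s in a..b, T * S.M2 α s := by
  have h0 : (0:ℝ) ∈ Icc (0:ℝ) 1 := ⟨le_rfl, zero_le_one⟩
  rw [S.Gam_eq α h a ha, S.Gam_eq α h b hb, intervalIntegral.integral_const_mul, ← mul_sub,
    intervalIntegral.integral_interval_sub_left (sv_M2_int S h h0 hb) (sv_M2_int S h h0 ha)]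

theorem sv_eta_int {α α' : ℝ → ℝ} (h : SvCoef α) (h' : SvCoef α') :
    IntervalIntegrable (fun t => α' t - α t) volume 0 1 :=
  (sv_coef_int h' ⟨le_rfl, zero_le_one⟩ ⟨zero_le_one, le_rfl⟩).sub
    (sv_coef_int h ⟨le_rfl, zero_le_one⟩ ⟨zero_le_one, le_rfl⟩)

theorem sv_eta_abs {α α' : ℝ → ℝ} (h : SvCoef α) (h' : SvCoef α') {t : ℝ} (ht : t ∈ Icc (0:ℝ) 1) :
    |α' t - α t| ≤ 1 := by
  have h1 := h.2 t ht
  have h2 := h'.2 t ht
  rw [abs_le]; constructor <;> linarith [h1.1, h1.2, h2.1, h2.2]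

theorem sv_prod_int {α α' g : ℝ → ℝ} (h : SvCoef α) (h' : SvCoef α')
    (hg : ContinuousOn g (Icc 0 1)) :
    IntervalIntegrable (fun t => (α' t - α t) * g t) volume 0 1 := by
  apply (sv_eta_int h h').mul_continuousOn
  rwa [uIcc_of_le zero_le_one]

/-- the inner integral of the variation formula is continuous in the interpolation parameter -/
theorem sv_psi_cont_of {Gam : (ℝ → ℝ) → ℝ → ℝ}
    (hcont : ∀ α, SvCoef α → ∀ ε > 0, ∃ δ > 0, ∀ α', SvCoef α' → (∫ t in (0:ℝ)..1, |α' t - α t|) < δ →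
      ∀ t ∈ Icc (0:ℝ) 1, |Gam α' t - Gam α t| < ε)
    (hGc : ∀ α, SvCoef α → ContinuousOn (Gam α) (Icc 0 1))
    {α α' : ℝ → ℝ} (h : SvCoef α) (h' : SvCoef α') :
    ContinuousOn (fun θ : ℝ => ∫ t in (0:ℝ)..1, (α' t - α t) * Gam (fun s => α s + θ * (α' s - α s)) t)
      (Icc 0 1) := by
  rw [Metric.continuousOn_iff]
  intro θ0 hθ0 e he
  obtain ⟨δ, hδ, hc⟩ := hcont _ (sv_coef_seg h h' hθ0) (e / 2) (by linarith)
  refine ⟨δ, hδ, ?_⟩
  intro θ hθ hd
  have hA := sv_coef_seg h h' hθ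
  have hA0 := sv_coef_seg h h' hθ0
  have hsmall : (∫ t in (0:ℝ)..1, |(α t + θ * (α' t - α t)) - (α t + θ0 * (α' t - α t))|) < δ := by
    have hb : ‖∫ t in (0:ℝ)..1, |(α t + θ * (α' t - α t)) - (α t + θ0 * (α' t - α t))|‖
        ≤ |θ - θ0| * |(1:ℝ) - 0| := by
      apply intervalIntegral.norm_integral_le_of_norm_le_const
      intro t ht
      rw [uIoc_of_le zero_le_one] at ht
      have ht' : t ∈ Icc (0:ℝ) 1 := ⟨ht.1.le, ht.2⟩
      have : (α t + θ * (α' t - α t)) - (α t + θ0 * (α' t - α t)) = (θ - θ0) * (α' t - α t) := by ring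
      rw [this, Real.norm_eq_abs, abs_abs, abs_mul]
      exact mul_le_of_le_one_right (abs_nonneg _) (sv_eta_abs h h' ht')
    have h2 : |θ - θ0| < δ := by rwa [Real.dist_eq] at hd
    have h3 := le_trans (le_abs_self _) (by rwa [Real.norm_eq_abs] at hb)
    simp only [sub_zero, abs_one, mul_one] at h3
    linarith
  have hG := hc _ hA hsmall
  rw [Real.dist_eq, ← intervalIntegral.integral_sub (sv_prod_int h h' (hGc _ hA))
    (sv_prod_int h h' (hGc _ hA0))]
  have hb : ‖∫ t in (0:ℝ)..1, ((α' t - α t) * Gam (fun s => α s + θ * (α' s - α s)) t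
      - (α' t - α t) * Gam (fun s => α s + θ0 * (α' s - α s)) t)‖ ≤ (e / 2) * |(1:ℝ) - 0| := by
    apply intervalIntegral.norm_integral_le_of_norm_le_const
    intro t ht
    rw [uIoc_of_le zero_le_one] at ht
    have ht' : t ∈ Icc (0:ℝ) 1 := ⟨ht.1.le, ht.2⟩
    rw [← mul_sub, Real.norm_eq_abs, abs_mul]
    calc _ ≤ 1 * (e / 2) := mul_le_mul (sv_eta_abs h h' ht') (hG t ht').le (abs_nonneg _) zero_le_one
      _ = e / 2 := one_mul _
  rw [Real.norm_eq_abs] at hb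
  simp only [sub_zero, abs_one, mul_one] at hb
  linarith


theorem sv_psi_cont {T : ℝ} (S : SvPkg T) {α α' : ℝ → ℝ} (h : SvCoef α) (h' : SvCoef α') :
    ContinuousOn (fun θ : ℝ => ∫ t in (0:ℝ)..1, (α' t - α t) * S.Gam (fun s => α s + θ * (α' s - α s)) t)
      (Icc 0 1) := sv_psi_cont_of S.cont (fun _ h => sv_Gam_cont S h) h h'

/-- upper bound of the difference quotient from the exact variation formula and the `L¹`-continuity of `Gam` -/
theorem sv_fv_of_var {T : ℝ} (hT : 0 < T) {v0 : (ℝ → ℝ) → ℝ} {Gam : (ℝ → ℝ) → ℝ → ℝ}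
    (hvar : ∀ α α', SvCoef α → SvCoef α' →
      v0 α' - v0 α = T / 2 * ∫ θ in (0:ℝ)..1, ∫ t in (0:ℝ)..1,
        (α' t - α t) * Gam (fun s => α s + θ * (α' s - α s)) t)
    (hcont : ∀ α, SvCoef α → ∀ ε > 0, ∃ δ > 0, ∀ α', SvCoef α' → (∫ t in (0:ℝ)..1, |α' t - α t|) < δ →
      ∀ t ∈ Icc (0:ℝ) 1, |Gam α' t - Gam α t| < ε)
    (hGc : ∀ α, SvCoef α → ContinuousOn (Gam α) (Icc 0 1)) :
    ∀ α α', SvCoef α → SvCoef α' → ∀ e > 0, ∃ ε₀ > 0, ∀ ε, 0 < ε → ε ≤ ε₀ → ε ≤ 1 →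
      v0 (fun s => α s + ε * (α' s - α s)) - v0 α
        ≤ ε * (T / 2 * (∫ t in (0:ℝ)..1, (α' t - α t) * Gam α t) + e) := by
  intro α α' h h' e he
  set ψ : ℝ → ℝ := fun θ => ∫ t in (0:ℝ)..1, (α' t - α t) * Gam (fun s => α s + θ * (α' s - α s)) t with hψ
  have hψc : ContinuousOn ψ (Icc 0 1) := sv_psi_cont_of hcont hGc h h'
  have hα0 : (fun s => α s + (0:ℝ) * (α' s - α s)) = α := by funext s; ring
  have hψ0 : ψ 0 = ∫ t in (0:ℝ)..1, (α' t - α t) * Gam α t := by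
    rw [hψ]; simp only; rw [hα0]
  rw [← hψ0]
  have h00 : (0:ℝ) ∈ Icc (0:ℝ) 1 := ⟨le_rfl, zero_le_one⟩
  have he' : 0 < 2 * e / T := by positivity
  obtain ⟨d, hd, hdc⟩ := (Metric.continuousOn_iff.1 hψc) 0 h00 (2 * e / T) he'
  refine ⟨d / 2, by linarith, ?_⟩
  intro ε hεpos hεd hε1
  have hεI : ε ∈ Icc (0:ℝ) 1 := ⟨hεpos.le, hε1⟩
  have hA := sv_coef_seg h h' hεI
  have hv := hvar α _ h hA
  have e1 : ∀ θ : ℝ, (∫ t in (0:ℝ)..1, ((α t + ε * (α' t - α t)) - α t) *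
      Gam (fun s => α s + θ * ((α s + ε * (α' s - α s)) - α s)) t) = ε * ψ (θ * ε) := by
    intro θ
    rw [hψ]
    simp only
    rw [← intervalIntegral.integral_const_mul]
    have e2 : (fun s => α s + θ * ((α s + ε * (α' s - α s)) - α s)) = fun s => α s + θ * ε * (α' s - α s) := by
      funext s; ring
    rw [e2]
    congr 1; funext t; ring
  simp only [e1] at hv
  rw [intervalIntegral.integral_const_mul] at hv
  have hmem : ∀ θ ∈ Icc (0:ℝ) 1, θ * ε ∈ Icc (0:ℝ) 1 := fun θ hθ =>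
    ⟨mul_nonneg hθ.1 hεpos.le, by nlinarith [hθ.1, hθ.2]⟩
  have hcomp : ContinuousOn (fun θ : ℝ => ψ (θ * ε)) (Icc 0 1) :=
    hψc.comp (by fun_prop) hmem
  have hle : (∫ θ in (0:ℝ)..1, ψ (θ * ε)) ≤ ∫ θ in (0:ℝ)..1, (ψ 0 + 2 * e / T) := by
    apply intervalIntegral.integral_mono_on zero_le_one
    · apply ContinuousOn.intervalIntegrable; rwa [uIcc_of_le zero_le_one]
    · exact intervalIntegrable_const
    · intro θ hθ
      have h1 := hmem θ hθ
      have h2 : dist (θ * ε) 0 < d := by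
        rw [Real.dist_eq, sub_zero, abs_of_nonneg h1.1]
        nlinarith [hθ.1, hθ.2]
      have h3 := hdc (θ * ε) h1 h2
      rw [Real.dist_eq] at h3
      have := (abs_lt.1 h3).2
      linarith
  rw [intervalIntegral.integral_const] at hle
  simp only [sub_zero, smul_eq_mul, one_mul] at hle
  rw [hv]
  have h5 : T / 2 * (ε * ∫ θ in (0:ℝ)..1, ψ (θ * ε)) ≤ T / 2 * (ε * (ψ 0 + 2 * e / T)) := by
    apply mul_le_mul_of_nonneg_left _ (by positivity)
    exact mul_le_mul_of_nonneg_left hle hεpos.le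
  have h6 : T / 2 * (ε * (ψ 0 + 2 * e / T)) = ε * (T / 2 * ψ 0 + e) := by
    field_simp
  linarith

/-- V1: first variation inequality at a minimiser along a segment.   TEX[FS:lem:first-variation] -/
theorem sv_fv {T : ℝ} (S : SvPkg T) (hT : 0 < T) {α α' : ℝ → ℝ} (h : SvCoef α) (h' : SvCoef α')
    (hmin : ∀ θ ∈ Icc (0:ℝ) 1, S.P α ≤ S.P (fun s => α s + θ * (α' s - α s))) :
    0 ≤ ∫ t in (0:ℝ)..1, (α' t - α t) * (S.Gam α t - t) := by
  set ψ0 : ℝ := ∫ t in (0:ℝ)..1, (α' t - α t) * S.Gam α t with hψ0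
  set c0 : ℝ := ∫ t in (0:ℝ)..1, (α' t - α t) * t with hc0
  have hid : ContinuousOn (fun t : ℝ => t) (Icc 0 1) := continuousOn_id
  have htarget : (∫ t in (0:ℝ)..1, (α' t - α t) * (S.Gam α t - t)) = ψ0 - c0 := by
    rw [hψ0, hc0, ← intervalIntegral.integral_sub (sv_prod_int h h' (sv_Gam_cont S h)) (sv_prod_int h h' hid)]
    congr 1; funext t; ring
  rw [htarget]
  by_contra hneg
  rw [not_le] at hneg
  set e : ℝ := T / 2 * (c0 - ψ0) / 2 with he
  have hepos : 0 < e := by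
    rw [he]
    have : 0 < c0 - ψ0 := by linarith
    positivity
  obtain ⟨ε₀, hε₀, hfv⟩ := sv_fv_of_var hT S.var S.cont (fun α h => sv_Gam_cont S h) α α' h h' e hepos
  set ε : ℝ := min 1 ε₀ with hε
  have hεpos : 0 < ε := lt_min one_pos hε₀
  have hε1 : ε ≤ 1 := min_le_left _ _
  have h1 := hfv ε hεpos (min_le_right _ _) hε1
  have hm := hmin ε ⟨hεpos.le, hε1⟩
  unfold SvPkg.P at hm
  have hi1 : IntervalIntegrable (fun s : ℝ => s * α s) volume 0 1 :=
    (sv_coef_int h (a := 0) (b := 1) ⟨le_rfl, zero_le_one⟩ ⟨zero_le_one, le_rfl⟩).continuousOn_mul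
      (g := fun s : ℝ => s) continuousOn_id
  have e3 : (∫ s in (0:ℝ)..1, s * (α s + ε * (α' s - α s))) = (∫ s in (0:ℝ)..1, s * α s) + ε * c0 := by
    rw [hc0, ← intervalIntegral.integral_const_mul, ← intervalIntegral.integral_add hi1
      ((sv_prod_int h h' hid).const_mul ε)]
    congr 1; funext t; ring
  rw [e3] at hm
  have h2 : ε * (T / 2 * ψ0 + e) - T / 2 * (ε * c0) = -(ε * e) := by rw [he]; ring
  have h3 : 0 < ε * e := mul_pos hεpos hepos
  linarith

/-! ## 3. mixtures, Fubini, the contact set -/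

theorem sv_mix (μ μ' : Measure ℝ) [IsProbabilityMeasure μ] [IsProbabilityMeasure μ']
    (hμ : μ (Icc 0 1)ᶜ = 0) (hμ' : μ' (Icc 0 1)ᶜ = 0) {θ : ℝ} (hθ : θ ∈ Icc (0:ℝ) 1) :
    ∃ ν : Measure ℝ, IsProbabilityMeasure ν ∧ ν (Icc 0 1)ᶜ = 0 ∧
      svCdf ν = fun s => svCdf μ s + θ * (svCdf μ' s - svCdf μ s) := by
  refine ⟨ENNReal.ofReal (1 - θ) • μ + ENNReal.ofReal θ • μ', ⟨?_⟩, ?_, ?_⟩
  · simp only [Measure.coe_add, Measure.coe_smul, Pi.add_apply, Pi.smul_apply, measure_univ,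
      smul_eq_mul, mul_one]
    rw [← ENNReal.ofReal_add (sub_nonneg.2 hθ.2) hθ.1]
    simp
  · simp [hμ, hμ']
  · funext s
    unfold svCdf
    have f1 : (ENNReal.ofReal (1 - θ) • μ) (Iic s) ≠ ⊤ := by
      rw [Measure.smul_apply, smul_eq_mul]
      exact ENNReal.mul_ne_top ENNReal.ofReal_ne_top (measure_ne_top _ _)
    have f2 : (ENNReal.ofReal θ • μ') (Iic s) ≠ ⊤ := by
      rw [Measure.smul_apply, smul_eq_mul]
      exact ENNReal.mul_ne_top ENNReal.ofReal_ne_top (measure_ne_top _ _)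
    rw [measureReal_add_apply f1 f2, measureReal_ennreal_smul_apply, measureReal_ennreal_smul_apply,
      ENNReal.toReal_ofReal (sub_nonneg.2 hθ.2), ENNReal.toReal_ofReal hθ.1]
    ring

/-- raw contact potential -/
noncomputable def svGraw (f : ℝ → ℝ) (s : ℝ) : ℝ := ∫ t in Ioc (0:ℝ) 1, (Ici s).indicator f t

theorem sv_Graw_eq {f : ℝ → ℝ} {s : ℝ} (hs : s ∈ Icc (0:ℝ) 1) :
    svGraw f s = ∫ t in s..1, f t := by
  unfold svGraw
  rw [setIntegral_indicator measurableSet_Ici, intervalIntegral.integral_of_le hs.2]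
  rcases hs.1.eq_or_lt with h0 | h0
  · subst h0
    congr 2
    ext t; constructor
    · exact fun h => h.1
    · exact fun h => ⟨h, h.1.le⟩
  · rw [← integral_Icc_eq_integral_Ioc]
    congr 2
    ext t; constructor
    · exact fun h => ⟨h.2, h.1.2⟩
    · exact fun h => ⟨⟨lt_of_lt_of_le h0 h.1, h.2⟩, h.1⟩

theorem sv_fubini (μ : Measure ℝ) [IsProbabilityMeasure μ] {f : ℝ → ℝ} (hf : ContinuousOn f (Icc 0 1)) :
    Integrable (svGraw f) μ ∧ ∫ t in (0:ℝ)..1, svCdf μ t * f t = ∫ s, svGraw f s ∂μ := by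
  -- a globally continuous bounded version of f
  set g : ℝ → ℝ := IccExtend (zero_le_one' ℝ) (fun t : Icc (0:ℝ) 1 => f t) with hg
  have hgc : Continuous g := by
    apply Continuous.Icc_extend'
    exact continuousOn_iff_continuous_domRestrict.1 hf
  have hgf : ∀ t ∈ Icc (0:ℝ) 1, g t = f t := fun t ht => by
    rw [hg, IccExtend_of_mem _ _ ht]
  obtain ⟨C, hC⟩ := isCompact_Icc.exists_bound_of_continuousOn hf
  have hgC : ∀ t, ‖g t‖ ≤ C := fun t => by
    rw [hg]; exact hC _ (projIcc 0 1 _ t).2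
  set ν : Measure ℝ := volume.restrict (Ioc (0:ℝ) 1) with hν
  set F : ℝ → ℝ → ℝ := fun s t => (Ici s).indicator g t with hF
  have hFm : Measurable (Function.uncurry F) := by
    have : Function.uncurry F = {p : ℝ × ℝ | p.1 ≤ p.2}.indicator (fun p => g p.2) := by
      funext p
      simp only [Function.uncurry, hF, indicator, mem_Ici, mem_ofPred_eq]
    rw [this]
    exact (hgc.measurable.comp measurable_snd).indicator (measurableSet_le measurable_fst measurable_snd)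
  have hFi : Integrable (Function.uncurry F) (μ.prod ν) := by
    apply Integrable.of_bound hFm.aestronglyMeasurable C
    refine Eventually.of_forall (fun p => ?_)
    simp only [Function.uncurry, hF]
    by_cases hp : p.2 ∈ Ici p.1
    · rw [indicator_of_mem hp]; exact hgC _
    · rw [indicator_of_notMem hp, norm_zero]; exact le_trans (norm_nonneg _) (hgC 0)
  have hraw : ∀ s, svGraw f s = ∫ t, F s t ∂ν := by
    intro s
    unfold svGraw
    apply setIntegral_congr_fun measurableSet_Ioc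
    intro t ht
    simp only [hF, indicator]
    split_ifs
    · exact (hgf t ⟨ht.1.le, ht.2⟩).symm
    · rfl
  constructor
  · have := hFi.integral_prod_left
    exact this.congr (Eventually.of_forall (fun s => (hraw s).symm))
  · rw [intervalIntegral.integral_of_le zero_le_one]
    have e1 : ∀ t ∈ Ioc (0:ℝ) 1, svCdf μ t * f t = ∫ s, F s t ∂μ := by
      intro t ht
      have : (fun s => F s t) = (Iic t).indicator (fun _ => g t) := by
        funext s
        simp only [hF, indicator, mem_Ici, mem_Iic]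
      rw [this, integral_indicator measurableSet_Iic, setIntegral_const, hgf t ⟨ht.1.le, ht.2⟩]
      simp [svCdf]
    rw [setIntegral_congr_fun measurableSet_Ioc e1]
    rw [← integral_integral_swap hFi]
    exact integral_congr_ae (Eventually.of_forall (fun s => (hraw s).symm))

/-- `μ` is a minimiser of the Parisi functional among the probability measures carried by `[0,1]` -/
structure SvMin {T : ℝ} (S : SvPkg T) (μ : Measure ℝ) : Prop where
  prob : IsProbabilityMeasure μ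
  car : μ (Icc 0 1)ᶜ = 0
  min : ∀ μ' : Measure ℝ, IsProbabilityMeasure μ' → μ' (Icc 0 1)ᶜ = 0 → S.P (svCdf μ) ≤ S.P (svCdf μ')

/-- the contact potential `G(s) = ∫_s^1 (Γ(t) - t) dt` -/
noncomputable def SvPkg.G {T : ℝ} (S : SvPkg T) (α : ℝ → ℝ) (s : ℝ) : ℝ := ∫ t in s..1, (S.Gam α t - t)

theorem sv_f_cont {T : ℝ} (S : SvPkg T) {α : ℝ → ℝ} (h : SvCoef α) :
    ContinuousOn (fun t => S.Gam α t - t) (Icc 0 1) := (sv_Gam_cont S h).sub continuousOn_id

theorem sv_f_int {T : ℝ} (S : SvPkg T) {α : ℝ → ℝ} (h : SvCoef α) {a b : ℝ} (ha : a ∈ Icc (0:ℝ) 1)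
    (hb : b ∈ Icc (0:ℝ) 1) : IntervalIntegrable (fun t => S.Gam α t - t) volume a b :=
  ((sv_f_cont S h).mono (uIcc_subset_Icc ha hb)).intervalIntegrable

theorem sv_G_cont {T : ℝ} (S : SvPkg T) {α : ℝ → ℝ} (h : SvCoef α) : ContinuousOn (S.G α) (Icc 0 1) := by
  have := intervalIntegral.continuousOn_primitive_interval_left (μ := volume)
    (f := fun t => S.Gam α t - t) (a := 0) (b := 1)
    (by rw [uIcc_of_le zero_le_one]; exact (sv_f_cont S h).integrableOn_Icc)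
  rwa [uIcc_of_le zero_le_one] at this

theorem sv_G_sub {T : ℝ} (S : SvPkg T) {α : ℝ → ℝ} (h : SvCoef α) {a b : ℝ} (ha : a ∈ Icc (0:ℝ) 1)
    (hb : b ∈ Icc (0:ℝ) 1) : S.G α a - S.G α b = ∫ t in a..b, (S.Gam α t - t) := by
  have h1 : (1:ℝ) ∈ Icc (0:ℝ) 1 := ⟨zero_le_one, le_rfl⟩
  unfold SvPkg.G
  have := intervalIntegral.integral_add_adjacent_intervals (sv_f_int S h ha hb) (sv_f_int S h hb h1)
  linarith

theorem sv_supp_sub {μ : Measure ℝ} (hμ : μ (Icc 0 1)ᶜ = 0) : μ.support ⊆ Icc 0 1 :=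
  Measure.support_subset_of_isClosed isClosed_Icc (by rw [mem_ae_iff]; exact hμ)

/-- V3: the support is contained in the set of minimum points of `G`.   TEX[FS:lem:contact] -/
theorem sv_contact {T : ℝ} (S : SvPkg T) (hT : 0 < T) {μ : Measure ℝ} (hm : SvMin S μ) :
    ∀ x ∈ μ.support, ∀ y ∈ Icc (0:ℝ) 1, S.G (svCdf μ) x ≤ S.G (svCdf μ) y := by
  have := hm.prob
  set α := svCdf μ with hα
  have hc : SvCoef α := sv_cdf_coef μ
  set f : ℝ → ℝ := fun t => S.Gam α t - t with hf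
  have hfc : ContinuousOn f (Icc 0 1) := sv_f_cont S hc
  obtain ⟨hGi, hGe⟩ := sv_fubini μ hfc
  set Gb : ℝ := ∫ s, svGraw f s ∂μ with hGb
  -- (1) lower bound
  have h1 : ∀ y ∈ Icc (0:ℝ) 1, Gb ≤ S.G α y := by
    intro y hy
    have hdy : (Measure.dirac y) (Icc (0:ℝ) 1)ᶜ = 0 := by
      rw [Measure.dirac_apply' _ isClosed_Icc.measurableSet.compl]
      simp [hy]
    have hc' : SvCoef (svCdf (Measure.dirac y)) := sv_cdf_coef _
    have hfv := sv_fv S hT hc hc' (by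
      intro θ hθ
      obtain ⟨ν, hν1, hν2, hν3⟩ := sv_mix μ (Measure.dirac y) hm.car hdy hθ
      rw [← hν3]
      exact hm.min ν hν1 hν2)
    obtain ⟨_, hGe'⟩ := sv_fubini (Measure.dirac y) hfc
    rw [integral_dirac, sv_Graw_eq hy] at hGe'
    have e : (∫ t in (0:ℝ)..1, (svCdf (Measure.dirac y) t - α t) * (S.Gam α t - t))
        = (∫ t in (0:ℝ)..1, svCdf (Measure.dirac y) t * f t) - ∫ t in (0:ℝ)..1, α t * f t := by
      rw [← intervalIntegral.integral_sub]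
      · congr 1; funext t; rw [hf]; ring
      · apply (sv_coef_int hc' ⟨le_rfl, zero_le_one⟩ ⟨zero_le_one, le_rfl⟩).mul_continuousOn
        rwa [uIcc_of_le zero_le_one]
      · apply (sv_coef_int hc ⟨le_rfl, zero_le_one⟩ ⟨zero_le_one, le_rfl⟩).mul_continuousOn
        rwa [uIcc_of_le zero_le_one]
    rw [e, hGe', hGe] at hfv
    unfold SvPkg.G
    linarith
  -- (2) equality a.e.
  have hae01 : ∀ᵐ s ∂μ, s ∈ Icc (0:ℝ) 1 := by rw [ae_iff]; exact hm.car
  have h2 : ∀ᵐ s ∂μ, 0 ≤ svGraw f s - Gb := by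
    filter_upwards [hae01] with s hs
    rw [sv_Graw_eq hs]
    have := h1 s hs
    unfold SvPkg.G at this
    linarith
  have h3 : ∫ s, (svGraw f s - Gb) ∂μ = 0 := by
    rw [integral_sub hGi (integrable_const _), integral_const]
    simp [hGb]
  have h4 : ∀ᵐ s ∂μ, svGraw f s - Gb = 0 := by
    have := (integral_eq_zero_iff_of_nonneg_ae h2 (hGi.sub (integrable_const _))).1 h3
    exact this
  -- (3) conclusion
  intro x hx y hy
  have hx01 := sv_supp_sub hm.car hx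
  refine le_trans ?_ (h1 y hy)
  by_contra hlt
  rw [not_le] at hlt
  have hcx : ContinuousWithinAt (S.G α) (Icc 0 1) x := sv_G_cont S hc x hx01
  have hev : ∀ᶠ s in 𝓝[Icc 0 1] x, Gb < S.G α s := hcx.eventually (lt_mem_nhds hlt)
  rw [eventually_nhdsWithin_iff] at hev
  have hpos := (Measure.mem_support_iff_forall x).1 hx _ hev
  have hnull : μ {s | s ∈ Icc (0:ℝ) 1 → Gb < S.G α s} = 0 := by
    apply measure_mono_null _ (ae_iff.1 (hae01.and h4))
    intro s hs
    simp only [mem_ofPred_eq, not_and] at hs ⊢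
    intro hs01 h0
    have := hs hs01
    rw [sv_Graw_eq hs01] at h0
    unfold SvPkg.G at this
    linarith
  rw [hnull] at hpos
  exact lt_irrefl _ hpos

/-! ## 4. contact conditions -/

theorem sv_pos_right {f : ℝ → ℝ} (hf : ContinuousOn f (Icc 0 1)) {x : ℝ} (hx0 : 0 ≤ x) (hx1 : x < 1)
    (hpos : 0 < f x) : ∃ y, x < y ∧ y ≤ 1 ∧ ∀ t ∈ Icc x y, 0 < f t := by
  obtain ⟨δ, hδ, hd⟩ := (Metric.continuousOn_iff.1 hf) x ⟨hx0, hx1.le⟩ (f x) hpos
  refine ⟨min 1 (x + δ / 2), lt_min hx1 (by linarith), min_le_left _ _, ?_⟩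
  intro t ht
  have h1 : t ≤ 1 := le_trans ht.2 (min_le_left _ _)
  have h2 : t ≤ x + δ / 2 := le_trans ht.2 (min_le_right _ _)
  have h3 := hd t ⟨le_trans hx0 ht.1, h1⟩ (by
    rw [Real.dist_eq, abs_of_nonneg (sub_nonneg.2 ht.1)]; linarith)
  rw [Real.dist_eq] at h3
  have := (abs_lt.1 h3).1
  linarith

theorem sv_pos_left {f : ℝ → ℝ} (hf : ContinuousOn f (Icc 0 1)) {x : ℝ} (hx0 : 0 < x) (hx1 : x ≤ 1)
    (hpos : 0 < f x) : ∃ y, 0 ≤ y ∧ y < x ∧ ∀ t ∈ Icc y x, 0 < f t := by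
  obtain ⟨δ, hδ, hd⟩ := (Metric.continuousOn_iff.1 hf) x ⟨hx0.le, hx1⟩ (f x) hpos
  refine ⟨max 0 (x - δ / 2), le_max_left _ _, max_lt hx0 (by linarith), ?_⟩
  intro t ht
  have h1 : 0 ≤ t := le_trans (le_max_left _ _) ht.1
  have h2 : x - δ / 2 ≤ t := le_trans (le_max_right _ _) ht.1
  have h3 := hd t ⟨h1, le_trans ht.2 hx1⟩ (by
    rw [Real.dist_eq, abs_of_nonpos (sub_nonpos.2 ht.2)]; linarith)
  rw [Real.dist_eq] at h3
  have := (abs_lt.1 h3).1
  linarith

/-- V4a: `Γ(x) = x` on the support.   TEX[FS:lem:contact] -/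
theorem sv_contact_eq {T : ℝ} (S : SvPkg T) (hT : 0 < T) {μ : Measure ℝ} (hm : SvMin S μ) :
    ∀ x ∈ μ.support, S.Gam (svCdf μ) x = x := by
  have := hm.prob
  intro x hx
  have hc : SvCoef (svCdf μ) := sv_cdf_coef μ
  have hx01 := sv_supp_sub hm.car hx
  have hcon := sv_contact S hT hm x hx
  have hfc := sv_f_cont S hc
  rcases lt_trichotomy (S.Gam (svCdf μ) x - x) 0 with hlt | heq | hgt
  · -- move to the left
    have hx0 : 0 < x := by
      rcases hx01.1.eq_or_lt with h0 | h0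
      · rw [← h0, sv_Gam_zero S hc] at hlt; simp at hlt
      · exact h0
    obtain ⟨y, hy0, hyx, hy⟩ := sv_pos_left (f := fun t => -(S.Gam (svCdf μ) t - t)) hfc.neg hx0 hx01.2
      (by simpa using hlt)
    have hy01 : y ∈ Icc (0:ℝ) 1 := ⟨hy0, le_trans hyx.le hx01.2⟩
    have h1 := sv_G_sub S hc hy01 hx01
    have h2 : 0 < ∫ t in y..x, -(S.Gam (svCdf μ) t - t) :=
      intervalIntegral.intervalIntegral_pos_of_pos_on (sv_f_int S hc hy01 hx01).neg
        (fun t ht => hy t ⟨ht.1.le, ht.2.le⟩) hyx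
    rw [intervalIntegral.integral_neg] at h2
    have := hcon y hy01
    linarith
  · linarith
  · have hx1 : x < 1 := by
      rcases hx01.2.eq_or_lt with h0 | h0
      · rw [h0] at hgt; have := S.Gam_one _ hc; linarith
      · exact h0
    obtain ⟨y, hxy, hy1, hy⟩ := sv_pos_right hfc hx01.1 hx1 hgt
    have hy01 : y ∈ Icc (0:ℝ) 1 := ⟨le_trans hx01.1 hxy.le, hy1⟩
    have h1 := sv_G_sub S hc hx01 hy01
    have h2 : 0 < ∫ t in x..y, (S.Gam (svCdf μ) t - t) :=
      intervalIntegral.intervalIntegral_pos_of_pos_on (sv_f_int S hc hx01 hy01)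
        (fun t ht => hy t ⟨ht.1.le, ht.2.le⟩) hxy
    have := hcon y hy01
    linarith

theorem sv_supp_lt_one {T : ℝ} (S : SvPkg T) (hT : 0 < T) {μ : Measure ℝ} (hm : SvMin S μ) :
    ∀ x ∈ μ.support, x < 1 := by
  have := hm.prob
  intro x hx
  have hx01 := sv_supp_sub hm.car hx
  rcases hx01.2.eq_or_lt with h0 | h0
  · have h1 := sv_contact_eq S hT hm x hx
    rw [h0] at h1
    have := S.Gam_one _ (sv_cdf_coef μ)
    linarith
  · exact h0

theorem sv_g_cont {T : ℝ} (S : SvPkg T) {α : ℝ → ℝ} (h : SvCoef α) :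
    ContinuousOn (fun t => T * S.M2 α t - 1) (Icc 0 1) :=
  (continuousOn_const.mul (S.M2_cont α h)).sub continuousOn_const

theorem sv_g_int {T : ℝ} (S : SvPkg T) {α : ℝ → ℝ} (h : SvCoef α) {a b : ℝ} (ha : a ∈ Icc (0:ℝ) 1)
    (hb : b ∈ Icc (0:ℝ) 1) : IntervalIntegrable (fun t => T * S.M2 α t - 1) volume a b :=
  ((sv_g_cont S h).mono (uIcc_subset_Icc ha hb)).intervalIntegrable

/-- `(Γ(b) - b) - (Γ(a) - a) = ∫_a^b (T M2 - 1)` -/
theorem sv_f_sub {T : ℝ} (S : SvPkg T) {α : ℝ → ℝ} (h : SvCoef α) {a b : ℝ} (ha : a ∈ Icc (0:ℝ) 1)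
    (hb : b ∈ Icc (0:ℝ) 1) :
    (S.Gam α b - b) - (S.Gam α a - a) = ∫ t in a..b, (T * S.M2 α t - 1) := by
  rw [intervalIntegral.integral_sub ((sv_M2_int S h ha hb).const_mul T) intervalIntegrable_const,
    ← sv_Gam_sub S h ha hb, intervalIntegral.integral_const]
  simp only [smul_eq_mul, mul_one]
  ring

/-- V4b: `T M2 ≤ 1` on the support.   TEX[FS:lem:contact] -/
theorem sv_contact_le {T : ℝ} (S : SvPkg T) (hT : 0 < T) {μ : Measure ℝ} (hm : SvMin S μ) :
    ∀ x ∈ μ.support, T * S.M2 (svCdf μ) x ≤ 1 := by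
  have := hm.prob
  intro x hx
  have hc : SvCoef (svCdf μ) := sv_cdf_coef μ
  have hx01 := sv_supp_sub hm.car hx
  have hx1 := sv_supp_lt_one S hT hm x hx
  have hxe := sv_contact_eq S hT hm x hx
  by_contra hgt
  rw [not_le] at hgt
  obtain ⟨y, hxy, hy1, hy⟩ := sv_pos_right (sv_g_cont S hc) hx01.1 hx1 (by linarith)
  have hy01 : y ∈ Icc (0:ℝ) 1 := ⟨le_trans hx01.1 hxy.le, hy1⟩
  have hfpos : ∀ t ∈ Ioo x y, 0 < S.Gam (svCdf μ) t - t := by
    intro t ht
    have ht01 : t ∈ Icc (0:ℝ) 1 := ⟨le_trans hx01.1 ht.1.le, le_trans ht.2.le hy1⟩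
    have h1 := sv_f_sub S hc hx01 ht01
    have h2 : 0 < ∫ r in x..t, (T * S.M2 (svCdf μ) r - 1) :=
      intervalIntegral.intervalIntegral_pos_of_pos_on (sv_g_int S hc hx01 ht01)
        (fun r hr => hy r ⟨hr.1.le, le_trans hr.2.le ht.2.le⟩) ht.1
    linarith
  have h1 := sv_G_sub S hc hx01 hy01
  have h2 : 0 < ∫ t in x..y, (S.Gam (svCdf μ) t - t) :=
    intervalIntegral.intervalIntegral_pos_of_pos_on (sv_f_int S hc hx01 hy01) hfpos hxy
  have := sv_contact S hT hm x hx y hy01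
  linarith

/-! ## 5. gaps -/

theorem sv_null_of_disj {μ : Measure ℝ} {A : Set ℝ} (hA : ∀ t ∈ A, t ∉ μ.support) : μ A = 0 :=
  measure_mono_null (fun t ht => hA t ht) Measure.measure_compl_support

/-- the distribution function is constant across a set of points outside the support -/
theorem sv_cdf_const {μ : Measure ℝ} [IsProbabilityMeasure μ] {a t : ℝ} (hat : a ≤ t)
    (hgap : ∀ r ∈ Ioc a t, r ∉ μ.support) : svCdf μ t = svCdf μ a := by
  apply le_antisymm _ (sv_cdf_mono μ hat)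
  unfold svCdf
  have h1 : Iic t ⊆ Iic a ∪ Ioc a t := by
    intro r hr
    by_cases h : r ≤ a
    · exact Or.inl h
    · exact Or.inr ⟨not_le.1 h, hr⟩
  have h2 : μ.real (Ioc a t) = 0 := by
    rw [measureReal_def, sv_null_of_disj hgap]; rfl
  calc μ.real (Iic t) ≤ μ.real (Iic a ∪ Ioc a t) := measureReal_mono h1
    _ ≤ μ.real (Iic a) + μ.real (Ioc a t) := measureReal_union_le _ _
    _ = μ.real (Iic a) := by rw [h2, add_zero]

theorem sv_cdf_pos {μ : Measure ℝ} [IsProbabilityMeasure μ] {a b : ℝ} (ha : a ∈ μ.support) (hab : a < b)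
    (hgap : ∀ r ∈ Ioo a b, r ∉ μ.support) : 0 < svCdf μ a := by
  have h1 : 0 < μ (Iio b) := (Measure.mem_support_iff_forall a).1 ha _ (Iio_mem_nhds hab)
  have h2 : Iio b ⊆ Iic a ∪ Ioo a b := by
    intro r hr
    by_cases h : r ≤ a
    · exact Or.inl h
    · exact Or.inr ⟨not_le.1 h, hr⟩
  have h3 : μ (Iio b) ≤ μ (Iic a) := by
    calc μ (Iio b) ≤ μ (Iic a ∪ Ioo a b) := measure_mono h2
      _ ≤ μ (Iic a) + μ (Ioo a b) := measure_union_le _ _
      _ = μ (Iic a) := by rw [sv_null_of_disj hgap, add_zero]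
  unfold svCdf
  rw [measureReal_def]
  exact ENNReal.toReal_pos (lt_of_lt_of_le h1 h3).ne' (measure_ne_top _ _)

/-- on a positive plateau `M2` is convex on compact subintervals -/
theorem sv_M2_convex {T : ℝ} (S : SvPkg T) {α : ℝ → ℝ} (h : SvCoef α) {a b c : ℝ} (ha : 0 ≤ a) (hab : a < b)
    (hb : b ≤ 1) (hc : 0 < c) (hpl : ∀ t ∈ Ioo a b, α t = c) {x y : ℝ} (hx : a < x) (hxy : x < y) (hy : y < b) :
    ConvexOn ℝ (Icc x y) (S.M2 α) := by
  obtain ⟨κ, hκ, hconv⟩ := S.curv α h a b c ha hab hb hc hpl x y hx hxy hy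
  have h2 : ConvexOn ℝ (Icc x y) (fun t : ℝ => κ * t ^ 2) := by
    have := ((even_two.convexOn_pow (𝕜 := ℝ)).smul hκ.le).subset (subset_univ (Icc x y)) (convex_Icc x y)
    exact this
  have := hconv.add h2
  refine this.congr ?_
  intro t _
  simp

/-- V5: no gap with both ends in the support -/
theorem sv_no_gap {T : ℝ} (S : SvPkg T) (hT : 0 < T) {μ : Measure ℝ} (hm : SvMin S μ) {a b : ℝ}
    (ha : a ∈ μ.support) (hb : b ∈ μ.support) (hab : a < b) (hgap : ∀ t ∈ Ioo a b, t ∉ μ.support) : False := by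
  have := hm.prob
  have hc : SvCoef (svCdf μ) := sv_cdf_coef μ
  have ha01 := sv_supp_sub hm.car ha
  have hb01 := sv_supp_sub hm.car hb
  have hcpos := sv_cdf_pos ha hab hgap
  have hpl : ∀ t ∈ Ioo a b, svCdf μ t = svCdf μ a := fun t ht =>
    sv_cdf_const ht.1.le (fun r hr => hgap r ⟨hr.1, lt_of_le_of_lt hr.2 ht.2⟩)
  set m2 := S.M2 (svCdf μ) with hm2
  have hm2c : ContinuousOn m2 (Icc 0 1) := S.M2_cont _ hc
  have hla := sv_contact_le S hT hm a ha
  have hlb := sv_contact_le S hT hm b hb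
  -- step 3: T m2 ≤ 1 on (a,b)
  have hle : ∀ t ∈ Ioo a b, T * m2 t ≤ 1 := by
    intro t0 ht0
    by_contra hgt
    rw [not_le] at hgt
    have hA : m2 a < m2 t0 := by
      have : T * m2 a < T * m2 t0 := lt_of_le_of_lt hla hgt
      exact lt_of_mul_lt_mul_left this hT.le
    have hB : m2 b < m2 t0 := by
      have : T * m2 b < T * m2 t0 := lt_of_le_of_lt hlb hgt
      exact lt_of_mul_lt_mul_left this hT.le
    obtain ⟨y1, hy1a, _, hy1⟩ := sv_pos_right (f := fun t => m2 t0 - m2 t) (continuousOn_const.sub hm2c)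
      ha01.1 (lt_of_lt_of_le hab hb01.2) (by simpa using hA)
    obtain ⟨y2, _, hy2b, hy2⟩ := sv_pos_left (f := fun t => m2 t0 - m2 t) (continuousOn_const.sub hm2c)
      (lt_of_le_of_lt ha01.1 hab) hb01.2 (by simpa using hB)
    set x := min y1 ((a + t0) / 2) with hx
    set y := max y2 ((t0 + b) / 2) with hy
    have hxa : a < x := lt_min hy1a (by linarith [ht0.1])
    have hxt : x < t0 := lt_of_le_of_lt (min_le_right _ _) (by linarith [ht0.1])
    have hyb : y < b := max_lt hy2b (by linarith [ht0.2])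
    have hty : t0 < y := lt_of_lt_of_le (by linarith [ht0.2]) (le_max_right _ _)
    have hconv := sv_M2_convex S hc ha01.1 hab hb01.2 hcpos hpl hxa (hxt.trans hty) hyb
    have h1 := hconv.le_max_of_mem_Icc (x := x) (y := y) (z := t0) ⟨le_rfl, (hxt.trans hty).le⟩
      ⟨(hxt.trans hty).le, le_rfl⟩ ⟨hxt.le, hty.le⟩
    have h2 := hy1 x ⟨hxa.le, min_le_left _ _⟩
    have h3 := hy2 y ⟨le_max_left _ _, hyb.le⟩
    rcases le_max_iff.1 h1 with h4 | h4
    · linarith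
    · linarith
  -- step 4, 5
  have h0 : ∫ t in a..b, (T * m2 t - 1) = 0 := by
    rw [← sv_f_sub S hc ha01 hb01, sv_contact_eq S hT hm a ha, sv_contact_eq S hT hm b hb]; ring
  have hsub : Icc a b ⊆ Icc (0:ℝ) 1 := Icc_subset_Icc ha01.1 hb01.2
  have heq : ∀ t ∈ Icc a b, T * m2 t = 1 := by
    intro t ht
    by_contra hne
    have hle' : ∀ r ∈ Icc a b, T * m2 r ≤ 1 := by
      intro r hr
      rcases hr.1.eq_or_lt with h | h
      · rw [← h]; exact hla
      · rcases hr.2.eq_or_lt with h' | h'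
        · rw [h']; exact hlb
        · exact hle r ⟨h, h'⟩
    have hpos : 0 < ∫ r in a..b, (1 - T * m2 r) := by
      apply intervalIntegral.integral_pos hab
      · exact (continuousOn_const.sub (continuousOn_const.mul hm2c)).mono hsub
      · intro r hr; have := hle' r ⟨hr.1.le, hr.2⟩; linarith
      · exact ⟨t, ht, by have := lt_of_le_of_ne (hle' t ht) hne; linarith⟩
    have : (∫ r in a..b, (1 - T * m2 r)) = -∫ r in a..b, (T * m2 r - 1) := by
      rw [← intervalIntegral.integral_neg]; congr 1; funext r; ring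
    rw [this, h0] at hpos
    simp at hpos
  -- step 6
  set a' := a + (b - a) / 3 with ha'
  set b' := a + 2 * (b - a) / 3 with hb'
  have h1 : a < a' := by rw [ha']; linarith
  have h2 : a' < b' := by rw [ha', hb']; linarith
  have h3 : b' < b := by rw [hb']; linarith
  obtain ⟨κ, hκ, hconv⟩ := S.curv _ hc a b _ ha01.1 hab hb01.2 hcpos hpl a' b' h1 h2 h3
  have hmid := hconv.2 (show a' ∈ Icc a' b' from ⟨le_rfl, h2.le⟩) (show b' ∈ Icc a' b' from ⟨h2.le, le_rfl⟩)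
    (show (0:ℝ) ≤ 1 / 2 by norm_num) (show (0:ℝ) ≤ 1 / 2 by norm_num) (by norm_num)
  simp only [smul_eq_mul] at hmid
  have e1 : T * m2 a' = 1 := heq a' ⟨h1.le, (h2.trans h3).le⟩
  have e2 : T * m2 b' = 1 := heq b' ⟨(h1.trans h2).le, h3.le⟩
  have e3 : T * m2 (1 / 2 * a' + 1 / 2 * b') = 1 := heq _ ⟨by linarith, by linarith⟩
  have e4 : m2 a' = m2 (1 / 2 * a' + 1 / 2 * b') := by
    apply mul_left_cancel₀ hT.ne'; rw [e1, e3]
  have e5 : m2 b' = m2 (1 / 2 * a' + 1 / 2 * b') := by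
    apply mul_left_cancel₀ hT.ne'; rw [e2, e3]
  rw [← hm2, e4, e5] at hmid
  have : 0 < κ * (b' - a') ^ 2 := by
    have : 0 < b' - a' := by linarith
    positivity
  nlinarith

theorem sv_h_int {T : ℝ} (S : SvPkg T) {α : ℝ → ℝ} (h : SvCoef α) {a b : ℝ} (ha : a ∈ Icc (0:ℝ) 1)
    (hb : b ∈ Icc (0:ℝ) 1) :
    IntervalIntegrable (fun r => S.N3 α r - 2 * α r * S.M3 α r) volume a b := by
  have hs := uIcc_subset_Icc ha hb
  apply ((S.N3_cont α h).mono hs).intervalIntegrable.sub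
  exact ((sv_coef_int h ha hb).const_mul 2).mul_continuousOn ((S.M3_cont α h).mono hs)

/-- V6: no initial gap -/
theorem sv_no_init_gap {T : ℝ} (S : SvPkg T) (hT : 0 < T) {μ : Measure ℝ} (hm : SvMin S μ) {b : ℝ}
    (hb : b ∈ μ.support) (hb0 : 0 < b) (hgap : ∀ t ∈ Ico 0 b, t ∉ μ.support) : False := by
  have := hm.prob
  have hc : SvCoef (svCdf μ) := sv_cdf_coef μ
  have hb01 := sv_supp_sub hm.car hb
  have h001 : (0:ℝ) ∈ Icc (0:ℝ) 1 := ⟨le_rfl, zero_le_one⟩
  have hα0 : ∀ t ∈ Ico 0 b, svCdf μ t = 0 := by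
    intro t ht
    unfold svCdf
    rw [measureReal_def, sv_null_of_disj]; · rfl
    intro r hr hrs
    exact hgap r ⟨(sv_supp_sub hm.car hrs).1, lt_of_le_of_lt hr ht.2⟩ hrs
  have hN := S.N3_pos _ hc b ⟨hb0, hb01.2⟩ hα0
  have hlb := sv_contact_le S hT hm b hb
  have hlt : ∀ t ∈ Ico 0 b, T * S.M2 (svCdf μ) t - 1 < 0 := by
    intro t ht
    have ht01 : t ∈ Icc (0:ℝ) 1 := ⟨ht.1, le_trans ht.2.le hb01.2⟩
    have h1 := S.M2_eq _ hc t ht01 b hb01
    have h2 : 0 < ∫ r in t..b, (S.N3 (svCdf μ) r - 2 * svCdf μ r * S.M3 (svCdf μ) r) := by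
      apply intervalIntegral.intervalIntegral_pos_of_pos_on (sv_h_int S hc ht01 hb01) _ ht.2
      intro r hr
      rw [hα0 r ⟨le_trans ht.1 hr.1.le, hr.2⟩]
      have := hN r ⟨lt_of_le_of_lt ht.1 hr.1, hr.2⟩
      linarith
    have h3 : 0 < T * ∫ r in t..b, (S.N3 (svCdf μ) r - 2 * svCdf μ r * S.M3 (svCdf μ) r) := mul_pos hT h2
    have h4 : S.M2 (svCdf μ) t < S.M2 (svCdf μ) b := by linarith
    have := mul_lt_mul_of_pos_left h4 hT
    linarith
  have h0 : ∫ t in (0:ℝ)..b, (T * S.M2 (svCdf μ) t - 1) = 0 := by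
    rw [← sv_f_sub S hc h001 hb01, sv_contact_eq S hT hm b hb, sv_Gam_zero S hc]; ring
  have hpos : 0 < ∫ t in (0:ℝ)..b, -(T * S.M2 (svCdf μ) t - 1) :=
    intervalIntegral.intervalIntegral_pos_of_pos_on (sv_g_int S hc h001 hb01).neg
      (fun t ht => by have := hlt t ⟨ht.1.le, ht.2⟩; linarith) hb0
  rw [intervalIntegral.integral_neg, h0] at hpos
  simp at hpos

/-- V7: the replica symmetric measure is not a minimiser for `T > 1` -/
theorem sv_supp_not_zero {T : ℝ} (S : SvPkg T) (hT : 1 < T) {μ : Measure ℝ} (hm : SvMin S μ) :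
    ∃ x ∈ μ.support, 0 < x := by
  have := hm.prob
  have hc : SvCoef (svCdf μ) := sv_cdf_coef μ
  by_contra hno
  have hall : ∀ x ∈ μ.support, x = 0 := by
    intro x hx
    by_contra hne
    exact hno ⟨x, hx, lt_of_le_of_ne (sv_supp_sub hm.car hx).1 (Ne.symm hne)⟩
  obtain ⟨x, hx⟩ := Measure.nonempty_support (IsProbabilityMeasure.ne_zero μ)
  have hx0 := hall x hx
  subst hx0
  have hα1 : ∀ t ∈ Icc (0:ℝ) 1, svCdf μ t = 1 := by
    intro t ht
    unfold svCdf
    have h1 : μ (Iic t)ᶜ = 0 := by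
      apply sv_null_of_disj
      intro r hr hrs
      rw [hall r hrs] at hr
      exact hr ht.1
    have h2 := (prob_compl_eq_zero_iff measurableSet_Iic).1 h1
    rw [measureReal_def, h2]; rfl
  have h1 := S.rs _ hc hα1
  have h2 := sv_contact_le S (by linarith) hm 0 hx
  rw [h1] at h2
  linarith

/-! ## 6. the theorem -/

theorem sv_rc_zero {f : ℝ → ℝ} {s b : ℝ} (hsb : s < b)
    (hint : ∀ t ∈ Ioo s b, IntervalIntegrable f volume s t)
    (hrc : ContinuousWithinAt f (Ici s) s) (h0 : ∀ t ∈ Ioo s b, ∫ x in s..t, f x = 0) : f s = 0 := by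
  by_contra hne
  obtain ⟨δ, hδ, hd⟩ := (Metric.continuousWithinAt_iff.1 hrc) |f s| (abs_pos.2 hne)
  set t := min (s + δ / 2) ((s + b) / 2) with ht
  have hst : s < t := lt_min (by linarith) (by linarith)
  have htb : t < b := lt_of_le_of_lt (min_le_right _ _) (by linarith)
  have hclose : ∀ x ∈ Ioo s t, |f x - f s| < |f s| := by
    intro x hx
    have := hd (show x ∈ Ici s from hx.1.le) (by
      rw [Real.dist_eq, abs_of_pos (sub_pos.2 hx.1)]
      have : t ≤ s + δ / 2 := min_le_left _ _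
      linarith [hx.2])
    rwa [Real.dist_eq] at this
  have hi := hint t ⟨hst, htb⟩
  have hz := h0 t ⟨hst, htb⟩
  rcases lt_or_gt_of_ne hne with hneg | hpos
  · have : 0 < ∫ x in s..t, -f x := by
      apply intervalIntegral.intervalIntegral_pos_of_pos_on hi.neg _ hst
      intro x hx
      have h1 := hclose x hx
      rw [abs_of_neg hneg] at h1
      have := (abs_lt.1 h1).2
      show 0 < -f x
      linarith
    rw [intervalIntegral.integral_neg, hz] at this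
    simp at this
  · have : 0 < ∫ x in s..t, f x := by
      apply intervalIntegral.intervalIntegral_pos_of_pos_on hi _ hst
      intro x hx
      have h1 := hclose x hx
      rw [abs_of_pos hpos] at h1
      have := (abs_lt.1 h1).1
      linarith
    rw [hz] at this
    exact lt_irrefl _ this

theorem sv_cwa_right {f : ℝ → ℝ} (hf : ContinuousOn f (Icc 0 1)) {s : ℝ} (hs0 : 0 ≤ s) (hs1 : s < 1) :
    ContinuousWithinAt f (Ici s) s :=
  (hf s ⟨hs0, hs1.le⟩).mono_of_mem_nhdsWithin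
    (mem_of_superset (Icc_mem_nhdsGE hs1) (Icc_subset_Icc hs0 le_rfl))

/-- V8a: the support is an interval `[0,q]`, `0 < q < 1` -/
theorem sv_supp_eq {T : ℝ} (S : SvPkg T) (hT : 1 < T) {μ : Measure ℝ} (hm : SvMin S μ) :
    ∃ q ∈ Ioo (0:ℝ) 1, μ.support = Icc 0 q := by
  have := hm.prob
  have hT0 : 0 < T := by linarith
  have hcl : IsClosed μ.support := Measure.isClosed_support
  have hsub := sv_supp_sub hm.car
  obtain ⟨x0, hx0, hx0pos⟩ := sv_supp_not_zero S hT hm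
  have hba : BddAbove μ.support := ⟨1, fun x hx => (hsub hx).2⟩
  have hbb : BddBelow μ.support := ⟨0, fun x hx => (hsub hx).1⟩
  have hq : sSup μ.support ∈ μ.support := hcl.csSup_mem ⟨x0, hx0⟩ hba
  set q := sSup μ.support with hqdef
  have hq0 : 0 < q := lt_of_lt_of_le hx0pos (le_csSup hba hx0)
  have hq1 : q < 1 := sv_supp_lt_one S hT0 hm q hq
  refine ⟨q, ⟨hq0, hq1⟩, Subset.antisymm (fun x hx => ⟨(hsub hx).1, le_csSup hba hx⟩) ?_⟩
  intro t ht
  by_contra htS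
  -- right end of the gap
  have hBcl : IsClosed (μ.support ∩ Ici t) := hcl.inter isClosed_Ici
  have hBne : (μ.support ∩ Ici t).Nonempty := ⟨q, hq, ht.2⟩
  have hBbb : BddBelow (μ.support ∩ Ici t) := hbb.mono inter_subset_left
  have hb := hBcl.csInf_mem hBne hBbb
  set b := sInf (μ.support ∩ Ici t) with hbdef
  have hbmin : ∀ r ∈ μ.support, t ≤ r → b ≤ r := fun r hr htr => csInf_le hBbb ⟨hr, htr⟩
  have htb : t < b := lt_of_le_of_ne hb.2 (fun h => htS (h ▸ hb.1))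
  by_cases hA : ∃ r ∈ μ.support, r ≤ t
  · obtain ⟨r0, hr0, hr0t⟩ := hA
    have hAcl : IsClosed (μ.support ∩ Iic t) := hcl.inter isClosed_Iic
    have hAba : BddAbove (μ.support ∩ Iic t) := hba.mono inter_subset_left
    have ha := hAcl.csSup_mem ⟨r0, hr0, hr0t⟩ hAba
    set a := sSup (μ.support ∩ Iic t) with hadef
    have hamax : ∀ r ∈ μ.support, r ≤ t → r ≤ a := fun r hr hrt => le_csSup hAba ⟨hr, hrt⟩
    have hat : a < t := lt_of_le_of_ne ha.2 (fun h => htS (h ▸ ha.1))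
    apply sv_no_gap S hT0 hm ha.1 hb.1 (hat.trans htb)
    intro r hr hrS
    rcases le_total r t with h | h
    · exact absurd (hamax r hrS h) (not_le.2 hr.1)
    · exact absurd (hbmin r hrS h) (not_le.2 hr.2)
  · apply sv_no_init_gap S hT0 hm hb.1 (lt_of_le_of_lt ht.1 htb)
    intro r hr hrS
    rcases le_total r t with h | h
    · exact hA ⟨r, hrS, h⟩
    · exact absurd (hbmin r hrS h) (not_le.2 hr.2)

/-- **THEOREM (L)** (replaces Lopatto 2026, Thm 1.1 + Lemma 2.2): at `T > 1` the support of a minimiser of the scalar Parisi functional is an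
interval `[0,q]`, `0 < q < 1`; there `Γ = id`, `T E V_zz² = 1`, `α = E V_zzz² / (2 E V_zz³)`; no atom at `0`.   TEX[FS:thm:full-support] -/
theorem sv_thmL {T : ℝ} (S : SvPkg T) (hT : 1 < T) {μ : Measure ℝ} (hm : SvMin S μ) :
    ∃ q ∈ Ioo (0:ℝ) 1, μ.support = Icc 0 q ∧
      (∀ s ∈ Icc 0 q, S.Gam (svCdf μ) s = s) ∧
      (∀ s ∈ Icc 0 q, T * S.M2 (svCdf μ) s = 1) ∧
      (∀ s ∈ Ico 0 q, svCdf μ s = S.N3 (svCdf μ) s / (2 * S.M3 (svCdf μ) s)) ∧
      svCdf μ 0 = 0 ∧ StrictMonoOn (svCdf μ) (Icc 0 q) ∧ ContinuousOn (svCdf μ) (Ico 0 q) := by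
  have := hm.prob
  have hT0 : 0 < T := by linarith
  have hc : SvCoef (svCdf μ) := sv_cdf_coef μ
  obtain ⟨q, hq, hS⟩ := sv_supp_eq S hT hm
  have hmem : ∀ s ∈ Icc 0 q, s ∈ μ.support := fun s hs => by rw [hS]; exact hs
  have h01 : ∀ s ∈ Icc 0 q, s ∈ Icc (0:ℝ) 1 := fun s hs => ⟨hs.1, le_trans hs.2 hq.2.le⟩
  have hG : ∀ s ∈ Icc 0 q, S.Gam (svCdf μ) s = s := fun s hs => sv_contact_eq S hT0 hm s (hmem s hs)
  -- T M2 = 1 on [0,q)
  have hM0 : ∀ s ∈ Ico 0 q, T * S.M2 (svCdf μ) s = 1 := by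
    intro s hs
    have hs' : s ∈ Icc 0 q := ⟨hs.1, hs.2.le⟩
    have := sv_rc_zero (f := fun t => T * S.M2 (svCdf μ) t - 1) hs.2
      (fun t ht => sv_g_int S hc (h01 s hs') (h01 t ⟨le_trans hs.1 ht.1.le, ht.2.le⟩))
      (sv_cwa_right (sv_g_cont S hc) hs.1 (lt_trans hs.2 hq.2))
      (fun t ht => by
        have ht' : t ∈ Icc 0 q := ⟨le_trans hs.1 ht.1.le, ht.2.le⟩
        rw [← sv_f_sub S hc (h01 s hs') (h01 t ht'), hG s hs', hG t ht']; ring)
    linarith
  have hM : ∀ s ∈ Icc 0 q, T * S.M2 (svCdf μ) s = 1 := by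
    intro s hs
    rcases hs.2.eq_or_lt with h | h
    · subst h
      have hle := sv_contact_le S hT0 hm s (hmem s hs)
      by_contra hne
      obtain ⟨y, hy0, hys, hy⟩ := sv_pos_left (f := fun t => -(T * S.M2 (svCdf μ) t - 1)) (sv_g_cont S hc).neg
        hq.1 hq.2.le (by have := lt_of_le_of_ne hle hne; linarith)
      have h1 := hy y ⟨le_rfl, hys.le⟩
      have h2 := hM0 y ⟨hy0, hys⟩
      linarith
    · exact hM0 s ⟨hs.1, h⟩
  -- the density formula
  have hF : ∀ s ∈ Ico 0 q, svCdf μ s = S.N3 (svCdf μ) s / (2 * S.M3 (svCdf μ) s) := by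
    intro s hs
    have hs' : s ∈ Icc 0 q := ⟨hs.1, hs.2.le⟩
    have hs1 : s < 1 := lt_trans hs.2 hq.2
    have hz := sv_rc_zero (f := fun r => S.N3 (svCdf μ) r - 2 * svCdf μ r * S.M3 (svCdf μ) r) hs.2
      (fun t ht => sv_h_int S hc (h01 s hs') (h01 t ⟨le_trans hs.1 ht.1.le, ht.2.le⟩))
      ((sv_cwa_right (S.N3_cont _ hc) hs.1 hs1).sub
        ((continuousWithinAt_const.mul (sv_cdf_rc μ s)).mul (sv_cwa_right (S.M3_cont _ hc) hs.1 hs1)))
      (fun t ht => by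
        have ht' : t ∈ Icc 0 q := ⟨le_trans hs.1 ht.1.le, ht.2.le⟩
        have h1 := S.M2_eq _ hc s (h01 s hs') t (h01 t ht')
        have h2 : S.M2 (svCdf μ) t = S.M2 (svCdf μ) s := by
          apply mul_left_cancel₀ hT0.ne'; rw [hM t ht', hM s hs']
        rw [h2, sub_self] at h1
        rcases mul_eq_zero.1 h1.symm with h | h
        · exact absurd h hT0.ne'
        · exact h)
    have hpos := S.M3_pos _ hc s (h01 s hs')
    rw [eq_div_iff (by positivity)]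
    linarith
  refine ⟨q, hq, hS, hG, hM, hF, ?_, ?_, ?_⟩
  · rw [hF 0 ⟨le_rfl, hq.1⟩, S.N3_zero _ hc, zero_div]
  · intro s hs s' hs' hss
    have hmid : (s + s') / 2 ∈ μ.support := hmem _ ⟨by linarith [hs.1, hs'.1], by linarith [hs.2, hs'.2]⟩
    have hpos : 0 < μ (Ioo s s') := (Measure.mem_support_iff_forall _).1 hmid _
      (Ioo_mem_nhds (by linarith) (by linarith))
    have hposr : 0 < μ.real (Ioo s s') := by
      rw [measureReal_def]; exact ENNReal.toReal_pos hpos.ne' (measure_ne_top _ _)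
    have hdisj : Disjoint (Iic s) (Ioo s s') := by
      rw [Set.disjoint_left]; intro r hr hr'; exact absurd hr (not_le.2 hr'.1)
    have hun : μ.real (Iic s ∪ Ioo s s') = μ.real (Iic s) + μ.real (Ioo s s') :=
      measureReal_union hdisj measurableSet_Ioo
    have hsubs : Iic s ∪ Ioo s s' ⊆ Iic s' := by
      intro r hr
      rcases hr with h | h
      · exact le_trans h hss.le
      · exact h.2.le
    have := measureReal_mono (μ := μ) hsubs
    unfold svCdf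
    linarith
  · have hsub : Ico 0 q ⊆ Icc (0:ℝ) 1 := fun s hs => ⟨hs.1, le_trans hs.2.le hq.2.le⟩
    have hcont : ContinuousOn (fun s => S.N3 (svCdf μ) s / (2 * S.M3 (svCdf μ) s)) (Ico 0 q) := by
      apply ((S.N3_cont _ hc).mono hsub).div (continuousOn_const.mul ((S.M3_cont _ hc).mono hsub))
      intro s hs
      have := S.M3_pos _ hc s (hsub hs)
      exact (mul_pos two_pos this).ne'
    exact hcont.congr hF

end Claimed.Agent.R286
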