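import Claimed.Agent.R286.Sc.GenDefs
import Claimed.Agent.R286.Sc.Tau

/-!
# Row 286, scalar block, S7.0: DEPENDENCE ON A PARAMETER (terminal datum, length of a step) -- differentiation through the recursion

CONTRACT FILE (head: helper95, ADV: helper36; prover of the whole file: helper169).   Prefix `scq_`, structures `ScFam`, `ScObs`.   Users: LL 03 (`paths:parameter-regularity`, `∂_j` of the terminal mass),
LL 05 (`inv:sector-response`, moved times), first and second variations.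
The parameter `θ ∈ [θ₀, θ₁]` plays the role of the time in the classes `ScT`:
* `ScObs θ₀ θ₁ φ φd` : a family of observables `φ θ`, all `z`-derivatives jointly continuous with uniform exponential growth, `∂_θ φ = φd` (same class);
* `ScFam θ₀ θ₁ G Gd` : a family of CONTINUATIONS: `ScObs`, each `G θ ∈ ScBI`, the derivatives `∂_z^k G` (`k ≥ 1`) and `∂_z^k Gd` (`k ≥ 0`) bounded uniformly in `θ`.
RULES  `∂_θ scStep m s (G θ) = scTr m s (G θ) (Gd θ)`,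
       `∂_θ scTr m s (G θ) (φ θ) = scTr (φd θ) + m (scTr (φ θ · Gd θ) - scTr (φ θ) · scTr (Gd θ))`   (covariance with the tilt),
hence  `∂_θ scVt (F θ) π t = scPt (F θ) π t (scLen π) (Fd θ)`, and `∂_θ` commutes with `∂_z` (`sc_deriv_comm`).
Base cases: affine families `F + θ g`, the terminal mass `j ↦ scLC j`, the length of a step `θ ↦ scStep m θ G`.
Proof pattern of the regularity leaves: as `sc_W_T, sc_step_T, sc_tr_T'` in `Sc/Step.lean` (section D), with `sc_heat_T_of_T`, `ScT.mul/inv/log`.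
-/

set_option autoImplicit false

namespace Claimed.Agent.R286

open MeasureTheory ProbabilityTheory Filter Topology Set

/-- a smooth family of observables with its parameter derivative -/
structure ScObs (θ₀ θ₁ : ℝ) (φ φd : ℝ → ℝ → ℝ) : Prop where
  reg : ∀ n, ScT (Icc θ₀ θ₁) n φ
  dreg : ∀ n, ScT (Icc θ₀ θ₁) n φd
  der : ∀ θ ∈ Ioo θ₀ θ₁, ∀ z, HasDerivAt (fun θ => φ θ z) (φd θ z) θ

/-- a smooth family of continuations with its parameter derivative -/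
structure ScFam (θ₀ θ₁ : ℝ) (G Gd : ℝ → ℝ → ℝ) : Prop where
  obs : ScObs θ₀ θ₁ G Gd
  bi : ∀ θ ∈ Icc θ₀ θ₁, ScBI (G θ)
  bdd : ∀ k : ℕ, ∃ C : ℝ, ∀ θ ∈ Icc θ₀ θ₁, ∀ z, |deriv^[k + 1] (G θ) z| ≤ C
  dbdd : ∀ k : ℕ, ∃ C : ℝ, ∀ θ ∈ Icc θ₀ θ₁, ∀ z, |deriv^[k] (Gd θ) z| ≤ C

/-! ## A. calculus of `ScObs` -/

theorem ScObs.const {f : ℝ → ℝ} (hf : ∀ n, ScE n f) (θ₀ θ₁ : ℝ) : ScObs θ₀ θ₁ (fun _ => f) (fun _ _ => 0) :=
  ⟨fun n => (hf n).scT _, fun n => (ScE.const n 0).scT _, fun θ _ z => hasDerivAt_const θ (f z)⟩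

theorem ScObs.add {θ₀ θ₁ : ℝ} {φ φd ψ ψd : ℝ → ℝ → ℝ} (h1 : ScObs θ₀ θ₁ φ φd) (h2 : ScObs θ₀ θ₁ ψ ψd) :
    ScObs θ₀ θ₁ (fun θ z => φ θ z + ψ θ z) (fun θ z => φd θ z + ψd θ z) :=
  ⟨fun n => (h1.reg n).add (h2.reg n), fun n => (h1.dreg n).add (h2.dreg n),
    fun θ hθ z => (h1.der θ hθ z).add (h2.der θ hθ z)⟩

theorem ScObs.sub {θ₀ θ₁ : ℝ} {φ φd ψ ψd : ℝ → ℝ → ℝ} (h1 : ScObs θ₀ θ₁ φ φd) (h2 : ScObs θ₀ θ₁ ψ ψd) :
    ScObs θ₀ θ₁ (fun θ z => φ θ z - ψ θ z) (fun θ z => φd θ z - ψd θ z) :=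
  ⟨fun n => (h1.reg n).sub (h2.reg n), fun n => (h1.dreg n).sub (h2.dreg n),
    fun θ hθ z => (h1.der θ hθ z).sub (h2.der θ hθ z)⟩

theorem ScObs.const_mul {θ₀ θ₁ : ℝ} {φ φd : ℝ → ℝ → ℝ} (c : ℝ) (h1 : ScObs θ₀ θ₁ φ φd) :
    ScObs θ₀ θ₁ (fun θ z => c * φ θ z) (fun θ z => c * φd θ z) :=
  ⟨fun n => (h1.reg n).const_mul c, fun n => (h1.dreg n).const_mul c, fun θ hθ z => (h1.der θ hθ z).const_mul c⟩

theorem ScObs.mul {θ₀ θ₁ : ℝ} {φ φd ψ ψd : ℝ → ℝ → ℝ} (h1 : ScObs θ₀ θ₁ φ φd) (h2 : ScObs θ₀ θ₁ ψ ψd) :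
    ScObs θ₀ θ₁ (fun θ z => φ θ z * ψ θ z) (fun θ z => φd θ z * ψ θ z + φ θ z * ψd θ z) :=
  ⟨fun n => (h1.reg n).mul (h2.reg n), fun n => ((h1.dreg n).mul (h2.reg n)).add ((h1.reg n).mul (h2.dreg n)),
    fun θ hθ z => (h1.der θ hθ z).mul (h2.der θ hθ z)⟩

/-- `∂_θ` and `∂_z` commute -/
theorem ScObs.dz {θ₀ θ₁ : ℝ} {φ φd : ℝ → ℝ → ℝ} (h1 : ScObs θ₀ θ₁ φ φd) :
    ScObs θ₀ θ₁ (fun θ => deriv (φ θ)) (fun θ => deriv (φd θ)) :=
  ⟨fun n => sc_T_deriv (h1.reg (n + 1)), fun n => sc_T_deriv (h1.dreg (n + 1)),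
    fun _ hθ z => sc_deriv_comm (h1.reg 1) (h1.dreg 1) h1.der hθ z⟩

theorem ScObs.dz_iter {θ₀ θ₁ : ℝ} {φ φd : ℝ → ℝ → ℝ} (h1 : ScObs θ₀ θ₁ φ φd) (k : ℕ) :
    ScObs θ₀ θ₁ (fun θ => deriv^[k] (φ θ)) (fun θ => deriv^[k] (φd θ)) := by
  induction k generalizing φ φd with
  | zero => exact h1
  | succ k ih => exact ih h1.dz

theorem ScObs.sub_interval {θ₀ θ₁ θ₀' θ₁' : ℝ} {φ φd : ℝ → ℝ → ℝ} (h1 : ScObs θ₀ θ₁ φ φd) (h0 : θ₀ ≤ θ₀')
    (h1' : θ₁' ≤ θ₁) : ScObs θ₀' θ₁' φ φd :=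
  ⟨fun n => (h1.reg n).subset (Icc_subset_Icc h0 h1'), fun n => (h1.dreg n).subset (Icc_subset_Icc h0 h1'),
    fun θ hθ z => h1.der θ (Ioo_subset_Ioo h0 h1' hθ) z⟩

/-- fundamental theorem of calculus in the parameter -/
theorem ScObs.sub_eq_integral {θ₀ θ₁ : ℝ} {φ φd : ℝ → ℝ → ℝ} (h1 : ScObs θ₀ θ₁ φ φd) (h : θ₀ ≤ θ₁) (z : ℝ) :
    φ θ₁ z - φ θ₀ z = ∫ θ in θ₀..θ₁, φd θ z := by
  refine (intervalIntegral.integral_eq_sub_of_hasDerivAt_of_le h ((h1.reg 0).cont_time z)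
    (fun θ hθ => h1.der θ hθ z) ?_).symm
  have := (h1.dreg 0).cont_time z
  rw [← uIcc_of_le h] at this
  exact this.intervalIntegrable

/-- mean value inequality -/
theorem ScObs.abs_sub_le {θ₀ θ₁ : ℝ} {φ φd : ℝ → ℝ → ℝ} (h1 : ScObs θ₀ θ₁ φ φd) (h : θ₀ ≤ θ₁) {C z : ℝ}
    (hC : ∀ θ ∈ Icc θ₀ θ₁, |φd θ z| ≤ C) : |φ θ₁ z - φ θ₀ z| ≤ C * (θ₁ - θ₀) := by
  rw [h1.sub_eq_integral h z]
  have := intervalIntegral.norm_integral_le_of_norm_le_const (a := θ₀) (b := θ₁) (f := fun θ => φd θ z) (C := C)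
    (fun θ hθ => by
      rw [uIoc_of_le h] at hθ
      exact hC θ ⟨hθ.1.le, hθ.2⟩)
  rwa [Real.norm_eq_abs, abs_of_nonneg (sub_nonneg.2 h)] at this
/-! ## B. one step -/

/-! ### (helper169) the class `ScQU`: bounded with `n` derivatives, uniformly in the parameter `θ ∈ I` -/

/-- bounded with `n` derivatives in `z`, uniformly in `θ ∈ I` -/
def ScQU (I : Set ℝ) : ℕ → (ℝ → ℝ → ℝ) → Prop
  | 0, Φ => ∃ C : ℝ, ∀ θ ∈ I, ∀ z, |Φ θ z| ≤ C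
  | n + 1, Φ => (∃ C : ℝ, ∀ θ ∈ I, ∀ z, |Φ θ z| ≤ C) ∧ (∀ θ ∈ I, Differentiable ℝ (Φ θ)) ∧
      ScQU I n (fun θ => deriv (Φ θ))

theorem ScQU.bdd {I : Set ℝ} {n : ℕ} {Φ : ℝ → ℝ → ℝ} (h : ScQU I n Φ) : ∃ C : ℝ, ∀ θ ∈ I, ∀ z, |Φ θ z| ≤ C := by
  cases n with
  | zero => exact h
  | succ n => exact h.1

theorem ScQU.of_succ {I : Set ℝ} {n : ℕ} {Φ : ℝ → ℝ → ℝ} (h : ScQU I (n + 1) Φ) : ScQU I n Φ := by
  induction n generalizing Φ with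
  | zero => exact h.1
  | succ n ih => exact ⟨h.1, h.2.1, ih h.2.2⟩

theorem ScQU.mono {I : Set ℝ} {m n : ℕ} (hmn : m ≤ n) {Φ : ℝ → ℝ → ℝ} (h : ScQU I n Φ) : ScQU I m Φ := by
  induction n, hmn using Nat.le_induction with
  | base => exact h
  | succ n _ ih => exact ih h.of_succ

theorem ScQU.congr {I : Set ℝ} {n : ℕ} {Φ Ψ : ℝ → ℝ → ℝ} (h : ScQU I n Φ) (e : ∀ θ ∈ I, Ψ θ = Φ θ) : ScQU I n Ψ := by
  induction n generalizing Φ Ψ with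
  | zero =>
    obtain ⟨C, hC⟩ := h
    exact ⟨C, fun θ hθ z => by rw [e θ hθ]; exact hC θ hθ z⟩
  | succ n ih =>
    obtain ⟨C, hC⟩ := h.1
    exact ⟨⟨C, fun θ hθ z => by rw [e θ hθ]; exact hC θ hθ z⟩, fun θ hθ => by rw [e θ hθ]; exact h.2.1 θ hθ,
      ih h.2.2 fun θ hθ => by rw [e θ hθ]⟩

theorem ScQU.add {I : Set ℝ} {n : ℕ} {Φ Ψ : ℝ → ℝ → ℝ} (hΦ : ScQU I n Φ) (hΨ : ScQU I n Ψ) :
    ScQU I n (fun θ z => Φ θ z + Ψ θ z) := by
  induction n generalizing Φ Ψ with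
  | zero =>
    obtain ⟨C, hC⟩ := hΦ
    obtain ⟨D, hD⟩ := hΨ
    exact ⟨C + D, fun θ hθ z => (abs_add_le _ _).trans (add_le_add (hC θ hθ z) (hD θ hθ z))⟩
  | succ n ih =>
    obtain ⟨C, hC⟩ := hΦ.1
    obtain ⟨D, hD⟩ := hΨ.1
    refine ⟨⟨C + D, fun θ hθ z => (abs_add_le _ _).trans (add_le_add (hC θ hθ z) (hD θ hθ z))⟩,
      fun θ hθ => (hΦ.2.1 θ hθ).add (hΨ.2.1 θ hθ), ?_⟩
    exact (ih hΦ.2.2 hΨ.2.2).congr fun θ hθ => funext fun z => deriv_fun_add (hΦ.2.1 θ hθ z) (hΨ.2.1 θ hθ z)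

theorem ScQU.mul {I : Set ℝ} {n : ℕ} {Φ Ψ : ℝ → ℝ → ℝ} (hΦ : ScQU I n Φ) (hΨ : ScQU I n Ψ) :
    ScQU I n (fun θ z => Φ θ z * Ψ θ z) := by
  have hb : ∀ {Φ Ψ : ℝ → ℝ → ℝ}, (∃ C : ℝ, ∀ θ ∈ I, ∀ z, |Φ θ z| ≤ C) → (∃ C : ℝ, ∀ θ ∈ I, ∀ z, |Ψ θ z| ≤ C) →
      ∃ C : ℝ, ∀ θ ∈ I, ∀ z, |Φ θ z * Ψ θ z| ≤ C := by
    rintro Φ Ψ ⟨C, hC⟩ ⟨D, hD⟩
    refine ⟨C * D, fun θ hθ z => ?_⟩
    rw [abs_mul]
    exact mul_le_mul (hC θ hθ z) (hD θ hθ z) (abs_nonneg _) ((abs_nonneg _).trans (hC θ hθ z))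
  induction n generalizing Φ Ψ with
  | zero => exact hb hΦ hΨ
  | succ n ih =>
    refine ⟨hb hΦ.1 hΨ.1, fun θ hθ => (hΦ.2.1 θ hθ).mul (hΨ.2.1 θ hθ), ?_⟩
    exact ((ih hΦ.2.2 hΨ.of_succ).add (ih hΦ.of_succ hΨ.2.2)).congr
      fun θ hθ => funext fun z => deriv_fun_mul (hΦ.2.1 θ hθ z) (hΨ.2.1 θ hθ z)

theorem ScQU.of_time {I : Set ℝ} {a : ℝ → ℝ} (hb : ∃ C, ∀ r ∈ I, |a r| ≤ C) (n : ℕ) : ScQU I n (fun r _ => a r) := by
  obtain ⟨C, hC⟩ := hb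
  induction n generalizing a C with
  | zero => exact ⟨C, fun θ hθ _ => hC θ hθ⟩
  | succ n ih =>
    refine ⟨⟨C, fun θ hθ _ => hC θ hθ⟩, fun θ _ => differentiable_const _, ?_⟩
    have e : (fun θ => deriv (fun _ : ℝ => a θ)) = fun _ _ => (0 : ℝ) := by
      ext θ z; simp
    rw [e]
    exact ih (a := fun _ => 0) 0 (fun _ _ => by simp)

theorem ScQU.const_mul {I : Set ℝ} {n : ℕ} {Φ : ℝ → ℝ → ℝ} (c : ℝ) (hΦ : ScQU I n Φ) :
    ScQU I n (fun θ z => c * Φ θ z) :=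
  (ScQU.of_time (a := fun _ => c) ⟨|c|, fun _ _ => le_rfl⟩ n).mul hΦ

theorem ScQU.sub {I : Set ℝ} {n : ℕ} {Φ Ψ : ℝ → ℝ → ℝ} (hΦ : ScQU I n Φ) (hΨ : ScQU I n Ψ) :
    ScQU I n (fun θ z => Φ θ z - Ψ θ z) :=
  (hΦ.add (hΨ.const_mul (-1))).congr fun θ _ => funext fun z => by ring

theorem ScQU.iter {I : Set ℝ} {n : ℕ} {Φ : ℝ → ℝ → ℝ} (h : ScQU I n Φ) (j : ℕ) (hj : j ≤ n) :
    ∃ C : ℝ, ∀ θ ∈ I, ∀ z, |deriv^[j] (Φ θ) z| ≤ C := by
  induction j generalizing n Φ with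
  | zero => exact h.bdd
  | succ j ih =>
    obtain ⟨n, rfl⟩ : ∃ n', n = n' + 1 := ⟨n - 1, by omega⟩
    exact ih h.2.2 (by omega)

theorem ScQU.of_T {I : Set ℝ} {Φ : ℝ → ℝ → ℝ} (hT : ∀ n, ScT I n Φ)
    (hb : ∀ k : ℕ, ∃ C : ℝ, ∀ θ ∈ I, ∀ z, |deriv^[k] (Φ θ) z| ≤ C) (n : ℕ) : ScQU I n Φ := by
  induction n generalizing Φ with
  | zero => exact hb 0
  | succ n ih => exact ⟨hb 0, (hT 1).2.2.1, ih (fun n => sc_T_deriv (hT (n + 1))) fun k => hb (k + 1)⟩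

/-- the transition operator with a parameter dependent tilt preserves the uniform bounds -/
theorem sc_tr_QU {I : Set ℝ} {n : ℕ} {G φ : ℝ → ℝ → ℝ} (hG : ∀ θ ∈ I, ScB (n + 1) (G θ))
    (hG' : ScQU I n (fun θ => deriv (G θ))) (hE : ∀ θ ∈ I, ScE n (φ θ)) (hφ : ScQU I n φ) (m s : ℝ) :
    ScQU I n (fun θ => scTr m s (G θ) (φ θ)) := by
  induction n generalizing φ with
  | zero =>
    obtain ⟨C, hC⟩ := hφ
    exact ⟨C, fun θ hθ z => sc_tr_abs_le (hG θ hθ) (hE θ hθ).continuous (hC θ hθ) m s z⟩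
  | succ n ih =>
    have hG1 : ∀ θ ∈ I, ScB 1 (G θ) := fun θ hθ => (hG θ hθ).mono (by omega)
    have hGn : ∀ θ ∈ I, ScB (n + 1) (G θ) := fun θ hθ => (hG θ hθ).of_succ
    have hE1 : ∀ θ ∈ I, ScE 1 (φ θ) := fun θ hθ => (hE θ hθ).mono (by omega)
    have hdG : ∀ θ ∈ I, ScE n (deriv (G θ)) := fun θ hθ => (hG θ hθ).deriv_bd.of_succ.scE
    obtain ⟨C, hC⟩ := hφ.1
    refine ⟨⟨C, fun θ hθ z => sc_tr_abs_le (hG1 θ hθ) (hE θ hθ).continuous (hC θ hθ) m s z⟩,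
      fun θ hθ z => (sc_tr_hasDerivAt (hG1 θ hθ) (hE1 θ hθ) m s z).differentiableAt, ?_⟩
    have key := (ih hGn hG'.of_succ (φ := fun θ => deriv (φ θ)) (fun θ hθ => (hE θ hθ).deriv) hφ.2.2).add
      (((ih hGn hG'.of_succ (φ := fun θ y => φ θ y * deriv (G θ) y) (fun θ hθ => (hE θ hθ).of_succ.mul (hdG θ hθ))
        (hφ.of_succ.mul hG'.of_succ)).sub
        ((ih hGn hG'.of_succ (fun θ hθ => (hE θ hθ).of_succ) hφ.of_succ).mul
          (ih hGn hG'.of_succ hdG hG'.of_succ))).const_mul m)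
    exact key.congr fun θ hθ => sc_tr_deriv_eq (hG1 θ hθ) (hE1 θ hθ) m s

theorem ScFam.sub_interval {θ₀ θ₁ θ₀' θ₁' : ℝ} {G Gd : ℝ → ℝ → ℝ} (h1 : ScFam θ₀ θ₁ G Gd) (h0 : θ₀ ≤ θ₀')
    (h1' : θ₁' ≤ θ₁) : ScFam θ₀' θ₁' G Gd := by
  have hs := Icc_subset_Icc h0 h1'
  refine ⟨h1.obs.sub_interval h0 h1', fun θ hθ => h1.bi θ (hs hθ), fun k => ?_, fun k => ?_⟩
  · obtain ⟨C, hC⟩ := h1.bdd k
    exact ⟨C, fun θ hθ => hC θ (hs hθ)⟩
  · obtain ⟨C, hC⟩ := h1.dbdd k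
    exact ⟨C, fun θ hθ => hC θ (hs hθ)⟩

/-- uniform linear growth -/
theorem ScFam.lin_growth {θ₀ θ₁ : ℝ} {G Gd : ℝ → ℝ → ℝ} (h : ScFam θ₀ θ₁ G Gd) :
    ∃ C L : ℝ, ∀ θ ∈ Icc θ₀ θ₁, ∀ z, |G θ z| ≤ C + L * |z| := by
  obtain ⟨L, hL⟩ := h.bdd 0
  obtain ⟨C, c, hC⟩ := (h.obs.reg 0).growth
  refine ⟨C, L, fun θ hθ z => ?_⟩
  have h1 := ScG.of_deriv_bdd (f := G θ) (h.bi θ hθ 1).1 (C := L) (fun z => hL θ hθ z) z
  have h2 := hC θ hθ 0
  simp only [abs_zero, mul_zero, Real.exp_zero, mul_one] at h2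
  linarith

/-- (helper169) the exponential of a family with uniform linear growth -/
theorem sc_exp_T {I : Set ℝ} {G : ℝ → ℝ → ℝ} (hG : ∀ n, ScT I n G)
    (hl : ∃ C L : ℝ, ∀ θ ∈ I, ∀ z, |G θ z| ≤ C + L * |z|) (m : ℝ) (n : ℕ) :
    ScT I n (fun θ z => Real.exp (m * G θ z)) := by
  have hc : ContinuousOn (fun p : ℝ × ℝ => Real.exp (m * G p.1 p.2)) (I ×ˢ univ) :=
    Real.continuous_exp.comp_continuousOn (continuousOn_const.mul (hG 0).continuousOn)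
  have hg : ScGU I (fun θ z => Real.exp (m * G θ z)) := by
    obtain ⟨C, L, hl⟩ := hl
    refine ⟨Real.exp (|m| * C), |m| * L, fun θ hθ z => ?_⟩
    rw [abs_of_pos (Real.exp_pos _), ← Real.exp_add]
    apply Real.exp_le_exp.2
    calc m * G θ z ≤ |m * G θ z| := le_abs_self _
      _ = |m| * |G θ z| := abs_mul _ _
      _ ≤ |m| * (C + L * |z|) := by gcongr; exact hl θ hθ z
      _ = _ := by ring
  induction n with
  | zero => exact ⟨hc, hg⟩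
  | succ n ih =>
    have hd : ∀ θ ∈ I, ∀ z, HasDerivAt (fun z => Real.exp (m * G θ z)) (m * deriv (G θ) z * Real.exp (m * G θ z)) z := by
      intro θ hθ z
      have := (((hG 1).2.2.1 θ hθ z).hasDerivAt.const_mul m).exp
      exact this.congr_deriv (by ring)
    refine ⟨hc, hg, fun θ hθ z => (hd θ hθ z).differentiableAt, ?_⟩
    exact (((sc_T_deriv (hG (n + 1))).const_mul m).mul ih).congr fun θ hθ z => (hd θ hθ z).deriv

theorem ScFam.exp_T {θ₀ θ₁ : ℝ} {G Gd : ℝ → ℝ → ℝ} (h : ScFam θ₀ θ₁ G Gd) (m : ℝ) (n : ℕ) :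
    ScT (Icc θ₀ θ₁) n (fun θ z => Real.exp (m * G θ z)) :=
  sc_exp_T h.obs.reg h.lin_growth m n

theorem ScFam.W_T {θ₀ θ₁ : ℝ} {G Gd : ℝ → ℝ → ℝ} (h : ScFam θ₀ θ₁ G Gd) (m s : ℝ) (n : ℕ) :
    ScT (Icc θ₀ θ₁) n (fun θ => scW m s (G θ)) :=
  sc_heat_T_of_T (h.exp_T m n) s

theorem ScFam.W_inv_growth {θ₀ θ₁ : ℝ} {G Gd : ℝ → ℝ → ℝ} (h : ScFam θ₀ θ₁ G Gd) (m s : ℝ) :
    ScGU (Icc θ₀ θ₁) (fun θ z => (scW m s (G θ) z)⁻¹) := by
  obtain ⟨C, c, hC⟩ := (h.W_T (-m) s 0).growth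
  refine ⟨C, c, fun θ hθ z => ?_⟩
  have hB1 : ScB 1 (G θ) := h.bi θ hθ 1
  rw [abs_of_pos (inv_pos.2 (sc_W_pos hB1 m s z))]
  exact (sc_W_inv_le hB1 m s z).trans ((le_abs_self _).trans (hC θ hθ z))

/-- regularity of the transition with a parameter dependent tilt -/
theorem ScFam.tr_T {θ₀ θ₁ : ℝ} {G Gd : ℝ → ℝ → ℝ} (h : ScFam θ₀ θ₁ G Gd) (m s : ℝ) {φ : ℝ → ℝ → ℝ}
    (hφ : ∀ n, ScT (Icc θ₀ θ₁) n φ) (n : ℕ) : ScT (Icc θ₀ θ₁) n (fun θ => scTr m s (G θ) (φ θ)) := by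
  have h1 : ScT (Icc θ₀ θ₁) n (fun θ => scHeat s (fun y => φ θ y * Real.exp (m * G θ y))) :=
    sc_heat_T_of_T ((hφ n).mul (h.exp_T m n)) s
  have h2 := (h.W_T m s n).inv (fun θ hθ z => sc_W_pos (h.bi θ hθ 1) m s z) (h.W_inv_growth m s)
  exact (h1.mul h2).congr fun θ _ z => by simp only [scTr, div_eq_mul_inv]

theorem ScFam.step_T {θ₀ θ₁ : ℝ} {G Gd : ℝ → ℝ → ℝ} (h : ScFam θ₀ θ₁ G Gd) (m s : ℝ) (n : ℕ) :
    ScT (Icc θ₀ θ₁) n (fun θ => scStep m s (G θ)) := by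
  by_cases hm : m = 0
  · exact (sc_heat_T_of_T (h.obs.reg n) s).congr fun θ _ z => by simp only [scStep, hm, if_true]
  · exact (((h.W_T m s n).log (fun θ hθ z => sc_W_pos (h.bi θ hθ 1) m s z) (h.W_inv_growth m s)).const_mul m⁻¹).congr
      fun θ _ z => by simp only [scStep, hm, if_false]

/-- a family which is bounded with all its derivatives, uniformly in `θ`, stays so -/
theorem ScFam.tr_bdd {θ₀ θ₁ : ℝ} {G Gd : ℝ → ℝ → ℝ} (h : ScFam θ₀ θ₁ G Gd) (m s : ℝ) {φ : ℝ → ℝ → ℝ}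
    (hφ : ∀ n, ScT (Icc θ₀ θ₁) n φ) (hb : ∀ k : ℕ, ∃ C : ℝ, ∀ θ ∈ Icc θ₀ θ₁, ∀ z, |deriv^[k] (φ θ) z| ≤ C) (k : ℕ) :
    ∃ C : ℝ, ∀ θ ∈ Icc θ₀ θ₁, ∀ z, |deriv^[k] (scTr m s (G θ) (φ θ)) z| ≤ C :=
  (sc_tr_QU (fun θ hθ => h.bi θ hθ (k + 1))
    (ScQU.of_T (fun n => sc_T_deriv (h.obs.reg (n + 1))) (fun j => h.bdd j) k)
    (fun _ hθ => (hφ k).scE hθ) (ScQU.of_T hφ hb k) m s).iter k le_rfl

theorem ScFam.step_bdd {θ₀ θ₁ : ℝ} {G Gd : ℝ → ℝ → ℝ} (h : ScFam θ₀ θ₁ G Gd) (m s : ℝ) (k : ℕ) :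
    ∃ C : ℝ, ∀ θ ∈ Icc θ₀ θ₁, ∀ z, |deriv^[k + 1] (scStep m s (G θ)) z| ≤ C := by
  obtain ⟨C, hC⟩ := h.tr_bdd m s (φ := fun θ => deriv (G θ)) (fun n => sc_T_deriv (h.obs.reg (n + 1)))
    (fun j => h.bdd j) k
  refine ⟨C, fun θ hθ z => ?_⟩
  rw [Function.iterate_succ_apply, sc_step_deriv (h.bi θ hθ 1)]
  exact hC θ hθ z

/-- parameter derivative of `heat s (φ θ)` -/
theorem ScObs.heat {θ₀ θ₁ : ℝ} {φ φd : ℝ → ℝ → ℝ} (h1 : ScObs θ₀ θ₁ φ φd) (s : ℝ) :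
    ScObs θ₀ θ₁ (fun θ => scHeat s (φ θ)) (fun θ => scHeat s (φd θ)) :=
  ⟨fun n => sc_heat_T_of_T (h1.reg n) s, fun n => sc_heat_T_of_T (h1.dreg n) s,
    fun _ hθ z => sc_ht_hasDerivAt_frozen (h1.reg 0) (h1.dreg 0) h1.der hθ s z⟩

/-- (helper169) the exponential weight as an observable -/
theorem ScFam.exp_obs {θ₀ θ₁ : ℝ} {G Gd : ℝ → ℝ → ℝ} (h : ScFam θ₀ θ₁ G Gd) (m : ℝ) :
    ScObs θ₀ θ₁ (fun θ z => Real.exp (m * G θ z)) (fun θ z => m * (Gd θ z * Real.exp (m * G θ z))) :=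
  ⟨h.exp_T m, fun n => ((h.obs.dreg n).mul (h.exp_T m n)).const_mul m,
    fun θ hθ z => (((h.obs.der θ hθ z).const_mul m).exp).congr_deriv (by ring)⟩

/-- (helper169) parameter derivative of the normalisation -/
theorem ScFam.W_hasDerivAt {θ₀ θ₁ : ℝ} {G Gd : ℝ → ℝ → ℝ} (h : ScFam θ₀ θ₁ G Gd) (m s : ℝ) {θ : ℝ}
    (hθ : θ ∈ Ioo θ₀ θ₁) (z : ℝ) :
    HasDerivAt (fun θ => scW m s (G θ) z) (m * scHeat s (fun y => Gd θ y * Real.exp (m * G θ y)) z) θ := by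
  have := ((h.exp_obs m).heat s).der θ hθ z
  rw [sc_heat_const_mul] at this
  exact this

/-- **rule 1** -/
theorem ScFam.step {θ₀ θ₁ : ℝ} {G Gd : ℝ → ℝ → ℝ} (h : ScFam θ₀ θ₁ G Gd) (m s : ℝ) :
    ScFam θ₀ θ₁ (fun θ => scStep m s (G θ)) (fun θ => scTr m s (G θ) (Gd θ)) := by
  refine ⟨⟨h.step_T m s, h.tr_T m s h.obs.dreg, fun θ hθ z => ?_⟩, fun θ hθ => sc_step_BI (h.bi θ hθ) m s,
    h.step_bdd m s, h.tr_bdd m s h.obs.dreg h.dbdd⟩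
  by_cases hm : m = 0
  · subst hm
    rw [sc_tr_mass_zero]
    have := (h.obs.heat s).der θ hθ z
    simpa only [scStep, if_true] using this
  · have hpos := sc_W_pos (h.bi θ (Ioo_subset_Icc_self hθ) 1) m s z
    have := ((h.W_hasDerivAt m s hθ z).log hpos.ne').const_mul m⁻¹
    simp only [scStep, hm, if_false]
    refine this.congr_deriv ?_
    simp only [scTr]
    field_simp

/-- **rule 2** -/
theorem ScObs.tr {θ₀ θ₁ : ℝ} {G Gd φ φd : ℝ → ℝ → ℝ} (h : ScFam θ₀ θ₁ G Gd) (hφ : ScObs θ₀ θ₁ φ φd) (m s : ℝ) :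
    ScObs θ₀ θ₁ (fun θ => scTr m s (G θ) (φ θ))
      (fun θ z => scTr m s (G θ) (φd θ) z
        + m * (scTr m s (G θ) (fun y => φ θ y * Gd θ y) z - scTr m s (G θ) (φ θ) z * scTr m s (G θ) (Gd θ) z)) := by
  refine ⟨h.tr_T m s hφ.reg, fun n => (h.tr_T m s hφ.dreg n).add
    (((h.tr_T m s (fun n => (hφ.reg n).mul (h.obs.dreg n)) n).sub
      ((h.tr_T m s hφ.reg n).mul (h.tr_T m s h.obs.dreg n))).const_mul m), fun θ hθ z => ?_⟩
  have hθ' := Ioo_subset_Icc_self hθ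
  have hpos := sc_W_pos (h.bi θ hθ' 1) m s z
  have hN := ((hφ.mul (h.exp_obs m)).heat s).der θ hθ z
  have hW := h.W_hasDerivAt m s hθ z
  have hE : ScE 0 (fun y => Real.exp (m * G θ y)) := (h.exp_T m 0).scE hθ'
  have e1 : scHeat s (fun y => φd θ y * Real.exp (m * G θ y) + φ θ y * (m * (Gd θ y * Real.exp (m * G θ y)))) z
      = scHeat s (fun y => φd θ y * Real.exp (m * G θ y)) z
        + m * scHeat s (fun y => φ θ y * Gd θ y * Real.exp (m * G θ y)) z := by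
    have e2 : (fun y => φd θ y * Real.exp (m * G θ y) + φ θ y * (m * (Gd θ y * Real.exp (m * G θ y))))
        = fun y => φd θ y * Real.exp (m * G θ y) + m * (φ θ y * Gd θ y * Real.exp (m * G θ y)) := by
      funext y; ring
    rw [e2, sc_heat_add (((hφ.dreg 0).scE hθ').mul hE)
      (((((hφ.reg 0).scE hθ').mul ((h.obs.dreg 0).scE hθ')).mul hE).const_mul m), sc_heat_const_mul]
  rw [e1] at hN
  refine (hN.div hW hpos.ne').congr_deriv ?_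
  simp only [scTr]
  field_simp
  ring
/-! ## C. profiles -/

theorem ScFam.V {θ₀ θ₁ : ℝ} {F Fd : ℝ → ℝ → ℝ} (h : ScFam θ₀ θ₁ F Fd) (π : List (ℝ × ℝ)) :
    ScFam θ₀ θ₁ (fun θ => scV (F θ) π) (fun θ => scP (F θ) π (Fd θ)) := by
  induction π with
  | nil => exact h
  | cons p π ih => exact ih.step p.1 p.2

/-- **the continuation as a function of the terminal datum** -/
theorem ScFam.Vt {θ₀ θ₁ : ℝ} {F Fd : ℝ → ℝ → ℝ} (h : ScFam θ₀ θ₁ F Fd) {π : List (ℝ × ℝ)} (hπ : ScPos π) {t : ℝ}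
    (ht : 0 ≤ t) : ScFam θ₀ θ₁ (fun θ => scVt (F θ) π t) (fun θ => scPt (F θ) π t (scLen π) (Fd θ)) := by
  have := h.V (scAfter π t)
  simp only [sc_Vt_after, sc_Pt_after _ hπ ht]
  exact this

theorem ScFam.D_hasDerivAt {θ₀ θ₁ : ℝ} {F Fd : ℝ → ℝ → ℝ} (h : ScFam θ₀ θ₁ F Fd) {π : List (ℝ × ℝ)} (hπ : ScPos π)
    {t : ℝ} (ht : 0 ≤ t) (k : ℕ) {θ : ℝ} (hθ : θ ∈ Ioo θ₀ θ₁) (z : ℝ) :
    HasDerivAt (fun θ => scD k (F θ) π t z) (deriv^[k] (scPt (F θ) π t (scLen π) (Fd θ)) z) θ :=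
  ((h.Vt hπ ht).obs.dz_iter k).der θ hθ z

theorem ScFam.D_sub_eq_integral {θ₀ θ₁ : ℝ} {F Fd : ℝ → ℝ → ℝ} (h : ScFam θ₀ θ₁ F Fd) (h01 : θ₀ ≤ θ₁)
    {π : List (ℝ × ℝ)} (hπ : ScPos π) {t : ℝ} (ht : 0 ≤ t) (k : ℕ) (z : ℝ) :
    scD k (F θ₁) π t z - scD k (F θ₀) π t z = ∫ θ in θ₀..θ₁, deriv^[k] (scPt (F θ) π t (scLen π) (Fd θ)) z :=
  ((h.Vt hπ ht).obs.dz_iter k).sub_eq_integral h01 z

/-- **Lipschitz dependence on the terminal datum, constants free of the profile and of the horizon** (`Sc/Tau.lean`) -/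
theorem scq_D_lip {a : ℝ} (ha : 0 ≤ a) (n : ℕ) {A : ℝ} (hA : 0 ≤ A) : ∃ K : ℝ, 1 ≤ K ∧
    ∀ (θ₀ θ₁ : ℝ) (F Fd : ℝ → ℝ → ℝ) (π : List (ℝ × ℝ)) (M : ℝ), θ₀ ≤ θ₁ → ScFam θ₀ θ₁ F Fd →
      (∀ θ ∈ Icc θ₀ θ₁, ScN n A (deriv (F θ))) → (∀ θ ∈ Icc θ₀ θ₁, ScN n M (Fd θ)) → ScAdm a π → ScInc π →
      ∀ k ≤ n, ∀ t, 0 ≤ t → ∀ z, |scD k (F θ₁) π t z - scD k (F θ₀) π t z| ≤ K * M * (θ₁ - θ₀) := by
  obtain ⟨K, hK1, hK⟩ := sc_tau_Pt ha n hA
  refine ⟨K, hK1, fun θ₀ θ₁ F Fd π M h01 h hF hFd hπ hi k hk t ht z => ?_⟩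
  exact ((h.Vt hπ.pos ht).obs.dz_iter k).abs_sub_le h01 fun θ hθ =>
    (hK (F θ) π (Fd θ) M (h.bi θ hθ) (hF θ hθ) hπ hi (hFd θ hθ) t (scLen π)).iter hk z

/-- the transition operators as functions of the terminal datum (list form) -/
theorem ScObs.P {θ₀ θ₁ : ℝ} {F Fd φ φd : ℝ → ℝ → ℝ} (h : ScFam θ₀ θ₁ F Fd) (hφ : ScObs θ₀ θ₁ φ φd)
    (π : List (ℝ × ℝ)) : ∃ ψd : ℝ → ℝ → ℝ, ScObs θ₀ θ₁ (fun θ => scP (F θ) π (φ θ)) ψd := by
  induction π with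
  | nil => exact ⟨φd, hφ⟩
  | cons p π ih =>
    obtain ⟨ψd, hψ⟩ := ih
    exact ⟨_, ScObs.tr (h.V π) hψ p.1 p.2⟩

/-! ## D. base cases      (FREE LEAVES since 04:10Z, helper169 moved to Cav/Bdy: claim by name.   PLANS by 169, all five checked TRUE on paper)
TOOLS above: `ScQU I n Φ` (uniform bounds, closed under add/sub/mul/const_mul/of_time/congr; `ScQU.iter` gives the bound of `deriv^[j]`), `ScT.of_time`, `ScT.mul/add`, `sc_exp_T`.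
* `scq_affine`: reg = `(ScB.scE (hF (n+1))).mono .. |>.scT` + `(ScT.of_time continuousOn_id ⟨max |θ₀| |θ₁|, ..⟩ n).mul ((hg n).scE.scT _)`; bi = `ScB.add`, `ScB.const_mul`; bdd/dbdd: `sc_iter_deriv_add`,
  `sc_iter_deriv_const_mul`, `sc_D_hasDerivAt_aux_BI` (ScBI of `deriv^[k] F`), `ScBd.scN` + `ScN.iter` for `g`.
* `scq_LCd_hasDerivAt`: product rule for `j⁻¹ * log (cosh (j z))`.
* `scq_LCd_bound`: with `y = |j z|`, `u = exp (-2y)`: `log 2 + log cosh y - y tanh y = log (1+u) + 2 y u/(1+u) ≥ 0` and `≤ (u (1+u) + 2 y u)/(1+u) ≤ 2 u (1+y)/(1+u) ≤ 2 exp(-y)/(1+u) = 1/cosh y`.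
* `scq_LC`: put `T j z = tanh (j z)`, `Z j z = z (1 - T²)`.  `deriv (T j) = j (1 - T²)`, `deriv (Z j) = (1 - T²) - 2 j T Z`, `deriv (scLC j) = T j`, `deriv (scLCd j) = Z j`.
  By induction on `n` (closure of the classes): `T, Z ∈ ScT I n` and `∈ ScQU I n`  (`|Z| ≤ 1/j₀`: `|y| (1 - tanh² y) ≤ 1`);  `scLCd` bounded by `scq_LCd_bound`.
* `scq_len`: reg = `sc_T_comp_time (sc_step_T (hG _) m 0 θ₁) (τ := fun θ => θ₁ - θ)`; der = `sc_step_pde` composed with `θ ↦ t₁ - θ`; bdd = `sc_step_deriv_bdd`; dbdd = `ScQU` closure from `ScQU.of_T`. -/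

theorem ScBd.scQU {n : ℕ} {φ : ℝ → ℝ} (h : ScBd n φ) (I : Set ℝ) : ScQU I n (fun _ => φ) := by
  induction n generalizing φ with
  | zero =>
    obtain ⟨C, hC⟩ := h.1
    exact ⟨C, fun _ _ z => hC z⟩
  | succ n ih =>
    obtain ⟨C, hC⟩ := h.1
    exact ⟨⟨C, fun _ _ z => hC z⟩, fun _ _ => h.2.1, ih h.deriv⟩

theorem scq_time_bdd (θ₀ θ₁ : ℝ) : ∃ C, ∀ r ∈ Icc θ₀ θ₁, |(fun θ : ℝ => θ) r| ≤ C :=
  ⟨max |θ₀| |θ₁|, fun _ hr => abs_le_max_abs_abs hr.1 hr.2⟩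

theorem scq_affine {F g : ℝ → ℝ} (hF : ScBI F) (hg : ∀ n, ScBd n g) (θ₀ θ₁ : ℝ) :
    ScFam θ₀ θ₁ (fun θ z => F z + θ * g z) (fun _ => g) := by
  have hd : ∀ θ : ℝ, deriv (fun z => F z + θ * g z) = fun z => deriv F z + θ * deriv g z := fun θ => funext fun z =>
    (((hF 1).1 z).hasDerivAt.add (((hg 1).2.1 z).hasDerivAt.const_mul θ)).deriv
  refine ⟨⟨fun n => ((hF (n + 1)).scE.of_succ.scT _).add
      ((ScT.of_time continuousOn_id (scq_time_bdd θ₀ θ₁) n).mul ((hg n).scE.scT _)), fun n => (hg n).scE.scT _,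
      fun θ _ z => ?_⟩, fun θ _ n => (hF n).add ((hg n).2.const_mul θ), fun k => ?_, fun k => ?_⟩
  · simpa using ((hasDerivAt_id θ).mul_const (g z)).const_add (F z)
  · have h1 : ScQU (Icc θ₀ θ₁) k (fun θ => deriv (fun z => F z + θ * g z)) :=
      (((hF (k + 1)).deriv_bd.scQU (Icc θ₀ θ₁)).add ((ScQU.of_time (scq_time_bdd θ₀ θ₁) k).mul
        ((hg (k + 1)).deriv.scQU (Icc θ₀ θ₁)))).congr fun θ _ => hd θ
    obtain ⟨C, hC⟩ := h1.iter k le_rfl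
    exact ⟨C, fun θ hθ z => by rw [Function.iterate_succ_apply]; exact hC θ hθ z⟩
  · exact ((hg k).scQU (Icc θ₀ θ₁)).iter k le_rfl

/-- `∂_j (j⁻¹ log cosh (j z))` -/
noncomputable def scLCd (j z : ℝ) : ℝ := - (j ^ 2)⁻¹ * Real.log (Real.cosh (j * z)) + j⁻¹ * z * Real.tanh (j * z)

theorem scq_LCd_hasDerivAt {j : ℝ} (hj : j ≠ 0) (z : ℝ) : HasDerivAt (fun j => scLC j z) (scLCd j z) j := by
  have h1 : HasDerivAt (fun j : ℝ => Real.cosh (j * z)) (Real.sinh (j * z) * z) j := by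
    have h0 : HasDerivAt (fun j : ℝ => j * z) z j := by simpa using (hasDerivAt_id j).mul_const z
    exact (Real.hasDerivAt_cosh (j * z)).comp j h0
  have h2 := (hasDerivAt_inv hj).mul (h1.log (Real.cosh_pos _).ne')
  refine h2.congr_deriv ?_
  unfold scLCd
  rw [Real.tanh_eq_sinh_div_cosh]
  ring

/-- `0 ≤ log 2 / j² - ∂_j F_j ≤ C sqrt (1 - tanh² (j z))`, written with `sech = 1 / cosh` -/
theorem scq_logcosh_aux {y : ℝ} (hy : 0 ≤ y) :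
    0 ≤ Real.log 2 + Real.log (Real.cosh y) - y * Real.tanh y ∧
      Real.log 2 + Real.log (Real.cosh y) - y * Real.tanh y ≤ 2 * (Real.cosh y)⁻¹ := by
  have hc := Real.cosh_pos y
  have e1 : Real.log 2 + Real.log (Real.cosh y) = y + Real.log (1 + Real.exp (-(2 * y))) := by
    rw [← Real.log_mul (by norm_num) hc.ne', ← Real.log_exp y, ← Real.log_mul (Real.exp_pos _).ne' (by positivity),
      Real.log_exp, Real.cosh_eq]
    congr 1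
    rw [mul_add, mul_one, ← Real.exp_add]
    ring_nf
  have e2 : y - y * Real.tanh y = y * Real.exp (-y) * (Real.cosh y)⁻¹ := by
    rw [Real.tanh_eq_sinh_div_cosh, ← Real.cosh_sub_sinh]
    field_simp
  have h3 : 0 ≤ Real.log (1 + Real.exp (-(2 * y))) := Real.log_nonneg (by linarith [Real.exp_pos (-(2 * y))])
  have h4 : Real.log (1 + Real.exp (-(2 * y))) ≤ Real.exp (-(2 * y)) := by
    have := Real.log_le_sub_one_of_pos (show 0 < 1 + Real.exp (-(2 * y)) by positivity)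
    linarith
  have h5 : y * Real.exp (-y) ≤ 1 := by
    have h := Real.add_one_le_exp y
    have : y * Real.exp (-y) ≤ Real.exp y * Real.exp (-y) := mul_le_mul_of_nonneg_right (by linarith) (Real.exp_pos _).le
    rwa [← Real.exp_add, add_neg_cancel, Real.exp_zero] at this
  have h6 : Real.exp (-(2 * y)) ≤ (Real.cosh y)⁻¹ := by
    rw [le_inv_comm₀ (Real.exp_pos _) hc, ← Real.exp_neg, neg_neg, Real.cosh_eq]
    have a1 : Real.exp y ≤ Real.exp (2 * y) := Real.exp_le_exp.2 (by linarith)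
    have a2 : Real.exp (-y) ≤ Real.exp (2 * y) := Real.exp_le_exp.2 (by linarith)
    linarith
  have h7 : 0 ≤ y * Real.exp (-y) * (Real.cosh y)⁻¹ := by positivity
  have h8 : y * Real.exp (-y) * (Real.cosh y)⁻¹ ≤ 1 * (Real.cosh y)⁻¹ :=
    mul_le_mul_of_nonneg_right h5 (inv_pos.2 hc).le
  constructor
  · have : Real.log 2 + Real.log (Real.cosh y) - y * Real.tanh y
        = (y - y * Real.tanh y) + Real.log (1 + Real.exp (-(2 * y))) := by rw [e1]; ring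
    rw [this, e2]
    linarith
  · have : Real.log 2 + Real.log (Real.cosh y) - y * Real.tanh y
        = (y - y * Real.tanh y) + Real.log (1 + Real.exp (-(2 * y))) := by rw [e1]; ring
    rw [this, e2]
    linarith

theorem scq_LCd_bound {j : ℝ} (hj : 0 < j) (z : ℝ) :
    |scLCd j z - Real.log 2 / j ^ 2| ≤ 2 / j ^ 2 * (Real.cosh (j * z))⁻¹ := by
  obtain ⟨h1, h2⟩ := scq_logcosh_aux (abs_nonneg (j * z))
  have e1 : |j * z| * Real.tanh |j * z| = j * z * Real.tanh (j * z) := by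
    rcases abs_cases (j * z) with ⟨h, _⟩ | ⟨h, _⟩
    · rw [h]
    · rw [h, Real.tanh_neg]; ring
  rw [Real.cosh_abs, e1] at h1 h2
  have e2 : scLCd j z - Real.log 2 / j ^ 2
      = - ((Real.log 2 + Real.log (Real.cosh (j * z)) - j * z * Real.tanh (j * z)) / j ^ 2) := by
    unfold scLCd
    field_simp
    ring
  rw [e2, abs_neg, abs_of_nonneg (by positivity)]
  rw [div_mul_eq_mul_div]
  exact div_le_div_of_nonneg_right h2 (by positivity)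

theorem scq_LC_hasDerivAt {j : ℝ} (hj : j ≠ 0) (z : ℝ) : HasDerivAt (scLC j) (Real.tanh (j * z)) z := by
  have h1 : HasDerivAt (fun z : ℝ => j * z) j z := by simpa using (hasDerivAt_id z).const_mul j
  have h2 : HasDerivAt (fun z : ℝ => Real.cosh (j * z)) (Real.sinh (j * z) * j) z :=
    (Real.hasDerivAt_cosh (j * z)).comp z h1
  have h3 := (h2.log (Real.cosh_pos _).ne').const_mul j⁻¹
  refine h3.congr_deriv ?_
  rw [Real.tanh_eq_sinh_div_cosh]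
  field_simp

theorem scq_T_hasDerivAt (j z : ℝ) :
    HasDerivAt (fun z => Real.tanh (j * z)) (j * (1 - Real.tanh (j * z) * Real.tanh (j * z))) z := by
  have h1 : HasDerivAt (fun z : ℝ => j * z) j z := by simpa using (hasDerivAt_id z).const_mul j
  refine ((sc_hasDerivAt_tanh (j * z)).comp z h1).congr_deriv ?_
  ring

theorem scq_Z_hasDerivAt (j z : ℝ) :
    HasDerivAt (fun z => z * (1 - Real.tanh (j * z) * Real.tanh (j * z)))
      ((1 - Real.tanh (j * z) * Real.tanh (j * z))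
        - 2 * (j * (Real.tanh (j * z) * (z * (1 - Real.tanh (j * z) * Real.tanh (j * z)))))) z := by
  have hT := scq_T_hasDerivAt j z
  have h1 : HasDerivAt (fun z => 1 - Real.tanh (j * z) * Real.tanh (j * z))
      (0 - (j * (1 - Real.tanh (j * z) * Real.tanh (j * z)) * Real.tanh (j * z)
        + Real.tanh (j * z) * (j * (1 - Real.tanh (j * z) * Real.tanh (j * z))))) z :=
    (hasDerivAt_const z (1 : ℝ)).sub (hT.mul hT)
  have h2 : HasDerivAt (fun z : ℝ => z) 1 z := hasDerivAt_id z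
  refine (h2.mul h1).congr_deriv ?_
  ring

theorem scq_LCd_hasDerivAt_z {j : ℝ} (hj : j ≠ 0) (z : ℝ) :
    HasDerivAt (scLCd j) (z * (1 - Real.tanh (j * z) * Real.tanh (j * z))) z := by
  have h1 : HasDerivAt (fun z : ℝ => j * z) j z := by simpa using (hasDerivAt_id z).const_mul j
  have h2 : HasDerivAt (fun z : ℝ => Real.cosh (j * z)) (Real.sinh (j * z) * j) z :=
    (Real.hasDerivAt_cosh (j * z)).comp z h1
  have h3 := (h2.log (Real.cosh_pos _).ne').const_mul (-(j ^ 2)⁻¹)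
  have h0 : HasDerivAt (fun z : ℝ => j⁻¹ * z) j⁻¹ z := by simpa using (hasDerivAt_id z).const_mul j⁻¹
  have h4 := h0.mul (scq_T_hasDerivAt j z)
  refine (h3.add h4).congr_deriv ?_
  have e : Real.sinh (j * z) * j / Real.cosh (j * z) = j * Real.tanh (j * z) := by
    rw [Real.tanh_eq_sinh_div_cosh]; ring
  rw [e]
  field_simp
  ring

theorem scq_tanh_cont : Continuous (fun p : ℝ × ℝ => Real.tanh (p.1 * p.2)) := by
  have h : Continuous Real.tanh := continuous_iff_continuousAt.2 fun x => (sc_hasDerivAt_tanh x).continuousAt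
  exact h.comp (continuous_fst.mul continuous_snd)

/-- `|y| (1 - tanh² y) ≤ 2` -/
theorem scq_y_sech (y : ℝ) : |y * (1 - Real.tanh y * Real.tanh y)| ≤ 2 := by
  have key : ∀ y : ℝ, 0 ≤ y → y * (1 - Real.tanh y * Real.tanh y) ≤ 2 := by
    intro y hy
    have hc := Real.cosh_pos y
    have e2 : 1 - Real.tanh y = Real.exp (-y) * (Real.cosh y)⁻¹ := by
      rw [Real.tanh_eq_sinh_div_cosh, ← Real.cosh_sub_sinh]
      field_simp
    have h1 : 1 - Real.tanh y ≤ Real.exp (-y) := by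
      rw [e2]
      exact mul_le_of_le_one_right (Real.exp_pos _).le (inv_le_one_of_one_le₀ (Real.one_le_cosh y))
    have h5 : y * Real.exp (-y) ≤ 1 := by
      have h := Real.add_one_le_exp y
      have : y * Real.exp (-y) ≤ Real.exp y * Real.exp (-y) := mul_le_mul_of_nonneg_right (by linarith) (Real.exp_pos _).le
      rwa [← Real.exp_add, add_neg_cancel, Real.exp_zero] at this
    have h6 := Real.tanh_lt_one y
    have h7 := Real.neg_one_lt_tanh y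
    have h8 : y * (1 - Real.tanh y) ≤ 1 := (mul_le_mul_of_nonneg_left h1 hy).trans h5
    have h9 : 0 ≤ y * (1 - Real.tanh y) := mul_nonneg hy (by linarith)
    have : y * (1 - Real.tanh y * Real.tanh y) = y * (1 - Real.tanh y) * (1 + Real.tanh y) := by ring
    rw [this]
    nlinarith
  have hs : 0 ≤ 1 - Real.tanh y * Real.tanh y := by
    have := Real.tanh_sq_lt_one y
    nlinarith
  rw [abs_mul, abs_of_nonneg hs]
  have := key |y| (abs_nonneg y)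
  rcases abs_cases y with ⟨h, _⟩ | ⟨h, _⟩
  · rwa [h] at this ⊢
  · rw [h] at this ⊢
    rwa [Real.tanh_neg, neg_mul_neg] at this

/-- `T = tanh (j z)`, `Z = z (1 - T²)`: classes, uniformly in `j ∈ [j₀, j₁]` -/
theorem scq_TZ {j₀ : ℝ} (h0 : 0 < j₀) (j₁ : ℝ) (n : ℕ) :
    ScT (Icc j₀ j₁) n (fun j z => Real.tanh (j * z)) ∧
    ScT (Icc j₀ j₁) n (fun j z => z * (1 - Real.tanh (j * z) * Real.tanh (j * z))) ∧
    ScQU (Icc j₀ j₁) n (fun j z => Real.tanh (j * z)) ∧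
    ScQU (Icc j₀ j₁) n (fun j z => z * (1 - Real.tanh (j * z) * Real.tanh (j * z))) := by
  have bT : ∀ j ∈ Icc j₀ j₁, ∀ z, |Real.tanh (j * z)| ≤ 1 := fun j _ z => (Real.abs_tanh_lt_one _).le
  have bZ : ∀ j ∈ Icc j₀ j₁, ∀ z, |z * (1 - Real.tanh (j * z) * Real.tanh (j * z))| ≤ 2 / j₀ := by
    intro j hj z
    have hj0 : 0 < j := h0.trans_le hj.1
    have e : z * (1 - Real.tanh (j * z) * Real.tanh (j * z))
        = (j * z * (1 - Real.tanh (j * z) * Real.tanh (j * z))) / j := by field_simp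
    rw [e, abs_div, abs_of_pos hj0]
    exact (div_le_div_of_nonneg_right (scq_y_sech _) hj0.le).trans (div_le_div_of_nonneg_left (by norm_num) h0 hj.1)
  have cT : ContinuousOn (fun p : ℝ × ℝ => Real.tanh (p.1 * p.2)) (Icc j₀ j₁ ×ˢ univ) := scq_tanh_cont.continuousOn
  have cZ : ContinuousOn (fun p : ℝ × ℝ => p.2 * (1 - Real.tanh (p.1 * p.2) * Real.tanh (p.1 * p.2))) (Icc j₀ j₁ ×ˢ univ) :=
    (continuous_snd.mul (continuous_const.sub (scq_tanh_cont.mul scq_tanh_cont))).continuousOn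
  have gT : ScGU (Icc j₀ j₁) (fun j z => Real.tanh (j * z)) := ⟨1, 0, fun j hj z => by simpa using bT j hj z⟩
  have gZ : ScGU (Icc j₀ j₁) (fun j z => z * (1 - Real.tanh (j * z) * Real.tanh (j * z))) :=
    ⟨2 / j₀, 0, fun j hj z => by simpa using bZ j hj z⟩
  induction n with
  | zero => exact ⟨⟨cT, gT⟩, ⟨cZ, gZ⟩, ⟨1, bT⟩, ⟨2 / j₀, bZ⟩⟩
  | succ n ih =>
    obtain ⟨hT, hZ, qT, qZ⟩ := ih
    have tm : ScT (Icc j₀ j₁) n (fun j _ => j) := ScT.of_time continuousOn_id (scq_time_bdd j₀ j₁) n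
    have qm : ScQU (Icc j₀ j₁) n (fun j _ => j) := ScQU.of_time (scq_time_bdd j₀ j₁) n
    have t1 : ScT (Icc j₀ j₁) n (fun j z => 1 - Real.tanh (j * z) * Real.tanh (j * z)) :=
      ((ScE.const n 1).scT _).sub (hT.mul hT)
    have q1 : ScQU (Icc j₀ j₁) n (fun j z => 1 - Real.tanh (j * z) * Real.tanh (j * z)) :=
      (ScQU.of_time (a := fun _ => 1) ⟨1, fun _ _ => by simp⟩ n).sub (qT.mul qT)
    refine ⟨⟨cT, gT, fun j _ z => (scq_T_hasDerivAt j z).differentiableAt, ?_⟩,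
      ⟨cZ, gZ, fun j _ z => (scq_Z_hasDerivAt j z).differentiableAt, ?_⟩,
      ⟨⟨1, bT⟩, fun j _ z => (scq_T_hasDerivAt j z).differentiableAt, ?_⟩,
      ⟨⟨2 / j₀, bZ⟩, fun j _ z => (scq_Z_hasDerivAt j z).differentiableAt, ?_⟩⟩
    · exact (tm.mul t1).congr fun j _ z => (scq_T_hasDerivAt j z).deriv
    · exact (t1.sub ((tm.mul (hT.mul hZ)).const_mul 2)).congr fun j _ z => (scq_Z_hasDerivAt j z).deriv
    · exact (qm.mul q1).congr fun j _ => funext fun z => (scq_T_hasDerivAt j z).deriv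
    · exact (q1.sub ((qm.mul (qT.mul qZ)).const_mul 2)).congr fun j _ => funext fun z => (scq_Z_hasDerivAt j z).deriv

theorem scq_LC {j₀ j₁ : ℝ} (h0 : 0 < j₀) : ScFam j₀ j₁ scLC scLCd := by
  have hne : ∀ j ∈ Icc j₀ j₁, j ≠ 0 := fun j hj => (h0.trans_le hj.1).ne'
  have clog : Continuous (fun p : ℝ × ℝ => Real.log (Real.cosh (p.1 * p.2))) :=
    (Real.continuous_cosh.comp (continuous_fst.mul continuous_snd)).log fun p => (Real.cosh_pos _).ne'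
  have cinv : ContinuousOn (fun p : ℝ × ℝ => p.1⁻¹) (Icc j₀ j₁ ×ˢ univ) :=
    continuousOn_fst.inv₀ fun p hp => hne p.1 hp.1
  have cLC : ContinuousOn (fun p : ℝ × ℝ => scLC p.1 p.2) (Icc j₀ j₁ ×ˢ univ) := cinv.mul clog.continuousOn
  have cLCd : ContinuousOn (fun p : ℝ × ℝ => scLCd p.1 p.2) (Icc j₀ j₁ ×ˢ univ) := by
    unfold scLCd
    refine ((((continuousOn_fst.pow 2).inv₀ fun p hp => pow_ne_zero 2 (hne p.1 hp.1)).neg).mul clog.continuousOn).add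
      ((cinv.mul continuousOn_snd).mul scq_tanh_cont.continuousOn)
  have gLC : ScGU (Icc j₀ j₁) scLC := by
    refine ⟨1, 1, fun j hj z => ?_⟩
    have hj0 : 0 < j := h0.trans_le hj.1
    have h1 : 0 ≤ Real.log (Real.cosh (j * z)) := Real.log_nonneg (Real.one_le_cosh _)
    have h2 : Real.log (Real.cosh (j * z)) ≤ |j * z| := by
      rw [Real.log_le_iff_le_exp (Real.cosh_pos _), ← Real.cosh_abs, Real.cosh_eq]
      have : Real.exp (-|j * z|) ≤ Real.exp |j * z| := Real.exp_le_exp.2 (by linarith [abs_nonneg (j * z)])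
      linarith
    have h3 : |scLC j z| ≤ |z| := by
      unfold scLC
      rw [abs_mul, abs_of_pos (inv_pos.2 hj0), abs_of_nonneg h1, inv_mul_le_iff₀ hj0]
      rwa [abs_mul, abs_of_pos hj0] at h2
    rw [one_mul, one_mul]
    exact h3.trans (by linarith [Real.add_one_le_exp |z|])
  have bLCd : ∀ j ∈ Icc j₀ j₁, ∀ z, |scLCd j z| ≤ 3 / j₀ ^ 2 := by
    intro j hj z
    have hj0 : 0 < j := h0.trans_le hj.1
    have h1 := scq_LCd_bound hj0 z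
    have h2 : (Real.cosh (j * z))⁻¹ ≤ 1 := inv_le_one_of_one_le₀ (Real.one_le_cosh _)
    have h3 : Real.log 2 ≤ 1 := by
      have := Real.log_le_sub_one_of_pos (show (0 : ℝ) < 2 by norm_num)
      linarith
    have h4 : 2 / j ^ 2 * (Real.cosh (j * z))⁻¹ ≤ 2 / j ^ 2 := mul_le_of_le_one_right (by positivity) h2
    have h5 : |Real.log 2 / j ^ 2| ≤ 1 / j ^ 2 := by
      rw [abs_of_nonneg (div_nonneg (Real.log_nonneg (by norm_num)) (by positivity))]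
      exact div_le_div_of_nonneg_right h3 (by positivity)
    have h6 : |scLCd j z| ≤ |scLCd j z - Real.log 2 / j ^ 2| + |Real.log 2 / j ^ 2| := by
      have := abs_add_le (scLCd j z - Real.log 2 / j ^ 2) (Real.log 2 / j ^ 2)
      simpa using this
    have h7 : 3 / j ^ 2 ≤ 3 / j₀ ^ 2 :=
      div_le_div_of_nonneg_left (by norm_num) (by positivity) (pow_le_pow_left₀ h0.le hj.1 2)
    have h8 : 2 / j ^ 2 + 1 / j ^ 2 = 3 / j ^ 2 := by ring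
    linarith
  have gLCd : ScGU (Icc j₀ j₁) scLCd := ⟨3 / j₀ ^ 2, 0, fun j hj z => by simpa using bLCd j hj z⟩
  have dLC : ∀ j ∈ Icc j₀ j₁, deriv (scLC j) = fun z => Real.tanh (j * z) :=
    fun j hj => funext fun z => (scq_LC_hasDerivAt (hne j hj) z).deriv
  have dLCd : ∀ j ∈ Icc j₀ j₁, deriv (scLCd j) = fun z => z * (1 - Real.tanh (j * z) * Real.tanh (j * z)) :=
    fun j hj => funext fun z => (scq_LCd_hasDerivAt_z (hne j hj) z).deriv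
  refine ⟨⟨fun n => ?_, fun n => ?_, fun j hj z => scq_LCd_hasDerivAt (h0.trans hj.1).ne' z⟩, fun j _ => sc_logcosh_BI j,
    fun k => ?_, fun k => ?_⟩
  · cases n with
    | zero => exact ⟨cLC, gLC⟩
    | succ n =>
      exact ⟨cLC, gLC, fun j hj z => (scq_LC_hasDerivAt (hne j hj) z).differentiableAt,
        (scq_TZ h0 j₁ n).1.congr fun j hj z => by rw [dLC j hj]⟩
  · cases n with
    | zero => exact ⟨cLCd, gLCd⟩
    | succ n =>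
      exact ⟨cLCd, gLCd, fun j hj z => (scq_LCd_hasDerivAt_z (hne j hj) z).differentiableAt,
        (scq_TZ h0 j₁ n).2.1.congr fun j hj z => by rw [dLCd j hj]⟩
  · obtain ⟨C, hC⟩ := (scq_TZ h0 j₁ k).2.2.1.iter k le_rfl
    exact ⟨C, fun j hj z => by rw [Function.iterate_succ_apply, dLC j hj]; exact hC j hj z⟩
  · cases k with
    | zero => exact ⟨3 / j₀ ^ 2, bLCd⟩
    | succ k =>
      obtain ⟨C, hC⟩ := (scq_TZ h0 j₁ k).2.2.2.iter k le_rfl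
      exact ⟨C, fun j hj z => by rw [Function.iterate_succ_apply, dLCd j hj]; exact hC j hj z⟩

/-- the length of a step as a parameter -/
theorem scq_len {G : ℝ → ℝ} (hG : ScBI G) (m : ℝ) {θ₀ θ₁ : ℝ} (h0 : 0 ≤ θ₀) :
    ScFam θ₀ θ₁ (fun θ => scStep m θ G)
      (fun θ z => (deriv (deriv (scStep m θ G)) z + m * deriv (scStep m θ G) z ^ 2) / 2) := by
  have hT : ∀ n, ScT (Icc θ₀ θ₁) n (fun θ => scStep m θ G) := by
    intro n
    have h1 := (sc_step_T (hG (n + 1)) m 0 θ₁).of_succ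
    have h2 := sc_T_comp_time h1 (τ := fun θ => θ₁ - θ) (J := Icc θ₀ θ₁) (by fun_prop)
      (fun θ hθ => ⟨by linarith [hθ.2], by linarith [hθ.1]⟩)
    exact h2.congr fun θ _ z => by rw [sub_sub_cancel]
  have hT1 : ∀ n, ScT (Icc θ₀ θ₁) n (fun θ => deriv (scStep m θ G)) := fun n => (hT (n + 1)).2.2.2
  have hT2 : ∀ n, ScT (Icc θ₀ θ₁) n (fun θ => deriv (deriv (scStep m θ G))) := fun n => (hT1 (n + 1)).2.2.2
  have hb : ∀ k : ℕ, ∃ C : ℝ, ∀ θ ∈ Icc θ₀ θ₁, ∀ z, |deriv^[k + 1] (scStep m θ G) z| ≤ C := by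
    intro k
    obtain ⟨C, hC⟩ := sc_step_deriv_bdd (hG (k + 1)) m θ₁ (k + 1) (by omega) le_rfl
    exact ⟨C, fun θ hθ z => hC θ ⟨h0.trans hθ.1, hθ.2⟩ z⟩
  have q1 : ∀ n, ScQU (Icc θ₀ θ₁) n (fun θ => deriv (scStep m θ G)) := ScQU.of_T hT1 fun k => hb k
  have q2 : ∀ n, ScQU (Icc θ₀ θ₁) n (fun θ => deriv (deriv (scStep m θ G))) := ScQU.of_T hT2 fun k => hb (k + 1)
  refine ⟨⟨hT, fun n => ?_, fun θ hθ z => ?_⟩, fun θ _ => sc_step_BI hG m θ, hb, fun k => ?_⟩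
  · exact (((hT2 n).add (((hT1 n).mul (hT1 n)).const_mul m)).const_mul (1 / 2)).congr fun θ _ z => by ring
  · have hθ0 : 0 < θ := h0.trans_lt hθ.1
    have h1 := sc_step_pde (hG 2) m (t₁ := θ₁) (r := θ₁ - θ) (by linarith) z
    have h2 : HasDerivAt (fun θ : ℝ => θ₁ - θ) (-1) θ := by simpa using (hasDerivAt_id θ).const_sub θ₁
    have h3 := h1.comp θ h2
    simp only [Function.comp_def, sub_sub_cancel] at h3
    refine h3.congr_deriv ?_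
    ring
  · have q : ScQU (Icc θ₀ θ₁) k
        (fun θ z => (deriv (deriv (scStep m θ G)) z + m * deriv (scStep m θ G) z ^ 2) / 2) :=
      (((q2 k).add (((q1 k).mul (q1 k)).const_mul m)).const_mul (1 / 2)).congr fun θ _ => funext fun z => by ring
    exact q.iter k le_rfl

end Claimed.Agent.R286
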