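import Claimed.Agent.R286.Sc.GenDefs
import Claimed.Agent.R286.Sc.LimKit
import Claimed.Agent.R286.Sc.DynC
import Claimed.Agent.R286.Sc.Tau

/-!
# Row 286, scalar block, layer S4 (part 1): STABILITY in the profile, step level      OWNER: helper100 (prefix `scs_`)      0 own sorry

`L¹`-Lipschitz bound (Guerra) in FUNCTIONAL form, for two step profiles on ARBITRARY grids (no common refinement is ever built):
* `scs_V_L1`, `scs_Vt_L1` : `|scVt F π t z - scVt F π' t z| ≤ L²/2 ∫_t^len |scAl π - scAl π'|`,   `|F'| ≤ L`, masses `≥ 0`, same total length.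
  Proof: induction on `π.length + π'.length`; the longer first step is split (`sc_V_split`), one step = `sc_step_lip_mass` + `sc_step_contract`.
* `scs_tower_const` : constants `C k` of the tower `scD k`, uniform over all admissible nondecreasing profiles (from `sc_tau_D`).
* `scs_D_L1` (all derivatives, rate `sckE`), `scs_D1_L1` (the drift `u`, rate `√d`).
* `scs_Pt_L1` : S4.4 = bound of the exact Duhamel identity `sc_duhamel_P` (two profiles, two terminal data).
* `scs_Pt_mod` : `|P φ - P' φ| ≤ K M (d + len √d)`, `d = ∫_0^len |scAl π - scAl π'|`, `K = K(a, F)`, `φ ∈ ScN 2 M`.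
Consumers: `Sc/Gen.lean` (helper107: limits along `scDy`, with `sc_dy_L1` of `Sc/Dy.lean`), `Sc/Curv.lean`, `Sc/Mom.lean`.
-/

set_option autoImplicit false

namespace Claimed.Agent.R286

open MeasureTheory Filter Topology Set

/-! ## one step -/

theorem scs_step_mass {G : ℝ → ℝ} (hG : ScBI G) {L : ℝ} (hL : ∀ z, |deriv G z| ≤ L) {m m' s : ℝ} (hm : 0 ≤ m)
    (hm' : 0 ≤ m') (hs : 0 ≤ s) (z : ℝ) : |scStep m s G z - scStep m' s G z| ≤ |m - m'| * s * L ^ 2 / 2 := by
  rcases le_total m m' with h | h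
  · have h1 := sc_step_lip_mass (hG 3) hL hm h hs z
    have h2 := sc_step_mono_mass (hG 1) hm h s z
    rw [abs_sub_comm, abs_of_nonneg (by linarith), abs_sub_comm, abs_of_nonneg (by linarith)]
    exact h1
  · have h1 := sc_step_lip_mass (hG 3) hL hm' h hs z
    have h2 := sc_step_mono_mass (hG 1) hm' h s z
    rw [abs_of_nonneg (by linarith), abs_of_nonneg (by linarith)]
    exact h1

theorem scs_step_cmp {G G' : ℝ → ℝ} (hG : ScBI G) (hG' : ScBI G') {L ε : ℝ} (hL : ∀ z, |deriv G z| ≤ L)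
    (hε : ∀ z, |G z - G' z| ≤ ε) {m m' s : ℝ} (hm : 0 ≤ m) (hm' : 0 ≤ m') (hs : 0 ≤ s) (z : ℝ) :
    |scStep m s G z - scStep m' s G' z| ≤ |m - m'| * s * L ^ 2 / 2 + ε := by
  have h1 := scs_step_mass hG hL hm hm' hs z
  have h2 := sc_step_contract (hG 1) (hG' 1) hε hm' s z
  calc |scStep m s G z - scStep m' s G' z|
      = |(scStep m s G z - scStep m' s G z) + (scStep m' s G z - scStep m' s G' z)| := by ring_nf
    _ ≤ _ := (abs_add_le _ _).trans (add_le_add h1 h2)

/-! ## lists -/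

theorem scs_V_len_zero (F : ℝ → ℝ) {π : List (ℝ × ℝ)} (h : ScPos π) (h0 : scLen π = 0) : scV F π = F := by
  induction π with
  | nil => rfl
  | cons p π ih =>
    have hp := h p List.mem_cons_self
    have hl := sc_len_nonneg h.of_cons
    simp only [scLen] at h0
    have hp0 : p.2 = 0 := by linarith
    have hl0 : scLen π = 0 := by linarith
    simp only [scV, hp0, sc_step_var_zero]
    exact ih h.of_cons hl0

theorem scs_V_lip {F : ℝ → ℝ} (hF : ScBI F) {L : ℝ} (hL : ∀ z, |deriv F z| ≤ L) (π : List (ℝ × ℝ)) (z : ℝ) :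
    |deriv (scV F π) z| ≤ L := by
  induction π generalizing z with
  | nil => exact hL z
  | cons p π ih => exact sc_step_deriv_le (sc_V_BI hF π 1) ih p.1 p.2 z

theorem scs_Al_ii (π : List (ℝ × ℝ)) (a b : ℝ) : IntervalIntegrable (scAl π) volume a b := by
  obtain ⟨C, hC⟩ := sc_Al_bdd π
  exact (intervalIntegrable_const (c := C)).mono_fun' (sc_Al_measurable π).aestronglyMeasurable
    (Eventually.of_forall fun t => by simpa using hC t)

theorem scs_Al_cons_lt {p : ℝ × ℝ} (π : List (ℝ × ℝ)) {t : ℝ} (h : t < p.2) : scAl (p :: π) t = p.1 := by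
  simp [scAl, not_le.mpr h]

theorem scs_Al_cons_add {p : ℝ × ℝ} (π : List (ℝ × ℝ)) {r : ℝ} (h : 0 ≤ r) : scAl (p :: π) (p.2 + r) = scAl π r := by
  have : p.2 ≤ p.2 + r := by linarith
  simp [scAl, this]

/-- cutting the first `s` units of the first step -/
theorem scs_Al_cut (m s' s : ℝ) (π : List (ℝ × ℝ)) (r : ℝ) :
    scAl ((m, s') :: π) (s + r) = scAl ((m, s' - s) :: π) r := by
  simp only [scAl]
  by_cases h : s' ≤ s + r
  · have h' : s' - s ≤ r := by linarith
    rw [if_pos h, if_pos h']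
    congr 1
    ring
  · have h' : ¬ s' - s ≤ r := fun h'' => h (by linarith)
    rw [if_neg h, if_neg h']

/-- splitting of the `L¹` distance to an arbitrary function at the end of the first step -/
theorem scs_int_cons (p : ℝ × ℝ) (π : List (ℝ × ℝ)) {ℓ : ℝ} (hp : 0 ≤ p.2) (hℓ : 0 ≤ ℓ) {β : ℝ → ℝ}
    (hβ : IntervalIntegrable β volume 0 (p.2 + ℓ)) :
    ∫ t in (0:ℝ)..(p.2 + ℓ), |scAl (p :: π) t - β t|
      = (∫ t in (0:ℝ)..p.2, |p.1 - β t|) + ∫ r in (0:ℝ)..ℓ, |scAl π r - β (p.2 + r)| := by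
  have hi : IntervalIntegrable (fun t => |scAl (p :: π) t - β t|) volume 0 (p.2 + ℓ) :=
    ((scs_Al_ii _ _ _).sub hβ).abs
  have hsub1 : uIcc 0 p.2 ⊆ uIcc 0 (p.2 + ℓ) := by
    rw [uIcc_of_le hp, uIcc_of_le (by linarith)]; exact Icc_subset_Icc le_rfl (by linarith)
  have hsub2 : uIcc p.2 (p.2 + ℓ) ⊆ uIcc 0 (p.2 + ℓ) := by
    rw [uIcc_of_le (by linarith), uIcc_of_le (by linarith)]; exact Icc_subset_Icc hp le_rfl
  rw [← intervalIntegral.integral_add_adjacent_intervals (hi.mono_set hsub1) (hi.mono_set hsub2)]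
  congr 1
  · rw [intervalIntegral.integral_of_le hp, intervalIntegral.integral_of_le hp, integral_Ioc_eq_integral_Ioo,
      integral_Ioc_eq_integral_Ioo]
    refine setIntegral_congr_fun measurableSet_Ioo (fun t ht => ?_)
    simp only [scs_Al_cons_lt π ht.2]
  · have h1 := intervalIntegral.integral_comp_add_left (a := 0) (b := ℓ) (fun t => |scAl (p :: π) t - β t|) p.2
    rw [add_zero] at h1
    rw [← h1]
    refine intervalIntegral.integral_congr (fun r hr => ?_)
    rw [uIcc_of_le hℓ] at hr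
    simp only [scs_Al_cons_add π hr.1]

/-! ## the `L¹` bound at time `0` -/

/-- one move of the induction: the first step of `π` is the shorter one -/
theorem scs_V_L1_move {F : ℝ → ℝ} (hF : ScBI F) {L : ℝ} (hL : ∀ z, |deriv F z| ≤ L) {a : ℝ} {p p' : ℝ × ℝ}
    {π π' : List (ℝ × ℝ)} (hA : ScAdm a (p :: π)) (hA' : ScAdm a (p' :: π')) (hpp : p.2 ≤ p'.2)
    (ih : ∀ z, |scV F π z - scV F ((p'.1, p'.2 - p.2) :: π') z|
      ≤ L ^ 2 / 2 * ∫ t in (0:ℝ)..scLen π, |scAl π t - scAl ((p'.1, p'.2 - p.2) :: π') t|) (z : ℝ) :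
    |scV F (p :: π) z - scV F (p' :: π') z|
      ≤ L ^ 2 / 2 * ∫ t in (0:ℝ)..scLen (p :: π), |scAl (p :: π) t - scAl (p' :: π') t| := by
  have hp := hA p List.mem_cons_self
  have hp' := hA' p' List.mem_cons_self
  have hl := sc_len_nonneg hA.of_cons.pos
  have e1 : scV F (p' :: π') = scStep p'.1 p.2 (scV F ((p'.1, p'.2 - p.2) :: π')) := by
    have := sc_V_split hF p'.1 hp.2.2 (sub_nonneg.mpr hpp) π'
    rw [add_sub_cancel] at this
    exact this
  have h1 := scs_step_cmp (sc_V_BI hF π) (sc_V_BI hF ((p'.1, p'.2 - p.2) :: π')) (scs_V_lip hF hL π) ih hp.1 hp'.1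
    hp.2.2 z
  have e2 : ∫ t in (0:ℝ)..scLen (p :: π), |scAl (p :: π) t - scAl (p' :: π') t|
      = |p.1 - p'.1| * p.2 + ∫ t in (0:ℝ)..scLen π, |scAl π t - scAl ((p'.1, p'.2 - p.2) :: π') t| := by
    simp only [scLen]
    rw [scs_int_cons p π hp.2.2 hl (scs_Al_ii _ _ _)]
    congr 1
    · rw [intervalIntegral.integral_of_le hp.2.2, integral_Ioc_eq_integral_Ioo]
      have : ∫ t in Ioo 0 p.2, |p.1 - scAl (p' :: π') t| = ∫ _t in Ioo 0 p.2, |p.1 - p'.1| :=
        setIntegral_congr_fun measurableSet_Ioo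
          (fun t ht => by simp only [scs_Al_cons_lt π' (lt_of_lt_of_le ht.2 hpp)])
      rw [this, setIntegral_const]
      simp [hp.2.2, mul_comm]
    · refine intervalIntegral.integral_congr (fun r _ => ?_)
      rw [show p' = (p'.1, p'.2) from rfl, scs_Al_cut]
  rw [e2, e1]
  simp only [scV] at h1 ⊢
  nlinarith [h1]

theorem scs_V_L1 {F : ℝ → ℝ} (hF : ScBI F) {L : ℝ} (hL : ∀ z, |deriv F z| ≤ L) {a : ℝ} {π π' : List (ℝ × ℝ)}
    (hA : ScAdm a π) (hA' : ScAdm a π') (hlen : scLen π = scLen π') (z : ℝ) :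
    |scV F π z - scV F π' z| ≤ L ^ 2 / 2 * ∫ t in (0:ℝ)..scLen π, |scAl π t - scAl π' t| := by
  have key : ∀ (N : ℕ) (π π' : List (ℝ × ℝ)), π.length + π'.length ≤ N → ScAdm a π → ScAdm a π' →
      scLen π = scLen π' → ∀ z, |scV F π z - scV F π' z|
        ≤ L ^ 2 / 2 * ∫ t in (0:ℝ)..scLen π, |scAl π t - scAl π' t| := by
    intro N
    induction N with
    | zero =>
      intro π π' hN _ _ _ z
      have h1 : π = [] := List.length_eq_zero_iff.mp (by omega)
      have h2 : π' = [] := List.length_eq_zero_iff.mp (by omega)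
      subst h1 h2
      simp [scLen]
    | succ N ih =>
      intro π π' hN hA hA' hlen z
      match π, π', hN, hA, hA', hlen with
      | [], π', _, _, hA', hlen =>
        have : scV F π' = F := scs_V_len_zero F hA'.pos hlen.symm
        simp [this, scV, scLen]
      | p :: π, [], _, hA, _, hlen =>
        have : scV F (p :: π) = F := scs_V_len_zero F hA.pos hlen
        rw [this, hlen]
        simp [scV, scLen]
      | p :: π, p' :: π', hN, hA, hA', hlen =>
        have hp := hA p List.mem_cons_self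
        have hp' := hA' p' List.mem_cons_self
        simp only [List.length_cons] at hN
        rcases le_total p.2 p'.2 with hpp | hpp
        · have hA'' : ScAdm a ((p'.1, p'.2 - p.2) :: π') := by
            intro q hq
            rcases List.mem_cons.mp hq with rfl | hq
            · exact ⟨hp'.1, hp'.2.1, sub_nonneg.mpr hpp⟩
            · exact hA'.of_cons q hq
          refine scs_V_L1_move hF hL hA hA' hpp (ih π _ ?_ hA.of_cons hA'' ?_) z
          · simp only [List.length_cons]; omega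
          · simp only [scLen] at hlen ⊢; linarith
        · have hA'' : ScAdm a ((p.1, p.2 - p'.2) :: π) := by
            intro q hq
            rcases List.mem_cons.mp hq with rfl | hq
            · exact ⟨hp.1, hp.2.1, sub_nonneg.mpr hpp⟩
            · exact hA.of_cons q hq
          have := scs_V_L1_move hF hL hA' hA hpp (ih π' _ (by simp only [List.length_cons]; omega)
            hA'.of_cons hA'' (by simp only [scLen] at hlen ⊢; linarith)) z
          rw [abs_sub_comm, hlen]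
          simpa only [abs_sub_comm] using this
  exact key _ π π' le_rfl hA hA' hlen z

/-! ## the `L¹` bound at time `t`, all derivatives -/

theorem scs_Vt_L1 {F : ℝ → ℝ} (hF : ScBI F) {L : ℝ} (hL : ∀ z, |deriv F z| ≤ L) {a : ℝ} {π π' : List (ℝ × ℝ)}
    (hA : ScAdm a π) (hA' : ScAdm a π') (hlen : scLen π = scLen π') {t : ℝ} (h0 : 0 ≤ t) (ht : t ≤ scLen π) (z : ℝ) :
    |scVt F π t z - scVt F π' t z| ≤ L ^ 2 / 2 * ∫ r in t..scLen π, |scAl π r - scAl π' r| := by
  have h1 := scs_V_L1 hF hL (sc_after_adm hA t) (sc_after_adm hA' t)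
    (by rw [sc_len_after hA.pos h0 ht, sc_len_after hA'.pos h0 (hlen ▸ ht), hlen]) z
  rw [sc_Vt_after, sc_Vt_after]
  refine h1.trans (le_of_eq ?_)
  congr 1
  rw [sc_len_after hA.pos h0 ht]
  have h2 := intervalIntegral.integral_comp_add_left (a := 0) (b := scLen π - t)
    (fun r => |scAl π r - scAl π' r|) t
  rw [add_zero, add_sub_cancel] at h2
  rw [← h2]
  refine intervalIntegral.integral_congr (fun r hr => ?_)
  rw [uIcc_of_le (by linarith)] at hr
  simp only [sc_Al_shift hA.pos h0 hr.1, sc_Al_shift hA'.pos h0 hr.1]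

/-- the `L¹` distance on `[t, len]` is at most the one on `[0, len]` -/
theorem scs_dist_le (π π' : List (ℝ × ℝ)) {t : ℝ} (τ : ℝ) (h0 : 0 ≤ t) :
    ∫ r in t..τ, |scAl π r - scAl π' r| ≤ ∫ r in (0:ℝ)..τ, |scAl π r - scAl π' r| := by
  have hi : ∀ a b : ℝ, IntervalIntegrable (fun r => |scAl π r - scAl π' r|) volume a b :=
    fun a b => ((scs_Al_ii π a b).sub (scs_Al_ii π' a b)).abs
  rw [← intervalIntegral.integral_add_adjacent_intervals (hi 0 t) (hi t τ)]
  have : 0 ≤ ∫ r in (0:ℝ)..t, |scAl π r - scAl π' r| :=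
    intervalIntegral.integral_nonneg h0 (fun _ _ => abs_nonneg _)
  linarith

/-- constants of the derivative tower: uniform over ALL admissible nondecreasing profiles (any length, any number of steps) -/
theorem scs_tower_const {a : ℝ} (ha : 0 ≤ a) {F : ℝ → ℝ} (hF : ScBI F) :
    ∃ C : ℕ → ℝ, ∀ π : List (ℝ × ℝ), ScAdm a π → ScInc π → ∀ k, 1 ≤ k → ∀ t z, |scD k F π t z| ≤ C k := by
  have h : ∀ n : ℕ, ∃ C : ℝ, ∀ π : List (ℝ × ℝ), ScAdm a π → ScInc π → ∀ t z, |scD (n + 1) F π t z| ≤ C := by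
    intro n
    obtain ⟨A, hA⟩ := ((hF (n + 1)).deriv_bd).scN
    obtain ⟨C, _, H⟩ := sc_tau_D ha n hA.nonneg
    exact ⟨C, fun π h1 h2 t z => H F π hF hA h1 h2 n le_rfl t z⟩
  choose C hC using h
  refine ⟨fun k => C (k - 1), fun π h1 h2 k hk t z => ?_⟩
  obtain ⟨n, rfl⟩ : ∃ n, k = n + 1 := ⟨k - 1, by omega⟩
  simpa using hC n π h1 h2 t z

/-- **all derivatives**: two profiles close in `L¹` have close derivative towers (`sckE C ε k = a_k ε^(1/2^k)`) -/
theorem scs_D_L1 {F : ℝ → ℝ} (hF : ScBI F) {L : ℝ} (hL : ∀ z, |deriv F z| ≤ L) {a : ℝ} {π π' : List (ℝ × ℝ)}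
    (hA : ScAdm a π) (hA' : ScAdm a π') (hlen : scLen π = scLen π') {C : ℕ → ℝ} {t : ℝ} (h0 : 0 ≤ t)
    (ht : t ≤ scLen π) (hC : ∀ k x, 2 ≤ k → |scD k F π t x| ≤ C k) (hC' : ∀ k x, 2 ≤ k → |scD k F π' t x| ≤ C k)
    (k : ℕ) (z : ℝ) :
    |scD k F π t z - scD k F π' t z| ≤ sckE C (L ^ 2 / 2 * ∫ r in t..scLen π, |scAl π r - scAl π' r|) k :=
  sck_tower_diff (F := fun k => scD k F π t) (G := fun k => scD k F π' t) (fun k x => sc_D_hasDerivAt hF k π t x)
    (fun k x => sc_D_hasDerivAt hF k π' t x) hC hC' (fun x => scs_Vt_L1 hF hL hA hA' hlen h0 ht x) k z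

/-! ## the transition operators -/

/-- **S4.4**: bound of the exact Duhamel identity (two profiles, two terminal data).  `Γ` = gradient bound of the second
transition, `U` = distance of the two drifts `u`. -/
theorem scs_Pt_L1 {F F' φ : ℝ → ℝ} (hF : ScBI F) (hF' : ScBI F') (hφ : ScE 2 φ) {L a Γ U : ℝ} (ha : 0 ≤ a)
    (hL : ∀ z, |deriv F z| ≤ L) {π π' : List (ℝ × ℝ)} (hA : ScAdm a π) (hA' : ScAdm a π') {s t : ℝ} (h0 : 0 ≤ s)
    (hst : s ≤ t) (ht : t ≤ scLen π) (ht' : t ≤ scLen π')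
    (hΓ : ∀ r ∈ Icc s t, ∀ y, |deriv (scPt F' π' r t φ) y| ≤ Γ)
    (hU : ∀ r ∈ Icc s t, ∀ y, |scD 1 F π r y - scD 1 F' π' r y| ≤ U) (z : ℝ) :
    |scPt F π s t φ z - scPt F' π' s t φ z|
      ≤ Γ * (L * (∫ r in s..t, |scAl π r - scAl π' r|) + a * U * (t - s)) := by
  have hΓ0 : 0 ≤ Γ := (abs_nonneg _).trans (hΓ s ⟨le_rfl, hst⟩ 0)
  have hi : IntervalIntegrable (fun r => |scAl π r - scAl π' r|) volume s t :=
    ((scs_Al_ii π s t).sub (scs_Al_ii π' s t)).abs
  rw [sc_duhamel_P hF hF' hφ hA.pos hA'.pos h0 hst ht ht' z]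
  have hb : ∀ r ∈ Ioc s t, ‖scPt F π s r (fun y => (scAl π r * scD 1 F π r y - scAl π' r * scD 1 F' π' r y)
      * deriv (scPt F' π' r t φ) y) z‖ ≤ Γ * (L * |scAl π r - scAl π' r| + a * U) := by
    intro r hr
    have hr' : r ∈ Icc s t := Ioc_subset_Icc_self hr
    rw [Real.norm_eq_abs]
    refine sc_Pt_abs_le hF ?_ (fun y => ?_) π s r z
    · have c1 : Continuous (scD 1 F π r) := (sc_D_E hF 1 0 π r).continuous
      have c2 : Continuous (scD 1 F' π' r) := (sc_D_E hF' 1 0 π' r).continuous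
      have c3 : Continuous (deriv (scPt F' π' r t φ)) := (sc_Pt_E hF' hφ π' r t).deriv.continuous
      exact ((continuous_const.mul c1).sub (continuous_const.mul c2)).mul c3
    · rw [abs_mul, mul_comm]
      refine mul_le_mul (hΓ r hr' y) ?_ (abs_nonneg _) hΓ0
      have e : scAl π r * scD 1 F π r y - scAl π' r * scD 1 F' π' r y
          = (scAl π r - scAl π' r) * scD 1 F π r y + scAl π' r * (scD 1 F π r y - scD 1 F' π' r y) := by ring
      rw [e]
      refine (abs_add_le _ _).trans (add_le_add ?_ ?_)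
      · rw [abs_mul, mul_comm]
        exact mul_le_mul_of_nonneg_right (sc_D1_le hF hL π r y) (abs_nonneg _)
      · rw [abs_mul]
        have hm := sc_Al_mem ha hA' r
        rw [abs_of_nonneg hm.1]
        exact mul_le_mul hm.2 (hU r hr' y) (abs_nonneg _) ha
  have h1 := intervalIntegral.norm_integral_le_of_norm_le hst (Eventually.of_forall hb)
    (((hi.const_mul L).add (intervalIntegrable_const (c := a * U))).const_mul Γ)
  rw [Real.norm_eq_abs] at h1
  refine h1.trans (le_of_eq ?_)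
  rw [intervalIntegral.integral_const_mul, intervalIntegral.integral_add (hi.const_mul L) intervalIntegrable_const,
    intervalIntegral.integral_const_mul, intervalIntegral.integral_const]
  simp only [smul_eq_mul]
  ring

/-- distance of the drifts `u = V_z` of two profiles -/
theorem scs_D1_L1 {F : ℝ → ℝ} (hF : ScBI F) {L : ℝ} (hL : ∀ z, |deriv F z| ≤ L) {a : ℝ} {π π' : List (ℝ × ℝ)}
    (hA : ScAdm a π) (hA' : ScAdm a π') (hlen : scLen π = scLen π') {C2 : ℝ} {t : ℝ} (h0 : 0 ≤ t)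
    (ht : t ≤ scLen π) (hC : ∀ x, |scD 2 F π t x| ≤ C2) (hC' : ∀ x, |scD 2 F π' t x| ≤ C2) (z : ℝ) :
    |scD 1 F π t z - scD 1 F π' t z|
      ≤ 2 * Real.sqrt (L ^ 2 * C2) * Real.sqrt (∫ r in (0:ℝ)..scLen π, |scAl π r - scAl π' r|) := by
  set d := ∫ r in (0:ℝ)..scLen π, |scAl π r - scAl π' r| with hd
  have hC2 : 0 ≤ C2 := (abs_nonneg _).trans (hC 0)
  have h1 := sck_landau (f := fun x => scD 0 F π t x - scD 0 F π' t x)
    (f' := fun x => scD 1 F π t x - scD 1 F π' t x) (f'' := fun x => scD 2 F π t x - scD 2 F π' t x)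
    (ε := L ^ 2 / 2 * d) (M := 2 * C2)
    (fun x => (sc_D_hasDerivAt hF 0 π t x).sub (sc_D_hasDerivAt hF 0 π' t x))
    (fun x => (sc_D_hasDerivAt hF 1 π t x).sub (sc_D_hasDerivAt hF 1 π' t x))
    (fun x => (scs_Vt_L1 hF hL hA hA' hlen h0 ht x).trans
      (mul_le_mul_of_nonneg_left (scs_dist_le π π' _ h0) (by positivity)))
    (fun x => (abs_sub _ _).trans (by have := hC x; have := hC' x; linarith)) z
  refine h1.trans (le_of_eq ?_)
  have e : L ^ 2 / 2 * d * (2 * C2) = L ^ 2 * C2 * d := by ring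
  rw [e, Real.sqrt_mul (by positivity), mul_assoc]

/-- **modulus of continuity of the transition operators in the profile**, uniform over all admissible nondecreasing profiles -/
theorem scs_Pt_mod {a : ℝ} (ha : 0 ≤ a) {F : ℝ → ℝ} (hF : ScBI F) :
    ∃ K : ℝ, 0 ≤ K ∧ ∀ π π' : List (ℝ × ℝ), ScAdm a π → ScInc π → ScAdm a π' → ScInc π' → scLen π = scLen π' →
      ∀ (φ : ℝ → ℝ) (M : ℝ), ScN 2 M φ → ∀ s t, 0 ≤ s → s ≤ t → t ≤ scLen π → ∀ z,
        |scPt F π s t φ z - scPt F π' s t φ z|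
          ≤ K * M * ((∫ r in (0:ℝ)..scLen π, |scAl π r - scAl π' r|)
            + scLen π * Real.sqrt (∫ r in (0:ℝ)..scLen π, |scAl π r - scAl π' r|)) := by
  obtain ⟨A, hA1⟩ := ((hF 2).deriv_bd).scN
  obtain ⟨K1, hK1, HP⟩ := sc_tau_Pt ha 1 hA1.nonneg
  obtain ⟨C, hC⟩ := scs_tower_const ha hF
  have hL : ∀ z, |deriv F z| ≤ A := hA1.bd
  set B : ℝ := 2 * Real.sqrt (A ^ 2 * C 2) with hB
  have hB0 : 0 ≤ B := by positivity
  have hA0 := hA1.nonneg
  refine ⟨K1 * (A + a * B), by positivity, ?_⟩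
  intro π π' hA hI hA' hI' hlen φ M hφ s t h0 hst ht z
  set d := ∫ r in (0:ℝ)..scLen π, |scAl π r - scAl π' r| with hd
  have hd0 : 0 ≤ d := intervalIntegral.integral_nonneg (sc_len_nonneg hA.pos) (fun _ _ => abs_nonneg _)
  have hM := hφ.nonneg
  have h1 := scs_Pt_L1 (Γ := K1 * M) (U := B * Real.sqrt d) hF hF hφ.scE ha hL hA hA' h0 hst ht (hlen ▸ ht)
    (fun r _ y => ((HP F π' φ M hF hA1 hA' hI' hφ.of_succ r t).der).bd y)
    (fun r hr y => scs_D1_L1 hF hL hA hA' hlen (h0.trans hr.1) (hr.2.trans ht)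
      (fun x => hC π hA hI 2 (by norm_num) r x) (fun x => hC π' hA' hI' 2 (by norm_num) r x) y) z
  refine h1.trans ?_
  have h2 : ∫ r in s..t, |scAl π r - scAl π' r| ≤ d := by
    have hi : ∀ a b : ℝ, IntervalIntegrable (fun r => |scAl π r - scAl π' r|) volume a b :=
      fun a b => ((scs_Al_ii π a b).sub (scs_Al_ii π' a b)).abs
    have e : d = (∫ r in (0:ℝ)..s, |scAl π r - scAl π' r|) + (∫ r in s..t, |scAl π r - scAl π' r|)
        + ∫ r in t..scLen π, |scAl π r - scAl π' r| := by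
      rw [intervalIntegral.integral_add_adjacent_intervals (hi 0 s) (hi s t),
        intervalIntegral.integral_add_adjacent_intervals (hi 0 t) (hi t _)]
    have p1 : 0 ≤ ∫ r in (0:ℝ)..s, |scAl π r - scAl π' r| :=
      intervalIntegral.integral_nonneg h0 (fun _ _ => abs_nonneg _)
    have p2 : 0 ≤ ∫ r in t..scLen π, |scAl π r - scAl π' r| :=
      intervalIntegral.integral_nonneg ht (fun _ _ => abs_nonneg _)
    linarith
  have hsq : 0 ≤ Real.sqrt d := Real.sqrt_nonneg d
  have h3 : A * (∫ r in s..t, |scAl π r - scAl π' r|) ≤ (A + a * B) * d := by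
    have : A * (∫ r in s..t, |scAl π r - scAl π' r|) ≤ A * d := mul_le_mul_of_nonneg_left h2 hA0
    have : 0 ≤ a * B * d := by positivity
    nlinarith
  have h4 : a * (B * Real.sqrt d) * (t - s) ≤ (A + a * B) * (scLen π * Real.sqrt d) := by
    have e1 : t - s ≤ scLen π := by linarith
    have e2 : 0 ≤ a * B * Real.sqrt d := by positivity
    have e3 : a * B * Real.sqrt d * (t - s) ≤ a * B * Real.sqrt d * scLen π := mul_le_mul_of_nonneg_left e1 e2
    have e4 : 0 ≤ A * (scLen π * Real.sqrt d) := mul_nonneg hA0 (mul_nonneg (sc_len_nonneg hA.pos) hsq)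
    nlinarith
  have hKM : 0 ≤ K1 * M := by positivity
  calc K1 * M * (A * (∫ r in s..t, |scAl π r - scAl π' r|) + a * (B * Real.sqrt d) * (t - s))
      ≤ K1 * M * ((A + a * B) * d + (A + a * B) * (scLen π * Real.sqrt d)) :=
        mul_le_mul_of_nonneg_left (add_le_add h3 h4) hKM
    _ = K1 * (A + a * B) * M * (d + scLen π * Real.sqrt d) := by ring

end Claimed.Agent.R286
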