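import Claimed.Agent.R286.Sc.LscP
import Claimed.Agent.R286.Sc.DynC
import Claimed.Agent.R286.Sc.Ann
import Claimed.Agent.R286.Sc.LinkClk
import Claimed.Agent.R286.Sc.Top

/-!
# Row 286, scalar block, unit C11 (`exit_scgen`): the `Dyn`-fields of `LscMod.Ok`      HEAD of the unit: helper95 (ADV + co-owner helper36; chief helper183).   Prefix `lsi_`, `Lsi`.

CONTRACT FILE.   Every leaf is free: claim it by its Lean name in `claim286`, prove it IN PLACE.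
MEANING of the abstract predicate `M.Dyn A j s t φ G`  (`lsiDyn`):   `(φ, G)` is regular and, for every large horizon `τ`, it is the LIMIT of step test functions `(φn n, Gn n)`,
`ScDyn (scLC j) (scDy A τ n) s t (φn n) (Gn n)` (`Sc/Prof.lean`, calculus in `Sc/DynC.lean`):
* `LsiCU s t φ φn`:  `φn n → φ`  in a weighted sup norm, uniformly in the time `r ∈ [s,t]`       (asked of `φ` and of `∂_y φ`);
* `LsiCG s t G Gn`:  `|Gn n r y - G r y| ≤ ε n r e^{c|y|}`, `ε` bounded, `ε n r → 0` for ALMOST EVERY `r`      (the masses `scAl (scDy A τ n) r → A r` only at the continuity points of `A`).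
THE formula `lsi_dynkin` = limit of `sc_dynkin` (`Sc/Dyn.lean`): `lsi_P_tendsto` (moving tests) + dominated convergence (`lsi_Pt_growth`).
All the rules = the rule of `Sc/DynC.lean` for the approximants + the calculus of `LsiCU`, `LsiCG` (section 1).   "For every large horizon": two models are compared on the SAME horizon (`lsi_dyn_model`).
-/

set_option autoImplicit false

namespace Claimed.Agent.R286

open MeasureTheory ProbabilityTheory Filter Topology Set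

/-! ## 1. the two notions of convergence -/

/-- weighted uniform convergence on `[s,t] × ℝ` -/
def LsiCU (s t : ℝ) (φ : ℝ → ℝ → ℝ) (φn : ℕ → ℝ → ℝ → ℝ) : Prop :=
  ∃ (c : ℝ) (δ : ℕ → ℝ), Tendsto δ atTop (𝓝 0) ∧ ∀ n, ∀ r ∈ Icc s t, ∀ y, |φn n r y - φ r y| ≤ δ n * Real.exp (c * |y|)

/-- weighted convergence for almost every time of `(s,t)`, dominated -/
def LsiCG (s t : ℝ) (G : ℝ → ℝ → ℝ) (Gn : ℕ → ℝ → ℝ → ℝ) : Prop :=
  ∃ (c C : ℝ) (ε : ℕ → ℝ → ℝ), (∀ n, ∀ r ∈ Ioo s t, ε n r ≤ C) ∧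
    (∀ᵐ r ∂(volume : Measure ℝ), r ∈ Ioo s t → Tendsto (fun n => ε n r) atTop (𝓝 0)) ∧
    ∀ n, ∀ r ∈ Ioo s t, ∀ y, |Gn n r y - G r y| ≤ ε n r * Real.exp (c * |y|)

theorem lsi_h1_exp_le {a b : ℝ} (h : a ≤ b) (y : ℝ) : Real.exp (a * |y|) ≤ Real.exp (b * |y|) :=
  Real.exp_le_exp.2 (mul_le_mul_of_nonneg_right h (abs_nonneg y))

/-- normal form -/
theorem LsiCU.nn {s t : ℝ} {φ : ℝ → ℝ → ℝ} {φn : ℕ → ℝ → ℝ → ℝ} (h : LsiCU s t φ φn) :
    ∃ (c : ℝ) (δ : ℕ → ℝ), 0 ≤ c ∧ (∀ n, 0 ≤ δ n) ∧ Tendsto δ atTop (𝓝 0) ∧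
      ∀ n, ∀ r ∈ Icc s t, ∀ y, |φn n r y - φ r y| ≤ δ n * Real.exp (c * |y|) := by
  obtain ⟨c, δ, hδ, h⟩ := h
  refine ⟨|c|, fun n => |δ n|, abs_nonneg _, fun n => abs_nonneg _, by simpa using hδ.abs, fun n r hr y => (h n r hr y).trans ?_⟩
  exact mul_le_mul (le_abs_self _) (lsi_h1_exp_le (le_abs_self c) y) (Real.exp_pos _).le (abs_nonneg _)

theorem lsi_h1_bdd {δ : ℕ → ℝ} (hδ : Tendsto δ atTop (𝓝 0)) (h0 : ∀ n, 0 ≤ δ n) : ∃ D : ℝ, 0 ≤ D ∧ ∀ n, δ n ≤ D := by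
  obtain ⟨D, hD⟩ := hδ.bddAbove_range
  exact ⟨D, (h0 0).trans (hD ⟨0, rfl⟩), fun n => hD ⟨n, rfl⟩⟩

theorem LsiCU.growth_nn {s t : ℝ} {φ : ℝ → ℝ → ℝ} {φn : ℕ → ℝ → ℝ → ℝ} (h : LsiCU s t φ φn) (hg : ScGU (Icc s t) φ) :
    ∃ C c : ℝ, 0 ≤ C ∧ 0 ≤ c ∧ ∀ n, ∀ r ∈ Icc s t, ∀ y, |φn n r y| ≤ C * Real.exp (c * |y|) := by
  obtain ⟨c, δ, hc, hδ0, hδ, h⟩ := h.nn
  obtain ⟨D, hD0, hD⟩ := lsi_h1_bdd hδ hδ0
  obtain ⟨C, c', hC, hc', hg⟩ := hg.nonneg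
  refine ⟨D + C, max c c', by positivity, hc.trans (le_max_left _ _), fun n r hr y => ?_⟩
  have e1 := lsi_h1_exp_le (le_max_left c c') y
  have e2 := lsi_h1_exp_le (le_max_right c c') y
  have e0 := (Real.exp_pos (c * |y|)).le
  calc |φn n r y| = |(φn n r y - φ r y) + φ r y| := by ring_nf
    _ ≤ |φn n r y - φ r y| + |φ r y| := abs_add_le _ _
    _ ≤ δ n * Real.exp (c * |y|) + C * Real.exp (c' * |y|) := add_le_add (h n r hr y) (hg r hr y)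
    _ ≤ D * Real.exp (max c c' * |y|) + C * Real.exp (max c c' * |y|) :=
        add_le_add (mul_le_mul (hD n) e1 e0 hD0) (mul_le_mul_of_nonneg_left e2 hC)
    _ = _ := by ring

/-- normal form -/
theorem LsiCG.nn {s t : ℝ} {G : ℝ → ℝ → ℝ} {Gn : ℕ → ℝ → ℝ → ℝ} (h : LsiCG s t G Gn) :
    ∃ (c C : ℝ) (ε : ℕ → ℝ → ℝ), 0 ≤ c ∧ 0 ≤ C ∧ (∀ n r, 0 ≤ ε n r) ∧ (∀ n, ∀ r ∈ Ioo s t, ε n r ≤ C) ∧
    (∀ᵐ r ∂(volume : Measure ℝ), r ∈ Ioo s t → Tendsto (fun n => ε n r) atTop (𝓝 0)) ∧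
    ∀ n, ∀ r ∈ Ioo s t, ∀ y, |Gn n r y - G r y| ≤ ε n r * Real.exp (c * |y|) := by
  obtain ⟨c, C, ε, hC, hε, h⟩ := h
  have hpos : ∀ n, ∀ r ∈ Ioo s t, 0 ≤ ε n r := fun n r hr => by
    have := (abs_nonneg _).trans (h n r hr 0)
    simpa using this
  refine ⟨|c|, |C|, fun n r => |ε n r|, abs_nonneg _, abs_nonneg _, fun n r => abs_nonneg _, fun n r hr => ?_, ?_, fun n r hr y => ?_⟩
  · show |ε n r| ≤ |C|
    rw [abs_of_nonneg (hpos n r hr)]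
    exact (hC n r hr).trans (le_abs_self _)
  · filter_upwards [hε] with r hr hrm
    simpa using (hr hrm).abs
  · exact (h n r hr y).trans (mul_le_mul (le_abs_self _) (lsi_h1_exp_le (le_abs_self c) y) (Real.exp_pos _).le (abs_nonneg _))

theorem LsiCG.growth_nn {s t : ℝ} {G : ℝ → ℝ → ℝ} {Gn : ℕ → ℝ → ℝ → ℝ} (h : LsiCG s t G Gn) (hg : ScGU (Ioo s t) G) :
    ∃ C c : ℝ, 0 ≤ C ∧ 0 ≤ c ∧ ∀ n, ∀ r ∈ Ioo s t, ∀ y, |Gn n r y| ≤ C * Real.exp (c * |y|) := by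
  obtain ⟨c, D, ε, hc, hD0, hε0, hD, _, h⟩ := h.nn
  obtain ⟨C, c', hC, hc', hg⟩ := hg.nonneg
  refine ⟨D + C, max c c', by positivity, hc.trans (le_max_left _ _), fun n r hr y => ?_⟩
  have e1 := lsi_h1_exp_le (le_max_left c c') y
  have e2 := lsi_h1_exp_le (le_max_right c c') y
  have e0 := (Real.exp_pos (c * |y|)).le
  calc |Gn n r y| = |(Gn n r y - G r y) + G r y| := by ring_nf
    _ ≤ |Gn n r y - G r y| + |G r y| := abs_add_le _ _
    _ ≤ ε n r * Real.exp (c * |y|) + C * Real.exp (c' * |y|) := add_le_add (h n r hr y) (hg r hr y)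
    _ ≤ D * Real.exp (max c c' * |y|) + C * Real.exp (max c c' * |y|) :=
        add_le_add (mul_le_mul (hD n r hr) e1 e0 hD0) (mul_le_mul_of_nonneg_left e2 hC)
    _ = _ := by ring

/-- from the `ε`-`N` form of uniform convergence to a sequence of bounds -/
theorem lsi_unif_seq {X : Type*} {f : ℕ → X → ℝ} (hb : ∀ n, ∃ C : ℝ, ∀ x, |f n x| ≤ C)
    (hu : ∀ ε > 0, ∃ N, ∀ n ≥ N, ∀ x, |f n x| ≤ ε) : ∃ δ : ℕ → ℝ, Tendsto δ atTop (𝓝 0) ∧ ∀ n x, |f n x| ≤ δ n := by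
  have hbd : ∀ n, BddAbove (range fun x => |f n x|) := fun n => by
    obtain ⟨C, hC⟩ := hb n
    exact ⟨C, by rintro _ ⟨x, rfl⟩; exact hC x⟩
  refine ⟨fun n => ⨆ x, |f n x|, ?_, fun n x => le_ciSup (hbd n) x⟩
  rw [Metric.tendsto_atTop]
  intro ε hε
  obtain ⟨N, hN⟩ := hu (ε / 2) (by positivity)
  refine ⟨N, fun n hn => ?_⟩
  have h0 : 0 ≤ ⨆ x, |f n x| := Real.iSup_nonneg fun x => abs_nonneg _
  have h1 : ⨆ x, |f n x| ≤ ε / 2 := Real.iSup_le (fun x => hN n hn x) (by positivity)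
  rw [Real.dist_eq, sub_zero, abs_of_nonneg h0]
  linarith

theorem LsiCU.refl (s t : ℝ) (φ : ℝ → ℝ → ℝ) : LsiCU s t φ (fun _ => φ) :=
  ⟨0, fun _ => 0, tendsto_const_nhds, fun n r _ y => by simp⟩

theorem LsiCU.sub_interval {s t s' t' : ℝ} {φ : ℝ → ℝ → ℝ} {φn : ℕ → ℝ → ℝ → ℝ} (h : LsiCU s t φ φn) (hs : s ≤ s') (ht : t' ≤ t) :
    LsiCU s' t' φ φn := by
  obtain ⟨c, δ, hδ, h⟩ := h
  exact ⟨c, δ, hδ, fun n r hr y => h n r (Icc_subset_Icc hs ht hr) y⟩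

theorem LsiCU.congr {s t : ℝ} {φ φ' : ℝ → ℝ → ℝ} {φn φn' : ℕ → ℝ → ℝ → ℝ} (h : LsiCU s t φ φn) (h1 : ∀ r ∈ Icc s t, φ' r = φ r)
    (h2 : ∀ n, ∀ r ∈ Icc s t, φn' n r = φn n r) : LsiCU s t φ' φn' := by
  obtain ⟨c, δ, hδ, h⟩ := h
  exact ⟨c, δ, hδ, fun n r hr y => by rw [h1 r hr, h2 n r hr]; exact h n r hr y⟩

/-- the approximants grow uniformly -/
theorem LsiCU.growth {s t : ℝ} {φ : ℝ → ℝ → ℝ} {φn : ℕ → ℝ → ℝ → ℝ} (h : LsiCU s t φ φn) (hg : ScGU (Icc s t) φ) :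
    ∃ C c : ℝ, ∀ n, ∀ r ∈ Icc s t, ∀ y, |φn n r y| ≤ C * Real.exp (c * |y|) := by
  obtain ⟨C, c, _, _, h⟩ := h.growth_nn hg
  exact ⟨C, c, h⟩

theorem LsiCU.add {s t : ℝ} {φ ψ : ℝ → ℝ → ℝ} {φn ψn : ℕ → ℝ → ℝ → ℝ} (h1 : LsiCU s t φ φn) (h2 : LsiCU s t ψ ψn) :
    LsiCU s t (fun r y => φ r y + ψ r y) (fun n r y => φn n r y + ψn n r y) := by
  obtain ⟨c, δ, hc, hδ0, hδ, h1⟩ := h1.nn
  obtain ⟨c', δ', hc', hδ0', hδ', h2⟩ := h2.nn
  refine ⟨max c c', fun n => δ n + δ' n, by simpa using hδ.add hδ', fun n r hr y => ?_⟩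
  have e1 := lsi_h1_exp_le (le_max_left c c') y
  have e2 := lsi_h1_exp_le (le_max_right c c') y
  calc |φn n r y + ψn n r y - (φ r y + ψ r y)| = |(φn n r y - φ r y) + (ψn n r y - ψ r y)| := by ring_nf
    _ ≤ |φn n r y - φ r y| + |ψn n r y - ψ r y| := abs_add_le _ _
    _ ≤ δ n * Real.exp (c * |y|) + δ' n * Real.exp (c' * |y|) := add_le_add (h1 n r hr y) (h2 n r hr y)
    _ ≤ δ n * Real.exp (max c c' * |y|) + δ' n * Real.exp (max c c' * |y|) :=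
        add_le_add (mul_le_mul_of_nonneg_left e1 (hδ0 n)) (mul_le_mul_of_nonneg_left e2 (hδ0' n))
    _ = _ := by ring

theorem LsiCU.const_mul {s t : ℝ} {φ : ℝ → ℝ → ℝ} {φn : ℕ → ℝ → ℝ → ℝ} (c : ℝ) (h1 : LsiCU s t φ φn) :
    LsiCU s t (fun r y => c * φ r y) (fun n r y => c * φn n r y) := by
  obtain ⟨c', δ, hδ, h1⟩ := h1
  refine ⟨c', fun n => |c| * δ n, by simpa using hδ.const_mul |c|, fun n r hr y => ?_⟩
  calc |c * φn n r y - c * φ r y| = |c| * |φn n r y - φ r y| := by rw [← mul_sub, abs_mul]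
    _ ≤ |c| * (δ n * Real.exp (c' * |y|)) := mul_le_mul_of_nonneg_left (h1 n r hr y) (abs_nonneg _)
    _ = _ := by ring

theorem LsiCU.mul {s t : ℝ} {φ ψ : ℝ → ℝ → ℝ} {φn ψn : ℕ → ℝ → ℝ → ℝ} (h1 : LsiCU s t φ φn) (h2 : LsiCU s t ψ ψn)
    (g1 : ScGU (Icc s t) φ) (g2 : ScGU (Icc s t) ψ) : LsiCU s t (fun r y => φ r y * ψ r y) (fun n r y => φn n r y * ψn n r y) := by
  obtain ⟨D, d, hD, hd, hg2⟩ := h2.growth_nn g2
  obtain ⟨C, c0, hC, hc0, hg1⟩ := g1.nonneg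
  obtain ⟨c, δ, hc, hδ0, hδ, h1⟩ := h1.nn
  obtain ⟨c', δ', hc', hδ0', hδ', h2⟩ := h2.nn
  refine ⟨c + d + c0 + c', fun n => δ n * D + C * δ' n, by simpa using (hδ.mul_const D).add (hδ'.const_mul C), fun n r hr y => ?_⟩
  have hy := abs_nonneg y
  have e1 : Real.exp (c * |y|) * Real.exp (d * |y|) ≤ Real.exp ((c + d + c0 + c') * |y|) := by
    rw [← Real.exp_add, ← add_mul]
    exact lsi_h1_exp_le (by linarith) y
  have e2 : Real.exp (c0 * |y|) * Real.exp (c' * |y|) ≤ Real.exp ((c + d + c0 + c') * |y|) := by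
    rw [← Real.exp_add, ← add_mul]
    exact lsi_h1_exp_le (by linarith) y
  have hδn := hδ0 n
  have hδn' := hδ0' n
  calc |φn n r y * ψn n r y - φ r y * ψ r y| = |(φn n r y - φ r y) * ψn n r y + φ r y * (ψn n r y - ψ r y)| := by ring_nf
    _ ≤ |φn n r y - φ r y| * |ψn n r y| + |φ r y| * |ψn n r y - ψ r y| := by
        rw [← abs_mul, ← abs_mul]; exact abs_add_le _ _
    _ ≤ (δ n * Real.exp (c * |y|)) * (D * Real.exp (d * |y|)) + (C * Real.exp (c0 * |y|)) * (δ' n * Real.exp (c' * |y|)) :=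
        add_le_add (mul_le_mul (h1 n r hr y) (hg2 n r hr y) (abs_nonneg _) (by positivity))
          (mul_le_mul (hg1 r hr y) (h2 n r hr y) (abs_nonneg _) (by positivity))
    _ = δ n * D * (Real.exp (c * |y|) * Real.exp (d * |y|)) + C * δ' n * (Real.exp (c0 * |y|) * Real.exp (c' * |y|)) := by ring
    _ ≤ δ n * D * Real.exp ((c + d + c0 + c') * |y|) + C * δ' n * Real.exp ((c + d + c0 + c') * |y|) :=
        add_le_add (mul_le_mul_of_nonneg_left e1 (by positivity)) (mul_le_mul_of_nonneg_left e2 (by positivity))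
    _ = _ := by ring

/-- a Lipschitz function of a convergent sequence -/
theorem LsiCU.lip_comp {s t : ℝ} {φ : ℝ → ℝ → ℝ} {φn : ℕ → ℝ → ℝ → ℝ} (h1 : LsiCU s t φ φn) {f : ℝ → ℝ} {L : ℝ}
    (hf : ∀ x y, |f x - f y| ≤ L * |x - y|) : LsiCU s t (fun r y => f (φ r y)) (fun n r y => f (φn n r y)) := by
  obtain ⟨c', δ, hδ, h1⟩ := h1
  refine ⟨c', fun n => |L| * δ n, by simpa using hδ.const_mul |L|, fun n r hr y => ?_⟩
  calc |f (φn n r y) - f (φ r y)| ≤ L * |φn n r y - φ r y| := hf _ _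
    _ ≤ |L| * |φn n r y - φ r y| := mul_le_mul_of_nonneg_right (le_abs_self L) (abs_nonneg _)
    _ ≤ |L| * (δ n * Real.exp (c' * |y|)) := mul_le_mul_of_nonneg_left (h1 n r hr y) (abs_nonneg _)
    _ = _ := by ring

theorem LsiCU.cg {s t : ℝ} {φ : ℝ → ℝ → ℝ} {φn : ℕ → ℝ → ℝ → ℝ} (h : LsiCU s t φ φn) : LsiCG s t φ φn := by
  obtain ⟨c, δ, hc, hδ0, hδ, h⟩ := h.nn
  obtain ⟨D, hD0, hD⟩ := lsi_h1_bdd hδ hδ0
  exact ⟨c, D, fun n _ => δ n, fun n _ _ => hD n, Eventually.of_forall fun _ _ => hδ,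
    fun n r hr y => h n r (Ioo_subset_Icc_self hr) y⟩

theorem LsiCG.sub_interval {s t s' t' : ℝ} {G : ℝ → ℝ → ℝ} {Gn : ℕ → ℝ → ℝ → ℝ} (h : LsiCG s t G Gn) (hs : s ≤ s') (ht : t' ≤ t) :
    LsiCG s' t' G Gn := by
  obtain ⟨c, C, ε, hC, hε, h⟩ := h
  have hsub := Ioo_subset_Ioo hs ht
  refine ⟨c, C, ε, fun n r hr => hC n r (hsub hr), ?_, fun n r hr y => h n r (hsub hr) y⟩
  filter_upwards [hε] with r hr hrm
  exact hr (hsub hrm)

theorem LsiCG.congr {s t : ℝ} {G G' : ℝ → ℝ → ℝ} {Gn Gn' : ℕ → ℝ → ℝ → ℝ} (h : LsiCG s t G Gn) (h1 : ∀ r ∈ Ioo s t, G' r = G r)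
    (h2 : ∀ n, ∀ r ∈ Ioo s t, Gn' n r = Gn n r) : LsiCG s t G' Gn' := by
  obtain ⟨c, C, ε, hC, hε, h⟩ := h
  exact ⟨c, C, ε, hC, hε, fun n r hr y => by rw [h1 r hr, h2 n r hr]; exact h n r hr y⟩

theorem LsiCG.growth {s t : ℝ} {G : ℝ → ℝ → ℝ} {Gn : ℕ → ℝ → ℝ → ℝ} (h : LsiCG s t G Gn) (hg : ScGU (Ioo s t) G) :
    ∃ C c : ℝ, ∀ n, ∀ r ∈ Ioo s t, ∀ y, |Gn n r y| ≤ C * Real.exp (c * |y|) := by
  obtain ⟨C, c, _, _, h⟩ := h.growth_nn hg
  exact ⟨C, c, h⟩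

theorem LsiCG.add {s t : ℝ} {G H : ℝ → ℝ → ℝ} {Gn Hn : ℕ → ℝ → ℝ → ℝ} (h1 : LsiCG s t G Gn) (h2 : LsiCG s t H Hn) :
    LsiCG s t (fun r y => G r y + H r y) (fun n r y => Gn n r y + Hn n r y) := by
  obtain ⟨c, C, ε, hc, hC0, hε0, hC, hε, h1⟩ := h1.nn
  obtain ⟨c', C', ε', hc', hC0', hε0', hC', hε', h2⟩ := h2.nn
  refine ⟨max c c', C + C', fun n r => ε n r + ε' n r, fun n r hr => add_le_add (hC n r hr) (hC' n r hr), ?_, fun n r hr y => ?_⟩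
  · filter_upwards [hε, hε'] with r a b hr
    simpa using (a hr).add (b hr)
  have e1 := lsi_h1_exp_le (le_max_left c c') y
  have e2 := lsi_h1_exp_le (le_max_right c c') y
  calc |Gn n r y + Hn n r y - (G r y + H r y)| = |(Gn n r y - G r y) + (Hn n r y - H r y)| := by ring_nf
    _ ≤ |Gn n r y - G r y| + |Hn n r y - H r y| := abs_add_le _ _
    _ ≤ ε n r * Real.exp (c * |y|) + ε' n r * Real.exp (c' * |y|) := add_le_add (h1 n r hr y) (h2 n r hr y)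
    _ ≤ ε n r * Real.exp (max c c' * |y|) + ε' n r * Real.exp (max c c' * |y|) :=
        add_le_add (mul_le_mul_of_nonneg_left e1 (hε0 n r)) (mul_le_mul_of_nonneg_left e2 (hε0' n r))
    _ = _ := by ring

theorem LsiCG.const_mul {s t : ℝ} {G : ℝ → ℝ → ℝ} {Gn : ℕ → ℝ → ℝ → ℝ} (c : ℝ) (h1 : LsiCG s t G Gn) :
    LsiCG s t (fun r y => c * G r y) (fun n r y => c * Gn n r y) := by
  obtain ⟨c', C, ε, hC, hε, h1⟩ := h1
  refine ⟨c', |c| * C, fun n r => |c| * ε n r, fun n r hr => mul_le_mul_of_nonneg_left (hC n r hr) (abs_nonneg _), ?_, fun n r hr y => ?_⟩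
  · filter_upwards [hε] with r a hr
    simpa using (a hr).const_mul |c|
  calc |c * Gn n r y - c * G r y| = |c| * |Gn n r y - G r y| := by rw [← mul_sub, abs_mul]
    _ ≤ |c| * (ε n r * Real.exp (c' * |y|)) := mul_le_mul_of_nonneg_left (h1 n r hr y) (abs_nonneg _)
    _ = _ := by ring

theorem LsiCG.mul {s t : ℝ} {G H : ℝ → ℝ → ℝ} {Gn Hn : ℕ → ℝ → ℝ → ℝ} (h1 : LsiCG s t G Gn) (h2 : LsiCG s t H Hn)
    (g1 : ScGU (Ioo s t) G) (g2 : ScGU (Ioo s t) H) : LsiCG s t (fun r y => G r y * H r y) (fun n r y => Gn n r y * Hn n r y) := by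
  obtain ⟨D, d, hD, hd, hg2⟩ := h2.growth_nn g2
  obtain ⟨C, c0, hC, hc0, hg1⟩ := g1.nonneg
  obtain ⟨c, C1, ε, hc, hC10, hε0, hC1, hε, h1⟩ := h1.nn
  obtain ⟨c', C2, ε', hc', hC20, hε0', hC2, hε', h2⟩ := h2.nn
  refine ⟨c + d + c0 + c', C1 * D + C * C2, fun n r => ε n r * D + C * ε' n r,
    fun n r hr => add_le_add (mul_le_mul_of_nonneg_right (hC1 n r hr) hD) (mul_le_mul_of_nonneg_left (hC2 n r hr) hC), ?_,
    fun n r hr y => ?_⟩
  · filter_upwards [hε, hε'] with r a b hr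
    simpa using ((a hr).mul_const D).add ((b hr).const_mul C)
  have hy := abs_nonneg y
  have e1 : Real.exp (c * |y|) * Real.exp (d * |y|) ≤ Real.exp ((c + d + c0 + c') * |y|) := by
    rw [← Real.exp_add, ← add_mul]
    exact lsi_h1_exp_le (by linarith) y
  have e2 : Real.exp (c0 * |y|) * Real.exp (c' * |y|) ≤ Real.exp ((c + d + c0 + c') * |y|) := by
    rw [← Real.exp_add, ← add_mul]
    exact lsi_h1_exp_le (by linarith) y
  have hδn := hε0 n r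
  have hδn' := hε0' n r
  calc |Gn n r y * Hn n r y - G r y * H r y| = |(Gn n r y - G r y) * Hn n r y + G r y * (Hn n r y - H r y)| := by ring_nf
    _ ≤ |Gn n r y - G r y| * |Hn n r y| + |G r y| * |Hn n r y - H r y| := by
        rw [← abs_mul, ← abs_mul]; exact abs_add_le _ _
    _ ≤ (ε n r * Real.exp (c * |y|)) * (D * Real.exp (d * |y|)) + (C * Real.exp (c0 * |y|)) * (ε' n r * Real.exp (c' * |y|)) :=
        add_le_add (mul_le_mul (h1 n r hr y) (hg2 n r hr y) (abs_nonneg _) (by positivity))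
          (mul_le_mul (hg1 r hr y) (h2 n r hr y) (abs_nonneg _) (by positivity))
    _ = ε n r * D * (Real.exp (c * |y|) * Real.exp (d * |y|)) + C * ε' n r * (Real.exp (c0 * |y|) * Real.exp (c' * |y|)) := by ring
    _ ≤ ε n r * D * Real.exp ((c + d + c0 + c') * |y|) + C * ε' n r * Real.exp ((c + d + c0 + c') * |y|) :=
        add_le_add (mul_le_mul_of_nonneg_left e1 (by positivity)) (mul_le_mul_of_nonneg_left e2 (by positivity))
    _ = _ := by ring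

/-! ## 2. the data of the model converge -/

theorem lsi_al_mem {A : ℝ → ℝ} {j τ : ℝ} (hτ : 0 ≤ τ) (hA : ScCoef j τ A) (n : ℕ) (r : ℝ) :
    0 ≤ scAl (scDy A τ n) r ∧ scAl (scDy A τ n) r ≤ j :=
  sc_dy_al_mem (hA.nonneg hτ) (sc_dy_adm hτ hA n) r

/-- the dyadic masses converge at the continuity points of the profile -/
theorem lsi_al_ae {A : ℝ → ℝ} {j τ : ℝ} (hA : ScCoef j τ A) :
    ∀ᵐ r ∂(volume : Measure ℝ), r ∈ Ioo 0 τ → Tendsto (fun n => scAl (scDy A τ n) r) atTop (𝓝 (A r)) := by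
  have hc := hA.1.countable_not_continuousWithinAt
  filter_upwards [hc.ae_notMem volume] with r hr hrI
  have hrI' : r ∈ Icc 0 τ := ⟨hrI.1.le, hrI.2.le⟩
  have hcont : ContinuousWithinAt A (Icc 0 τ) r := by
    by_contra h
    exact hr ⟨hrI', h⟩
  have hτ : 0 < τ := hrI.1.trans hrI.2
  choose k hk h1 h2 using fun n => sc_dy_cell_exists (τ := τ) n (⟨hrI.1.le, hrI.2⟩ : r ∈ Ico 0 τ)
  have e : ∀ n, scAl (scDy A τ n) r = A (k n * (τ / 2 ^ n)) := fun n => sc_dy_al_cell A τ n (k n) (hk n) (h1 n) (h2 n)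
  simp only [e]
  have hx : Tendsto (fun n => (k n : ℝ) * (τ / 2 ^ n)) atTop (𝓝[Icc 0 τ] r) := by
    rw [tendsto_nhdsWithin_iff]
    refine ⟨?_, Eventually.of_forall fun n => sc_dy_cell_mem hτ.le (hk n).le⟩
    have h0 : Tendsto (fun n : ℕ => τ / 2 ^ n) atTop (𝓝 0) :=
      tendsto_const_nhds.div_atTop (tendsto_pow_atTop_atTop_of_one_lt one_lt_two)
    refine tendsto_of_tendsto_of_tendsto_of_le_of_le (g := fun n : ℕ => r - τ / 2 ^ n) (h := fun _ => r) ?_ tendsto_const_nhds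
      (fun n => ?_) (fun n => h1 n)
    · simpa using (tendsto_const_nhds (x := r)).sub h0
    · have := h2 n
      simp only
      linarith
  exact hcont.tendsto.comp hx

theorem lsi_cg_al {A : ℝ → ℝ} {j τ : ℝ} (hA : ScCoef j τ A) {s t : ℝ} (hs : 0 ≤ s) (ht : t ≤ τ) :
    LsiCG s t (fun r _ => A r) (fun n r _ => scAl (scDy A τ n) r) := by
  refine ⟨0, j, fun n r => |scAl (scDy A τ n) r - A r|, fun n r hr => ?_, ?_, fun n r hr y => by simp⟩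
  · have hr0 : 0 ≤ r := hs.trans hr.1.le
    have hrτ : r ≤ τ := hr.2.le.trans ht
    have h1 := lsi_al_mem (hr0.trans hrτ) hA n r
    have h2 := hA.2 r ⟨hr0, hrτ⟩
    rw [abs_le]
    constructor <;> linarith [h1.1, h1.2, h2.1, h2.2]
  · filter_upwards [lsi_al_ae hA] with r hr hrI
    have := hr ⟨lt_of_le_of_lt hs hrI.1, lt_of_lt_of_le hrI.2 ht⟩
    simpa using (this.sub_const (A r)).abs

theorem lsi_cu_V {A : ℝ → ℝ} {j Ξ : ℝ} (hj : 0 < j) (hA : LscProf j Ξ A) {τ : ℝ} (hτ : Ξ ≤ τ) {s t : ℝ} (hs : 0 ≤ s) (ht : t ≤ τ) :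
    LsiCU s t (fun r => lsiV A j r) (fun n r y => scVt (scLC j) (scDy A τ n) r y + -(j * τ / 2)) := by
  have hτ0 : 0 ≤ τ := hA.Xi0.trans hτ
  refine ⟨0, fun n => 1 ^ 2 / 2 * (j * τ / 2 ^ n), ?_, fun n r hr y => ?_⟩
  · have h0 : Tendsto (fun n : ℕ => j * τ / 2 ^ n) atTop (𝓝 0) :=
      tendsto_const_nhds.div_atTop (tendsto_pow_atTop_atTop_of_one_lt one_lt_two)
    have := h0.const_mul ((1 : ℝ) ^ 2 / 2)
    rwa [mul_zero] at this
  · have hr0 : 0 ≤ r := hs.trans hr.1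
    beta_reduce
    rw [lsi_V_eq hj hA hτ hr0 (hr.2.trans ht)]
    have := scg_V_rate (sc_LC_BI j) (lsi_LC_ad hj).lip hτ0 (hA.coef τ) n hr0 y
    simp only [zero_mul, Real.exp_zero, mul_one]
    refine le_trans (le_of_eq ?_) this
    congr 1
    ring

theorem lsi_cu_D {A : ℝ → ℝ} {j Ξ : ℝ} (hj : 0 < j) (hA : LscProf j Ξ A) {τ : ℝ} (hτ : Ξ ≤ τ) {s t : ℝ} (hs : 0 ≤ s) (ht : t ≤ τ)
    (k : ℕ) : LsiCU s t (fun r => deriv^[k + 1] (lsiV A j r)) (fun n => scD (k + 1) (scLC j) (scDy A τ n)) := by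
  have hτ0 : 0 ≤ τ := hA.Xi0.trans hτ
  obtain ⟨C, _, hC1, hC2⟩ := scg_aD_bound hj.le (sc_LC_BI j)
  obtain ⟨δ, hδ, hb⟩ := lsi_unif_seq (X := Ici (0 : ℝ) × ℝ)
    (f := fun n x => scD (k + 1) (scLC j) (scDy A τ n) x.1.1 x.2 - scaD (k + 1) (scLC j) A τ x.1.1 x.2)
    (fun n => ⟨C (k + 1) + C (k + 1), fun x => (abs_sub _ _).trans (add_le_add
      (hC1 _ (sc_dy_adm hτ0 (hA.coef τ) n) (sc_dy_inc hτ0 (hA.coef τ) n) (k + 1) (by omega) _ _)
      (hC2 τ A hτ0 (hA.coef τ) (k + 1) (by omega) _ x.1.2 _))⟩)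
    (fun ε hε => by
      obtain ⟨N, hN⟩ := scg_D_unif (sc_LC_BI j) hτ0 (hA.coef τ) (scg_dy_apx hτ0 (hA.coef τ)) (k + 1) hε
      exact ⟨N, fun n hn x => hN n hn _ x.1.2 _⟩)
  refine ⟨0, δ, hδ, fun n r hr y => ?_⟩
  have hr0 : 0 ≤ r := hs.trans hr.1
  beta_reduce
  rw [lsi_D_eq hj hA hτ hr0 (hr.2.trans ht) k]
  simpa using hb n (⟨r, hr0⟩, y)

/-- the derivatives of the continuation: class, bound -/
theorem lsi_D_T {A : ℝ → ℝ} {j Ξ : ℝ} (hj : 0 < j) (hA : LscProf j Ξ A) (R : ℝ) (k n : ℕ) :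
    ScT (Icc 0 R) n fun r => deriv^[k] (lsiV A j r) :=
  sc_T_iter k (lsi_V_T hj hA R (n + k))

theorem lsi_D_bdd {A : ℝ → ℝ} {j Ξ : ℝ} (hj : 0 < j) (hA : LscProf j Ξ A) (k : ℕ) :
    ∃ C : ℝ, ∀ r, 0 ≤ r → ∀ y, |deriv^[k + 1] (lsiV A j r) y| ≤ C := by
  obtain ⟨C, _, _, hC⟩ := scg_aD_bound hj.le (sc_LC_BI j)
  refine ⟨C (k + 1), fun r hr y => ?_⟩
  rw [lsi_D_eq hj hA (le_max_left Ξ r) hr (le_max_right Ξ r) k]
  exact hC _ A (hr.trans (le_max_right Ξ r)) (hA.coef _) (k + 1) (by omega) r hr y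

/-- the drift -/
theorem lsi_cg_dr {A : ℝ → ℝ} {j Ξ : ℝ} (hj : 0 < j) (hA : LscProf j Ξ A) {τ : ℝ} (hτ : Ξ ≤ τ) {s t : ℝ} (hs : 0 ≤ s) (ht : t ≤ τ) :
    LsiCG s t (fun r y => A r * deriv^[1] (lsiV A j r) y)
      (fun n r y => scAl (scDy A τ n) r * scD 1 (scLC j) (scDy A τ n) r y) := by
  refine LsiCG.mul (lsi_cg_al (hA.coef τ) hs ht) (lsi_cu_D hj hA hτ hs ht 0).cg ?_ ?_
  · refine ⟨j, 0, fun r hr y => ?_⟩
    have h2 := (hA.coef τ).2 r ⟨hs.trans hr.1.le, hr.2.le.trans ht⟩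
    simp only [zero_mul, Real.exp_zero, mul_one]
    rw [abs_of_nonneg h2.1]
    exact h2.2
  · refine ⟨1, 0, fun r hr y => ?_⟩
    simpa using lsi_u_le hj hA r (hs.trans hr.1.le) y

/-! ## 3. the predicate -/

/-- step test functions `(φn n, Gn n)` of the step profiles `π n` which converge to `(φ, G)` -/
structure LsiApx (F : ℝ → ℝ) (π : ℕ → List (ℝ × ℝ)) (s t : ℝ) (φ G : ℝ → ℝ → ℝ) (φn Gn : ℕ → ℝ → ℝ → ℝ) : Prop where
  dyn : ∀ n, ScDyn F (π n) s t (φn n) (Gn n)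
  c0 : LsiCU s t φ φn
  c1 : LsiCU s t (fun r => deriv (φ r)) (fun n r => deriv (φn n r))
  cG : LsiCG s t G Gn

/-- **the Dynkin test functions of the model `(A, j)`** -/
def lsiDyn (A : ℝ → ℝ) (j s t : ℝ) (φ G : ℝ → ℝ → ℝ) : Prop :=
  ScT (Icc s t) 2 φ ∧ (∀ r ∈ Icc s t, ScE 0 (G r)) ∧ ScGU (Icc s t) G ∧
    ∃ τ₀ : ℝ, ∀ τ, τ₀ ≤ τ → ∃ φn Gn : ℕ → ℝ → ℝ → ℝ, LsiApx (scLC j) (scDy A τ) s t φ G φn Gn

theorem lsi_dyn_reg {A : ℝ → ℝ} {j s t : ℝ} {φ G : ℝ → ℝ → ℝ} (h : lsiDyn A j s t φ G) : ScT (Icc s t) 2 φ := h.1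

theorem lsi_dyn_gen {A : ℝ → ℝ} {j s t : ℝ} {φ G : ℝ → ℝ → ℝ} (h : lsiDyn A j s t φ G) :
    (∀ r ∈ Icc s t, ScE 0 (G r)) ∧ ScGU (Icc s t) G := ⟨h.2.1, h.2.2.1⟩

theorem lsi_dyn_sub {A : ℝ → ℝ} {j s t s' t' : ℝ} {φ G : ℝ → ℝ → ℝ} (h : lsiDyn A j s t φ G) (hs : s ≤ s') (_hst : s' ≤ t')
    (ht : t' ≤ t) : lsiDyn A j s' t' φ G := by
  obtain ⟨hreg, hE, hGU, τ₀, happ⟩ := h
  have hI := Icc_subset_Icc hs ht
  refine ⟨hreg.subset hI, fun r hr => hE r (hI hr), hGU.subset hI, τ₀, fun τ hτ => ?_⟩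
  obtain ⟨φn, Gn, hdyn, c0, c1, cG⟩ := happ τ hτ
  exact ⟨φn, Gn, fun n => (hdyn n).sub_interval hs ht, c0.sub_interval hs ht, c1.sub_interval hs ht, cG.sub_interval hs ht⟩

theorem lsi_dyn_congr {A : ℝ → ℝ} {j s t : ℝ} {φ G φ' G' : ℝ → ℝ → ℝ} (h : lsiDyn A j s t φ G) (h1 : ∀ r ∈ Icc s t, φ' r = φ r)
    (h2 : ∀ r ∈ Icc s t, G' r = G r) : lsiDyn A j s t φ' G' := by
  obtain ⟨hreg, hE, hGU, τ₀, happ⟩ := h
  refine ⟨hreg.congr fun r hr z => by rw [h1 r hr], fun r hr => by rw [h2 r hr]; exact hE r hr,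
    hGU.of_le fun r hr z => by rw [h2 r hr], τ₀, fun τ hτ => ?_⟩
  obtain ⟨φn, Gn, hdyn, c0, c1, cG⟩ := happ τ hτ
  exact ⟨φn, Gn, hdyn, c0.congr h1 fun _ _ _ => rfl, c1.congr (fun r hr => by rw [h1 r hr]) fun _ _ _ => rfl,
    cG.congr (fun r hr => h2 r (Ioo_subset_Icc_self hr)) fun _ _ _ => rfl⟩

/-! ## 4. THE formula -/

/-- off finitely many times the slices of a piecewise continuous family are of the exponential class -/
theorem lsi_tp_slice {s t : ℝ} {G : ℝ → ℝ → ℝ} (h : ScTP s t G) : ∃ S : Set ℝ, S.Finite ∧ ∀ r ∈ Ioo s t, r ∉ S → ScE 0 (G r) := by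
  obtain ⟨S, hS, H⟩ := h
  refine ⟨S, hS, fun r hr hrS => ?_⟩
  have ho : IsOpen (Sᶜ ∩ Ioo s t) := hS.isClosed.isOpen_compl.inter isOpen_Ioo
  obtain ⟨ε, hε, hball⟩ := Metric.isOpen_iff.1 ho r ⟨hrS, hr⟩
  have hsub : ∀ x, |x - r| < ε → x ∈ Sᶜ ∩ Ioo s t := fun x hx => hball (by rwa [Metric.mem_ball, Real.dist_eq])
  have ha := hsub (r - ε / 2) (by rw [sub_sub_cancel_left, abs_neg, abs_of_pos (half_pos hε)]; exact half_lt_self hε)
  have hb := hsub (r + ε / 2) (by rw [add_sub_cancel_left, abs_of_pos (half_pos hε)]; exact half_lt_self hε)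
  obtain ⟨G', hG', he⟩ := H (r - ε / 2) (r + ε / 2) ha.2.1.le (by linarith) hb.2.2.le (by
    rw [Set.disjoint_left]
    intro x hx hxS
    exact (hsub x (by rw [abs_lt]; constructor <;> linarith [hx.1, hx.2])).1 hxS)
  rw [he r ⟨by linarith, by linarith⟩]
  exact hG'.scE ⟨by linarith, by linarith⟩

/-- the limit of the right sides: dominated convergence -/
theorem lsi_dynkin_rhs {A : ℝ → ℝ} {j Ξ : ℝ} (hj : 0 < j) (hA : LscProf j Ξ A) {τ s t : ℝ} (hτ : Ξ ≤ τ) (hs : 0 ≤ s) (hst : s ≤ t)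
    (ht : t ≤ τ) {G : ℝ → ℝ → ℝ} {Gn : ℕ → ℝ → ℝ → ℝ} (hG : ∀ r ∈ Icc s t, ScE 0 (G r)) (hGU : ScGU (Icc s t) G)
    (hGn : ∀ n, ScTP s t (Gn n)) (hc : LsiCG s t G Gn) (z : ℝ)
    (hi : ∀ n, IntervalIntegrable (fun r => scPt (scLC j) (scDy A τ n) s r (Gn n r) z) volume s t) :
    IntervalIntegrable (fun r => lsiP A j s r (G r) z) volume s t ∧
      Tendsto (fun n => ∫ r in s..t, scPt (scLC j) (scDy A τ n) s r (Gn n r) z) atTop (𝓝 (∫ r in s..t, lsiP A j s r (G r) z)) := by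
  have hτ0 : 0 ≤ τ := hA.Xi0.trans hτ
  have hGU' : ScGU (Ioo s t) G := by
    obtain ⟨C, c, h⟩ := hGU
    exact ⟨C, c, fun r hr => h r ⟨hr.1.le, hr.2.le⟩⟩
  obtain ⟨C1, c1, hgr⟩ := hc.growth hGU'
  obtain ⟨c, C, ε, _, hε0, hεb⟩ := hc
  obtain ⟨K, _, hK⟩ := lsi_Pt_growth hj.le c1 (t - s)
  choose S hSf hS using fun n => lsi_tp_slice (hGn n)
  -- almost every time is good
  have hnull : ∀ᵐ r ∂(volume : Measure ℝ), r ∉ (⋃ n, S n) ∪ {t} := by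
    have hcount : ((⋃ n, S n) ∪ {t}).Countable := (Set.countable_iUnion fun n => (hSf n).countable).union (Set.countable_singleton t)
    exact compl_mem_ae_iff.2 (hcount.measure_zero volume)
  have hgood : ∀ᵐ r ∂(volume : Measure ℝ), r ∈ uIoc s t → r ∈ Ioo s t ∧ ∀ n, ScE 0 (Gn n r) := by
    filter_upwards [hnull] with r hr hrI
    rw [uIoc_of_le hst] at hrI
    have hrt : r ≠ t := fun e => hr (Or.inr e)
    have hro : r ∈ Ioo s t := ⟨hrI.1, lt_of_le_of_ne hrI.2 hrt⟩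
    exact ⟨hro, fun n => hS n r hro fun hn => hr (Or.inl (Set.mem_iUnion.2 ⟨n, hn⟩))⟩
  have hlim : ∀ᵐ r ∂(volume : Measure ℝ), r ∈ uIoc s t →
      Tendsto (fun n => scPt (scLC j) (scDy A τ n) s r (Gn n r) z) atTop (𝓝 (lsiP A j s r (G r) z)) := by
    filter_upwards [hgood, hε0] with r hr hr0 hrI
    obtain ⟨hro, hE⟩ := hr hrI
    exact lsi_P_tendsto hj hA hτ hs hro.1.le (hro.2.le.trans ht) (hG r ⟨hro.1.le, hro.2.le⟩) hE (hr0 hro)
      (fun n y => hεb n r hro y) z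
  have hbound : ∀ n, ∀ᵐ r ∂(volume : Measure ℝ), r ∈ uIoc s t →
      ‖scPt (scLC j) (scDy A τ n) s r (Gn n r) z‖ ≤ K * C1 * Real.exp (c1 * |z|) := by
    intro n
    filter_upwards [hgood] with r hr hrI
    obtain ⟨hro, hE⟩ := hr hrI
    rw [Real.norm_eq_abs]
    exact hK (scLC j) _ (sc_LC_BI j) (lsi_LC_ad hj).lip (sc_dy_adm hτ0 (hA.coef τ) n) s r hs hro.1.le (by linarith [hro.2])
      (Gn n r) C1 (hE n) (hgr n r hro) z
  have hmeas : ∀ n, AEStronglyMeasurable (fun r => scPt (scLC j) (scDy A τ n) s r (Gn n r) z) (volume.restrict (uIoc s t)) :=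
    fun n => (hi n).def'.aestronglyMeasurable
  refine ⟨?_, intervalIntegral.tendsto_integral_filter_of_dominated_convergence (fun _ => K * C1 * Real.exp (c1 * |z|))
    (Eventually.of_forall hmeas) (Eventually.of_forall hbound) intervalIntegrable_const hlim⟩
  -- integrability of the limit
  have hlim' : ∀ᵐ r ∂(volume.restrict (uIoc s t)),
      Tendsto (fun n => scPt (scLC j) (scDy A τ n) s r (Gn n r) z) atTop (𝓝 (lsiP A j s r (G r) z)) :=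
    (ae_restrict_iff' measurableSet_uIoc).2 hlim
  have hm : AEStronglyMeasurable (fun r => lsiP A j s r (G r) z) (volume.restrict (uIoc s t)) :=
    aestronglyMeasurable_of_tendsto_ae atTop hmeas hlim'
  have hb' : ∀ᵐ r ∂(volume.restrict (uIoc s t)), ∀ n,
      ‖scPt (scLC j) (scDy A τ n) s r (Gn n r) z‖ ≤ K * C1 * Real.exp (c1 * |z|) :=
    ae_all_iff.2 fun n => (ae_restrict_iff' measurableSet_uIoc).2 (hbound n)
  have hfin : ∀ᵐ r ∂(volume.restrict (uIoc s t)), ‖lsiP A j s r (G r) z‖ ≤ K * C1 * Real.exp (c1 * |z|) := by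
    filter_upwards [hlim', hb'] with r h1 h2
    exact le_of_tendsto h1.norm (Eventually.of_forall h2)
  rw [intervalIntegrable_iff]
  rw [uIoc_of_le hst] at hm hfin ⊢
  exact Integrable.of_bound hm _ hfin

theorem lsi_dynkin {A : ℝ → ℝ} {j Ξ : ℝ} (hj : 0 < j) (hA : LscProf j Ξ A) {s t : ℝ} (hs : 0 ≤ s) (hst : s ≤ t) {φ G : ℝ → ℝ → ℝ}
    (h : lsiDyn A j s t φ G) (z : ℝ) : IntervalIntegrable (fun r => lsiP A j s r (G r) z) volume s t ∧
      lsiP A j s t (φ t) z - φ s z = ∫ r in s..t, lsiP A j s r (G r) z := by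
  obtain ⟨hreg, hG, hGU, τ₀, H⟩ := h
  obtain ⟨φn, Gn, hap⟩ := H (max τ₀ (max Ξ t)) (le_max_left _ _)
  set τ : ℝ := max τ₀ (max Ξ t) with hτdef
  have hτ : Ξ ≤ τ := (le_max_left _ _).trans (le_max_right _ _)
  have ht : t ≤ τ := (le_max_right _ _).trans (le_max_right _ _)
  have hτ0 : 0 ≤ τ := hA.Xi0.trans hτ
  have hpos : ∀ n, ScPos (scDy A τ n) := scg_dy_pos A hτ0
  have hdk := fun n => sc_dynkin' (sc_LC_BI j) (hpos n) hs hst (by rw [sc_dy_len]; exact ht) (hap.dyn n) z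
  obtain ⟨hint, hrhs⟩ := lsi_dynkin_rhs hj hA hτ hs hst ht hG hGU (fun n => (hap.dyn n).gen) hap.cG z (fun n => (hdk n).1)
  refine ⟨hint, ?_⟩
  obtain ⟨c, δ, hδ, hb⟩ := hap.c0
  have mt : t ∈ Icc s t := ⟨hst, le_rfl⟩
  have ms : s ∈ Icc s t := ⟨le_rfl, hst⟩
  have l1 : Tendsto (fun n => scPt (scLC j) (scDy A τ n) s t (φn n t) z) atTop (𝓝 (lsiP A j s t (φ t) z)) :=
    lsi_P_tendsto hj hA hτ hs hst ht ((hreg.scE mt).of_succ.of_succ) (fun n => (((hap.dyn n).reg.scE mt).of_succ.of_succ)) hδ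
      (fun n y => hb n t mt y) z
  have l2 : Tendsto (fun n => φn n s z) atTop (𝓝 (φ s z)) := by
    rw [tendsto_iff_dist_tendsto_zero]
    have h0 : Tendsto (fun n => δ n * Real.exp (c * |z|)) atTop (𝓝 0) := by simpa using hδ.mul_const (Real.exp (c * |z|))
    refine squeeze_zero (fun _ => dist_nonneg) (fun n => ?_) h0
    rw [Real.dist_eq]
    exact hb n s ms z
  refine tendsto_nhds_unique (l1.sub l2) (hrhs.congr fun n => ?_)
  exact ((hdk n).2).symm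

/-! ## 5. the base cases -/

theorem lsi_dy_pos {A : ℝ → ℝ} {j Ξ : ℝ} (hA : LscProf j Ξ A) {τ : ℝ} (hτ : Ξ ≤ τ) (n : ℕ) : ScPos (scDy A τ n) :=
  (sc_dy_adm (hA.Xi0.trans hτ) (hA.coef τ) n).pos

theorem lsi_al_gu {A : ℝ → ℝ} {j Ξ : ℝ} (hA : LscProf j Ξ A) {I : Set ℝ} (hI : ∀ r ∈ I, 0 ≤ r) : ScGU I (fun r _ => A r) := by
  refine ⟨j, 0, fun r hr z => ?_⟩
  have h0 : 0 ≤ A r := hA.nonneg.trans (hA.mono (mem_Ici.2 le_rfl) (mem_Ici.2 (hI r hr)) (hI r hr))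
  rw [abs_of_nonneg h0]
  simpa using hA.le_top (hI r hr)

/-- a generator of the shape `A(r) H(r,y)` -/
theorem lsi_dyn_of_al {A : ℝ → ℝ} {j Ξ : ℝ} (hA : LscProf j Ξ A) {s t : ℝ} (hs : 0 ≤ s) {φ H : ℝ → ℝ → ℝ}
    {φn Hn : ℝ → ℕ → ℝ → ℝ → ℝ} (hφ : ScT (Icc s t) 2 φ) (hH : ScT (Icc s t) 0 H)
    (hd : ∀ τ, max Ξ t ≤ τ → ∀ n, ScDyn (scLC j) (scDy A τ n) s t (φn τ n) (fun r y => scAl (scDy A τ n) r * Hn τ n r y))
    (c0 : ∀ τ, max Ξ t ≤ τ → LsiCU s t φ (φn τ))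
    (c1 : ∀ τ, max Ξ t ≤ τ → LsiCU s t (fun r => deriv (φ r)) (fun n r => deriv (φn τ n r)))
    (hc : ∀ τ, max Ξ t ≤ τ → LsiCU s t H (Hn τ)) : lsiDyn A j s t φ (fun r y => A r * H r y) := by
  refine ⟨hφ, fun r hr => (hH.scE hr).const_mul (A r), (lsi_al_gu hA fun r hr => hs.trans hr.1).mul hH.growth, max Ξ t,
    fun τ hτ => ⟨φn τ, fun n r y => scAl (scDy A τ n) r * Hn τ n r y, hd τ hτ, c0 τ hτ, c1 τ hτ, ?_⟩⟩
  exact (lsi_cg_al (hA.coef τ) hs ((le_max_right _ _).trans hτ)).mul (hc τ hτ).cg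
    (lsi_al_gu hA fun r hr => hs.trans hr.1.le) (hH.growth.subset Ioo_subset_Icc_self)

/-- the derivatives of the continuation on `[s,t]` -/
theorem lsi_D_Tst {A : ℝ → ℝ} {j Ξ : ℝ} (hj : 0 < j) (hA : LscProf j Ξ A) {s : ℝ} (hs : 0 ≤ s) (t : ℝ) (k n : ℕ) :
    ScT (Icc s t) n fun r => deriv^[k] (lsiV A j r) := (lsi_D_T hj hA t k n).subset (Icc_subset_Icc hs le_rfl)

/-- the derivatives of order `k + 1`, generator of the shape `A(r) H(r,y)` -/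
theorem lsi_dyn_Dk {A : ℝ → ℝ} {j Ξ : ℝ} (hj : 0 < j) (hA : LscProf j Ξ A) {s t : ℝ} (hs : 0 ≤ s) (k : ℕ) {H : ℝ → ℝ → ℝ}
    {Hn : ℝ → ℕ → ℝ → ℝ → ℝ} (hH : ScT (Icc s t) 0 H)
    (hd : ∀ τ, max Ξ t ≤ τ → ∀ n, ScDyn (scLC j) (scDy A τ n) s t (scD (k + 1) (scLC j) (scDy A τ n))
      (fun r y => scAl (scDy A τ n) r * Hn τ n r y))
    (hc : ∀ τ, max Ξ t ≤ τ → LsiCU s t H (Hn τ)) :
    lsiDyn A j s t (fun r => deriv^[k + 1] (lsiV A j r)) (fun r y => A r * H r y) := by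
  refine lsi_dyn_of_al hA hs (φn := fun τ n => scD (k + 1) (scLC j) (scDy A τ n)) (lsi_D_Tst hj hA hs t (k + 1) 2) hH hd
    (fun τ hτ => lsi_cu_D hj hA ((le_max_left _ _).trans hτ) hs ((le_max_right _ _).trans hτ) k) (fun τ hτ => ?_) hc
  refine (lsi_cu_D hj hA ((le_max_left _ _).trans hτ) hs ((le_max_right _ _).trans hτ) (k + 1)).congr (fun r _ => ?_)
    (fun n r _ => sc_D_succ _ _ _ _)
  exact (Function.iterate_succ_apply' deriv (k + 1) _).symm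

theorem lsi_dyn_V0 {A : ℝ → ℝ} {j Ξ : ℝ} (hj : 0 < j) (hA : LscProf j Ξ A) {s t : ℝ} (hs : 0 ≤ s) (_hst : s ≤ t) :
    lsiDyn A j s t (fun r => lsiV A j r) fun r y => A r * deriv^[1] (lsiV A j r) y ^ 2 / 2 := by
  have hT1 := lsi_D_Tst hj hA hs t 1 0
  have key : lsiDyn A j s t (fun r => lsiV A j r) (fun r y => A r * (deriv^[1] (lsiV A j r) y ^ 2 / 2)) := by
    refine lsi_dyn_of_al hA hs (φn := fun τ n r y => scVt (scLC j) (scDy A τ n) r y + -(j * τ / 2))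
      (Hn := fun τ n r y => scD 1 (scLC j) (scDy A τ n) r y ^ 2 / 2) (lsi_D_Tst hj hA hs t 0 2) ?_ (fun τ hτ n => ?_)
      (fun τ hτ => lsi_cu_V hj hA ((le_max_left _ _).trans hτ) hs ((le_max_right _ _).trans hτ)) (fun τ hτ => ?_)
      (fun τ hτ => ?_)
    · exact ((hT1.pow 2).const_mul (1 / 2)).congr fun r _ z => by ring
    · have h1 := (sc_dyn_D0 (sc_LC_BI j) (lsi_dy_pos hA ((le_max_left _ _).trans hτ) n) hs
        (by rw [sc_dy_len]; exact (le_max_right _ _).trans hτ)).add (sc_dyn_const (scLC j) (scDy A τ n) s t (-(j * τ / 2)))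
      exact h1.congr_gen fun r _ => by funext y; ring
    · refine (lsi_cu_D hj hA ((le_max_left _ _).trans hτ) hs ((le_max_right _ _).trans hτ) 0).congr (fun r _ => rfl)
        (fun n r _ => ?_)
      funext y
      rw [deriv_add_const]
      rfl
    · have h := lsi_cu_D hj hA ((le_max_left _ _).trans hτ) hs ((le_max_right _ _).trans hτ) 0
      exact ((h.mul h hT1.growth hT1.growth).const_mul (1 / 2)).congr (fun r _ => by funext y; ring)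
        (fun n r _ => by funext y; ring)
  exact lsi_dyn_congr key (fun r _ => rfl) (fun r _ => by funext y; ring)

theorem lsi_dyn_V1 {A : ℝ → ℝ} {j Ξ : ℝ} (hj : 0 < j) (hA : LscProf j Ξ A) {s t : ℝ} (hs : 0 ≤ s) (_hst : s ≤ t) :
    lsiDyn A j s t (fun r => deriv^[1] (lsiV A j r)) fun _ _ => 0 := by
  have key : lsiDyn A j s t (fun r => deriv^[0 + 1] (lsiV A j r)) (fun r _ => A r * 0) := by
    refine lsi_dyn_Dk hj hA hs 0 (H := fun _ _ => 0) (Hn := fun _ _ _ _ => 0) ((ScE.const 0 0).scT _) (fun τ hτ n => ?_)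
      (fun τ hτ => LsiCU.refl s t _)
    exact (sc_dyn_D1 (sc_LC_BI j) (lsi_dy_pos hA ((le_max_left _ _).trans hτ) n) hs
      (by rw [sc_dy_len]; exact (le_max_right _ _).trans hτ)).congr_gen fun r _ => by funext y; ring
  exact lsi_dyn_congr key (fun r _ => rfl) (fun r _ => by funext y; ring)

theorem lsi_dyn_V2 {A : ℝ → ℝ} {j Ξ : ℝ} (hj : 0 < j) (hA : LscProf j Ξ A) {s t : ℝ} (hs : 0 ≤ s) (_hst : s ≤ t) :
    lsiDyn A j s t (fun r => deriv^[2] (lsiV A j r)) fun r y => - (A r * deriv^[2] (lsiV A j r) y ^ 2) := by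
  have hT2 := lsi_D_Tst hj hA hs t 2 0
  have key : lsiDyn A j s t (fun r => deriv^[1 + 1] (lsiV A j r)) (fun r y => A r * (-1 * (deriv^[2] (lsiV A j r) y *
      deriv^[2] (lsiV A j r) y))) := by
    refine lsi_dyn_Dk hj hA hs 1 (Hn := fun τ n r y => -1 * (scD 2 (scLC j) (scDy A τ n) r y * scD 2 (scLC j) (scDy A τ n) r y))
      ((hT2.mul hT2).const_mul (-1)) (fun τ hτ n => ?_) (fun τ hτ => ?_)
    · exact (sc_dyn_D2 (sc_LC_BI j) (lsi_dy_pos hA ((le_max_left _ _).trans hτ) n) hs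
        (by rw [sc_dy_len]; exact (le_max_right _ _).trans hτ)).congr_gen fun r _ => by funext y; ring
    · have h := lsi_cu_D hj hA ((le_max_left _ _).trans hτ) hs ((le_max_right _ _).trans hτ) 1
      exact (h.mul h hT2.growth hT2.growth).const_mul (-1)
  exact lsi_dyn_congr key (fun r _ => rfl) (fun r _ => by funext y; ring)

theorem lsi_dyn_V3 {A : ℝ → ℝ} {j Ξ : ℝ} (hj : 0 < j) (hA : LscProf j Ξ A) {s t : ℝ} (hs : 0 ≤ s) (_hst : s ≤ t) :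
    lsiDyn A j s t (fun r => deriv^[3] (lsiV A j r))
      fun r y => - (3 * A r * deriv^[2] (lsiV A j r) y * deriv^[3] (lsiV A j r) y) := by
  have hT2 := lsi_D_Tst hj hA hs t 2 0
  have hT3 := lsi_D_Tst hj hA hs t 3 0
  have key : lsiDyn A j s t (fun r => deriv^[2 + 1] (lsiV A j r)) (fun r y => A r * (-3 * (deriv^[2] (lsiV A j r) y *
      deriv^[3] (lsiV A j r) y))) := by
    refine lsi_dyn_Dk hj hA hs 2 (Hn := fun τ n r y => -3 * (scD 2 (scLC j) (scDy A τ n) r y * scD 3 (scLC j) (scDy A τ n) r y))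
      ((hT2.mul hT3).const_mul (-3)) (fun τ hτ n => ?_) (fun τ hτ => ?_)
    · exact (sc_dyn_D3 (sc_LC_BI j) (lsi_dy_pos hA ((le_max_left _ _).trans hτ) n) hs
        (by rw [sc_dy_len]; exact (le_max_right _ _).trans hτ)).congr_gen fun r _ => by funext y; ring
    · have h2 := lsi_cu_D hj hA ((le_max_left _ _).trans hτ) hs ((le_max_right _ _).trans hτ) 1
      have h3 := lsi_cu_D hj hA ((le_max_left _ _).trans hτ) hs ((le_max_right _ _).trans hτ) 2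
      exact (h2.mul h3 hT2.growth hT3.growth).const_mul (-3)
  exact lsi_dyn_congr key (fun r _ => rfl) (fun r _ => by funext y; ring)

theorem lsi_dyn_V4 {A : ℝ → ℝ} {j Ξ : ℝ} (hj : 0 < j) (hA : LscProf j Ξ A) {s t : ℝ} (hs : 0 ≤ s) (_hst : s ≤ t) :
    lsiDyn A j s t (fun r => deriv^[4] (lsiV A j r))
      fun r y => - (A r * (4 * deriv^[2] (lsiV A j r) y * deriv^[4] (lsiV A j r) y + 3 * deriv^[3] (lsiV A j r) y ^ 2)) := by
  have hT2 := lsi_D_Tst hj hA hs t 2 0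
  have hT3 := lsi_D_Tst hj hA hs t 3 0
  have hT4 := lsi_D_Tst hj hA hs t 4 0
  have key : lsiDyn A j s t (fun r => deriv^[3 + 1] (lsiV A j r)) (fun r y => A r * (-4 * (deriv^[2] (lsiV A j r) y *
      deriv^[4] (lsiV A j r) y) + -3 * (deriv^[3] (lsiV A j r) y * deriv^[3] (lsiV A j r) y))) := by
    refine lsi_dyn_Dk hj hA hs 3 (Hn := fun τ n r y => -4 * (scD 2 (scLC j) (scDy A τ n) r y * scD 4 (scLC j) (scDy A τ n) r y)
        + -3 * (scD 3 (scLC j) (scDy A τ n) r y * scD 3 (scLC j) (scDy A τ n) r y))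
      (((hT2.mul hT4).const_mul (-4)).add ((hT3.mul hT3).const_mul (-3))) (fun τ hτ n => ?_) (fun τ hτ => ?_)
    · exact (sc_dyn_D4 (sc_LC_BI j) (lsi_dy_pos hA ((le_max_left _ _).trans hτ) n) hs
        (by rw [sc_dy_len]; exact (le_max_right _ _).trans hτ)).congr_gen fun r _ => by funext y; ring
    · have h2 := lsi_cu_D hj hA ((le_max_left _ _).trans hτ) hs ((le_max_right _ _).trans hτ) 1
      have h3 := lsi_cu_D hj hA ((le_max_left _ _).trans hτ) hs ((le_max_right _ _).trans hτ) 2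
      have h4 := lsi_cu_D hj hA ((le_max_left _ _).trans hτ) hs ((le_max_right _ _).trans hτ) 3
      exact ((h2.mul h4 hT2.growth hT4.growth).const_mul (-4)).add ((h3.mul h3 hT3.growth hT3.growth).const_mul (-3))
  exact lsi_dyn_congr key (fun r _ => rfl) (fun r _ => by funext y; ring)

theorem lsi_dyn_P {A : ℝ → ℝ} {j Ξ : ℝ} (hj : 0 < j) (hA : LscProf j Ξ A) {s t : ℝ} (hs : 0 ≤ s) (hst : s ≤ t) {g : ℝ → ℝ}
    (hg : ScBd 3 g) : lsiDyn A j s t (fun r => lsiP A j r t g) fun _ _ => 0 := by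
  refine ⟨(lsi_P_T hj hA (hs.trans hst) (n := 2) hg).subset (Icc_subset_Icc hs le_rfl), fun _ _ => ScE.const 0 0,
    ⟨0, 0, fun _ _ _ => by simp⟩, max Ξ t, fun τ hτ => ?_⟩
  have hτ1 : Ξ ≤ τ := (le_max_left _ _).trans hτ
  have hτ2 : t ≤ τ := (le_max_right _ _).trans hτ
  obtain ⟨δ, hδ, hb⟩ := lsi_P_unif hj hA hτ1 (m := 2) hg
  refine ⟨fun n r => scPt (scLC j) (scDy A τ n) r t g, fun _ _ _ => 0, fun n => sc_dyn_P (sc_LC_BI j) hg.scE.of_succ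
    (lsi_dy_pos hA hτ1 n) hs (by rw [sc_dy_len]; exact hτ2), ⟨0, δ, hδ, fun n r hr y => ?_⟩, ⟨0, δ, hδ, fun n r hr y => ?_⟩,
    (LsiCU.refl s t _).cg⟩
  · simpa using hb n 0 (by omega) r t (hs.trans hr.1) hr.2 hτ2 y
  · simpa using hb n 1 (by omega) r t (hs.trans hr.1) hr.2 hτ2 y

theorem lsi_dyn_space {A : ℝ → ℝ} {j Ξ : ℝ} (hj : 0 < j) (hA : LscProf j Ξ A) {s t : ℝ} (hs : 0 ≤ s) (_hst : s ≤ t) {g : ℝ → ℝ}
    (hg : ScE 2 g) :
    lsiDyn A j s t (fun _ => g) fun r y => deriv (deriv g) y / 2 + A r * deriv^[1] (lsiV A j r) y * deriv g y := by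
  have hT1 := lsi_D_Tst hj hA hs t 1 0
  have hg1 : ScE 0 (deriv g) := hg.deriv.of_succ
  have hg2 : ScE 0 (fun y => deriv (deriv g) y / 2) := by
    have := hg.deriv.deriv.const_mul (1 / 2)
    have e : (fun y => deriv (deriv g) y / 2) = fun y => 1 / 2 * deriv (deriv g) y := by funext y; ring
    rw [e]; exact this
  have hdr : ScGU (Icc s t) (fun r y => A r * deriv^[1] (lsiV A j r) y) :=
    (lsi_al_gu hA fun r hr => hs.trans hr.1).mul hT1.growth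
  refine ⟨hg.scT _, fun r hr => hg2.add (((hT1.scE hr).const_mul (A r)).mul hg1),
    (hg2.scT _).growth.add (hdr.mul (hg1.scT _).growth), max Ξ t, fun τ hτ => ?_⟩
  have hτ1 : Ξ ≤ τ := (le_max_left _ _).trans hτ
  have hτ2 : t ≤ τ := (le_max_right _ _).trans hτ
  refine ⟨fun _ _ => g, fun n r y => deriv (deriv g) y / 2 + scAl (scDy A τ n) r * scD 1 (scLC j) (scDy A τ n) r y * deriv g y,
    fun n => sc_dyn_space (sc_LC_BI j) (lsi_dy_pos hA hτ1 n) hs (by rw [sc_dy_len]; exact hτ2) hg, LsiCU.refl _ _ _,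
    LsiCU.refl _ _ _, ?_⟩
  exact (LsiCU.refl s t (fun _ y => deriv (deriv g) y / 2)).cg.add ((lsi_cg_dr hj hA hτ1 hs hτ2).mul
    (LsiCU.refl s t (fun _ => deriv g)).cg (hdr.subset Ioo_subset_Icc_self) ((hg1.scT _).growth))

/-! ## 6. the calculus -/

theorem lsi_dyn_add {A : ℝ → ℝ} {j s t : ℝ} {φ G ψ H : ℝ → ℝ → ℝ} (h1 : lsiDyn A j s t φ G) (h2 : lsiDyn A j s t ψ H) :
    lsiDyn A j s t (fun r y => φ r y + ψ r y) fun r y => G r y + H r y := by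
  obtain ⟨hreg, hE, hGU, τ₀, happ⟩ := h1
  obtain ⟨hreg', hE', hGU', τ₀', happ'⟩ := h2
  refine ⟨hreg.add hreg', fun r hr => (hE r hr).add (hE' r hr), hGU.add hGU', max τ₀ τ₀', fun τ hτ => ?_⟩
  obtain ⟨φn, Gn, hdyn, c0, c1, cG⟩ := happ τ ((le_max_left _ _).trans hτ)
  obtain ⟨ψn, Hn, hdyn', c0', c1', cG'⟩ := happ' τ ((le_max_right _ _).trans hτ)
  refine ⟨fun n r y => φn n r y + ψn n r y, fun n r y => Gn n r y + Hn n r y, fun n => (hdyn n).add (hdyn' n), c0.add c0',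
    (c1.add c1').congr (fun r hr => ?_) (fun n r hr => ?_), cG.add cG'⟩
  · funext y
    exact (((hreg.scE hr).differentiable y).hasDerivAt.add ((hreg'.scE hr).differentiable y).hasDerivAt).deriv
  · funext y
    exact (((hdyn n).slice hr y).1.add ((hdyn' n).slice hr y).1).deriv

theorem lsi_dyn_smul {A : ℝ → ℝ} {j s t : ℝ} {φ G : ℝ → ℝ → ℝ} (c : ℝ) (h1 : lsiDyn A j s t φ G) :
    lsiDyn A j s t (fun r y => c * φ r y) fun r y => c * G r y := by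
  obtain ⟨hreg, hE, hGU, τ₀, happ⟩ := h1
  refine ⟨hreg.const_mul c, fun r hr => (hE r hr).const_mul c, (((ScE.const 0 c).scT (Icc s t)).growth.mul hGU), τ₀,
    fun τ hτ => ?_⟩
  obtain ⟨φn, Gn, hdyn, c0, c1, cG⟩ := happ τ hτ
  refine ⟨fun n r y => c * φn n r y, fun n r y => c * Gn n r y, fun n => (hdyn n).const_mul c, c0.const_mul c,
    (c1.const_mul c).congr (fun r hr => ?_) (fun n r hr => ?_), cG.const_mul c⟩
  · funext y
    exact (((hreg.scE hr).differentiable y).hasDerivAt.const_mul c).deriv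
  · funext y
    exact (((hdyn n).slice hr y).1.const_mul c).deriv

theorem lsi_dyn_mul {A : ℝ → ℝ} {j s t : ℝ} {φ G ψ H : ℝ → ℝ → ℝ} (h1 : lsiDyn A j s t φ G) (h2 : lsiDyn A j s t ψ H) :
    lsiDyn A j s t (fun r y => φ r y * ψ r y) fun r y => φ r y * H r y + ψ r y * G r y + deriv (φ r) y * deriv (ψ r) y := by
  obtain ⟨hreg, hE, hGU, τ₀, happ⟩ := h1
  obtain ⟨hreg', hE', hGU', τ₀', happ'⟩ := h2
  have T0 : ScT (Icc s t) 0 φ := hreg.mono (by omega)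
  have T0' : ScT (Icc s t) 0 ψ := hreg'.mono (by omega)
  have T1 : ScT (Icc s t) 0 (fun r => deriv (φ r)) := hreg.2.2.2.of_succ
  have T1' : ScT (Icc s t) 0 (fun r => deriv (ψ r)) := hreg'.2.2.2.of_succ
  have hI : Ioo s t ⊆ Icc s t := Ioo_subset_Icc_self
  refine ⟨hreg.mul hreg', fun r hr => (((T0.scE hr).mul (hE' r hr)).add ((T0'.scE hr).mul (hE r hr))).add
    ((T1.scE hr).mul (T1'.scE hr)), ((T0.growth.mul hGU').add (T0'.growth.mul hGU)).add (T1.growth.mul T1'.growth),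
    max τ₀ τ₀', fun τ hτ => ?_⟩
  obtain ⟨φn, Gn, hdyn, c0, c1, cG⟩ := happ τ ((le_max_left _ _).trans hτ)
  obtain ⟨ψn, Hn, hdyn', c0', c1', cG'⟩ := happ' τ ((le_max_right _ _).trans hτ)
  refine ⟨fun n r y => φn n r y * ψn n r y,
    fun n r y => φn n r y * Hn n r y + ψn n r y * Gn n r y + deriv (φn n r) y * deriv (ψn n r) y,
    fun n => (hdyn n).mul (hdyn' n), c0.mul c0' T0.growth T0'.growth,
    ((c1.mul c0' T1.growth T0'.growth).add (c0.mul c1' T0.growth T1'.growth)).congr (fun r hr => ?_) (fun n r hr => ?_), ?_⟩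
  · funext y
    exact (((hreg.scE hr).differentiable y).hasDerivAt.mul ((hreg'.scE hr).differentiable y).hasDerivAt).deriv
  · funext y
    exact (((hdyn n).slice hr y).1.mul ((hdyn' n).slice hr y).1).deriv
  · exact ((c0.cg.mul cG' (T0.growth.subset hI) (hGU'.subset hI)).add (c0'.cg.mul cG (T0'.growth.subset hI) (hGU.subset hI))).add
      (c1.mul c1' T1.growth T1'.growth).cg

/-- a smooth function with bounded derivatives of a family of class `ScT` -/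
theorem lsi_T_comp {f : ℝ → ℝ} (hf : ContDiff ℝ (⊤ : ℕ∞) f) (hb : ∀ k, ∃ C : ℝ, ∀ x, |deriv^[k] f x| ≤ C) {I : Set ℝ} (n : ℕ)
    {φ : ℝ → ℝ → ℝ} (hφ : ScT I n φ) : ScT I n fun r y => f (φ r y) := by
  induction n generalizing f φ with
  | zero =>
    obtain ⟨C, hC⟩ := hb 0
    exact ⟨hf.continuous.comp_continuousOn hφ.1, C, 0, fun r _ z => by simpa using hC (φ r z)⟩
  | succ n ih =>
    obtain ⟨C, hC⟩ := hb 0
    have hf1 : ContDiff ℝ (⊤ : ℕ∞) (deriv f) := (contDiff_infty_iff_deriv.1 hf).2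
    have hd0 : ∀ x, HasDerivAt f (deriv f x) x := fun x => (hf.differentiable (by simp) x).hasDerivAt
    refine ⟨hf.continuous.comp_continuousOn hφ.1, ⟨C, 0, fun r _ z => by simpa using hC (φ r z)⟩,
      fun r hr y => ((hd0 _).comp y (hφ.2.2.1 r hr y).hasDerivAt).differentiableAt, ?_⟩
    refine ((ih hf1 (fun k => hb (k + 1)) hφ.of_succ).mul hφ.2.2.2).congr fun r hr y => ?_
    exact ((hd0 _).comp y (hφ.2.2.1 r hr y).hasDerivAt).deriv

/-- truncation: a smooth function may be changed outside `[-C, C]` so that all its derivatives are bounded -/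
theorem lsi_cutoff {f : ℝ → ℝ} (hf : ContDiff ℝ (⊤ : ℕ∞) f) (C : ℝ) : ∃ g : ℝ → ℝ, ContDiff ℝ (⊤ : ℕ∞) g ∧
    (∀ k, ∃ B : ℝ, ∀ x, |deriv^[k] g x| ≤ B) ∧ ∀ x, |x| ≤ C → g x = f x ∧ deriv g x = deriv f x ∧ deriv (deriv g) x = deriv (deriv f) x := by
  let χ : ContDiffBump (0 : ℝ) := ⟨|C| + 1, |C| + 2, by positivity, by linarith⟩
  have hg : ContDiff ℝ (⊤ : ℕ∞) (fun x => χ x * f x) := χ.contDiff.mul hf
  have hsupp : HasCompactSupport (fun x => χ x * f x) := χ.hasCompactSupport.mul_right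
  have hk : ∀ k, HasCompactSupport (deriv^[k] (fun x => χ x * f x)) := by
    intro k
    induction k with
    | zero => exact hsupp
    | succ k ih => rw [Function.iterate_succ_apply']; exact ih.deriv
  refine ⟨fun x => χ x * f x, hg, fun k => ?_, fun x hx => ?_⟩
  · obtain ⟨B, hB⟩ := (hg.iterate_deriv k).continuous.bounded_above_of_compact_support (hk k)
    exact ⟨B, fun x => by simpa using hB x⟩
  · have hev : (fun x => χ x * f x) =ᶠ[𝓝 x] f := by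
      have hU : Metric.ball (0 : ℝ) (|C| + 1) ∈ 𝓝 x := by
        refine Metric.isOpen_ball.mem_nhds ?_
        rw [mem_ball_zero_iff, Real.norm_eq_abs]
        linarith [le_abs_self C]
      filter_upwards [hU] with y hy
      rw [χ.one_of_mem_closedBall (Metric.ball_subset_closedBall hy), one_mul]
    exact ⟨hev.eq_of_nhds, hev.deriv_eq, hev.deriv.deriv_eq⟩

theorem lsi_contDiff_deriv {f : ℝ → ℝ} (hf : ContDiff ℝ (⊤ : ℕ∞) f) : ContDiff ℝ (⊤ : ℕ∞) (deriv f) :=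
  (contDiff_infty_iff_deriv.1 hf).2

theorem lsi_lip_of_bd {f : ℝ → ℝ} (hf : ContDiff ℝ (⊤ : ℕ∞) f) (hb : ∃ C : ℝ, ∀ x, |deriv^[1] f x| ≤ C) :
    ∃ L : ℝ, ∀ x y, |f x - f y| ≤ L * |x - y| := by
  obtain ⟨C, hC⟩ := hb
  refine ⟨C, fun x y => ?_⟩
  have := Convex.norm_image_sub_le_of_norm_deriv_le (f := f) (s := univ) (C := C)
    (fun z _ => hf.differentiable (by simp) z) (fun z _ => by simpa using hC z) convex_univ (mem_univ y) (mem_univ x)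
  simpa using this

/-- the chain rule for a function with bounded derivatives -/
theorem lsi_dyn_comp_bd {A : ℝ → ℝ} {j s t : ℝ} {φ G : ℝ → ℝ → ℝ} {f : ℝ → ℝ} (h : lsiDyn A j s t φ G) (hf : ContDiff ℝ (⊤ : ℕ∞) f)
    (hb : ∀ k, ∃ C : ℝ, ∀ x, |deriv^[k] f x| ≤ C) :
    lsiDyn A j s t (fun r y => f (φ r y)) fun r y => deriv f (φ r y) * G r y + deriv (deriv f) (φ r y) * deriv (φ r) y ^ 2 / 2 := by
  obtain ⟨hreg, hE, hGU, τ₀, happ⟩ := h
  -- the derivatives of `f`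
  have hf1 : ContDiff ℝ (⊤ : ℕ∞) (deriv f) := lsi_contDiff_deriv hf
  have hf2 : ContDiff ℝ (⊤ : ℕ∞) (deriv (deriv f)) := lsi_contDiff_deriv hf1
  have hb1 : ∀ k, ∃ C : ℝ, ∀ x, |deriv^[k] (deriv f) x| ≤ C := fun k => hb (k + 1)
  have hb2 : ∀ k, ∃ C : ℝ, ∀ x, |deriv^[k] (deriv (deriv f)) x| ≤ C := fun k => hb (k + 2)
  have hd0 : ∀ x, HasDerivAt f (deriv f x) x := fun x => (hf.differentiable (by simp) x).hasDerivAt
  have hd1 : ∀ x, HasDerivAt (deriv f) (deriv (deriv f) x) x := fun x => (hf1.differentiable (by simp) x).hasDerivAt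
  obtain ⟨L0, hL0⟩ := lsi_lip_of_bd hf (hb 1)
  obtain ⟨L1, hL1⟩ := lsi_lip_of_bd hf1 (hb1 1)
  obtain ⟨L2, hL2⟩ := lsi_lip_of_bd hf2 (hb2 1)
  have hφ0 : ScT (Icc s t) 0 φ := hreg.mono (by omega)
  have hφ1 : ScT (Icc s t) 0 (fun r => deriv (φ r)) := hreg.2.2.2.of_succ
  have T1 : ScT (Icc s t) 0 (fun r y => deriv f (φ r y)) := lsi_T_comp hf1 hb1 0 hφ0
  have T2 : ScT (Icc s t) 0 (fun r y => deriv (deriv f) (φ r y)) := lsi_T_comp hf2 hb2 0 hφ0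
  have T3 : ScT (Icc s t) 0 (fun r y => 1 / 2 * (deriv (deriv f) (φ r y) * (deriv (φ r) y * deriv (φ r) y))) :=
    (T2.mul (hφ1.mul hφ1)).const_mul (1 / 2)
  have key : lsiDyn A j s t (fun r y => f (φ r y)) fun r y => deriv f (φ r y) * G r y +
      1 / 2 * (deriv (deriv f) (φ r y) * (deriv (φ r) y * deriv (φ r) y)) := by
    refine ⟨lsi_T_comp hf hb 2 hreg, fun r hr => ((T1.scE hr).mul (hE r hr)).add (T3.scE hr),
      (T1.growth.mul hGU).add T3.growth, τ₀, fun τ hτ => ?_⟩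
    obtain ⟨φn, Gn, hdyn, c0, c1, cG⟩ := happ τ hτ
    have e1 : ∀ n, ∀ r ∈ Icc s t, deriv (fun y => f (φn n r y)) = fun y => deriv f (φn n r y) * deriv (φn n r) y := by
      intro n r hr
      funext y
      exact ((hd0 _).comp y ((hdyn n).slice hr y).1).deriv
    have e0 : ∀ r ∈ Icc s t, deriv (fun y => f (φ r y)) = fun y => deriv f (φ r y) * deriv (φ r) y := by
      intro r hr
      funext y
      exact ((hd0 _).comp y ((hreg.scE hr).differentiable y).hasDerivAt).deriv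
    have C1 : LsiCU s t (fun r y => deriv f (φ r y)) (fun n r y => deriv f (φn n r y)) := c0.lip_comp hL1
    have C2 : LsiCU s t (fun r y => deriv (deriv f) (φ r y)) (fun n r y => deriv (deriv f) (φn n r y)) := c0.lip_comp hL2
    refine ⟨fun n r y => f (φn n r y), fun n r y => deriv f (φn n r y) * Gn n r y +
      1 / 2 * (deriv (deriv f) (φn n r y) * (deriv (φn n r) y * deriv (φn n r) y)), fun n => ?_, c0.lip_comp hL0, ?_, ?_⟩
    · have hn0 : ScT (Icc s t) 0 (φn n) := (hdyn n).reg.mono (by omega)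
      have hn1 : ScT (Icc s t) 0 (fun r => deriv (φn n r)) := (hdyn n).reg.2.2.2.of_succ
      have g1 : ScTP s t (fun r y => deriv f (φn n r y) * Gn n r y) := (ScT.tp (lsi_T_comp hf1 hb1 0 hn0)).mul (hdyn n).gen
      have g2 : ScTP s t (fun r y => 1 / 2 * (deriv (deriv f) (φn n r y) * (deriv (φn n r) y * deriv (φn n r) y))) :=
        ScT.tp (((lsi_T_comp hf2 hb2 0 hn0).mul (hn1.mul hn1)).const_mul (1 / 2))
      refine ((hdyn n).comp (Φ := f) (Φ' := deriv f) (Φ'' := deriv (deriv f)) (fun r _ y => hd0 _) (fun r _ y => hd1 _)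
        (lsi_T_comp hf hb 2 (hdyn n).reg) ((g1.add g2).congr fun r _ => ?_)).congr_gen fun r _ => ?_
      · funext y; ring
      · funext y; ring
    · exact (C1.mul c1 T1.growth hφ1.growth).congr e0 e1
    · exact (C1.cg.mul cG (T1.growth.subset Ioo_subset_Icc_self) (hGU.subset Ioo_subset_Icc_self)).add
        ((C2.mul (c1.mul c1 hφ1.growth hφ1.growth) T2.growth (hφ1.mul hφ1).growth).const_mul (1 / 2)).cg
  exact lsi_dyn_congr key (fun r _ => rfl) (fun r _ => by funext y; ring)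

theorem lsi_dyn_comp {A : ℝ → ℝ} {j s t : ℝ} {φ G : ℝ → ℝ → ℝ} {f : ℝ → ℝ} (h : lsiDyn A j s t φ G)
    (hC : ∃ C : ℝ, ∀ r ∈ Icc s t, ∀ y, |φ r y| ≤ C) (hf : ContDiff ℝ (⊤ : ℕ∞) f) :
    lsiDyn A j s t (fun r y => f (φ r y)) fun r y => deriv f (φ r y) * G r y + deriv (deriv f) (φ r y) * deriv (φ r) y ^ 2 / 2 := by
  obtain ⟨C, hC⟩ := hC
  obtain ⟨g, hg, hgb, hgf⟩ := lsi_cutoff hf C
  refine lsi_dyn_congr (lsi_dyn_comp_bd h hg hgb) (fun r hr => ?_) (fun r hr => ?_)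
  · funext y
    exact ((hgf _ (hC r hr y)).1).symm
  · funext y
    rw [(hgf _ (hC r hr y)).2.1, (hgf _ (hC r hr y)).2.2]

theorem lsi_dyn_model {A A' : ℝ → ℝ} {j j' Ξ Ξ' : ℝ} (hj : 0 < j) (hj' : 0 < j') (hA : LscProf j Ξ A) (hA' : LscProf j' Ξ' A')
    {s t : ℝ} {φ G : ℝ → ℝ → ℝ} (hs : 0 ≤ s) (h : lsiDyn A' j' s t φ G) :
    lsiDyn A j s t φ fun r y =>
      G r y + (A r * deriv^[1] (lsiV A j r) y - A' r * deriv^[1] (lsiV A' j' r) y) * deriv (φ r) y := by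
  obtain ⟨hreg, hE, hGU, τ₀, happ⟩ := h
  have hI : ∀ r ∈ Icc s t, 0 ≤ r := fun r hr => hs.trans hr.1
  have hφ1 : ScT (Icc s t) 0 (fun r => deriv (φ r)) := hreg.2.2.2.of_succ
  have T1 := lsi_D_Tst hj hA hs t 1 0
  have T1' := lsi_D_Tst hj' hA' hs t 1 0
  have gd : ScGU (Icc s t) (fun r y => A r * deriv^[1] (lsiV A j r) y + -1 * (A' r * deriv^[1] (lsiV A' j' r) y)) :=
    ((lsi_al_gu hA hI).mul T1.growth).add
      (((ScE.const 0 (-1 : ℝ)).scT (Icc s t)).growth.mul ((lsi_al_gu hA' hI).mul T1'.growth))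
  have key : lsiDyn A j s t φ fun r y =>
      G r y + (A r * deriv^[1] (lsiV A j r) y + -1 * (A' r * deriv^[1] (lsiV A' j' r) y)) * deriv (φ r) y := by
    refine ⟨hreg, fun r hr => (hE r hr).add ((((T1.scE hr).const_mul (A r)).add
      (((T1'.scE hr).const_mul (A' r)).const_mul (-1))).mul (hφ1.scE hr)), hGU.add (gd.mul hφ1.growth),
      max τ₀ (max (max Ξ Ξ') t), fun τ hτ => ?_⟩
    have hτ0 : τ₀ ≤ τ := (le_max_left _ _).trans hτ
    have hτ3 : max (max Ξ Ξ') t ≤ τ := (le_max_right _ _).trans hτ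
    have hτ1 : Ξ ≤ τ := ((le_max_left _ _).trans (le_max_left _ _)).trans hτ3
    have hτ1' : Ξ' ≤ τ := ((le_max_right _ _).trans (le_max_left _ _)).trans hτ3
    have hτ2 : t ≤ τ := (le_max_right _ _).trans hτ3
    obtain ⟨φn, Gn, hdyn, c0, c1, cG⟩ := happ τ hτ0
    refine ⟨φn, fun n r y => Gn n r y + (scAl (scDy A τ n) r * scD 1 (scLC j) (scDy A τ n) r y +
      -1 * (scAl (scDy A' τ n) r * scD 1 (scLC j') (scDy A' τ n) r y)) * deriv (φn n r) y, fun n => ?_, c0, c1, ?_⟩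
    · exact ((hdyn n).change (sc_LC_BI j) (sc_LC_BI j') (lsi_dy_pos hA hτ1 n) (lsi_dy_pos hA' hτ1' n) hs
        (by rw [sc_dy_len]; exact hτ2) (by rw [sc_dy_len]; exact hτ2)).congr_gen fun r _ => by funext y; ring
    · exact cG.add (((lsi_cg_dr hj hA hτ1 hs hτ2).add ((lsi_cg_dr hj' hA' hτ1' hs hτ2).const_mul (-1))).mul c1.cg
        (gd.subset Ioo_subset_Icc_self) (hφ1.growth.subset Ioo_subset_Icc_self))
  exact lsi_dyn_congr key (fun r _ => rfl) (fun r _ => by funext y; ring)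

/-! ## 7. the annealed inequality -/

/-- `P_comp` + `P_step` on `[Ξ, Ξ + d]`, `lsi_P_tendsto` at the horizon `Ξ`, `lan_chi_sq` (`Sc/Ann.lean`) for the dyadic profiles -/
theorem lsi_Gam1_decay {A : ℝ → ℝ} {Ξ : ℝ} (hA : LscProf 1 Ξ A) (d : ℝ) (hd : 0 ≤ d) :
    lsiP A 1 0 (Ξ + d) (fun y => deriv^[2] (lsiV A 1 (Ξ + d)) y ^ 2) 0 ≤
      Real.exp (-d / 2) * lsiP A 1 0 Ξ (fun y => deriv^[2] (lsiV A 1 Ξ) y ^ 2) 0 := by
  -- helper68: `svt_decay` (`Sc/Top.lean`: limit of `lan_M2` along `scDy`) at the horizon `Ξ + d`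
  rcases hd.eq_or_lt with rfl | hd0
  · simp
  have hτ : 0 < Ξ + d := by linarith [hA.Xi0]
  have hR : Ξ ≤ Ξ + d := by linarith
  have hBI : ScBI (scLC 1) := sc_logcosh_BI 1
  have key : ∀ ξ ∈ Icc 0 (Ξ + d), lsiP A 1 0 ξ (fun y => deriv^[2] (lsiV A 1 ξ) y ^ 2) 0 = scaM2 (scLC 1) A (Ξ + d) ξ := by
    intro ξ hξ
    rw [lsi_D_eq one_pos hA hR hξ.1 hξ.2 1, lsi_P_eq one_pos hA hR le_rfl hξ.1 hξ.2
      ((scg_aD_Bd hBI hτ.le (hA.coef (Ξ + d)) 1 0 hξ.1).pow 2).scE]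
    rfl
  have hΞ : Ξ ∈ Icc 0 (Ξ + d) := ⟨hA.Xi0, hR⟩
  rw [key _ ⟨hτ.le, le_rfl⟩, key _ hΞ]
  have := svt_decay one_pos hτ (hA.coef (Ξ + d)) hΞ (fun t ht => hA.top t ht.1.le) Ξ ⟨le_rfl, hR⟩ (Ξ + d) ⟨hR, le_rfl⟩ hR
  convert this using 3
  ring

/-! ## 8. ASSEMBLY:   `lsiMod`, `lsi_ok`, `lsi_link` (from `slc_fspin`, helper102), `lsi_id`;   `Exit/ScGen.lean` cites them -/

/-- **the scalar Parisi model on general monotone profiles** -/
noncomputable def lsiMod : LscMod := ⟨lsiV, lsiP, lsiDyn⟩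

theorem lsi_ok : lsiMod.Ok where
  V_top := lsi_V_top
  V_T := lsi_V_T
  V_even := lsi_V_even
  V_bd := lsi_V_bd
  u_le := lsi_u_le
  chi_lo := lsi_chi_lo
  chi_hi := lsi_chi_hi
  chi_pos := lsi_chi_pos
  V_step := lsi_V_step
  P_step := lsi_P_step
  P_self := lsi_P_self
  P_const := lsi_P_const
  P_add := lsi_P_add
  P_smul := lsi_P_smul
  P_mono := lsi_P_mono
  P_even := lsi_P_even
  P_odd := lsi_P_odd
  P_comp := lsi_P_comp
  P_T0 := lsi_P_T0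
  P_T := lsi_P_T
  P_fwd := lsi_P_fwd
  P_grad := lsi_P_grad
  dynkin := lsi_dynkin
  dyn_reg := lsi_dyn_reg
  dyn_gen := lsi_dyn_gen
  dyn_sub := lsi_dyn_sub
  dyn_congr := lsi_dyn_congr
  dyn_V0 := lsi_dyn_V0
  dyn_V1 := lsi_dyn_V1
  dyn_V2 := lsi_dyn_V2
  dyn_V3 := lsi_dyn_V3
  dyn_V4 := lsi_dyn_V4
  dyn_P := lsi_dyn_P
  dyn_space := lsi_dyn_space
  dyn_add := lsi_dyn_add
  dyn_smul := lsi_dyn_smul
  dyn_mul := lsi_dyn_mul
  dyn_comp := lsi_dyn_comp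
  dyn_model := lsi_dyn_model
  ann := lsi_Gam1_decay

/-- the distribution function of a bounded clock is an admissible profile -/
theorem lsi_dist_prof {a R : ℝ} (ha : 0 ≤ a) {K : ℝ → ℝ} (hK : ∀ v ∈ Icc 0 a, 0 ≤ K v ∧ K v ≤ R) : LscProf a (max R 0) (llDist a K) := by
  refine ⟨(slc_alK_mono a K).monotoneOn _, slc_alK_nonneg a K 0, fun ξ hξ => ?_, le_max_right _ _⟩
  have e : {v : ℝ | v ∈ Ioo 0 a ∧ K v ≤ ξ} = Ioo 0 a := by
    ext v
    refine ⟨fun h => h.1, fun h => ⟨h, ((hK v ⟨h.1.le, h.2.le⟩).2.trans (le_max_left _ _)).trans hξ⟩⟩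
  unfold llDist
  rw [e, Real.volume_Ioo, sub_zero, ENNReal.toReal_ofReal ha]

theorem lsi_link (a R : ℝ) (K : ℝ → ℝ) (ha : 1 ≤ a) (hm : MonotoneOn K (Icc 0 a)) (hK : ∀ v ∈ Icc 0 a, 0 ≤ K v ∧ K v ≤ R) :
    skCPr 1 a 0 K = lsiMod.V (llDist a K) a 0 0 := by
  have ha0 : 0 < a := lt_of_lt_of_le one_pos ha
  have hτ : 0 < max R 0 + 1 := by have := le_max_right R 0; linarith
  have h1 := (slc_fspin ha0 hτ (K := K) ⟨hm, (hK 0 ⟨le_rfl, ha0.le⟩).1⟩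
    (((hK a ⟨ha0.le, le_rfl⟩).2.trans (le_max_left R 0)).trans (by linarith))).2
  have h2 := lsi_V_eq ha0 (lsi_dist_prof ha0.le hK) (R := max R 0 + 1) (ξ := 0) (by linarith) le_rfl hτ.le
  show skCPr 1 a 0 K = lsiV (llDist a K) a 0 0
  rw [h2]
  exact h1

/-- **identification**: every horizon `R ≥ Ξ` computes the model -/
theorem lsi_id (A : ℝ → ℝ) (j Ξ R : ℝ) (hj : 0 < j) (hA : LscProf j Ξ A) (hR : Ξ ≤ R) :
    (∀ ξ ∈ Icc 0 R, lsiMod.V A j ξ = fun z => scVa (scLC j) A R ξ z - j * R / 2) ∧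
    (∀ s t : ℝ, 0 ≤ s → s ≤ t → t ≤ R → ∀ φ : ℝ → ℝ, ScE 0 φ → lsiMod.P A j s t φ = scPa (scLC j) A R s t φ) :=
  ⟨fun _ hξ => lsi_V_eq hj hA hR hξ.1 hξ.2, fun _ _ hs hst ht _ hφ => lsi_P_eq hj hA hR hs hst ht hφ⟩

end Claimed.Agent.R286
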