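import Claimed.Agent.R286.Sc.DynC
import Claimed.Agent.R286.Sc.Bound
import Claimed.Agent.R286.Sc.Bound1

/-!
# Row 286, scalar block, A1 + A3: the lower Riccati bound and the exponential decay of `sqrt (1 - u²)`

CONTRACT FILE (head: helper95, ADV: helper36; PROVED by helper85, 0 sorry).   Prefix `scd_`.   Source: LL 03-paths.tex l.176-190 (proof of `paths:lift`, "Ito's formula for sqrt(1 - V_z²)"), l.262-270.
* `ScLow m G : m (1 - G'²) ≤ G''`.   One step of mass `m` preserves `ScLow m` (`H'' = Tr G'' + m (Tr G'² - (Tr G')²)`, `H' = Tr G'`);  `ScLow m' → ScLow m` for `m ≤ m'` (`|G'| ≤ 1`).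
  Hence **A1**: for NONDECREASING masses `α(t) (1 - u²) ≤ w` (`scd_A1`); with `w ≤ a (1 - u²)` (`scad_w_le`).
* `scRt = sqrt (1 - u²)`:  `(∂_r + L) scRt = - w² / (2 (1 - u²)^{3/2}) ≤ - (α² / 2) scRt`   (`ScDyn.comp` with `Φ x = sqrt (1 - x²)`; `u` is harmonic: `sc_dyn_D1`).
  Regularity: `1 - u² ≥ w / a ≥ c e^{-2 a |z|}` (`scb_w_ge`), so `1 / scRt` has exponential growth.
* **decay** `scd_decay`: if `α ≥ μ` on `[s, t)` then `P_{s,t}[scRt(t)](z) ≤ e^{-μ² (t - s) / 2} scRt(s)(z)`   (`scb_super` applied to `e^{μ² (r - s) / 2} scRt`).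
-/

set_option autoImplicit false

namespace Claimed.Agent.R286

open MeasureTheory ProbabilityTheory Filter Topology Set

/-- lower Riccati bound -/
def ScLow (m : ℝ) (G : ℝ → ℝ) : Prop := ∀ z, m * (1 - deriv G z ^ 2) ≤ deriv (deriv G) z

theorem ScLow.step {G : ℝ → ℝ} (hG : ScB 2 G) {m : ℝ} (h : ScLow m G) (s : ℝ) : ScLow m (scStep m s G) := by
  intro z
  have hF1 : ScB 1 G := hG.of_succ
  have hu : ScE 0 (deriv G) := (hG.deriv_bd).of_succ.scE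
  have hw : ScE 0 (deriv (deriv G)) := (hG.deriv_bd).deriv.scE
  have hu2 : ScE 0 (fun y => deriv G y ^ 2) := hu.pow 2
  rw [sc_step_deriv2 hG, sc_step_deriv hF1]
  have h1 : scTr m s G (fun y => m * (1 - deriv G y ^ 2)) z ≤ scTr m s G (deriv (deriv G)) z :=
    sc_tr_mono hF1 (((ScE.const 0 1).sub hu2).const_mul m) hw h m s z
  have h2 : scTr m s G (fun y => m * (1 - deriv G y ^ 2)) z
      = m * (1 - scTr m s G (fun y => deriv G y ^ 2) z) := by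
    rw [sc_tr_const_mul, sc_tr_sub hF1 (ScE.const 0 1) hu2, sc_tr_const hF1]
  rw [h2] at h1
  linarith

theorem ScLow.mono {G : ℝ → ℝ} (hl : ∀ z, |deriv G z| ≤ 1) {m m' : ℝ} (hmm : m ≤ m') (h : ScLow m' G) : ScLow m G := by
  intro z
  have h1 : 0 ≤ 1 - deriv G z ^ 2 := by
    have := (sq_le_one_iff_abs_le_one _).2 (hl z)
    linarith
  exact (mul_le_mul_of_nonneg_right hmm h1).trans (h z)

theorem scd_low_LC {a : ℝ} (ha : a ≠ 0) : ScLow a (scLC a) := by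
  intro z
  rw [scb_LC_deriv2 ha, scb_LC_deriv ha]

theorem scd_low_V {a : ℝ} {F : ℝ → ℝ} (hF : ScAd a F) (hl : ScLow a F) {π : List (ℝ × ℝ)} (hπ : ScAdm a π)
    (hi : ScInc π) {m : ℝ} (hm : ∀ p ∈ π, m ≤ p.1) (hma : m ≤ a) : ScLow m (scV F π) := by
  induction π generalizing m with
  | nil => exact hl.mono hF.lip hma
  | cons p π ih =>
    have hp := hπ p (by simp)
    have hπ1 : ScAdm a π := hπ.of_cons
    have h1 : ScLow p.1 (scV F π) := ih hπ1 hi.of_cons (fun q hq => (List.pairwise_cons.1 hi).1 q hq) hp.2.1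
    have h2 : ScLow p.1 (scStep p.1 p.2 (scV F π)) := h1.step ((hF.scV hπ1).B 2) p.2
    exact h2.mono (hF.scV hπ).lip (hm p (by simp))

/-- **A1** -/
theorem scd_A1 {a : ℝ} {F : ℝ → ℝ} (hF : ScAd a F) (hl : ScLow a F) {π : List (ℝ × ℝ)} (hπ : ScAdm a π)
    (hi : ScInc π) {t : ℝ} (h0 : 0 ≤ t) (ht : t < scLen π) (z : ℝ) :
    scAl π t * (1 - scD 1 F π t z ^ 2) ≤ scD 2 F π t z := by
  rw [scD_one, scD_two]
  induction π generalizing t with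
  | nil =>
    simp only [scLen] at ht
    linarith
  | cons p π ih =>
    have hp := hπ p (by simp)
    have hπ1 : ScAdm a π := hπ.of_cons
    simp only [scLen] at ht
    by_cases hc : p.2 ≤ t
    · simp only [scAl, scVt, if_pos hc]
      exact ih hπ1 hi.of_cons (by linarith) (by linarith)
    · simp only [scAl, scVt, if_neg hc]
      have h1 : ScLow p.1 (scV F π) :=
        scd_low_V hF hl hπ1 hi.of_cons (fun q hq => (List.pairwise_cons.1 hi).1 q hq) hp.2.1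
      exact h1.step ((hF.scV hπ1).B 2) (p.2 - t) z

theorem scd_one_sub_pos {a : ℝ} {F : ℝ → ℝ} (hF : ScAd a F) {π : List (ℝ × ℝ)} (hπ : ScAdm a π) (t z : ℝ) :
    0 < 1 - scD 1 F π t z ^ 2 := by
  have h1 := scad_w_pos hF hπ t z
  have h2 := scad_w_le hF hπ t z
  have ha := hF.mass_pos
  by_contra hn
  push Not at hn
  nlinarith

theorem scd_sech_eq (a y : ℝ) : scSech a y = ((Real.cosh (a * y))⁻¹) ^ 2 := by
  unfold scSech
  have h := Real.cosh_pos (a * y)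
  rw [Real.tanh_eq_sinh_div_cosh]
  have h2 := Real.cosh_sq' (a * y)
  field_simp
  linarith

theorem scd_cosh_le (x : ℝ) : Real.cosh x ≤ Real.exp |x| := by
  rw [Real.cosh_eq]
  have h1 : Real.exp x ≤ Real.exp |x| := Real.exp_le_exp.2 (le_abs_self x)
  have h2 : Real.exp (-x) ≤ Real.exp |x| := Real.exp_le_exp.2 (neg_le_abs x)
  linarith

theorem scd_sech_ge {a : ℝ} (ha : 0 ≤ a) (y : ℝ) : Real.exp (-(2 * a * |y|)) ≤ scSech a y := by
  rw [scd_sech_eq]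
  have h := Real.cosh_pos (a * y)
  have h1 : Real.exp (-(a * |y|)) ≤ (Real.cosh (a * y))⁻¹ := by
    rw [Real.exp_neg]
    refine inv_anti₀ h ?_
    have := scd_cosh_le (a * y)
    rwa [abs_mul, abs_of_nonneg ha] at this
  calc Real.exp (-(2 * a * |y|)) = Real.exp (-(a * |y|)) ^ 2 := by
        rw [← Real.exp_nat_mul]; congr 1; push_cast; ring
    _ ≤ _ := by gcongr

/-- **A3** -/
theorem scd_one_sub_ge {a : ℝ} {F : ℝ → ℝ} (hF : ScAd a F) {c₀ : ℝ} (hc₀ : 0 < c₀)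
    (hc : ∀ z, c₀ * scSech a z ≤ deriv (deriv F) z) {π : List (ℝ × ℝ)} (hπ : ScAdm a π) :
    ∃ c : ℝ, 0 < c ∧ ∀ t ∈ Icc 0 (scLen π), ∀ z, c * Real.exp (-(2 * a * |z|)) ≤ 1 - scD 1 F π t z ^ 2 := by
  have ha := hF.mass_pos
  refine ⟨c₀ * Real.exp (-(3 * a ^ 2 * scLen π)) / a, by positivity, fun t ht z => ?_⟩
  have h1 := scb_w_ge hF hπ hc₀.le hc ht.2 z
  have h2 := scad_w_le hF hπ t z
  have h3 := scd_sech_ge ha.le z
  have h4 : Real.exp (-(3 * a ^ 2 * scLen π)) ≤ Real.exp (-(3 * a ^ 2 * (scLen π - t))) := by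
    apply Real.exp_le_exp.2
    nlinarith [ht.1, sq_nonneg a]
  have h5 : c₀ * Real.exp (-(3 * a ^ 2 * scLen π)) * Real.exp (-(2 * a * |z|))
      ≤ c₀ * Real.exp (-(3 * a ^ 2 * (scLen π - t))) * scSech a z := by gcongr
  rw [div_mul_eq_mul_div, div_le_iff₀ ha]
  linarith

/-- `sqrt (1 - u²)` -/
noncomputable def scRt (F : ℝ → ℝ) (π : List (ℝ × ℝ)) (r z : ℝ) : ℝ := Real.sqrt (1 - scD 1 F π r z ^ 2)

theorem scd_rt_pos {a : ℝ} {F : ℝ → ℝ} (hF : ScAd a F) {π : List (ℝ × ℝ)} (hπ : ScAdm a π) (t z : ℝ) :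
    0 < scRt F π t z := Real.sqrt_pos.2 (scd_one_sub_pos hF hπ t z)

theorem scd_rt_le_one (F : ℝ → ℝ) (π : List (ℝ × ℝ)) (t z : ℝ) : scRt F π t z ≤ 1 := by
  unfold scRt
  rw [Real.sqrt_le_one]
  nlinarith [sq_nonneg (scD 1 F π t z)]

theorem scd_rt_sq {a : ℝ} {F : ℝ → ℝ} (hF : ScAd a F) {π : List (ℝ × ℝ)} (hπ : ScAdm a π) (t z : ℝ) :
    scRt F π t z ^ 2 = 1 - scD 1 F π t z ^ 2 := Real.sq_sqrt (scd_one_sub_pos hF hπ t z).le

/-- square root of a positive function which, with its inverse, has uniform exponential growth -/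
theorem ScT.sqrt {I : Set ℝ} {n : ℕ} {ψ : ℝ → ℝ → ℝ} (hψ : ScT I n ψ) (hpos : ∀ r ∈ I, ∀ z, 0 < ψ r z)
    (hinv : ScGU I (fun r z => (ψ r z)⁻¹)) : ScT I n (fun r z => Real.sqrt (ψ r z)) := by
  have hc : ContinuousOn (fun p : ℝ × ℝ => Real.sqrt (ψ p.1 p.2)) (I ×ˢ univ) := hψ.continuousOn.sqrt
  have hone : ScGU I (fun _ _ => (1 : ℝ)) := ⟨1, 0, fun _ _ _ => by simp⟩
  have hsq : ∀ x : ℝ, 0 < x → |Real.sqrt x| ≤ |1 + x| := by
    intro x hx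
    rw [abs_of_nonneg (Real.sqrt_nonneg x), abs_of_pos (by linarith)]
    nlinarith [Real.sq_sqrt hx.le, Real.sqrt_nonneg x, sq_nonneg (Real.sqrt x - 1)]
  have hg : ScGU I (fun r z => Real.sqrt (ψ r z)) :=
    (hone.add hψ.growth).of_le fun r hr z => hsq _ (hpos r hr z)
  have hginv : ScGU I (fun r z => (Real.sqrt (ψ r z))⁻¹) :=
    (hone.add hinv).of_le fun r hr z => by
      rw [← Real.sqrt_inv]
      exact hsq _ (inv_pos.2 (hpos r hr z))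
  induction n with
  | zero => exact ⟨hc, hg⟩
  | succ n ih =>
    have h1 := ih hψ.of_succ
    have h2 : ScT I n (fun r z => (Real.sqrt (ψ r z))⁻¹) :=
      h1.inv (fun r hr z => Real.sqrt_pos.2 (hpos r hr z)) hginv
    have hd : ∀ r ∈ I, ∀ z, HasDerivAt (fun z => Real.sqrt (ψ r z))
        (1 / 2 * (_root_.deriv (ψ r) z * (Real.sqrt (ψ r z))⁻¹)) z := by
      intro r hr z
      have := (hψ.2.2.1 r hr z).hasDerivAt.sqrt (hpos r hr z).ne'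
      refine this.congr_deriv ?_
      have := (Real.sqrt_pos.2 (hpos r hr z)).ne'
      field_simp
    refine ⟨hc, hg, fun r hr z => (hd r hr z).differentiableAt, ?_⟩
    exact ((hψ.2.2.2.mul h2).const_mul (1 / 2)).congr fun r hr z => (hd r hr z).deriv

theorem scd_one_sub_T {F : ℝ → ℝ} (hF : ScBI F) {π : List (ℝ × ℝ)} (hπ : ScPos π) (n : ℕ) :
    ScT (Icc 0 (scLen π)) n (fun r z => 1 - scD 1 F π r z ^ 2) :=
  ((ScE.const n 1).scT _).sub ((sc_D_T hF hπ 1 n).pow 2)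

theorem scd_one_sub_inv_GU {a : ℝ} {F : ℝ → ℝ} (hF : ScAd a F) {c₀ : ℝ} (hc₀ : 0 < c₀)
    (hc : ∀ z, c₀ * scSech a z ≤ deriv (deriv F) z) {π : List (ℝ × ℝ)} (hπ : ScAdm a π) :
    ScGU (Icc 0 (scLen π)) (fun r z => (1 - scD 1 F π r z ^ 2)⁻¹) := by
  obtain ⟨c, hc0, h⟩ := scd_one_sub_ge hF hc₀ hc hπ
  refine ⟨c⁻¹, 2 * a, fun r hr z => ?_⟩
  have h1 := h r hr z
  have h2 := scd_one_sub_pos hF hπ r z
  rw [abs_of_pos (inv_pos.2 h2)]
  have h3 : c⁻¹ * Real.exp (2 * a * |z|) = (c * Real.exp (-(2 * a * |z|)))⁻¹ := by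
    rw [mul_inv, Real.exp_neg, inv_inv]
  rw [h3]
  exact inv_anti₀ (by positivity) h1

theorem scd_rt_T {a : ℝ} {F : ℝ → ℝ} (hF : ScAd a F) {c₀ : ℝ} (hc₀ : 0 < c₀)
    (hc : ∀ z, c₀ * scSech a z ≤ deriv (deriv F) z) {π : List (ℝ × ℝ)} (hπ : ScAdm a π) :
    ScT (Icc 0 (scLen π)) 2 (scRt F π) := by
  exact (scd_one_sub_T hF.B hπ.pos 2).sqrt (fun r _ z => scd_one_sub_pos hF hπ r z)
    (scd_one_sub_inv_GU hF hc₀ hc hπ)

theorem scd_rt_inv_GU {a : ℝ} {F : ℝ → ℝ} (hF : ScAd a F) {c₀ : ℝ} (hc₀ : 0 < c₀)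
    (hc : ∀ z, c₀ * scSech a z ≤ deriv (deriv F) z) {π : List (ℝ × ℝ)} (hπ : ScAdm a π) :
    ScGU (Icc 0 (scLen π)) (fun r z => (scRt F π r z)⁻¹) := by
  have hone : ScGU (Icc 0 (scLen π)) (fun _ _ => (1 : ℝ)) := ⟨1, 0, fun _ _ _ => by simp⟩
  refine (hone.add (scd_one_sub_inv_GU hF hc₀ hc hπ)).of_le fun r _ z => ?_
  have hx := inv_pos.2 (scd_one_sub_pos hF hπ r z)
  unfold scRt
  rw [← Real.sqrt_inv, abs_of_nonneg (Real.sqrt_nonneg _), abs_of_pos (by linarith)]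
  nlinarith [Real.sq_sqrt hx.le, Real.sqrt_nonneg (1 - scD 1 F π r z ^ 2)⁻¹,
    sq_nonneg (Real.sqrt (1 - scD 1 F π r z ^ 2)⁻¹ - 1)]

theorem scd_gen_T {a : ℝ} {F : ℝ → ℝ} (hF : ScAd a F) {c₀ : ℝ} (hc₀ : 0 < c₀)
    (hc : ∀ z, c₀ * scSech a z ≤ deriv (deriv F) z) {π : List (ℝ × ℝ)} (hπ : ScAdm a π) :
    ScT (Icc 0 (scLen π)) 0
      (fun r y => -(scD 2 F π r y ^ 2 / (2 * (1 - scD 1 F π r y ^ 2) * scRt F π r y))) := by
  have h1 : ScT (Icc 0 (scLen π)) 0 (fun r y => scD 2 F π r y ^ 2) := (sc_D_T hF.B hπ.pos 2 0).pow 2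
  have h2 : ScT (Icc 0 (scLen π)) 0 (fun r y => (1 - scD 1 F π r y ^ 2)⁻¹) :=
    (scd_one_sub_T hF.B hπ.pos 0).inv (fun r _ z => scd_one_sub_pos hF hπ r z) (scd_one_sub_inv_GU hF hc₀ hc hπ)
  have h3 : ScT (Icc 0 (scLen π)) 0 (fun r y => (scRt F π r y)⁻¹) :=
    ((scd_rt_T hF hc₀ hc hπ).mono (by omega)).inv (fun r _ z => scd_rt_pos hF hπ r z)
      (scd_rt_inv_GU hF hc₀ hc hπ)
  refine (((h1.mul h2).mul h3).const_mul (-(1 / 2))).congr fun r _ y => ?_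
  have e1 := (scd_one_sub_pos hF hπ r y).ne'
  have e2 := (scd_rt_pos hF hπ r y).ne'
  field_simp

theorem scd_sqrt_hasDerivAt {x : ℝ} (hx : 0 < 1 - x ^ 2) :
    HasDerivAt (fun x : ℝ => Real.sqrt (1 - x ^ 2)) (-x / Real.sqrt (1 - x ^ 2)) x := by
  have h1 : HasDerivAt (fun x : ℝ => 1 - x ^ 2) (-(2 * x)) x := by
    simpa using ((hasDerivAt_id x).pow 2).const_sub 1
  refine (h1.sqrt hx.ne').congr_deriv ?_
  have := (Real.sqrt_pos.2 hx).ne'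
  field_simp

theorem scd_sqrt_hasDerivAt2 {x : ℝ} (hx : 0 < 1 - x ^ 2) :
    HasDerivAt (fun x : ℝ => -x / Real.sqrt (1 - x ^ 2)) (-1 / ((1 - x ^ 2) * Real.sqrt (1 - x ^ 2))) x := by
  have hS := Real.sqrt_pos.2 hx
  have h1 := ((hasDerivAt_id x).neg).div (scd_sqrt_hasDerivAt hx) hS.ne'
  refine h1.congr_deriv ?_
  have e := Real.sq_sqrt hx.le
  rw [e]
  have hx' := hx.ne'
  have hS' := hS.ne'
  have e2 : (-id : ℝ → ℝ) x = -x := rfl
  rw [e2]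
  field_simp
  rw [e]
  ring

theorem scd_rt_dyn {a : ℝ} {F : ℝ → ℝ} (hF : ScAd a F) {c₀ : ℝ} (hc₀ : 0 < c₀)
    (hc : ∀ z, c₀ * scSech a z ≤ deriv (deriv F) z) {π : List (ℝ × ℝ)} (hπ : ScAdm a π) {s t : ℝ} (h0 : 0 ≤ s)
    (ht : t ≤ scLen π) :
    ScDyn F π s t (scRt F π)
      (fun r y => -(scD 2 F π r y ^ 2 / (2 * (1 - scD 1 F π r y ^ 2) * scRt F π r y))) := by
  have hsub : Icc s t ⊆ Icc 0 (scLen π) := Icc_subset_Icc h0 ht
  have hD1 := sc_dyn_D1 hF.B hπ.pos h0 ht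
  have heq : ∀ r y, (fun x : ℝ => -x / Real.sqrt (1 - x ^ 2)) (scD 1 F π r y) * (fun _ _ => (0 : ℝ)) r y
      + (fun x : ℝ => -1 / ((1 - x ^ 2) * Real.sqrt (1 - x ^ 2))) (scD 1 F π r y) * deriv (scD 1 F π r) y ^ 2 / 2
      = -(scD 2 F π r y ^ 2 / (2 * (1 - scD 1 F π r y ^ 2) * scRt F π r y)) := by
    intro r y
    have e1 := (scd_one_sub_pos hF hπ r y).ne'
    have e2 := (scd_rt_pos hF hπ r y).ne'
    rw [sc_D_succ]
    unfold scRt at e2 ⊢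
    simp only [mul_zero, zero_add]
    field_simp
  have hcomp := hD1.comp (Φ := fun x => Real.sqrt (1 - x ^ 2)) (Φ' := fun x => -x / Real.sqrt (1 - x ^ 2))
    (Φ'' := fun x => -1 / ((1 - x ^ 2) * Real.sqrt (1 - x ^ 2)))
    (fun r _ y => scd_sqrt_hasDerivAt (scd_one_sub_pos hF hπ r y))
    (fun r _ y => scd_sqrt_hasDerivAt2 (scd_one_sub_pos hF hπ r y))
    ((scd_rt_T hF hc₀ hc hπ).subset hsub)
    (((scd_gen_T hF hc₀ hc hπ).subset hsub).congr fun r _ y => heq r y).tp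
  exact hcomp.congr_gen fun r _ => funext fun y => (heq r y).symm

/-- **exponential decay** -/
theorem scd_decay {a : ℝ} {F : ℝ → ℝ} (hF : ScAd a F) (hl : ScLow a F) {c₀ : ℝ} (hc₀ : 0 < c₀)
    (hc : ∀ z, c₀ * scSech a z ≤ deriv (deriv F) z) {π : List (ℝ × ℝ)} (hπ : ScAdm a π) (hi : ScInc π) {s t : ℝ}
    (h0 : 0 ≤ s) (hst : s ≤ t) (ht : t ≤ scLen π) {μ : ℝ} (hμ0 : 0 ≤ μ) (hμ : ∀ r ∈ Ico s t, μ ≤ scAl π r) (z : ℝ) :
    scPt F π s t (scRt F π t) z ≤ Real.exp (-(μ ^ 2 * (t - s) / 2)) * scRt F π s z := by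
  have hπ' : ScPos π := hπ.pos
  have hT1 : ScDyn F π s t (fun r _ => Real.exp (μ ^ 2 / 2 * (r - s)))
      (fun r _ => μ ^ 2 / 2 * Real.exp (μ ^ 2 / 2 * (r - s))) := by
    refine sc_dyn_time F π (a := fun r => Real.exp (μ ^ 2 / 2 * (r - s)))
      (a' := fun r => μ ^ 2 / 2 * Real.exp (μ ^ 2 / 2 * (r - s)))
      (Continuous.continuousOn (by fun_prop)) ?_ ⟨∅, finite_empty, fun r _ _ => ?_⟩
    · refine ScT.tp (ScT.of_time (Continuous.continuousOn (by fun_prop)) ?_ 0)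
      exact (isCompact_Icc.exists_bound_of_continuousOn (f := fun r => μ ^ 2 / 2 * Real.exp (μ ^ 2 / 2 * (r - s)))
        (Continuous.continuousOn (by fun_prop))).imp fun C hC r hr => by
          have := hC r hr
          rwa [Real.norm_eq_abs] at this
    · have h1 : HasDerivAt (fun r : ℝ => μ ^ 2 / 2 * (r - s)) (μ ^ 2 / 2) r := by
        simpa using ((hasDerivAt_id r).sub_const s).const_mul (μ ^ 2 / 2)
      have h2 := h1.exp
      rwa [mul_comm] at h2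
  have hD := hT1.mul (scd_rt_dyn hF hc₀ hc hπ h0 ht)
  have hsup := scb_super hF.B hπ' h0 hst ht hD (fun r hr y => ?_) z
  · simp only [sub_self, mul_zero, Real.exp_zero, one_mul] at hsup
    rw [sc_Pt_const_mul] at hsup
    have hE := Real.exp_pos (μ ^ 2 / 2 * (t - s))
    have e : Real.exp (-(μ ^ 2 * (t - s) / 2)) = (Real.exp (μ ^ 2 / 2 * (t - s)))⁻¹ := by
      rw [← Real.exp_neg]; congr 1; ring
    rw [e, inv_mul_eq_div, le_div_iff₀ hE]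
    linarith
  · have hd0 : deriv (fun _ : ℝ => Real.exp (μ ^ 2 / 2 * (r - s))) y = 0 := by simp
    simp only [hd0, zero_mul, add_zero]
    have hA1 := scd_A1 hF hl hπ hi (h0.trans hr.1.le) (hr.2.trans_le ht) y
    have hμr := hμ r ⟨hr.1.le, hr.2⟩
    have hp := scd_one_sub_pos hF hπ r y
    have hR := scd_rt_pos hF hπ r y
    have hsq := scd_rt_sq hF hπ r y
    have hw : μ * (1 - scD 1 F π r y ^ 2) ≤ scD 2 F π r y := (mul_le_mul_of_nonneg_right hμr hp.le).trans hA1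
    have hw2 : μ ^ 2 * (1 - scD 1 F π r y ^ 2) ^ 2 ≤ scD 2 F π r y ^ 2 := by
      have := pow_le_pow_left₀ (by positivity) hw 2
      rwa [mul_pow] at this
    have key : μ ^ 2 / 2 * scRt F π r y
        ≤ scD 2 F π r y ^ 2 / (2 * (1 - scD 1 F π r y ^ 2) * scRt F π r y) := by
      rw [le_div_iff₀ (by positivity)]
      calc μ ^ 2 / 2 * scRt F π r y * (2 * (1 - scD 1 F π r y ^ 2) * scRt F π r y)
          = μ ^ 2 * (1 - scD 1 F π r y ^ 2) * scRt F π r y ^ 2 := by ring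
        _ = μ ^ 2 * (1 - scD 1 F π r y ^ 2) ^ 2 := by rw [hsq]; ring
        _ ≤ _ := hw2
    nlinarith [Real.exp_pos (μ ^ 2 / 2 * (r - s))]

theorem scd_w_sq_le {a : ℝ} {F : ℝ → ℝ} (hF : ScAd a F) {π : List (ℝ × ℝ)} (hπ : ScAdm a π) (t z : ℝ) :
    scD 2 F π t z ^ 2 ≤ a ^ 2 * scRt F π t z := by
  have h1 := scad_w_pos hF hπ t z
  have h2 := scad_w_le hF hπ t z
  have ha := hF.mass_pos
  have h3 := scd_rt_sq hF hπ t z
  have h4 := scd_rt_pos hF hπ t z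
  have h5 := scd_rt_le_one F π t z
  rw [← h3] at h2
  have h6 : scD 2 F π t z ^ 2 ≤ (a * scRt F π t z ^ 2) ^ 2 := by gcongr
  have h7 : scRt F π t z ^ 4 ≤ scRt F π t z := by
    calc scRt F π t z ^ 4 = scRt F π t z * scRt F π t z ^ 3 := by ring
      _ ≤ scRt F π t z * 1 := by
        gcongr
        exact pow_le_one₀ h4.le h5
      _ = _ := by ring
  calc scD 2 F π t z ^ 2 ≤ (a * scRt F π t z ^ 2) ^ 2 := h6
    _ = a ^ 2 * scRt F π t z ^ 4 := by ring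
    _ ≤ a ^ 2 * scRt F π t z := by gcongr

theorem scd_decay_w_sq {a : ℝ} {F : ℝ → ℝ} (hF : ScAd a F) (hl : ScLow a F) {c₀ : ℝ} (hc₀ : 0 < c₀)
    (hc : ∀ z, c₀ * scSech a z ≤ deriv (deriv F) z) {π : List (ℝ × ℝ)} (hπ : ScAdm a π) (hi : ScInc π) {s t : ℝ}
    (h0 : 0 ≤ s) (hst : s ≤ t) (ht : t ≤ scLen π) {μ : ℝ} (hμ0 : 0 ≤ μ) (hμ : ∀ r ∈ Ico s t, μ ≤ scAl π r) (z : ℝ) :
    scPt F π s t (fun y => scD 2 F π t y ^ 2) z ≤ a ^ 2 * Real.exp (-(μ ^ 2 * (t - s) / 2)) := by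
  have hE1 : ScE 0 (fun y => scD 2 F π t y ^ 2) := (sc_D_E hF.B 2 0 π t).pow 2
  have hRtE : ScE 0 (scRt F π t) := ((scd_rt_T hF hc₀ hc hπ).scE ⟨h0.trans hst, ht⟩).mono (by omega)
  have h1 : scPt F π s t (fun y => scD 2 F π t y ^ 2) z ≤ scPt F π s t (fun y => a ^ 2 * scRt F π t y) z :=
    sc_Pt_mono hF.B hE1 (hRtE.const_mul _) (fun y => scd_w_sq_le hF hπ t y) π s t z
  rw [sc_Pt_const_mul] at h1
  have h2 := scd_decay hF hl hc₀ hc hπ hi h0 hst ht hμ0 hμ z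
  have h3 := scd_rt_le_one F π s z
  have hE := Real.exp_pos (-(μ ^ 2 * (t - s) / 2))
  calc scPt F π s t (fun y => scD 2 F π t y ^ 2) z ≤ a ^ 2 * scPt F π s t (scRt F π t) z := h1
    _ ≤ a ^ 2 * (Real.exp (-(μ ^ 2 * (t - s) / 2)) * scRt F π s z) := by gcongr
    _ ≤ a ^ 2 * (Real.exp (-(μ ^ 2 * (t - s) / 2)) * 1) := by gcongr
    _ = _ := by ring

theorem scd_decay_M2 {a : ℝ} {F : ℝ → ℝ} (hF : ScAd a F) (hl : ScLow a F) {c₀ : ℝ} (hc₀ : 0 < c₀)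
    (hc : ∀ z, c₀ * scSech a z ≤ deriv (deriv F) z) {π : List (ℝ × ℝ)} (hπ : ScAdm a π) (hi : ScInc π) {s t : ℝ}
    (h0 : 0 ≤ s) (hst : s ≤ t) (ht : t ≤ scLen π) {μ : ℝ} (hμ0 : 0 ≤ μ) (hμ : ∀ r ∈ Ico s t, μ ≤ scAl π r) :
    scM2 F π t ≤ a ^ 2 * Real.exp (-(μ ^ 2 * (t - s) / 2)) := by
  have hE1 : ScE 0 (fun y => scD 2 F π t y ^ 2) := (sc_D_E hF.B 2 0 π t).pow 2
  unfold scM2 scEx
  rw [← sc_Pt_Pt hF.B hE1 hπ.pos h0 hst]
  have h1 := sc_Pt_mono hF.B (sc_Pt_E hF.B hE1 π s t) (ScE.const 0 (a ^ 2 * Real.exp (-(μ ^ 2 * (t - s) / 2))))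
    (fun y => scd_decay_w_sq hF hl hc₀ hc hπ hi h0 hst ht hμ0 hμ y) π 0 s 0
  rwa [sc_Pt_const hF.B] at h1

/-! ### the standard terminal datum -/

theorem scd_LC_ad {a : ℝ} (ha : 0 < a) : ScAd a (scLC a) := ScAd.logcosh ha

theorem scd_LC_ge {a : ℝ} (ha : 0 < a) (z : ℝ) : a * scSech a z ≤ deriv (deriv (scLC a)) z := by
  rw [scb_LC_deriv2 ha.ne']
  exact le_rfl

/-- a bounded observable which is small where `|u|` is close to `1`: `|g| ≤ C sqrt (1 - tanh² (a z))` at the end -/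
theorem scd_LC_decay_obs {a : ℝ} (ha : 0 < a) {π : List (ℝ × ℝ)} (hπ : ScAdm a π) (hi : ScInc π) {s : ℝ} (h0 : 0 ≤ s)
    (hs : s ≤ scLen π) {μ : ℝ} (hμ0 : 0 ≤ μ) (hμ : ∀ r ∈ Ico s (scLen π), μ ≤ scAl π r) {g : ℝ → ℝ} (hg : ScE 0 g)
    {C : ℝ} (hC : ∀ y, |g y| ≤ C * (Real.cosh (a * y))⁻¹) (z : ℝ) :
    |scPt (scLC a) π s (scLen π) g z| ≤ C * Real.exp (-(μ ^ 2 * (scLen π - s) / 2)) := by
  have hF := scd_LC_ad ha
  have hl := scd_low_LC ha.ne'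
  have hRt : scRt (scLC a) π (scLen π) = fun y => (Real.cosh (a * y))⁻¹ := by
    funext y
    unfold scRt
    rw [scD_one, sc_Vt_len _ hπ.pos, scb_LC_deriv ha.ne']
    have e : 1 - Real.tanh (a * y) ^ 2 = ((Real.cosh (a * y))⁻¹) ^ 2 := scd_sech_eq a y
    simp only
    rw [e, Real.sqrt_sq (inv_pos.2 (Real.cosh_pos _)).le]
  have hC0 : 0 ≤ C := by
    have h1 := (abs_nonneg _).trans (hC 0)
    simpa using h1
  have hRtE : ScE 0 (scRt (scLC a) π (scLen π)) :=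
    ((scd_rt_T hF ha (scd_LC_ge ha) hπ).scE ⟨h0.trans hs, le_rfl⟩).mono (by omega)
  have hdec := scd_decay hF hl ha (scd_LC_ge ha) hπ hi h0 hs le_rfl hμ0 hμ z
  have h3 := scd_rt_le_one (scLC a) π s z
  have hE := Real.exp_pos (-(μ ^ 2 * (scLen π - s) / 2))
  have hub : C * scPt (scLC a) π s (scLen π) (scRt (scLC a) π (scLen π)) z
      ≤ C * Real.exp (-(μ ^ 2 * (scLen π - s) / 2)) := by
    calc C * scPt (scLC a) π s (scLen π) (scRt (scLC a) π (scLen π)) z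
        ≤ C * (Real.exp (-(μ ^ 2 * (scLen π - s) / 2)) * scRt (scLC a) π s z) := by gcongr
      _ ≤ C * (Real.exp (-(μ ^ 2 * (scLen π - s) / 2)) * 1) := by gcongr
      _ = _ := by ring
  have hle1 : scPt (scLC a) π s (scLen π) g z
      ≤ C * scPt (scLC a) π s (scLen π) (scRt (scLC a) π (scLen π)) z := by
    have := sc_Pt_mono hF.B hg (hRtE.const_mul C) (fun y => by
      rw [hRt]; exact (le_abs_self _).trans (hC y)) π s (scLen π) z
    rwa [sc_Pt_const_mul] at this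
  have hle2 : -(C * scPt (scLC a) π s (scLen π) (scRt (scLC a) π (scLen π)) z)
      ≤ scPt (scLC a) π s (scLen π) g z := by
    have := sc_Pt_mono hF.B (hRtE.const_mul (-C)) hg (fun y => by
      rw [hRt]
      have := (abs_le.1 (hC y)).1
      simp only
      linarith) π s (scLen π) z
    rw [sc_Pt_const_mul] at this
    linarith
  rw [abs_le]
  exact ⟨by linarith, by linarith⟩

end Claimed.Agent.R286
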