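import Claimed.Agent.R286.Sc.Par
import Claimed.Agent.R286.Sc.Decay
import Claimed.Agent.R286.Sc.MomG
import Claimed.Agent.R286.Sc.LscV
import Claimed.Agent.R286.Sc.CurvX
import Claimed.Agent.R286.Sc.Bound2
import Claimed.Agent.R286.Exit.ScGen
import Claimed.Agent.R286.LL.PathsDer
import Claimed.Agent.R286.LL.PathsReg

/-!
# Row 286 (S0533), BOX-C: the scalar model is Lipschitz in the TERMINAL MASS      (owner helper265; prefix `scj_`)

TEX[LL:paths:parameter-regularity]#256-368      ruling of helper183 (04:55Z): the fields `jU`, `jE` of `LppOk2` (`LL/PathsReg.lean` sec. 0) by the CONCRETE route.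
* `d/dj V_j(t,.) = P^j_{t,M}[scLCd j]` is EXACT at step level (`Sc/Par.lean`: `ScFam.Vt`, `ScObs.abs_sub_le`);   `scLCd j - log 2 / j^2` is `O(sech)` (`scq_LCd_bound`), so that its conditional
  expectation is `<= C exp(-mu^2 (M - s)/2)` when the masses are `>= mu` on `[s,M)` (`scd_LC_decay_obs`, `Sc/Decay.lean`);   tau-free bounds of all the derivatives (`sc_tau_Pt`) + the Landau ladder `scj_ladder`.
* sec. 2 step level `scj_D_exp_step`;   sec. 3 general coefficients `scj_aD_exp` (dyadic limit);   sec. 4 comparison of the laws for two terminal data (`scj_cmp`, `scj_cmp2`; not used by the exits);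
* sec. 5 **EXITS** `scj_jU`, `scj_jE` : `M.Ok -> LscIdSc M -> ..  LrgJU / LrgJE (lppOf M)`.      DEBT: `scq_LC` (`Sc/Par.lean` sec. D, helper100).
-/

set_option autoImplicit false

namespace Claimed.Agent.R286

open MeasureTheory ProbabilityTheory Filter Topology Set

/-! ## 0. tools -/

theorem scj_adm_weaken {a a' : ℝ} (h : a ≤ a') {π : List (ℝ × ℝ)} (hπ : ScAdm a π) : ScAdm a' π :=
  fun p hp => ⟨(hπ p hp).1, (hπ p hp).2.1.trans h, (hπ p hp).2.2⟩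

/-- class `ScN` from the classes `ScE` and bounds of the iterated derivatives -/
theorem scj_N_of_E (n : ℕ) : ∀ {φ : ℝ → ℝ} {K : ℝ}, ScE n φ → (∀ k ≤ n, ∀ y, |deriv^[k] φ y| ≤ K) → ScN n K φ := by
  induction n with
  | zero =>
    intro φ K h hb
    exact ⟨h.1, fun z => hb 0 le_rfl z⟩
  | succ n ih =>
    intro φ K h hb
    refine ⟨fun z => hb 0 (Nat.zero_le _) z, h.2.2.1, ih h.2.2.2 fun k hk y => ?_⟩
    have := hb (k + 1) (by omega) y
    rwa [Function.iterate_succ_apply] at this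

/-- **the Landau ladder with exponential rates**: a function which is exponentially small, with `k + 1` bounded derivatives, has an exponentially small derivative of order `k` (half of the rate is lost at each order) -/
theorem scj_ladder (k : ℕ) (B C0 : ℝ) : ∃ C : ℝ, 0 ≤ C ∧ ∀ (g : ℝ → ℝ) (c : ℝ), ScN (k + 1) B g →
    (∀ z, |g z| ≤ C0 * Real.exp (-c)) → ∀ z, |deriv^[k] g z| ≤ C * Real.exp (-(c / 2 ^ k)) := by
  induction k with
  | zero =>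
    refine ⟨|C0|, abs_nonneg _, fun g c _ h z => ?_⟩
    simp only [Function.iterate_zero, id_eq, pow_zero, div_one]
    exact (h z).trans (mul_le_mul_of_nonneg_right (le_abs_self _) (Real.exp_pos _).le)
  | succ k ih =>
    obtain ⟨C, hC, H⟩ := ih
    refine ⟨2 * Real.sqrt (C * |B|), by positivity, fun g c hg h z => ?_⟩
    have h1 := H g c hg.of_succ h
    have hN : ScN 2 B (deriv^[k] g) := ScN.iter_der (n := 2) k (by rw [show 2 + k = k + 1 + 1 by ring]; exact hg)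
    have d1 : ∀ x, HasDerivAt (deriv^[k] g) (deriv^[k + 1] g x) x := fun x => by
      rw [Function.iterate_succ_apply']
      exact (hN.2.1 x).hasDerivAt
    have d2 : ∀ x, HasDerivAt (deriv^[k + 1] g) (deriv^[k + 2] g x) x := fun x => by
      rw [Function.iterate_succ_apply' deriv (k + 1), Function.iterate_succ']
      exact (hN.der.2.1 x).hasDerivAt
    have b2 : ∀ x, |deriv^[k + 2] g x| ≤ |B| := fun x => by
      have := hN.der.der.bd x
      rw [Function.iterate_succ_apply' deriv (k + 1), Function.iterate_succ_apply' deriv k]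
      exact this.trans (le_abs_self _)
    have := sck_landau d1 d2 h1 b2 z
    refine this.trans (le_of_eq ?_)
    have e : C * Real.exp (-(c / 2 ^ k)) * |B| = (C * |B|) * (Real.exp (-(c / 2 ^ (k + 1)))) ^ 2 := by
      rw [← Real.exp_nat_mul]
      have : ((2 : ℕ) : ℝ) * -(c / 2 ^ (k + 1)) = -(c / 2 ^ k) := by
        rw [pow_succ]; push_cast; field_simp
      rw [this]; ring
    rw [e, Real.sqrt_mul (by positivity), Real.sqrt_sq (Real.exp_pos _).le]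
    ring


/-! ## 1. the terminal mass as a parameter: uniform classes -/

theorem scj_LCd_bdd {j0 : ℝ} (h0 : 0 < j0) (J : ℝ) (n : ℕ) :
    ∃ M1 : ℝ, 0 ≤ M1 ∧ ∀ k ≤ n, ∀ θ ∈ Icc j0 J, ∀ z, |deriv^[k] (scLCd θ) z| ≤ M1 := by
  induction n with
  | zero =>
    obtain ⟨C, hC⟩ := (scq_LC (j₁ := J) h0).dbdd 0
    exact ⟨|C|, abs_nonneg _, fun k hk θ hθ z => by
      obtain rfl : k = 0 := by omega
      exact (hC θ hθ z).trans (le_abs_self _)⟩
  | succ n ih =>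
    obtain ⟨M1, hM1, H⟩ := ih
    obtain ⟨C, hC⟩ := (scq_LC (j₁ := J) h0).dbdd (n + 1)
    refine ⟨M1 + |C|, by positivity, fun k hk θ hθ z => ?_⟩
    rcases Nat.lt_or_ge k (n + 1) with h | h
    · exact (H k (by omega) θ hθ z).trans (by linarith [abs_nonneg C])
    · obtain rfl : k = n + 1 := by omega
      exact (hC θ hθ z).trans (by linarith [le_abs_self C])

/-- the centred derivative of the terminal datum in the terminal mass, uniformly in the class `ScN` -/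
theorem scj_LCd_N {j0 : ℝ} (h0 : 0 < j0) (J : ℝ) (n : ℕ) :
    ∃ M0 : ℝ, 0 ≤ M0 ∧ ∀ θ ∈ Icc j0 J, ScN n M0 (scLCd θ) ∧ ScN n M0 (fun y => scLCd θ y - Real.log 2 / θ ^ 2) := by
  obtain ⟨M1, hM1, H⟩ := scj_LCd_bdd h0 J n
  have hl : 0 ≤ Real.log 2 := Real.log_nonneg (by norm_num)
  refine ⟨M1 + Real.log 2 / j0 ^ 2, by positivity, fun θ hθ => ?_⟩
  have hE : ScE n (scLCd θ) := ((scq_LC (j₁ := J) h0).obs.dreg n).scE hθ
  have hN : ScN n M1 (scLCd θ) := scj_N_of_E n hE fun k hk y => H k hk θ hθ y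
  have hθ0 : 0 < θ := lt_of_lt_of_le h0 hθ.1
  have hc : |Real.log 2 / θ ^ 2| ≤ Real.log 2 / j0 ^ 2 := by
    rw [abs_of_nonneg (by positivity)]
    exact div_le_div_of_nonneg_left hl (by positivity) (pow_le_pow_left₀ h0.le hθ.1 2)
  exact ⟨hN.weaken (by linarith [show 0 ≤ Real.log 2 / j0 ^ 2 by positivity]),
    (hN.sub (ScN.const n (Real.log 2 / θ ^ 2))).weaken (by linarith)⟩

/-- derivatives of positive order do not see an additive constant -/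
theorem scj_iter_add_const (f : ℝ → ℝ) (c : ℝ) {k : ℕ} (hk : 1 ≤ k) : deriv^[k] (fun z => f z + c) = deriv^[k] f := by
  obtain ⟨m, rfl⟩ : ∃ m, k = m + 1 := ⟨k - 1, by omega⟩
  rw [Function.iterate_succ_apply, Function.iterate_succ_apply]
  congr 1
  funext z
  exact deriv_add_const c

/-! ## 2. (J1) at step level -/

/-- **(J1), step level.**   The derivatives of order `k ≥ 1` of the continuation are Lipschitz in the terminal mass with an EXPONENTIALLY SMALL constant, when the masses are `≥ μ` on `[s, len)`. -/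
theorem scj_D_exp_step {j0 : ℝ} (h0 : 0 < j0) (J : ℝ) {k : ℕ} (hk : 1 ≤ k) : ∃ C : ℝ, 0 ≤ C ∧
    ∀ (j1 j2 : ℝ) (π : List (ℝ × ℝ)) (μ s t : ℝ), j0 ≤ j1 → j1 ≤ j2 → j2 ≤ J → ScAdm j1 π → ScInc π → 0 ≤ t → t ≤ s →
      s ≤ scLen π → 0 ≤ μ → (∀ r ∈ Ico s (scLen π), μ ≤ scAl π r) → ∀ z,
      |scD k (scLC j2) π t z - scD k (scLC j1) π t z| ≤ C * Real.exp (-(μ ^ 2 * (scLen π - s) / 2 / 2 ^ k)) * (j2 - j1) := by
  obtain ⟨M0, hM0, HM⟩ := scj_LCd_N h0 J (k + 1)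
  obtain ⟨B, hB, HB⟩ := lsi_LC_N (k + 1) J
  obtain ⟨K, hK1, HK⟩ := sc_tau_Pt (a := |J|) (abs_nonneg J) (k + 1) hB
  obtain ⟨C, hC, HC⟩ := scj_ladder k (K * M0) (2 / j0 ^ 2)
  refine ⟨C, hC, fun j1 j2 π μ s t h01 h12 h2J hπ hi ht hts hs hμ0 hμ z => ?_⟩
  have fam : ScFam j1 j2 scLC scLCd := (scq_LC (j₁ := J) h0).sub_interval h01 h2J
  refine ((fam.Vt hπ.pos ht).obs.dz_iter k).abs_sub_le h12 fun θ hθ => ?_
  have hθI : θ ∈ Icc j0 J := ⟨h01.trans hθ.1, hθ.2.trans h2J⟩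
  have hθ0 : 0 < θ := lt_of_lt_of_le h0 hθI.1
  have hF : ScBI (scLC θ) := sc_logcosh_BI θ
  have hπθ : ScAdm θ π := scj_adm_weaken hθ.1 hπ
  have hπJ : ScAdm |J| π := scj_adm_weaken (hθI.2.trans (le_abs_self J)) hπθ
  obtain ⟨hN1, hN2⟩ := HM θ hθI
  set g : ℝ → ℝ := fun y => scLCd θ y - Real.log 2 / θ ^ 2 with hg
  have hgE : ScE 0 g := (hN2.mono (Nat.zero_le _)).scE
  -- the kernel applied to the centred datum
  have e1 : scPt (scLC θ) π t (scLen π) (scLCd θ) = fun z => scPt (scLC θ) π t (scLen π) g z + Real.log 2 / θ ^ 2 := by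
    have h1 := sc_Pt_add hF hgE (ScE.const 0 (Real.log 2 / θ ^ 2)) π t (scLen π)
    rw [sc_Pt_const hF] at h1
    rw [← h1]
    congr 1
    funext y
    simp [hg]
  show |deriv^[k] (scPt (scLC θ) π t (scLen π) (scLCd θ)) z| ≤ _
  rw [e1, scj_iter_add_const _ _ hk]
  refine HC _ _ (HK (scLC θ) π g M0 hF (HB θ (by rw [abs_of_pos hθ0]; exact hθI.2) hθ0.ne') hπJ hi hN2 t (scLen π)) (fun y => ?_) z
  rw [← sc_Pt_Pt hF hgE hπ.pos hts hs]
  refine sc_Pt_abs_le hF (sc_Pt_E hF hgE π s (scLen π)).1 (fun x => ?_) π t s y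
  have hd := scd_LC_decay_obs hθ0 hπθ hi (ht.trans hts) hs hμ0 hμ hgE (C := 2 / θ ^ 2) (fun y => scq_LCd_bound hθ0 y) x
  refine hd.trans (mul_le_mul_of_nonneg_right ?_ (Real.exp_pos _).le)
  exact div_le_div_of_nonneg_left (by norm_num) (by positivity) (pow_le_pow_left₀ h0.le hθI.1 2)


/-! ## 3. (J1) for a general coefficient -/

/-- shifted starting time of the lower bound of the masses for the dyadic approximants -/
noncomputable def scjS (R M : ℝ) (n : ℕ) : ℝ := min (R + M / 2 ^ n) M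

theorem scj_S_tendsto {R M : ℝ} (hRM : R ≤ M) : Tendsto (scjS R M) atTop (𝓝 R) := by
  have h1 : Tendsto (fun n : ℕ => M / 2 ^ n) atTop (𝓝 0) := by
    have := (tendsto_pow_atTop_nhds_zero_of_lt_one (r := (1 / 2 : ℝ)) (by norm_num) (by norm_num)).const_mul M
    rw [mul_zero] at this
    refine this.congr fun n => ?_
    rw [one_div, inv_pow, div_eq_mul_inv]
  have h2 : Tendsto (fun n : ℕ => min (R + M / 2 ^ n) M) atTop (𝓝 (min (R + 0) M)) :=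
    (tendsto_const_nhds.add h1).min tendsto_const_nhds
  rwa [add_zero, min_eq_left hRM] at h2

theorem scj_dy_low {α : ℝ → ℝ} {R M μ : ℝ} (hR : 0 ≤ R) (hμ : ∀ r ∈ Ico R M, μ ≤ α r) (n : ℕ) :
    ∀ r ∈ Ico (scjS R M n) (scLen (scDy α M n)), μ ≤ scAl (scDy α M n) r := by
  intro r hr
  rw [sc_dy_len] at hr
  have hM : 0 < M := by
    by_contra hcon
    push Not at hcon
    have h1 : M ≤ scjS R M n := by
      unfold scjS
      refine le_min ?_ le_rfl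
      have : M / 2 ^ n ≥ M := by
        rw [ge_iff_le, le_div_iff₀ (by positivity)]
        have h2 : (1 : ℝ) ≤ 2 ^ n := one_le_pow₀ (by norm_num)
        nlinarith
      linarith
    linarith [hr.1, hr.2]
  have hs : R + M / 2 ^ n ≤ r := by
    have := hr.1
    unfold scjS at this
    rcases le_total (R + M / 2 ^ n) M with h | h
    · rwa [min_eq_left h] at this
    · rw [min_eq_right h] at this; linarith [hr.2]
  have hr0 : r ∈ Ico 0 M := ⟨by have : 0 ≤ M / 2 ^ n := by positivity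
                                linarith, hr.2⟩
  obtain ⟨k, hk, h1, h2⟩ := sc_dy_cell_exists n hr0
  rw [sc_dy_al_cell α M n k hk h1 h2]
  refine hμ _ ⟨?_, lt_of_le_of_lt h1 hr.2⟩
  have : ((k : ℝ) + 1) * (M / 2 ^ n) = k * (M / 2 ^ n) + M / 2 ^ n := by ring
  linarith

/-- **(J1)**: TEX[LL:paths:parameter-regularity] `sup |∂_j ∂_z^k V̂_j| ≤ C_k e^{-c_k M}` in Lipschitz form; general coefficient `α` on `[0,M]`, masses `≥ μ` on `[R,M)`, times `t ≤ R`;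
the constant depends on `(j0, J, k)` only. -/
theorem scj_aD_exp {j0 : ℝ} (h0 : 0 < j0) (J : ℝ) {k : ℕ} (hk : 1 ≤ k) : ∃ C : ℝ, 0 ≤ C ∧
    ∀ (j1 j2 M : ℝ) (α : ℝ → ℝ) (μ R t : ℝ), j0 ≤ j1 → j1 ≤ j2 → j2 ≤ J → ScCoef j1 M α → 0 ≤ t → t ≤ R → R ≤ M → 0 ≤ μ →
      (∀ r ∈ Ico R M, μ ≤ α r) → ∀ z,
      |scaD k (scLC j2) α M t z - scaD k (scLC j1) α M t z| ≤ C * Real.exp (-(μ ^ 2 * (M - R) / 2 / 2 ^ k)) * (j2 - j1) := by
  obtain ⟨C, hC, H⟩ := scj_D_exp_step h0 J hk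
  refine ⟨C, hC, fun j1 j2 M α μ R t h01 h12 h2J hα ht htR hRM hμ0 hμ z => ?_⟩
  have hM : 0 ≤ M := (ht.trans htR).trans hRM
  have l1 := scg_dy_tendsto (sc_logcosh_BI j2) hM hα k ht z
  have l2 := scg_dy_tendsto (sc_logcosh_BI j1) hM hα k ht z
  have hΦ : Continuous fun x : ℝ => C * Real.exp (-(μ ^ 2 * (M - x) / 2 / 2 ^ k)) * (j2 - j1) := by fun_prop
  have l3 := (hΦ.tendsto R).comp (scj_S_tendsto hRM)
  refine le_of_tendsto_of_tendsto' (l1.sub l2).abs l3 fun n => ?_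
  have hsn : t ≤ scjS R M n := le_min (by have : 0 ≤ M / 2 ^ n := by positivity
                                          linarith) (htR.trans hRM)
  have := H j1 j2 (scDy α M n) μ (scjS R M n) t h01 h12 h2J (sc_dy_adm hM hα n) (sc_dy_inc hM hα n) ht hsn
    (by rw [sc_dy_len]; exact min_le_right _ _) hμ0 (scj_dy_low (ht.trans htR) hμ n) z
  rwa [sc_dy_len] at this


/-! ## 4. two terminal data, one profile: comparison of the laws (Duhamel, tau-free gradient bound) -/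

/-- **Duhamel for two terminal data**: `|E^F ψ(Z_ξ) - E^{F'} ψ(Z_ξ)| ≤ a D K ‖ψ‖_{C¹} ξ` if `|u_F - u_{F'}| ≤ D` on `[0,ξ]`;   `K = K(a, A)` is free of the profile and of the horizon -/
theorem scj_cmp {a : ℝ} (ha : 0 ≤ a) {A : ℝ} (hA : 0 ≤ A) : ∃ K : ℝ, 1 ≤ K ∧
    ∀ (F F' : ℝ → ℝ) (π : List (ℝ × ℝ)) (ψ : ℝ → ℝ) (M1 D ξ : ℝ), ScBI F → ScBI F' → ScN 1 A (deriv F') → ScAdm a π → ScInc π →
      ScE 2 ψ → ScN 1 M1 ψ → 0 ≤ ξ → ξ ≤ scLen π → (∀ r ∈ Icc 0 ξ, ∀ y, |scD 1 F π r y - scD 1 F' π r y| ≤ D) →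
      |scPt F π 0 ξ ψ 0 - scPt F' π 0 ξ ψ 0| ≤ a * D * (K * M1) * ξ := by
  obtain ⟨K, hK1, HK⟩ := sc_tau_Pt ha 1 hA
  refine ⟨K, hK1, fun F F' π ψ M1 D ξ hF hF' hN hπ hi hψ hψN hξ hξl hD => ?_⟩
  rw [sc_duhamel_P hF hF' hψ hπ.pos hπ.pos le_rfl hξ hξl hξl 0]
  have hb : ∀ r ∈ Set.uIoc 0 ξ, ‖scPt F π 0 r (fun y => (scAl π r * scD 1 F π r y - scAl π r * scD 1 F' π r y)
      * deriv (scPt F' π r ξ ψ) y) 0‖ ≤ a * D * (K * M1) := by
    intro r hr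
    rw [uIoc_of_le hξ] at hr
    have hrI : r ∈ Icc 0 ξ := ⟨hr.1.le, hr.2⟩
    have hP : ScN 1 (K * M1) (scPt F' π r ξ ψ) := HK F' π ψ M1 hF' hN hπ hi hψN r ξ
    have hal := sc_dy_al_mem ha hπ r
    rw [Real.norm_eq_abs]
    refine sc_Pt_abs_le hF ?_ (fun y => ?_) π 0 r 0
    · exact ((continuous_const.mul (sc_D_E hF 1 0 π r).1).sub (continuous_const.mul (sc_D_E hF' 1 0 π r).1)).mul hP.der.continuous
    · have e : scAl π r * scD 1 F π r y - scAl π r * scD 1 F' π r y = scAl π r * (scD 1 F π r y - scD 1 F' π r y) := by ring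
      rw [e, abs_mul, abs_mul, abs_of_nonneg hal.1]
      have h1 := hD r hrI y
      have h2 := hP.der.bd y
      have hD0 : 0 ≤ D := (abs_nonneg _).trans h1
      exact mul_le_mul (mul_le_mul hal.2 h1 (abs_nonneg _) ha) h2 (abs_nonneg _) (mul_nonneg ha hD0)
  have := intervalIntegral.norm_integral_le_of_norm_le_const hb
  rwa [Real.norm_eq_abs, sub_zero, abs_of_nonneg hξ] at this

/-- moving tests: `|E^F ψ - E^{F'} ψ'| ≤ E^F φ0 + a D K ‖ψ'‖_{C¹} ξ` if `|ψ - ψ'| ≤ φ0` -/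
theorem scj_cmp2 {a : ℝ} (ha : 0 ≤ a) {A : ℝ} (hA : 0 ≤ A) : ∃ K : ℝ, 1 ≤ K ∧
    ∀ (F F' : ℝ → ℝ) (π : List (ℝ × ℝ)) (ψ ψ' φ0 : ℝ → ℝ) (M1 D ξ : ℝ), ScBI F → ScBI F' → ScN 1 A (deriv F') → ScAdm a π → ScInc π →
      ScE 0 ψ → ScE 2 ψ' → ScN 1 M1 ψ' → ScE 0 φ0 → (∀ y, |ψ y - ψ' y| ≤ φ0 y) → 0 ≤ ξ → ξ ≤ scLen π →
      (∀ r ∈ Icc 0 ξ, ∀ y, |scD 1 F π r y - scD 1 F' π r y| ≤ D) →
      |scPt F π 0 ξ ψ 0 - scPt F' π 0 ξ ψ' 0| ≤ scPt F π 0 ξ φ0 0 + a * D * (K * M1) * ξ := by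
  obtain ⟨K, hK1, HK⟩ := scj_cmp ha hA
  refine ⟨K, hK1, fun F F' π ψ ψ' φ0 M1 D ξ hF hF' hN hπ hi hψ hψ' hψN hφ0 hd hξ hξl hD => ?_⟩
  have h1 := HK F F' π ψ' M1 D ξ hF hF' hN hπ hi hψ' hψN hξ hξl hD
  have hψ'0 : ScE 0 ψ' := hψ'.mono (Nat.zero_le _)
  have h2 := scb_Pt_abs_le_of hF (hψ.sub hψ'0) hφ0 hd π 0 ξ 0
  rw [sc_Pt_sub hF hψ hψ'0] at h2
  have e : scPt F π 0 ξ ψ 0 - scPt F' π 0 ξ ψ' 0
      = (scPt F π 0 ξ ψ 0 - scPt F π 0 ξ ψ' 0) + (scPt F π 0 ξ ψ' 0 - scPt F' π 0 ξ ψ' 0) := by ring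
  rw [e]
  exact (abs_add_le _ _).trans (add_le_add h2 h1)

/-! ## 5. the exits: `LrgJU`, `LrgJE` at `lppOf M` -/

/-- the terminal datum itself -/
theorem scj_LC_lip {j0 : ℝ} (h0 : 0 < j0) (J : ℝ) (k : ℕ) : ∃ C : ℝ, 0 ≤ C ∧ ∀ j1 j2 : ℝ, j0 ≤ j1 → j1 ≤ j2 → j2 ≤ J → ∀ z,
    |deriv^[k] (scLC j2) z - deriv^[k] (scLC j1) z| ≤ C * (j2 - j1) := by
  obtain ⟨C, hC, H⟩ := scj_LCd_bdd h0 J k
  refine ⟨C, hC, fun j1 j2 h01 h12 h2J z => ?_⟩
  have fam : ScFam j1 j2 scLC scLCd := (scq_LC (j₁ := J) h0).sub_interval h01 h2J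
  exact (fam.obs.dz_iter k).abs_sub_le h12 fun θ hθ => H k le_rfl θ ⟨h01.trans hθ.1, hθ.2.trans h2J⟩ z

theorem scj_cap_prof {A : ℝ → ℝ} {Mh j : ℝ} (hMh : 0 ≤ Mh) (hA : LppAdm (lppCap A Mh j) j) : LscProf j Mh (lppCap A Mh j) :=
  lpt_prof hA hMh fun ξ hξ => by unfold lppCap; rw [if_neg (not_lt.2 hξ)]

/-- after the cap the continuation is explicit -/
theorem scj_vk_top {M : LscMod} (hM : M.Ok) {k : ℕ} (hk : 1 ≤ k) {A : ℝ → ℝ} {Mh j : ℝ} (hMh : 0 ≤ Mh)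
    (hA : LppAdm (lppCap A Mh j) j) {ξ : ℝ} (hξ : Mh ≤ ξ) : (lppOf M).vk k (lppCap A Mh j) j ξ = deriv^[k] (scLC j) := by
  have hj : 0 < j := by linarith [hA.j1]
  rw [lpd_vk]
  unfold LscMod.D
  have e : M.V (lppCap A Mh j) j ξ = fun z => scLC j z + (-(j * ξ / 2)) := by
    funext z
    rw [hM.V_top hj (scj_cap_prof hMh hA) ξ hξ z]
    unfold scLC
    ring
  rw [e, scj_iter_add_const _ _ hk]

/-- before the cap: the concrete model with the horizon at the cap, ONE coefficient for the two terminal masses -/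
theorem scj_vk_low {M : LscMod} (hid : LscIdSc M) {k : ℕ} (hk : 1 ≤ k) {A : ℝ → ℝ} {Mh j : ℝ} (hMh : 0 < Mh)
    (hA : LppAdm (lppCap A Mh j) j) (j1 : ℝ) {ξ : ℝ} (hξ : ξ ∈ Icc 0 Mh) :
    (lppOf M).vk k (lppCap A Mh j) j ξ = scaD k (scLC j) (lppCap A Mh j1) Mh ξ := by
  have hj : 0 < j := by linarith [hA.j1]
  obtain ⟨m, rfl⟩ : ∃ m, k = m + 1 := ⟨k - 1, by omega⟩
  rw [lpd_vk, lsc_id_D hid hj (scj_cap_prof hMh.le hA) le_rfl hξ m]
  unfold scaD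
  rw [scg_congr (scLC j) hMh (α := lppCap A Mh j) (β := lppCap A Mh j1) fun r hr => by
    unfold lppCap; rw [if_pos hr.2, if_pos hr.2]]

/-- the ordered form of the two exits -/
theorem scj_ord {M : LscMod} (hM : M.Ok) (hid : LscIdSc M) {k : ℕ} (hk : 1 ≤ k) : ∃ C : ℝ, 0 ≤ C ∧
    ∀ (A : ℝ → ℝ) (Mh j j' R μ : ℝ), 0 ≤ R → R ≤ Mh → j ≤ j' → LppAdm (lppCap A Mh j) j → LppAdm (lppCap A Mh j') j' → 0 ≤ μ →
      (∀ r ∈ Ico R Mh, μ ≤ A r) → ∀ ξ ∈ Icc 0 R, ∀ z,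
      |(lppOf M).vk k (lppCap A Mh j') j' ξ z - (lppOf M).vk k (lppCap A Mh j) j ξ z|
        ≤ C * Real.exp (-(μ ^ 2 / 2 / 2 ^ k) * (Mh - R)) * (j' - j) := by
  obtain ⟨C1, hC1, H1⟩ := scj_aD_exp one_pos 4 hk
  obtain ⟨C2, hC2, H2⟩ := scj_LC_lip one_pos 4 k
  refine ⟨max C1 C2, hC1.trans (le_max_left _ _), fun A Mh j j' R μ hR hRM hjj hA hA' hμ0 hμ ξ hξ z => ?_⟩
  have hd : 0 ≤ j' - j := sub_nonneg.2 hjj
  rcases lt_or_ge ξ Mh with h | h
  · have hMh : 0 < Mh := lt_of_le_of_lt hξ.1 h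
    have hξM : ξ ∈ Icc 0 Mh := ⟨hξ.1, h.le⟩
    rw [scj_vk_low hid hk hMh hA' j hξM, scj_vk_low hid hk hMh hA j hξM]
    have := H1 j j' Mh (lppCap A Mh j) μ R ξ hA.j1 hjj hA'.j4 ((scj_cap_prof hMh.le hA).coef Mh) hξ.1 hξ.2 hRM hμ0
      (fun r hr => by unfold lppCap; rw [if_pos hr.2]; exact hμ r hr) z
    have e : -(μ ^ 2 * (Mh - R) / 2 / 2 ^ k) = -(μ ^ 2 / 2 / 2 ^ k) * (Mh - R) := by ring
    rw [e] at this
    exact this.trans (mul_le_mul_of_nonneg_right (mul_le_mul_of_nonneg_right (le_max_left _ _) (Real.exp_pos _).le) hd)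
  · have hMh : 0 ≤ Mh := hR.trans hRM
    have hRM' : Mh - R = 0 := by linarith [hξ.2]
    rw [scj_vk_top hM hk hMh hA' h, scj_vk_top hM hk hMh hA h, hRM', mul_zero, Real.exp_zero, mul_one]
    exact (H2 j j' hA.j1 hjj hA'.j4 z).trans (mul_le_mul_of_nonneg_right (le_max_right _ _) hd)

/-- **EXIT `jE`** (field of `LppOk2`): the terminal mass is exponentially invisible before `R` if the masses are `≥ a0` on `[R,M)` -/
theorem scj_jE {M : LscMod} (hM : M.Ok) (hid : LscIdSc M) (k : ℕ) (hk : 1 ≤ k) (a0 : ℝ) (ha0 : 0 < a0) :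
    ∃ C c : ℝ, 0 < c ∧ LrgJE (lppOf M) k a0 C c := by
  obtain ⟨C, hC, H⟩ := scj_ord hM hid hk
  refine ⟨C, a0 ^ 2 / 2 / 2 ^ k, by positivity, fun A Mh j j' R hR hRM hA hA' hlow ξ hξ z => ?_⟩
  rcases le_total j j' with h | h
  · rw [abs_of_nonneg (sub_nonneg.2 h)]
    exact H A Mh j j' R a0 hR hRM h hA hA' ha0.le hlow ξ hξ z
  · rw [abs_sub_comm, abs_sub_comm j' j, abs_of_nonneg (sub_nonneg.2 h)]
    exact H A Mh j' j R a0 hR hRM h hA' hA ha0.le hlow ξ hξ z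

/-- **EXIT `jU`** (field of `LppOk2`): Lipschitz dependence on the terminal mass, all times, all orders `k ≥ 1`, tau-free -/
theorem scj_jU {M : LscMod} (hM : M.Ok) (hid : LscIdSc M) (k : ℕ) (hk : 1 ≤ k) : ∃ C : ℝ, LrgJU (lppOf M) k C := by
  obtain ⟨C1, hC1, H1⟩ := scj_ord hM hid hk
  obtain ⟨C2, hC2, H2⟩ := scj_LC_lip one_pos 4 k
  have key : ∀ (A : ℝ → ℝ) (Mh j j' : ℝ), 0 ≤ Mh → j ≤ j' → LppAdm (lppCap A Mh j) j → LppAdm (lppCap A Mh j') j' → ∀ ξ, 0 ≤ ξ → ∀ z,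
      |(lppOf M).vk k (lppCap A Mh j') j' ξ z - (lppOf M).vk k (lppCap A Mh j) j ξ z| ≤ max C1 C2 * (j' - j) := by
    intro A Mh j j' hMh hjj hA hA' ξ hξ z
    have hd : 0 ≤ j' - j := sub_nonneg.2 hjj
    rcases le_total ξ Mh with h | h
    · have := H1 A Mh j j' Mh 0 hMh le_rfl hjj hA hA' le_rfl (fun r hr => absurd hr.2 (not_lt.2 hr.1)) ξ ⟨hξ, h⟩ z
      rw [sub_self, mul_zero, Real.exp_zero, mul_one] at this
      exact this.trans (mul_le_mul_of_nonneg_right (le_max_left _ _) hd)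
    · rw [scj_vk_top hM hk hMh hA' h, scj_vk_top hM hk hMh hA h]
      exact (H2 j j' hA.j1 hjj hA'.j4 z).trans (mul_le_mul_of_nonneg_right (le_max_right _ _) hd)
  refine ⟨max C1 C2, fun A Mh j j' hMh hA hA' ξ hξ z => ?_⟩
  rcases le_total j j' with h | h
  · rw [abs_of_nonneg (sub_nonneg.2 h)]
    exact key A Mh j j' hMh h hA hA' ξ hξ z
  · rw [abs_sub_comm, abs_sub_comm j' j, abs_of_nonneg (sub_nonneg.2 h)]
    exact key A Mh j' j hMh h hA' hA ξ hξ z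

end Claimed.Agent.R286
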