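import Mathlib

/-!
# Row 286, scalar block: parabolic comparison on compact cylinders

`(shape:barrier)` of the full-support paper, with an arbitrary nonnegative diffusion
coefficient, an arbitrary drift, and a zeroth-order coefficient bounded above.
No regularity of the coefficients is used.
-/

set_option autoImplicit false

namespace Claimed.Agent.R286

open Set Filter Topology

/-- second-order necessary condition at an interior minimum on a neighbourhood. -/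
theorem sc_mp_second_nonneg {φ φ' : ℝ → ℝ} {x φ'' : ℝ}
    (hmin : IsLocalMin φ x)
    (h1 : ∀ᶠ y in 𝓝 x, HasDerivAt φ (φ' y) y)
    (h2 : HasDerivAt φ' φ'' x) : 0 ≤ φ'' := by
  by_contra hneg
  push Not at hneg
  have h0 : φ' x = 0 := by
    have := hmin.hasDerivAt_eq_zero h1.self_of_nhds
    exact this
  -- slope of φ' is negative near x
  have hslope : ∀ᶠ y in 𝓝[>] x, φ' y < 0 := by
    have hs := (hasDerivAt_iff_tendsto_slope.mp h2)
    have hs' : Tendsto (slope φ' x) (𝓝[>] x) (𝓝 φ'') :=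
      hs.mono_left (nhdsWithin_mono _ (fun y hy => ne_of_gt hy))
    have hev : ∀ᶠ y in 𝓝[>] x, slope φ' x y < 0 := hs'.eventually (gt_mem_nhds hneg)
    filter_upwards [hev, self_mem_nhdsWithin] with y hy hxy
    have hxy' : 0 < y - x := sub_pos.mpr hxy
    rw [slope_def_field, h0, sub_zero] at hy
    by_contra hcon
    push Not at hcon
    exact absurd hy (not_lt.mpr (div_nonneg hcon hxy'.le))
  -- collect everything on an interval
  have hall : ∀ᶠ y in 𝓝[>] x, φ' y < 0 ∧ HasDerivAt φ (φ' y) y ∧ φ x ≤ φ y :=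
    hslope.and ((h1.filter_mono nhdsWithin_le_nhds).and (hmin.filter_mono nhdsWithin_le_nhds))
  obtain ⟨c, hc, hIoo⟩ := (mem_nhdsGT_iff_exists_Ioo_subset).mp hall
  have hxc : x < c := hc
  set m := (x + c) / 2 with hm
  have hxm : x < m := by rw [hm]; linarith
  have hmc : m < c := by rw [hm]; linarith
  -- strictly decreasing on [x, m]
  have hanti : StrictAntiOn φ (Icc x m) := by
    apply strictAntiOn_of_deriv_neg (convex_Icc x m)
    · intro y hy
      rcases eq_or_lt_of_le hy.1 with rfl | hlt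
      · exact h1.self_of_nhds.continuousAt.continuousWithinAt
      · exact (hIoo ⟨hlt, lt_of_le_of_lt hy.2 hmc⟩).2.1.continuousAt.continuousWithinAt
    · intro y hy
      rw [interior_Icc] at hy
      have := hIoo ⟨hy.1, lt_trans hy.2 hmc⟩
      rw [this.2.1.deriv]
      exact this.1
  have h3 : φ m < φ x := hanti (left_mem_Icc.mpr hxm.le) (right_mem_Icc.mpr hxm.le) hxm
  have h4 : φ x ≤ φ m := (hIoo ⟨hxm, hmc⟩).2.2
  exact absurd h3 (not_lt.mpr h4)

/-- one-sided first-order condition in time: a minimum over `[t0, t]` attained at the right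
end has nonpositive left derivative. -/
theorem sc_mp_left_deriv_nonpos {ψ : ℝ → ℝ} {t0 t ψ' : ℝ} (h0 : t0 < t)
    (hmin : ∀ s ∈ Icc t0 t, ψ t ≤ ψ s)
    (hd : HasDerivWithinAt ψ ψ' (Iic t) t) : ψ' ≤ 0 := by
  by_contra hpos
  push Not at hpos
  have hs := (hasDerivWithinAt_iff_tendsto_slope.mp hd)
  have hset : Iic t \ {t} = Iio t := by
    ext y; simp [lt_iff_le_and_ne]
  rw [hset] at hs
  have hev : ∀ᶠ y in 𝓝[<] t, 0 < slope ψ t y := hs.eventually (lt_mem_nhds hpos)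
  have hev2 : ∀ᶠ y in 𝓝[<] t, y ∈ Ioo t0 t := Ioo_mem_nhdsLT h0
  obtain ⟨y, hy, hy2⟩ := (hev.and hev2).exists
  rw [slope_def_field] at hy
  have h1 : ψ t ≤ ψ y := hmin y ⟨hy2.1.le, hy2.2.le⟩
  have h2 : y - t < 0 := sub_neg.mpr hy2.2
  have h3 : (ψ y - ψ t) / (y - t) ≤ 0 :=
    div_nonpos_of_nonneg_of_nonpos (sub_nonneg.mpr h1) h2.le
  exact absurd hy (not_lt.mpr h3)

/-- **Parabolic comparison** `(shape:barrier)`.  On the compact cylinder `[t0,t1] × [a,b]`: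
if `u_t - A u_xx - B u_x - c u ≥ 0` in the interior (up to the final time), `A ≥ 0`, `c ≤ C`,
and `u ≥ -ε` on the parabolic boundary, then `u ≥ -ε e^{(max C 0 + 1)(t - t0)}`. -/
theorem sc_mp_barrier {u ut ux uxx A B c : ℝ → ℝ → ℝ} {t0 t1 a b C ε : ℝ}
    (hε : 0 ≤ ε)
    (hcont : ContinuousOn (fun p : ℝ × ℝ => u p.1 p.2) (Icc t0 t1 ×ˢ Icc a b))
    (ht : ∀ t ∈ Ioc t0 t1, ∀ x ∈ Ioo a b,
      HasDerivWithinAt (fun s => u s x) (ut t x) (Iic t) t)
    (hx : ∀ t ∈ Ioc t0 t1, ∀ x ∈ Ioo a b, HasDerivAt (fun y => u t y) (ux t x) x)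
    (hxx : ∀ t ∈ Ioc t0 t1, ∀ x ∈ Ioo a b, HasDerivAt (fun y => ux t y) (uxx t x) x)
    (hA : ∀ t ∈ Ioc t0 t1, ∀ x ∈ Ioo a b, 0 ≤ A t x)
    (hc : ∀ t ∈ Ioc t0 t1, ∀ x ∈ Ioo a b, c t x ≤ C)
    (hpde : ∀ t ∈ Ioc t0 t1, ∀ x ∈ Ioo a b,
      0 ≤ ut t x - A t x * uxx t x - B t x * ux t x - c t x * u t x)
    (hinit : ∀ x ∈ Icc a b, -ε ≤ u t0 x)
    (hla : ∀ t ∈ Icc t0 t1, -ε ≤ u t a) (hlb : ∀ t ∈ Icc t0 t1, -ε ≤ u t b) :
    ∀ t ∈ Icc t0 t1, ∀ x ∈ Icc a b,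
      -ε * Real.exp ((max C 0 + 1) * (t - t0)) ≤ u t x := by
  intro t htI x hxI
  set K : ℝ := max C 0 + 1 with hK
  have hK1 : 1 ≤ K := by rw [hK]; linarith [le_max_right C 0]
  have hKC : C + 1 ≤ K := by rw [hK]; linarith [le_max_left C 0]
  -- the key claim: for each δ > 0 the function W is positive
  have key : ∀ δ : ℝ, 0 < δ → 0 < Real.exp (-(K * (t - t0))) * u t x + (ε + δ) := by
    intro δ hδ
    set W : ℝ × ℝ → ℝ := fun p => Real.exp (-(K * (p.1 - t0))) * u p.1 p.2 + (ε + δ) with hW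
    have hWc : ContinuousOn W (Icc t0 t1 ×ˢ Icc a b) := by
      apply ContinuousOn.add _ continuousOn_const
      apply ContinuousOn.mul _ hcont
      exact (by fun_prop : Continuous fun p : ℝ × ℝ => Real.exp (-(K * (p.1 - t0)))).continuousOn
    have hcomp : IsCompact (Icc t0 t1 ×ˢ Icc a b) := isCompact_Icc.prod isCompact_Icc
    have hne : (Icc t0 t1 ×ˢ Icc a b).Nonempty := ⟨(t, x), htI, hxI⟩
    obtain ⟨⟨ts, xs⟩, ⟨hts, hxs⟩, hmin⟩ := hcomp.exists_isMinOn hne hWc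
    have hminW : ∀ s ∈ Icc t0 t1, ∀ y ∈ Icc a b, W (ts, xs) ≤ W (s, y) := by
      intro s hs y hy
      exact hmin (show ((s, y) : ℝ × ℝ) ∈ Icc t0 t1 ×ˢ Icc a b from ⟨hs, hy⟩)
    by_contra hcon
    push Not at hcon
    have hm0 : W (ts, xs) ≤ 0 := le_trans (hminW t htI x hxI) hcon
    simp only [hW] at hm0
    simp only at hts hxs
    -- boundary positivity
    have hbd : ∀ s ∈ Icc t0 t1, ∀ y, -ε ≤ u s y →
        0 < Real.exp (-(K * (s - t0))) * u s y + (ε + δ) := by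
      intro s hs y hy
      have he1 : Real.exp (-(K * (s - t0))) ≤ 1 := by
        rw [Real.exp_le_one_iff]
        have : 0 ≤ K * (s - t0) := mul_nonneg (by linarith) (sub_nonneg.mpr hs.1)
        linarith
      have he0 : 0 < Real.exp (-(K * (s - t0))) := Real.exp_pos _
      have : -ε ≤ Real.exp (-(K * (s - t0))) * u s y := by
        calc -ε ≤ Real.exp (-(K * (s - t0))) * (-ε) := by nlinarith
          _ ≤ Real.exp (-(K * (s - t0))) * u s y := by
            exact mul_le_mul_of_nonneg_left hy he0.le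
      linarith
    have hts0 : t0 < ts := by
      rcases eq_or_lt_of_le hts.1 with h | h
      · exfalso
        have := hbd ts hts xs (by rw [← h]; exact hinit xs hxs)
        linarith
      · exact h
    have hxa : a < xs := by
      rcases eq_or_lt_of_le hxs.1 with h | h
      · exfalso
        have := hbd ts hts xs (by rw [← h]; exact hla ts hts)
        linarith
      · exact h
    have hxb : xs < b := by
      rcases eq_or_lt_of_le hxs.2 with h | h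
      · exfalso
        have := hbd ts hts xs (by rw [h]; exact hlb ts hts)
        linarith
      · exact h
    have htsI : ts ∈ Ioc t0 t1 := ⟨hts0, hts.2⟩
    have hxsI : xs ∈ Ioo a b := ⟨hxa, hxb⟩
    have hE : 0 < Real.exp (-(K * (ts - t0))) := Real.exp_pos _
    -- spatial minimum of u(ts, ·)
    have hloc : IsLocalMin (fun y => u ts y) xs := by
      have hnb : Ioo a b ∈ 𝓝 xs := Ioo_mem_nhds hxa hxb
      filter_upwards [hnb] with y hy
      have h1 := hminW ts hts y ⟨hy.1.le, hy.2.le⟩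
      simp only [hW] at h1
      have h2 : Real.exp (-(K * (ts - t0))) * u ts xs ≤ Real.exp (-(K * (ts - t0))) * u ts y := by
        linarith
      exact le_of_mul_le_mul_left h2 hE
    have hux0 : ux ts xs = 0 := hloc.hasDerivAt_eq_zero (hx ts htsI xs hxsI)
    have huxx0 : 0 ≤ uxx ts xs := by
      apply sc_mp_second_nonneg hloc _ (hxx ts htsI xs hxsI)
      filter_upwards [Ioo_mem_nhds hxa hxb] with y hy
      exact hx ts htsI y hy
    -- time derivative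
    have hdW : HasDerivWithinAt (fun s => Real.exp (-(K * (s - t0))) * u s xs + (ε + δ))
        (Real.exp (-(K * (ts - t0))) * (-K) * u ts xs
          + Real.exp (-(K * (ts - t0))) * ut ts xs) (Iic ts) ts := by
      have he : HasDerivAt (fun s : ℝ => Real.exp (-(K * (s - t0))))
          (Real.exp (-(K * (ts - t0))) * (-K)) ts := by
        have h1 : HasDerivAt (fun s : ℝ => -(K * (s - t0))) (-K) ts := by
          have h0 := (((hasDerivAt_id ts).sub_const t0).const_mul K).neg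
          have h00 : (fun s : ℝ => -(K * (s - t0))) = -fun y : ℝ => K * (id y - t0) := by
            funext s; simp
          rw [h00]
          simpa using h0
        exact h1.exp
      exact (he.hasDerivWithinAt.mul (ht ts htsI xs hxsI)).add_const _
    have hWt : Real.exp (-(K * (ts - t0))) * (-K) * u ts xs
          + Real.exp (-(K * (ts - t0))) * ut ts xs ≤ 0 := by
      apply sc_mp_left_deriv_nonpos hts0 _ hdW
      intro s hs
      have := hminW s ⟨hs.1, le_trans hs.2 hts.2⟩ xs hxs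
      simpa only [hW] using this
    have hut : ut ts xs ≤ K * u ts xs := by
      have : Real.exp (-(K * (ts - t0))) * (ut ts xs - K * u ts xs) ≤ 0 := by nlinarith
      have h2 : ut ts xs - K * u ts xs ≤ 0 := by
        by_contra h
        push Not at h
        exact absurd this (not_le.mpr (mul_pos hE h))
      linarith
    have hun : u ts xs < 0 := by
      by_contra h
      push Not at h
      have : 0 ≤ Real.exp (-(K * (ts - t0))) * u ts xs := mul_nonneg hE.le h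
      linarith
    have hp := hpde ts htsI xs hxsI
    rw [hux0] at hp
    have hAx : 0 ≤ A ts xs * uxx ts xs := mul_nonneg (hA ts htsI xs hxsI) huxx0
    have hcc := hc ts htsI xs hxsI
    -- ut ≥ c u, ut ≤ K u, u < 0, c ≤ C ≤ K - 1
    have h5 : c ts xs * u ts xs ≤ K * u ts xs := by linarith
    have h6 : (K - c ts xs) * u ts xs < 0 := mul_neg_of_pos_of_neg (by linarith) hun
    nlinarith
  -- let δ → 0
  have hE : 0 < Real.exp (-(K * (t - t0))) := Real.exp_pos _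
  have h1 : 0 ≤ Real.exp (-(K * (t - t0))) * u t x + ε := by
    apply le_of_forall_pos_lt_add
    intro δ hδ
    have := key δ hδ
    linarith
  have h2 : Real.exp (K * (t - t0)) * Real.exp (-(K * (t - t0))) = 1 := by
    rw [← Real.exp_add]; simp
  have h3 : 0 ≤ Real.exp (K * (t - t0)) * (Real.exp (-(K * (t - t0))) * u t x + ε) :=
    mul_nonneg (Real.exp_pos _).le h1
  have h4 : Real.exp (K * (t - t0)) * (Real.exp (-(K * (t - t0))) * u t x + ε)
      = u t x + ε * Real.exp (K * (t - t0)) := by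
    rw [mul_add, ← mul_assoc, h2]; ring
  rw [h4] at h3
  linarith

/-- **Exhaustion form**.  `S` is the spatial region; the differential inequality holds on
`interior S`; every point of `S` lies in a compact interval `[a,b] ⊆ S` whose end points carry
lateral values `≥ -ε`, for every `ε > 0`.  Then `u ≥ 0`. -/
theorem sc_mp_exhaust {u ut ux uxx A B c : ℝ → ℝ → ℝ} {t0 t1 C : ℝ} {S : Set ℝ}
    (hcont : ContinuousOn (fun p : ℝ × ℝ => u p.1 p.2) (Icc t0 t1 ×ˢ S))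
    (ht : ∀ t ∈ Ioc t0 t1, ∀ x ∈ interior S,
      HasDerivWithinAt (fun s => u s x) (ut t x) (Iic t) t)
    (hx : ∀ t ∈ Ioc t0 t1, ∀ x ∈ interior S, HasDerivAt (fun y => u t y) (ux t x) x)
    (hxx : ∀ t ∈ Ioc t0 t1, ∀ x ∈ interior S, HasDerivAt (fun y => ux t y) (uxx t x) x)
    (hA : ∀ t ∈ Ioc t0 t1, ∀ x ∈ interior S, 0 ≤ A t x)
    (hc : ∀ t ∈ Ioc t0 t1, ∀ x ∈ interior S, c t x ≤ C)
    (hpde : ∀ t ∈ Ioc t0 t1, ∀ x ∈ interior S,
      0 ≤ ut t x - A t x * uxx t x - B t x * ux t x - c t x * u t x)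
    (hinit : ∀ x ∈ S, 0 ≤ u t0 x)
    (hex : ∀ ε : ℝ, 0 < ε → ∀ x ∈ S, ∃ a b : ℝ, a ≤ x ∧ x ≤ b ∧ Icc a b ⊆ S ∧
      (∀ t ∈ Icc t0 t1, -ε ≤ u t a) ∧ (∀ t ∈ Icc t0 t1, -ε ≤ u t b)) :
    ∀ t ∈ Icc t0 t1, ∀ x ∈ S, 0 ≤ u t x := by
  intro t htI x hxS
  set E : ℝ := Real.exp ((max C 0 + 1) * (t - t0)) with hE
  have hEpos : 0 < E := Real.exp_pos _
  apply le_of_forall_pos_lt_add
  intro δ hδ
  have hε : 0 < δ / (2 * E) := by positivity
  obtain ⟨a, b, hax, hxb, hsub, hla, hlb⟩ := hex _ hε x hxS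
  have hint : Ioo a b ⊆ interior S := by
    have := interior_mono hsub
    rwa [interior_Icc] at this
  have := sc_mp_barrier (u := u) (ut := ut) (ux := ux) (uxx := uxx) (A := A) (B := B) (c := c)
    (t0 := t0) (t1 := t1) (a := a) (b := b) (C := C) hε.le
    (hcont.mono (prod_mono_right hsub))
    (fun t ht' x hx' => ht t ht' x (hint hx'))
    (fun t ht' x hx' => hx t ht' x (hint hx'))
    (fun t ht' x hx' => hxx t ht' x (hint hx'))
    (fun t ht' x hx' => hA t ht' x (hint hx'))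
    (fun t ht' x hx' => hc t ht' x (hint hx'))
    (fun t ht' x hx' => hpde t ht' x (hint hx'))
    (fun x hx' => le_trans (by linarith) (hinit x (hsub hx')))
    hla hlb t htI x ⟨hax, hxb⟩
  have h2 : -(δ / (2 * E)) * E = -(δ / 2) := by
    field_simp
  rw [← hE, h2] at this
  linarith

/-- uniform lower bound near a lateral boundary point where `u ≥ 0`, from continuity on a
compact set. -/
theorem sc_mp_lateral_of_continuousOn {u : ℝ → ℝ → ℝ} {t0 t1 x0 x1 : ℝ} (h01 : x0 < x1)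
    (hcont : ContinuousOn (fun p : ℝ × ℝ => u p.1 p.2) (Icc t0 t1 ×ˢ Icc x0 x1))
    (h0 : ∀ t ∈ Icc t0 t1, 0 ≤ u t x0) :
    ∀ ε : ℝ, 0 < ε → ∀ᶠ η in 𝓝[>] x0, ∀ t ∈ Icc t0 t1, -ε ≤ u t η := by
  intro ε hε
  have hcomp : IsCompact (Icc t0 t1 ×ˢ Icc x0 x1) := isCompact_Icc.prod isCompact_Icc
  have huc := hcomp.uniformContinuousOn_of_continuous hcont
  rw [Metric.uniformContinuousOn_iff] at huc
  obtain ⟨δ, hδ, hu⟩ := huc ε hε
  have h1 : ∀ᶠ η in 𝓝[>] x0, η ∈ Ioo x0 (min x1 (x0 + δ)) :=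
    Ioo_mem_nhdsGT (lt_min h01 (by linarith))
  filter_upwards [h1] with η hη t ht
  have hη1 : η < x1 := lt_of_lt_of_le hη.2 (min_le_left _ _)
  have hη2 : η < x0 + δ := lt_of_lt_of_le hη.2 (min_le_right _ _)
  have hd : dist ((t, η) : ℝ × ℝ) (t, x0) < δ := by
    rw [Prod.dist_eq, dist_self, Real.dist_eq, abs_of_pos (sub_pos.mpr hη.1)]
    exact max_lt hδ (by linarith)
  have := hu (t, η) ⟨ht, hη.1.le, hη1.le⟩ (t, x0) ⟨ht, le_refl _, h01.le⟩ hd
  rw [Real.dist_eq] at this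
  have h2 := (abs_lt.mp this).1
  have h3 := h0 t ht
  simp only at h2
  linarith

/-- **Half-line, Dirichlet at `0`**: region `[0,∞)`. -/
theorem sc_mp_halfline {u ut ux uxx A B c : ℝ → ℝ → ℝ} {t0 t1 C : ℝ}
    (hcont : ContinuousOn (fun p : ℝ × ℝ => u p.1 p.2) (Icc t0 t1 ×ˢ Ici 0))
    (ht : ∀ t ∈ Ioc t0 t1, ∀ x ∈ Ioi (0 : ℝ),
      HasDerivWithinAt (fun s => u s x) (ut t x) (Iic t) t)
    (hx : ∀ t ∈ Ioc t0 t1, ∀ x ∈ Ioi (0 : ℝ), HasDerivAt (fun y => u t y) (ux t x) x)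
    (hxx : ∀ t ∈ Ioc t0 t1, ∀ x ∈ Ioi (0 : ℝ), HasDerivAt (fun y => ux t y) (uxx t x) x)
    (hA : ∀ t ∈ Ioc t0 t1, ∀ x ∈ Ioi (0 : ℝ), 0 ≤ A t x)
    (hc : ∀ t ∈ Ioc t0 t1, ∀ x ∈ Ioi (0 : ℝ), c t x ≤ C)
    (hpde : ∀ t ∈ Ioc t0 t1, ∀ x ∈ Ioi (0 : ℝ),
      0 ≤ ut t x - A t x * uxx t x - B t x * ux t x - c t x * u t x)
    (hinit : ∀ x ∈ Ici (0 : ℝ), 0 ≤ u t0 x)
    (hzero : ∀ t ∈ Icc t0 t1, 0 ≤ u t 0)
    (htop : ∀ ε : ℝ, 0 < ε → ∀ᶠ R in atTop, ∀ t ∈ Icc t0 t1, -ε ≤ u t R) :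
    ∀ t ∈ Icc t0 t1, ∀ x ∈ Ici (0 : ℝ), 0 ≤ u t x := by
  apply sc_mp_exhaust (S := Ici 0) (ut := ut) (ux := ux) (uxx := uxx) (A := A) (B := B) (c := c)
    (C := C) hcont
  all_goals try simp only [interior_Ici]
  all_goals try assumption
  intro ε hε x hx0
  obtain ⟨R, hR1, hR2⟩ := ((htop ε hε).and (eventually_ge_atTop x)).exists
  refine ⟨0, R, hx0, hR2, fun y hy => hy.1, fun t ht' => ?_, hR1⟩
  linarith [hzero t ht']

/-- **Punctured half-line**: region `(0,∞)`, lateral errors tending to zero at `0+` and `+∞`. -/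
theorem sc_mp_punctured {u ut ux uxx A B c : ℝ → ℝ → ℝ} {t0 t1 C : ℝ}
    (hcont : ContinuousOn (fun p : ℝ × ℝ => u p.1 p.2) (Icc t0 t1 ×ˢ Ioi 0))
    (ht : ∀ t ∈ Ioc t0 t1, ∀ x ∈ Ioi (0 : ℝ),
      HasDerivWithinAt (fun s => u s x) (ut t x) (Iic t) t)
    (hx : ∀ t ∈ Ioc t0 t1, ∀ x ∈ Ioi (0 : ℝ), HasDerivAt (fun y => u t y) (ux t x) x)
    (hxx : ∀ t ∈ Ioc t0 t1, ∀ x ∈ Ioi (0 : ℝ), HasDerivAt (fun y => ux t y) (uxx t x) x)
    (hA : ∀ t ∈ Ioc t0 t1, ∀ x ∈ Ioi (0 : ℝ), 0 ≤ A t x)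
    (hc : ∀ t ∈ Ioc t0 t1, ∀ x ∈ Ioi (0 : ℝ), c t x ≤ C)
    (hpde : ∀ t ∈ Ioc t0 t1, ∀ x ∈ Ioi (0 : ℝ),
      0 ≤ ut t x - A t x * uxx t x - B t x * ux t x - c t x * u t x)
    (hinit : ∀ x ∈ Ioi (0 : ℝ), 0 ≤ u t0 x)
    (hbot : ∀ ε : ℝ, 0 < ε → ∀ᶠ η in 𝓝[>] (0 : ℝ), ∀ t ∈ Icc t0 t1, -ε ≤ u t η)
    (htop : ∀ ε : ℝ, 0 < ε → ∀ᶠ R in atTop, ∀ t ∈ Icc t0 t1, -ε ≤ u t R) :
    ∀ t ∈ Icc t0 t1, ∀ x ∈ Ioi (0 : ℝ), 0 ≤ u t x := by
  apply sc_mp_exhaust (S := Ioi 0) (ut := ut) (ux := ux) (uxx := uxx) (A := A) (B := B) (c := c)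
    (C := C) hcont
  all_goals try simp only [interior_Ioi]
  all_goals try assumption
  intro ε hε x hx0
  obtain ⟨R, hR1, hR2⟩ := ((htop ε hε).and (eventually_ge_atTop x)).exists
  have hx0' : (0 : ℝ) < x := hx0
  obtain ⟨η, hη1, hη2⟩ := ((hbot ε hε).and (Ioo_mem_nhdsGT hx0')).exists
  exact ⟨η, R, hη2.2.le, hR2, fun y hy => lt_of_lt_of_le hη2.1 hy.1, hη1, hR1⟩

/-- **Whole line**, lateral errors tending to zero at `±∞`. -/
theorem sc_mp_line {u ut ux uxx A B c : ℝ → ℝ → ℝ} {t0 t1 C : ℝ}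
    (hcont : ContinuousOn (fun p : ℝ × ℝ => u p.1 p.2) (Icc t0 t1 ×ˢ univ))
    (ht : ∀ t ∈ Ioc t0 t1, ∀ x : ℝ,
      HasDerivWithinAt (fun s => u s x) (ut t x) (Iic t) t)
    (hx : ∀ t ∈ Ioc t0 t1, ∀ x : ℝ, HasDerivAt (fun y => u t y) (ux t x) x)
    (hxx : ∀ t ∈ Ioc t0 t1, ∀ x : ℝ, HasDerivAt (fun y => ux t y) (uxx t x) x)
    (hA : ∀ t ∈ Ioc t0 t1, ∀ x : ℝ, 0 ≤ A t x)
    (hc : ∀ t ∈ Ioc t0 t1, ∀ x : ℝ, c t x ≤ C)
    (hpde : ∀ t ∈ Ioc t0 t1, ∀ x : ℝ,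
      0 ≤ ut t x - A t x * uxx t x - B t x * ux t x - c t x * u t x)
    (hinit : ∀ x : ℝ, 0 ≤ u t0 x)
    (hbot : ∀ ε : ℝ, 0 < ε → ∀ᶠ R in atBot, ∀ t ∈ Icc t0 t1, -ε ≤ u t R)
    (htop : ∀ ε : ℝ, 0 < ε → ∀ᶠ R in atTop, ∀ t ∈ Icc t0 t1, -ε ≤ u t R) :
    ∀ t ∈ Icc t0 t1, ∀ x : ℝ, 0 ≤ u t x := by
  intro t htI x
  refine sc_mp_exhaust (S := univ) (ut := ut) (ux := ux) (uxx := uxx) (A := A) (B := B) (c := c)
    (C := C) hcont (fun t h x _ => ht t h x) (fun t h x _ => hx t h x) (fun t h x _ => hxx t h x)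
    (fun t h x _ => hA t h x) (fun t h x _ => hc t h x) (fun t h x _ => hpde t h x)
    (fun x _ => hinit x) ?_ t htI x (mem_univ x)
  intro ε hε x _
  obtain ⟨R, hR1, hR2⟩ := ((htop ε hε).and (eventually_ge_atTop x)).exists
  obtain ⟨L, hL1, hL2⟩ := ((hbot ε hε).and (eventually_le_atBot x)).exists
  exact ⟨L, R, hL2, hR2, fun y _ => mem_univ y, hL1, hR1⟩

end Claimed.Agent.R286
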