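import Claimed.Agent.R286.Sc.Prof

/-!
# Row 286, scalar block, layer S3.1 (+ S4.1, S4.2 at the level of lists): a-priori bounds by LIST INDUCTION
owner helper96 (unit C2, head helper197).  No Dynkin formula is used: every bound is an invariant of one Cole-Hopf step.
-/

set_option autoImplicit false

namespace Claimed.Agent.R286

open MeasureTheory ProbabilityTheory Filter Topology Set

/-- **induction principle**: a class of continuations that is stable under every step of the profile (any variance)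
contains `scV F π` and `scVt F π t`. -/
theorem sca_induct {Q : (ℝ → ℝ) → Prop} {F : ℝ → ℝ} (π : List (ℝ × ℝ)) (h0 : Q F)
    (hstep : ∀ p ∈ π, ∀ (s : ℝ) (G : ℝ → ℝ), Q G → Q (scStep p.1 s G)) :
    Q (scV F π) ∧ ∀ t, Q (scVt F π t) := by
  induction π with
  | nil => exact ⟨h0, fun _ => h0⟩
  | cons p π ih =>
    obtain ⟨ih1, ih2⟩ := ih (fun q hq => hstep q (List.mem_cons_of_mem _ hq))
    refine ⟨hstep p List.mem_cons_self _ _ ih1, fun t => ?_⟩
    simp only [scVt]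
    split_ifs
    · exact ih2 _
    · exact hstep p List.mem_cons_self _ _ ih1

/-- the invariant class of continuations: smooth, even, 1-Lipschitz, strictly convex, `F'' ≤ a (1 - F'²)` -/
structure ScaInv (a : ℝ) (G : ℝ → ℝ) : Prop where
  reg : ScBI G
  even : ∀ z, G (-z) = G z
  lip : ∀ z, |deriv G z| ≤ 1
  pos : ∀ z, 0 < deriv (deriv G) z
  ric : ∀ z, deriv (deriv G) z ≤ a * (1 - deriv G z ^ 2)

theorem sca_BI_step {G : ℝ → ℝ} (h : ScBI G) (m s : ℝ) : ScBI (scStep m s G) := by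
  intro n
  exact (sc_step_B (n := n) (h (n + 1)) m s).of_succ

theorem sca_ric_step {a m : ℝ} {G : ℝ → ℝ} (hG : ScB 2 G) (hr : ∀ z, deriv (deriv G) z ≤ a * (1 - deriv G z ^ 2))
    (hma : m ≤ a) (s z : ℝ) :
    deriv (deriv (scStep m s G)) z ≤ a * (1 - deriv (scStep m s G) z ^ 2) := by
  have hG1 : ScB 1 G := hG.of_succ
  have hd1 : ScBd 1 (deriv G) := hG.deriv_bd
  have hd0 : ScE 0 (deriv G) := hd1.of_succ.scE
  have hd2 : ScE 0 (deriv (deriv G)) := hd1.deriv.scE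
  have hsq : ScE 0 (fun y => deriv G y ^ 2) := hd0.pow 2
  rw [sc_step_deriv2 hG, sc_step_deriv hG1]
  have h1 : scTr m s G (deriv (deriv G)) z ≤ scTr m s G (fun y => a * (1 - deriv G y ^ 2)) z :=
    sc_tr_mono hG1 hd2 (((ScE.const 0 1).sub hsq).const_mul a) hr m s z
  have h2 : scTr m s G (fun y => a * (1 - deriv G y ^ 2)) z = a * (1 - scTr m s G (fun y => deriv G y ^ 2) z) := by
    rw [sc_tr_const_mul, sc_tr_sub hG1 (ScE.const 0 1) hsq, sc_tr_const hG1]
  have h3 : scTr m s G (deriv G) z ^ 2 ≤ scTr m s G (fun y => deriv G y ^ 2) z := sc_tr_sq_le hG1 hd0 m s z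
  rw [h2] at h1
  nlinarith [mul_nonneg (sub_nonneg.mpr hma) (sub_nonneg.mpr h3)]

theorem ScaInv.step {a m : ℝ} {G : ℝ → ℝ} (h : ScaInv a G) (hm : 0 ≤ m) (hma : m ≤ a) (s : ℝ) :
    ScaInv a (scStep m s G) where
  reg := sca_BI_step h.reg m s
  even := sc_step_even h.even m s
  lip := sc_step_deriv_le (h.reg 1) h.lip m s
  pos := sc_step_strict_convex (h.reg 2) h.pos hm s
  ric := sca_ric_step (h.reg 2) h.ric hma s

theorem ScaInv.V {a : ℝ} {F : ℝ → ℝ} (h : ScaInv a F) {π : List (ℝ × ℝ)} (hπ : ScAdm a π) : ScaInv a (scV F π) :=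
  (sca_induct (Q := ScaInv a) π h (fun p hp s _ hG => hG.step (hπ p hp).1 (hπ p hp).2.1 s)).1

theorem ScaInv.Vt {a : ℝ} {F : ℝ → ℝ} (h : ScaInv a F) {π : List (ℝ × ℝ)} (hπ : ScAdm a π) (t : ℝ) :
    ScaInv a (scVt F π t) :=
  (sca_induct (Q := ScaInv a) π h (fun p hp s _ hG => hG.step (hπ p hp).1 (hπ p hp).2.1 s)).2 t

/-! ### consequences for one function of the class -/

theorem ScaInv.deriv_odd {a : ℝ} {G : ℝ → ℝ} (h : ScaInv a G) (z : ℝ) : deriv G (-z) = - deriv G z := by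
  have h1 : (fun z => G (-z)) = G := funext h.even
  have h2 : deriv (fun z => G (-z)) z = - deriv G (-z) := deriv_comp_neg G z
  rw [h1] at h2
  linarith

theorem ScaInv.deriv_zero {a : ℝ} {G : ℝ → ℝ} (h : ScaInv a G) : deriv G 0 = 0 := by
  have := h.deriv_odd 0
  simp only [neg_zero] at this
  linarith

theorem ScaInv.deriv2_le {a : ℝ} {G : ℝ → ℝ} (h : ScaInv a G) (z : ℝ) : deriv (deriv G) z ≤ a := by
  have h0 : 0 < a * (1 - deriv G z ^ 2) := lt_of_lt_of_le (h.pos z) (h.ric z)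
  have h1 : 0 ≤ 1 - deriv G z ^ 2 := by
    have := h.lip z
    have h2 : deriv G z ^ 2 ≤ 1 := by
      rw [← sq_abs]; exact pow_le_one₀ (abs_nonneg _) this
    linarith
  have ha : 0 < a := by
    by_contra hc
    have : a * (1 - deriv G z ^ 2) ≤ 0 := mul_nonpos_of_nonpos_of_nonneg (not_lt.mp hc) h1
    linarith
  have := h.ric z
  nlinarith [sq_nonneg (deriv G z)]

theorem ScaInv.a_pos {a : ℝ} {G : ℝ → ℝ} (h : ScaInv a G) : 0 < a := lt_of_lt_of_le (h.pos 0) (h.deriv2_le 0)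

theorem ScaInv.deriv_abs_le {a : ℝ} {G : ℝ → ℝ} (h : ScaInv a G) (z : ℝ) : |deriv G z| ≤ a * |z| := by
  have hd : Differentiable ℝ (deriv G) := (h.reg 2).2.2.1
  have := Convex.norm_image_sub_le_of_norm_deriv_le (f := deriv G) (C := a) (s := univ) (x := 0) (y := z)
    (fun x _ => hd x) (fun x _ => by
      rw [Real.norm_eq_abs, abs_of_pos (h.pos x)]; exact h.deriv2_le x) convex_univ (mem_univ _) (mem_univ _)
  simpa [h.deriv_zero] using this

/-! ### the terminal datum `a⁻¹ log cosh (a z)` -/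

theorem sca_logcosh_deriv {a : ℝ} (ha : a ≠ 0) :
    deriv (fun z => a⁻¹ * Real.log (Real.cosh (a * z))) = fun z => Real.tanh (a * z) := by
  funext z
  have h1 : HasDerivAt (fun z : ℝ => a * z) a z := by simpa using (hasDerivAt_id z).const_mul a
  have h2 := ((Real.hasDerivAt_cosh (a * z)).comp z h1).log (Real.cosh_pos _).ne'
  have h3 := h2.const_mul a⁻¹
  rw [show (fun z => a⁻¹ * Real.log (Real.cosh (a * z))) = fun z => a⁻¹ * Real.log ((Real.cosh ∘ fun z => a * z) z) from rfl,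
    h3.deriv, Real.tanh_eq_sinh_div_cosh]
  simp only [Function.comp]
  field_simp

theorem sca_logcosh_deriv2 {a : ℝ} (ha : a ≠ 0) :
    deriv (deriv (fun z => a⁻¹ * Real.log (Real.cosh (a * z)))) = fun z => a * (1 - Real.tanh (a * z) ^ 2) := by
  rw [sca_logcosh_deriv ha]
  funext z
  have h1 : HasDerivAt (fun z : ℝ => a * z) a z := by simpa using (hasDerivAt_id z).const_mul a
  have h2 := (sc_hasDerivAt_tanh (a * z)).comp z h1
  rw [show (fun z => Real.tanh (a * z)) = Real.tanh ∘ fun z => a * z from rfl, h2.deriv]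
  ring

theorem sca_inv_logcosh {a : ℝ} (ha : 0 < a) : ScaInv a (fun z => a⁻¹ * Real.log (Real.cosh (a * z))) where
  reg := fun n => sc_logcosh_B n a
  even := fun z => by simp only [mul_neg, Real.cosh_neg]
  lip := fun z => by rw [sca_logcosh_deriv ha.ne']; exact (Real.abs_tanh_lt_one _).le
  pos := fun z => by
    rw [sca_logcosh_deriv2 ha.ne']
    have h := Real.abs_tanh_lt_one (a * z)
    have h2 : Real.tanh (a * z) ^ 2 < 1 := by
      rw [← sq_abs]; exact pow_lt_one₀ (abs_nonneg _) h two_ne_zero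
    exact mul_pos ha (by linarith)
  ric := fun z => by rw [sca_logcosh_deriv2 ha.ne', sca_logcosh_deriv ha.ne']

/-! ### S3.1 in the vocabulary of `Sc/Prof.lean` -/

theorem sca_D1 (F : ℝ → ℝ) (π : List (ℝ × ℝ)) (t : ℝ) : scD 1 F π t = deriv (scVt F π t) := rfl

theorem sca_D2 (F : ℝ → ℝ) (π : List (ℝ × ℝ)) (t : ℝ) : scD 2 F π t = deriv (deriv (scVt F π t)) := rfl

theorem sca_Al_mem {a : ℝ} (ha : 0 ≤ a) {π : List (ℝ × ℝ)} (hπ : ScAdm a π) (t : ℝ) :
    0 ≤ scAl π t ∧ scAl π t ≤ a := by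
  induction π generalizing t with
  | nil => exact ⟨le_rfl, ha⟩
  | cons p π ih =>
    simp only [scAl]
    split_ifs
    · exact ih (fun q hq => hπ q (List.mem_cons_of_mem _ hq)) _
    · exact ⟨(hπ p List.mem_cons_self).1, (hπ p List.mem_cons_self).2.1⟩

section
variable {a : ℝ} {F : ℝ → ℝ} {π : List (ℝ × ℝ)}

theorem sca_u_abs_le (h : ScaInv a F) (hπ : ScAdm a π) (t z : ℝ) : |scD 1 F π t z| ≤ 1 := (h.Vt hπ t).lip z

theorem sca_u_odd (h : ScaInv a F) (hπ : ScAdm a π) (t z : ℝ) : scD 1 F π t (-z) = - scD 1 F π t z :=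
  (h.Vt hπ t).deriv_odd z

theorem sca_u_zero (h : ScaInv a F) (hπ : ScAdm a π) (t : ℝ) : scD 1 F π t 0 = 0 := (h.Vt hπ t).deriv_zero

theorem sca_u_abs_le_mul (h : ScaInv a F) (hπ : ScAdm a π) (t z : ℝ) : |scD 1 F π t z| ≤ a * |z| :=
  (h.Vt hπ t).deriv_abs_le z

theorem sca_w_pos (h : ScaInv a F) (hπ : ScAdm a π) (t z : ℝ) : 0 < scD 2 F π t z := (h.Vt hπ t).pos z

theorem sca_w_le_ric (h : ScaInv a F) (hπ : ScAdm a π) (t z : ℝ) :
    scD 2 F π t z ≤ a * (1 - scD 1 F π t z ^ 2) := (h.Vt hπ t).ric z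

theorem sca_w_le (h : ScaInv a F) (hπ : ScAdm a π) (t z : ℝ) : scD 2 F π t z ≤ a := (h.Vt hπ t).deriv2_le z

/-- `0 < -V_t = (w + α u²)/2 ≤ a/2` -/
theorem sca_Vtime_mem (h : ScaInv a F) (hπ : ScAdm a π) (t z : ℝ) :
    0 < (scD 2 F π t z + scAl π t * scD 1 F π t z ^ 2) / 2 ∧
      (scD 2 F π t z + scAl π t * scD 1 F π t z ^ 2) / 2 ≤ a / 2 := by
  obtain ⟨h0, h1⟩ := sca_Al_mem h.a_pos.le hπ t
  have hw := sca_w_pos h hπ t z
  have hr := sca_w_le_ric h hπ t z
  constructor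
  · have := mul_nonneg h0 (sq_nonneg (scD 1 F π t z)); linarith
  · have := mul_nonneg (sub_nonneg.mpr h1) (sq_nonneg (scD 1 F π t z)); nlinarith

end

end Claimed.Agent.R286
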