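import Claimed.Agent.R286.Sc.GenDefs
import Claimed.Agent.R286.Sc.LimKit

/-!
# Row 286, BOX-C, unit C5b: strict curvature on plateaus, TRANSFER from step profiles to general profiles      (owner helper183; prefix `sc_cv_`)

TEX[FS:prop:gap-curvature] (positive plateau), in variance time, terminal datum `scLC a`.
INPUTS (as `Prop`s, to be proved by their owners):
* `ScCvStep a`     (C5a, helper265, `Sc/CurvStep.lean`): on a time interval where a sorted positive step profile has the constant mass `c`, `M2 - (c²/2000) m4 t²` is convex (`m4` = lower bound of `E V_zz⁴`).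
* `ScM4Low a τ`    (helper92, `Sc/Bound.lean`): `E V_zz⁴ ≥ m4(a,τ) > 0`, uniformly in the partition.
* `ScM2Lim a τ α`  (helper100, `Sc/Gen.lean`): `scM2 (scDyP α τ n) t → scaM2 α t`.
EXIT: `sc_cv_curv`.
Also: the elementary facts on the dyadic profiles `scDy`, `scDyP` (`sc_cv_uni_*`, `sc_cv_dyP_*`, `sc_cv_dy_*`).
-/

set_option autoImplicit false

namespace Claimed.Agent.R286

open Filter Topology Set

/-- C5a -/
def ScCvStep (a : ℝ) : Prop :=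
  ∀ π : List (ℝ × ℝ), ScAdm a π → ScInc π → ScPP π → ∀ c s0 s1 m4 : ℝ, 0 < c → 0 < s0 → s0 ≤ s1 → s1 < scLen π →
    (∀ t ∈ Icc s0 s1, scAl π t = c) → (∀ t ∈ Icc s0 s1, m4 ≤ scM4 (scLC a) π t) →
    ConvexOn ℝ (Icc s0 s1) (fun t => scM2 (scLC a) π t - c ^ 2 / 2000 * m4 * t ^ 2)

/-- uniform lower bound of `E V_zz⁴` -/
def ScM4Low (a τ : ℝ) : Prop :=
  ∃ m4 : ℝ, 0 < m4 ∧ ∀ π : List (ℝ × ℝ), ScAdm a π → ScInc π → scLen π = τ → ∀ t ∈ Icc 0 τ, m4 ≤ scM4 (scLC a) π t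

/-- convergence of `M2` along the positive dyadic profiles -/
def ScM2Lim (a τ : ℝ) (α : ℝ → ℝ) : Prop :=
  ∀ t ∈ Icc 0 τ, Tendsto (fun n : ℕ => scM2 (scLC a) (scDyP α τ n) t) atTop (𝓝 (scaM2 (scLC a) α τ t))

/-! ### uniform grids -/

/-- the profile with masses `m j, m (j+1), .., m (j+N-1)` and steps of length `l` -/
def scCvUni (m : ℕ → ℝ) (l : ℝ) (j N : ℕ) : List (ℝ × ℝ) := (List.range' j N).map fun k => (m k, l)

theorem sc_cv_uni_zero (m : ℕ → ℝ) (l : ℝ) (j : ℕ) : scCvUni m l j 0 = [] := rfl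

theorem sc_cv_uni_succ (m : ℕ → ℝ) (l : ℝ) (j N : ℕ) : scCvUni m l j (N + 1) = (m j, l) :: scCvUni m l (j + 1) N := by
  simp [scCvUni, List.range'_succ]

theorem sc_cv_uni_mem {m : ℕ → ℝ} {l : ℝ} {j N : ℕ} {p : ℝ × ℝ} (hp : p ∈ scCvUni m l j N) : ∃ k, j ≤ k ∧ k < j + N ∧ p = (m k, l) := by
  simp only [scCvUni, List.mem_map, List.mem_range'_1] at hp
  obtain ⟨k, ⟨h1, h2⟩, rfl⟩ := hp
  exact ⟨k, h1, h2, rfl⟩

theorem sc_cv_uni_len (m : ℕ → ℝ) (l : ℝ) (j N : ℕ) : scLen (scCvUni m l j N) = N * l := by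
  induction N generalizing j with
  | zero => simp [sc_cv_uni_zero, scLen]
  | succ N ih => rw [sc_cv_uni_succ, scLen, ih]; push_cast; ring

theorem sc_cv_uni_inc {m : ℕ → ℝ} (l : ℝ) (j N : ℕ) (hm : ∀ k k', j ≤ k → k ≤ k' → k' < j + N → m k ≤ m k') : ScInc (scCvUni m l j N) := by
  induction N generalizing j with
  | zero => simp [sc_cv_uni_zero, ScInc]
  | succ N ih =>
    rw [sc_cv_uni_succ]
    refine List.pairwise_cons.mpr ⟨fun q hq => ?_, ih (j + 1) fun k k' h1 h2 h3 => hm k k' (by omega) h2 (by omega)⟩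
    obtain ⟨k, h1, h2, rfl⟩ := sc_cv_uni_mem hq
    exact hm j k le_rfl (by omega) (by omega)

theorem sc_cv_uni_al (m : ℕ → ℝ) {l : ℝ} (hl : 0 < l) (j N : ℕ) {t : ℝ} (h0 : 0 ≤ t) (h1 : t < N * l) :
    scAl (scCvUni m l j N) t = m (j + ⌊t / l⌋₊) := by
  induction N generalizing j t with
  | zero => simp at h1; linarith
  | succ N ih =>
    rw [sc_cv_uni_succ, scAl]
    by_cases h : l ≤ t
    · simp only [h, if_true]
      have h2 : t - l < N * l := by push_cast at h1; linarith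
      rw [ih (j + 1) (by linarith) h2]
      have e : t / l = (t - l) / l + 1 := by field_simp; ring
      have h3 : 0 ≤ (t - l) / l := div_nonneg (by linarith) hl.le
      rw [e, Nat.floor_add_one h3]
      congr 1; omega
    · simp only [h, if_false]
      have h3 : t / l < 1 := by rw [div_lt_one hl]; linarith
      have : ⌊t / l⌋₊ = 0 := Nat.floor_eq_zero.mpr h3
      rw [this]; rfl

/-! ### the dyadic profiles -/

theorem sc_cv_dyP_eq (α : ℝ → ℝ) (τ : ℝ) (n : ℕ) :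
    scDyP α τ n = scCvUni (fun k : ℕ => max (α (k * τ / 2 ^ n)) ((1 / 2 : ℝ) ^ n)) (τ / 2 ^ n) 0 (2 ^ n) := by
  simp [scDyP, scCvUni, List.range_eq_range']

theorem sc_cv_dy_eq (α : ℝ → ℝ) (τ : ℝ) (n : ℕ) :
    scDy α τ n = scCvUni (fun k : ℕ => α (k * τ / 2 ^ n)) (τ / 2 ^ n) 0 (2 ^ n) := by
  simp [scDy, scCvUni, List.range_eq_range']

theorem sc_cv_dyP_len (α : ℝ → ℝ) (τ : ℝ) (n : ℕ) : scLen (scDyP α τ n) = τ := by
  rw [sc_cv_dyP_eq, sc_cv_uni_len]; push_cast; field_simp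

theorem sc_cv_dy_len (α : ℝ → ℝ) (τ : ℝ) (n : ℕ) : scLen (scDy α τ n) = τ := by
  rw [sc_cv_dy_eq, sc_cv_uni_len]; push_cast; field_simp

/-- a grid point lies in `[0,τ]` -/
theorem sc_cv_grid_mem {τ : ℝ} (hτ : 0 ≤ τ) {n k : ℕ} (hk : k < 2 ^ n) : (k : ℝ) * τ / 2 ^ n ∈ Icc 0 τ := by
  have h2 : (0 : ℝ) < 2 ^ n := by positivity
  have hk' : (k : ℝ) ≤ 2 ^ n := by exact_mod_cast hk.le
  refine ⟨by positivity, ?_⟩
  rw [div_le_iff₀ h2]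
  nlinarith

theorem sc_cv_dyP_adm {a τ : ℝ} {α : ℝ → ℝ} (hα : ScCoef a τ α) (hτ : 0 ≤ τ) {n : ℕ} (hn : (1 / 2 : ℝ) ^ n ≤ a) : ScAdm a (scDyP α τ n) := by
  intro p hp
  rw [sc_cv_dyP_eq] at hp
  obtain ⟨k, _, h2, rfl⟩ := sc_cv_uni_mem hp
  have hg := hα.2 _ (sc_cv_grid_mem hτ (n := n) (k := k) (by omega))
  refine ⟨le_trans hg.1 (le_max_left _ _), max_le hg.2 hn, by positivity⟩

theorem sc_cv_dy_adm {a τ : ℝ} {α : ℝ → ℝ} (hα : ScCoef a τ α) (hτ : 0 ≤ τ) (n : ℕ) : ScAdm a (scDy α τ n) := by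
  intro p hp
  rw [sc_cv_dy_eq] at hp
  obtain ⟨k, _, h2, rfl⟩ := sc_cv_uni_mem hp
  have hg := hα.2 _ (sc_cv_grid_mem hτ (n := n) (k := k) (by omega))
  exact ⟨hg.1, hg.2, by positivity⟩

theorem sc_cv_grid_mono {τ : ℝ} (hτ : 0 ≤ τ) (n : ℕ) {k k' : ℕ} (h : k ≤ k') : (k : ℝ) * τ / 2 ^ n ≤ (k' : ℝ) * τ / 2 ^ n := by
  have hk : (k : ℝ) ≤ k' := by exact_mod_cast h
  gcongr

theorem sc_cv_dyP_inc {a τ : ℝ} {α : ℝ → ℝ} (hα : ScCoef a τ α) (hτ : 0 ≤ τ) (n : ℕ) : ScInc (scDyP α τ n) := by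
  rw [sc_cv_dyP_eq]
  refine sc_cv_uni_inc _ _ _ fun k k' _ h2 h3 => ?_
  exact max_le_max (hα.1 (sc_cv_grid_mem hτ (by omega)) (sc_cv_grid_mem hτ (by omega)) (sc_cv_grid_mono hτ n h2)) le_rfl

theorem sc_cv_dy_inc {a τ : ℝ} {α : ℝ → ℝ} (hα : ScCoef a τ α) (hτ : 0 ≤ τ) (n : ℕ) : ScInc (scDy α τ n) := by
  rw [sc_cv_dy_eq]
  refine sc_cv_uni_inc _ _ _ fun k k' _ h2 h3 => ?_
  exact hα.1 (sc_cv_grid_mem hτ (by omega)) (sc_cv_grid_mem hτ (by omega)) (sc_cv_grid_mono hτ n h2)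

theorem sc_cv_dyP_pp (α : ℝ → ℝ) {τ : ℝ} (hτ : 0 < τ) (n : ℕ) : ScPP (scDyP α τ n) := by
  intro p hp
  rw [sc_cv_dyP_eq] at hp
  obtain ⟨k, _, _, rfl⟩ := sc_cv_uni_mem hp
  exact ⟨lt_of_lt_of_le (by positivity) (le_max_right _ _), by positivity⟩

/-- the mass of the positive dyadic profile at time `t ∈ [0,τ)` -/
theorem sc_cv_dyP_al (α : ℝ → ℝ) {τ : ℝ} (hτ : 0 < τ) (n : ℕ) {t : ℝ} (h0 : 0 ≤ t) (h1 : t < τ) :
    scAl (scDyP α τ n) t = max (α ((⌊t / (τ / 2 ^ n)⌋₊ : ℝ) * τ / 2 ^ n)) ((1 / 2 : ℝ) ^ n) := by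
  have hl : 0 < τ / 2 ^ n := by positivity
  rw [sc_cv_dyP_eq, sc_cv_uni_al _ hl 0 (2 ^ n) h0 (by push_cast; field_simp; exact h1)]
  simp

theorem sc_cv_dy_al (α : ℝ → ℝ) {τ : ℝ} (hτ : 0 < τ) (n : ℕ) {t : ℝ} (h0 : 0 ≤ t) (h1 : t < τ) :
    scAl (scDy α τ n) t = α ((⌊t / (τ / 2 ^ n)⌋₊ : ℝ) * τ / 2 ^ n) := by
  have hl : 0 < τ / 2 ^ n := by positivity
  rw [sc_cv_dy_eq, sc_cv_uni_al _ hl 0 (2 ^ n) h0 (by push_cast; field_simp; exact h1)]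
  simp

/-- the left end of the dyadic cell of `t` -/
theorem sc_cv_left_end {τ : ℝ} (hτ : 0 < τ) (n : ℕ) {t : ℝ} (h0 : 0 ≤ t) :
    (⌊t / (τ / 2 ^ n)⌋₊ : ℝ) * τ / 2 ^ n ≤ t ∧ t - τ / 2 ^ n < (⌊t / (τ / 2 ^ n)⌋₊ : ℝ) * τ / 2 ^ n := by
  have hl : 0 < τ / 2 ^ n := by positivity
  have hq : 0 ≤ t / (τ / 2 ^ n) := div_nonneg h0 hl.le
  have h1 := Nat.floor_le hq
  have h2 := Nat.lt_floor_add_one (t / (τ / 2 ^ n))
  have e : ∀ x : ℝ, x * τ / 2 ^ n = x * (τ / 2 ^ n) := fun x => by ring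
  rw [e]
  constructor
  · calc (⌊t / (τ / 2 ^ n)⌋₊ : ℝ) * (τ / 2 ^ n) ≤ t / (τ / 2 ^ n) * (τ / 2 ^ n) := by gcongr
      _ = t := by field_simp
  · have : t = t / (τ / 2 ^ n) * (τ / 2 ^ n) := by field_simp
    nlinarith

/-- on a plateau the positive dyadic profiles have the exact mass, for large `n` -/
theorem sc_cv_plateau {α : ℝ → ℝ} {τ t0 t1 c s0 s1 : ℝ} (hτ : 0 < τ) (h00 : 0 ≤ t0) (h1τ : t1 ≤ τ) (hc : 0 < c)
    (hpl : ∀ t ∈ Ioo t0 t1, α t = c) (hs0 : t0 < s0) (hs1 : s1 < t1) :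
    ∀ᶠ n : ℕ in atTop, ∀ t ∈ Icc s0 s1, scAl (scDyP α τ n) t = c := by
  have hlim : Tendsto (fun n : ℕ => (1 / 2 : ℝ) ^ n) atTop (𝓝 0) := tendsto_pow_atTop_nhds_zero_of_lt_one (by norm_num) (by norm_num)
  have e1 : ∀ᶠ n : ℕ in atTop, (1 / 2 : ℝ) ^ n < c := hlim.eventually (gt_mem_nhds hc)
  have hpos : 0 < (s0 - t0) / τ := div_pos (by linarith) hτ
  have e2 : ∀ᶠ n : ℕ in atTop, (1 / 2 : ℝ) ^ n < (s0 - t0) / τ := hlim.eventually (gt_mem_nhds hpos)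
  filter_upwards [e1, e2] with n h1 h2 t ht
  have ht0 : 0 ≤ t := by linarith [ht.1]
  rw [sc_cv_dyP_al α hτ n ht0 (by linarith [ht.2])]
  obtain ⟨l1, l2⟩ := sc_cv_left_end hτ n ht0
  have h3 : τ / 2 ^ n < s0 - t0 := by
    have : τ / 2 ^ n = (1 / 2 : ℝ) ^ n * τ := by rw [one_div, inv_pow]; ring
    rw [this]
    rwa [lt_div_iff₀ hτ] at h2
  rw [hpl _ ⟨by linarith [ht.1], by linarith [ht.2]⟩]
  exact max_eq_left h1.le

/-- **EXIT of C5b**: strict curvature of `M2 = E V_zz²` on a positive plateau of a general profile. -/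
theorem sc_cv_curv {a τ : ℝ} (ha : 0 < a) (hτ : 0 < τ) (hstep : ScCvStep a) (hlow : ScM4Low a τ) {α : ℝ → ℝ} (hα : ScCoef a τ α)
    (hlim : ScM2Lim a τ α) {t0 t1 c : ℝ} (h00 : 0 ≤ t0) (h1τ : t1 ≤ τ) (hc : 0 < c) (hpl : ∀ t ∈ Ioo t0 t1, α t = c)
    {s0 s1 : ℝ} (hs0 : t0 < s0) (hs01 : s0 ≤ s1) (hs1 : s1 < t1) :
    ∃ κ : ℝ, 0 < κ ∧ ConvexOn ℝ (Icc s0 s1) (fun t => scaM2 (scLC a) α τ t - κ * t ^ 2) := by
  obtain ⟨m4, hm4, hlow⟩ := hlow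
  refine ⟨c ^ 2 / 2000 * m4, by positivity, ?_⟩
  have hl2 : Tendsto (fun n : ℕ => (1 / 2 : ℝ) ^ n) atTop (𝓝 0) := tendsto_pow_atTop_nhds_zero_of_lt_one (by norm_num) (by norm_num)
  have e1 : ∀ᶠ n : ℕ in atTop, (1 / 2 : ℝ) ^ n < a := hl2.eventually (gt_mem_nhds ha)
  refine sck_convexOn_of_tendsto (f := fun n t => scM2 (scLC a) (scDyP α τ n) t - c ^ 2 / 2000 * m4 * t ^ 2) (convex_Icc s0 s1) ?_ ?_
  · filter_upwards [e1, sc_cv_plateau hτ h00 h1τ hc hpl hs0 hs1] with n h1 h2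
    have hadm := sc_cv_dyP_adm hα hτ.le h1.le
    have hinc := sc_cv_dyP_inc hα hτ.le n
    refine hstep _ hadm hinc (sc_cv_dyP_pp α hτ n) c s0 s1 m4 hc (by linarith) hs01 (by rw [sc_cv_dyP_len]; linarith) h2 ?_
    intro t ht
    exact hlow _ hadm hinc (sc_cv_dyP_len α τ n) t ⟨by linarith [ht.1], by linarith [ht.2]⟩
  · intro t ht
    exact (hlim t ⟨by linarith [ht.1], by linarith [ht.2]⟩).sub_const _

end Claimed.Agent.R286
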