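import Claimed.Agent.R286.Sc.Prof

/-!
# Row 286, scalar block, layer S2 (section D of `Sc/Prof.lean`): THE DYNKIN FORMULA and the calculus of `ScDyn`

Owner: helper92 (typed + proved).   Plan: `origin/helper95:notes/R286/B03_helper95.md`, S2.2-S2.5.
* `ScTP` calculus: `ScTP.of_T, add, neg, sub, mul, const_mul, sc_TP_Al`.
* time integrals: `sc_tint_E` (class), `sc_heat_tint`, `sc_tr_tint`, `sc_P_tint`, `sc_Pt_tint` (Fubini: `P ∫ = ∫ P`).
* `sc_dynkin`, `sc_dynkin_int`: `P_{s,t} φ(t) - φ(s) = ∫_s^t P_{s,r} G(r) dr` for `ScDyn F π s t φ G`.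
* `ScDyn` calculus: `ScDyn.add, neg, sub, const_mul, mul, sq, sc_dyn_time, sc_dyn_space, sc_dyn_D, sc_dyn_P`.
-/

set_option autoImplicit false

namespace Claimed.Agent.R286

open MeasureTheory ProbabilityTheory Filter Topology Set

/-! ## A. piecewise classes -/

theorem ScTP.of_T {s t : ℝ} {G : ℝ → ℝ → ℝ} (h : ScT (Icc s t) 0 G) : ScTP s t G :=
  ⟨∅, finite_empty, fun _ _ ha _ hb _ => ⟨G, h.subset (Icc_subset_Icc ha hb), fun _ _ => rfl⟩⟩

theorem ScTP.add {s t : ℝ} {G H : ℝ → ℝ → ℝ} (hG : ScTP s t G) (hH : ScTP s t H) :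
    ScTP s t (fun r y => G r y + H r y) := by
  obtain ⟨S, hS, h1⟩ := hG
  obtain ⟨S', hS', h2⟩ := hH
  refine ⟨S ∪ S', hS.union hS', fun a b ha hab hb hd => ?_⟩
  rw [disjoint_union_right] at hd
  obtain ⟨G', g1, g2⟩ := h1 a b ha hab hb hd.1
  obtain ⟨H', k1, k2⟩ := h2 a b ha hab hb hd.2
  exact ⟨fun r y => G' r y + H' r y, g1.add k1, fun r hr => by simp only [g2 r hr, k2 r hr]⟩

theorem ScTP.mul {s t : ℝ} {G H : ℝ → ℝ → ℝ} (hG : ScTP s t G) (hH : ScTP s t H) :
    ScTP s t (fun r y => G r y * H r y) := by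
  obtain ⟨S, hS, h1⟩ := hG
  obtain ⟨S', hS', h2⟩ := hH
  refine ⟨S ∪ S', hS.union hS', fun a b ha hab hb hd => ?_⟩
  rw [disjoint_union_right] at hd
  obtain ⟨G', g1, g2⟩ := h1 a b ha hab hb hd.1
  obtain ⟨H', k1, k2⟩ := h2 a b ha hab hb hd.2
  exact ⟨fun r y => G' r y * H' r y, g1.mul k1, fun r hr => by simp only [g2 r hr, k2 r hr]⟩

theorem ScTP.const_mul {s t : ℝ} {G : ℝ → ℝ → ℝ} (c : ℝ) (hG : ScTP s t G) : ScTP s t (fun r y => c * G r y) := by
  obtain ⟨S, hS, h1⟩ := hG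
  refine ⟨S, hS, fun a b ha hab hb hd => ?_⟩
  obtain ⟨G', g1, g2⟩ := h1 a b ha hab hb hd
  exact ⟨fun r y => c * G' r y, g1.const_mul c, fun r hr => by simp only [g2 r hr]⟩

theorem ScTP.neg {s t : ℝ} {G : ℝ → ℝ → ℝ} (hG : ScTP s t G) : ScTP s t (fun r y => - G r y) := by
  simpa using hG.const_mul (-1)

theorem ScTP.sub {s t : ℝ} {G H : ℝ → ℝ → ℝ} (hG : ScTP s t G) (hH : ScTP s t H) :
    ScTP s t (fun r y => G r y - H r y) := by
  simpa [sub_eq_add_neg] using hG.add hH.neg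

theorem ScTP.subset {s t s' t' : ℝ} (hs : s ≤ s') (ht : t' ≤ t) {G : ℝ → ℝ → ℝ} (hG : ScTP s t G) : ScTP s' t' G := by
  obtain ⟨S, hS, h1⟩ := hG
  exact ⟨S, hS, fun a b ha hab hb hd => h1 a b (hs.trans ha) hab (hb.trans ht) hd⟩

/-- the mass is piecewise constant -/
theorem sc_TP_Al {F : ℝ → ℝ} (hF : ScBI F) {π : List (ℝ × ℝ)} (hπ : ScPos π) {s t : ℝ} (hs : 0 ≤ s) (ht : t ≤ scLen π) :
    ScTP s t (fun r _ => scAl π r) := by
  refine ⟨scGrid π, sc_grid_finite π, fun a b ha hab hb hd => ?_⟩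
  refine ⟨fun _ _ => scAl π a, (ScE.const 0 (scAl π a)).scT _, fun r hr => ?_⟩
  have hlt : a < b := hr.1.trans hr.2
  obtain ⟨h1, -, -⟩ := sc_local hF hπ (hs.trans ha) hlt (hb.trans ht) hd
  funext y
  exact h1 r ⟨hr.1.le, hr.2⟩

/-! ## B. time integrals and Fubini -/

/-- the time integral of a function of class `ScT 0` is of class `ScE 0` -/
theorem sc_tint_E {a b : ℝ} (hab : a ≤ b) {H : ℝ → ℝ → ℝ} (hH : ScT (Icc a b) 0 H) :
    ScE 0 (fun y => ∫ r in a..b, H r y) := by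
  obtain ⟨C, c, hC, hc, hb⟩ := hH.2.nonneg
  constructor
  · rw [continuous_iff_continuousAt]
    intro y₀
    simp only [intervalIntegral.integral_of_le hab]
    refine continuousAt_of_dominated (bound := fun _ => C * Real.exp (c * (|y₀| + 1)))
      (Eventually.of_forall fun y => ?_) ?_ (integrable_const _) ?_
    · exact ((hH.continuousOn_time y).mono Ioc_subset_Icc_self).aestronglyMeasurable measurableSet_Ioc
    · filter_upwards [Metric.ball_mem_nhds y₀ one_pos] with y hy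
      refine ae_restrict_of_forall_mem measurableSet_Ioc fun r hr => ?_
      rw [Real.norm_eq_abs]
      refine (hb r (Ioc_subset_Icc_self hr) y).trans ?_
      refine mul_le_mul_of_nonneg_left (Real.exp_le_exp.2 (mul_le_mul_of_nonneg_left ?_ hc)) hC
      rw [Metric.mem_ball, Real.dist_eq] at hy
      have := abs_sub_abs_le_abs_sub y y₀
      linarith
    · refine ae_restrict_of_forall_mem measurableSet_Ioc fun r hr => ?_
      exact (ScT.scE hH (Ioc_subset_Icc_self hr)).continuous.continuousAt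
  · refine ⟨C * (b - a), c, fun y => ?_⟩
    have := intervalIntegral.norm_integral_le_of_norm_le_const (a := a) (b := b) (f := fun r => H r y)
      (C := C * Real.exp (c * |y|)) (fun r hr => by
        rw [uIoc_of_le hab] at hr
        rw [Real.norm_eq_abs]
        exact hb r (Ioc_subset_Icc_self hr) y)
    rw [Real.norm_eq_abs, abs_of_nonneg (sub_nonneg.2 hab)] at this
    refine this.trans (le_of_eq ?_)
    ring

/-- **Fubini** for the heat operator -/
theorem sc_heat_tint {a b : ℝ} (hab : a ≤ b) {H : ℝ → ℝ → ℝ} (hH : ScT (Icc a b) 0 H) (σ z : ℝ) :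
    scHeat σ (fun y => ∫ r in a..b, H r y) z = ∫ r in a..b, scHeat σ (H r) z := by
  obtain ⟨C, c, hC, hc, hb⟩ := hH.2.nonneg
  unfold scHeat
  simp only [intervalIntegral.integral_of_le hab]
  refine integral_integral_swap (μ := gaussianReal 0 1) (ν := volume.restrict (Ioc a b))
    (f := fun g r => H r (z + Real.sqrt σ * g)) ?_
  have e : (gaussianReal 0 1).prod (volume.restrict (Ioc a b))
      = ((gaussianReal 0 1).prod volume).restrict (univ ×ˢ Ioc a b) := by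
    rw [← Measure.prod_restrict, Measure.restrict_univ]
  have hbound : Integrable (fun p : ℝ × ℝ => C * Real.exp (c * |z|) * Real.exp (c * Real.sqrt σ * |p.1|))
      ((gaussianReal 0 1).prod (volume.restrict (Ioc a b))) :=
    ((sc_integrable_exp_abs (c * Real.sqrt σ)).const_mul (C * Real.exp (c * |z|))).comp_fst _
  refine hbound.mono' ?_ ?_
  · rw [e]
    refine ContinuousOn.aestronglyMeasurable ?_ (MeasurableSet.univ.prod measurableSet_Ioc)
    have h1 : ContinuousOn (fun p : ℝ × ℝ => (p.2, z + Real.sqrt σ * p.1)) (univ ×ˢ Ioc a b) :=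
      Continuous.continuousOn (by fun_prop)
    exact hH.1.comp h1 (fun p hp => ⟨Ioc_subset_Icc_self hp.2, mem_univ _⟩)
  · rw [e]
    refine ae_restrict_of_forall_mem (MeasurableSet.univ.prod measurableSet_Ioc) fun p hp => ?_
    rw [Real.norm_eq_abs]
    refine (hb p.2 (Ioc_subset_Icc_self hp.2) _).trans ?_
    rw [mul_assoc, ← Real.exp_add]
    refine mul_le_mul_of_nonneg_left (Real.exp_le_exp.2 ?_) hC
    have h2 : |z + Real.sqrt σ * p.1| ≤ |z| + Real.sqrt σ * |p.1| := by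
      refine (abs_add_le _ _).trans ?_
      rw [abs_mul, abs_of_nonneg (Real.sqrt_nonneg _)]
    calc c * |z + Real.sqrt σ * p.1| ≤ c * (|z| + Real.sqrt σ * |p.1|) := mul_le_mul_of_nonneg_left h2 hc
      _ = _ := by ring

/-- **Fubini** for one planted transition -/
theorem sc_tr_tint {a b : ℝ} (hab : a ≤ b) {H : ℝ → ℝ → ℝ} (hH : ScT (Icc a b) 0 H) {V : ℝ → ℝ} (hV : ScB 1 V)
    (m σ z : ℝ) :
    scTr m σ V (fun y => ∫ r in a..b, H r y) z = ∫ r in a..b, scTr m σ V (H r) z := by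
  have hE : ScE 0 (fun y => Real.exp (m * V y)) := (hV.exp m).of_succ
  have h1 : ScT (Icc a b) 0 (fun r y => H r y * Real.exp (m * V y)) := hH.mul (hE.scT _)
  unfold scTr
  have e : (fun y => (∫ r in a..b, H r y) * Real.exp (m * V y))
      = fun y => ∫ r in a..b, H r y * Real.exp (m * V y) := by
    funext y
    rw [intervalIntegral.integral_mul_const]
  rw [e, sc_heat_tint hab h1, intervalIntegral.integral_div]

/-- **Fubini** for the transition operator of a list -/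
theorem sc_P_tint {a b : ℝ} (hab : a ≤ b) {F : ℝ → ℝ} (hF : ScBI F) (ρ : List (ℝ × ℝ)) {H : ℝ → ℝ → ℝ}
    (hH : ScT (Icc a b) 0 H) :
    ScT (Icc a b) 0 (fun r => scP F ρ (H r)) ∧
      scP F ρ (fun y => ∫ r in a..b, H r y) = fun z => ∫ r in a..b, scP F ρ (H r) z := by
  induction ρ with
  | nil => exact ⟨hH, rfl⟩
  | cons p ρ ih =>
    refine ⟨sc_tr_T_frozen (sc_V_BI hF ρ 1) p.1 p.2 ih.1, ?_⟩
    show scTr p.1 p.2 (scV F ρ) (scP F ρ fun y => ∫ r in a..b, H r y) = _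
    rw [ih.2]
    funext z
    exact sc_tr_tint hab ih.1 (sc_V_BI hF ρ 1) p.1 p.2 z

/-- **Fubini** for `P_{s,t}` -/
theorem sc_Pt_tint {a b : ℝ} (hab : a ≤ b) {F : ℝ → ℝ} (hF : ScBI F) {π : List (ℝ × ℝ)} (hπ : ScPos π) {s t : ℝ}
    (hst : s ≤ t) {H : ℝ → ℝ → ℝ} (hH : ScT (Icc a b) 0 H) :
    ScT (Icc a b) 0 (fun r => scPt F π s t (H r)) ∧
      scPt F π s t (fun y => ∫ r in a..b, H r y) = fun z => ∫ r in a..b, scPt F π s t (H r) z := by
  have := sc_P_tint hab (sc_Vt_BI hF π t) (scUpto (scAfter π s) (t - s)) hH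
  simp only [sc_Pt_eq_P hF hπ hst]
  exact this

/-! ## C. the Dynkin formula -/

/-- the Dynkin formula on an interval which lies inside one step and contains no exceptional time -/
theorem sc_dynkin_piece {F : ℝ → ℝ} (hF : ScBI F) {π : List (ℝ × ℝ)} (hπ : ScPos π) {s a b : ℝ} (hs : 0 ≤ s)
    (hsa : s ≤ a) (hab : a < b) (hb : b ≤ scLen π) (hg : Disjoint (Ioo a b) (scGrid π)) {φ G G' : ℝ → ℝ → ℝ}
    (hφ : ScT (Icc a b) 2 φ) (hG' : ScT (Icc a b) 0 G') (hGG : ∀ r ∈ Ioo a b, G r = G' r)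
    (hd : ∀ r ∈ Ioo a b, ∀ y, HasDerivAt (fun r => φ r y)
      (G r y - deriv (deriv (φ r)) y / 2 - scAl π r * scD 1 F π r y * deriv (φ r) y) r) (z : ℝ) :
    IntervalIntegrable (fun r => scPt F π s r (G r) z) volume a b ∧
      scPt F π s b (φ b) z - scPt F π s a (φ a) z = ∫ r in a..b, scPt F π s r (G r) z := by
  obtain ⟨l1, l2, l3⟩ := sc_local hF hπ (hs.trans hsa) hab hb hg
  set m := scAl π a with hm
  set Vb := scVt F π b with hVb
  have hVbB : ScBI Vb := sc_Vt_BI hF π b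
  have hle : a ≤ b := hab.le
  -- the time derivative of `φ`
  have hstep : ScT (Icc a b) 1 (fun r => scStep m (b - r) Vb) := sc_step_T (n := 0) (hVbB 1) m a b
  have hφ1 : ScT (Icc a b) 0 (fun r => deriv (φ r)) := (sc_T_deriv hφ).of_succ
  have hφ2 : ScT (Icc a b) 0 (fun r => deriv (deriv (φ r))) := sc_T_deriv (sc_T_deriv hφ)
  set φt : ℝ → ℝ → ℝ := fun r y => G' r y - deriv (deriv (φ r)) y / 2
      - m * deriv (scStep m (b - r) Vb) y * deriv (φ r) y with hφt
  have hφtT : ScT (Icc a b) 0 φt := by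
    have h1 : ScT (Icc a b) 0 (fun r y => (1 / 2 : ℝ) * deriv (deriv (φ r)) y) := hφ2.const_mul _
    have h2 : ScT (Icc a b) 0 (fun r y => m * (deriv (scStep m (b - r) Vb) y * deriv (φ r) y)) :=
      ((sc_T_deriv hstep).mul hφ1).const_mul m
    refine ((hG'.sub h1).sub h2).congr fun r _ y => ?_
    simp only [hφt]
    ring
  have hdt : ∀ r ∈ Ioo a b, ∀ y, HasDerivAt (fun r => φ r y) (φt r y) r := by
    intro r hr y
    refine (hd r hr y).congr_deriv ?_
    simp only [hφt]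
    rw [hGG r hr, l1 r ⟨hr.1.le, hr.2⟩, sc_D_one, l2 r ⟨hr.1.le, hr.2.le⟩]
  -- one step
  set K : ℝ → ℝ → ℝ := fun r => scTr m (r - a) (scStep m (b - r) Vb) (G' r) with hK
  have hKT : ScT (Icc a b) 0 K := sc_tr_T' (hVbB 1) m a b hG'
  have hone : ∀ y, scTr m (b - a) Vb (φ b) y - φ a y = ∫ r in a..b, K r y := by
    intro y
    rw [sc_tr_dynkin (hVbB 3) m hle hφ hφtT hdt y]
    refine intervalIntegral.integral_congr fun r _ => ?_
    simp only [hK]
    congr 1
    funext x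
    simp only [hφt]
    ring
  have hKr : ∀ r ∈ Icc a b, K r = scPt F π a r (G' r) := by
    intro r hr
    rw [l3 a ⟨le_rfl, hle⟩ r hr, l2 r hr]
  -- apply `P_{s,a}`
  obtain ⟨f1, f2⟩ := sc_Pt_tint hle hF hπ hsa hKT
  have hφa : ScE 0 (φ a) := (ScT.scE hφ ⟨le_rfl, hle⟩).mono (by omega)
  have hφb : ScE 0 (φ b) := (ScT.scE hφ ⟨hle, le_rfl⟩).mono (by omega)
  have e1 : scPt F π a b (φ b) = fun y => φ a y + ∫ r in a..b, K r y := by
    funext y
    rw [l3 a ⟨le_rfl, hle⟩ b ⟨hle, le_rfl⟩, ← hone y]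
    ring
  have e2 : scPt F π s b (φ b) = fun z => scPt F π s a (φ a) z + ∫ r in a..b, scPt F π s a (K r) z := by
    rw [← sc_Pt_Pt hF hφb hπ hsa hle, e1, sc_Pt_add hF hφa (sc_tint_E hle hKT), f2]
  have e3 : EqOn (fun r => scPt F π s a (K r) z) (fun r => scPt F π s r (G r) z) (Ioo a b) := by
    intro r hr
    have hr' : r ∈ Icc a b := ⟨hr.1.le, hr.2.le⟩
    show scPt F π s a (K r) z = scPt F π s r (G r) z
    rw [hKr r hr', sc_Pt_Pt hF (ScT.scE hG' hr') hπ hsa hr.1.le, hGG r hr]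
  constructor
  · have hc : IntervalIntegrable (fun r => scPt F π s a (K r) z) volume a b := by
      refine ContinuousOn.intervalIntegrable ?_
      rw [uIcc_of_le hle]
      exact f1.continuousOn_time z
    refine hc.congr_uIoo ?_
    rw [uIoo_of_le hle]
    exact e3
  · rw [e2, ← intervalIntegral.integral_congr_Ioo_of_le hle e3]
    ring

/-- **THE DYNKIN FORMULA** with the integrability of the integrand -/
theorem sc_dynkin' {F : ℝ → ℝ} (hF : ScBI F) {π : List (ℝ × ℝ)} (hπ : ScPos π) {s t : ℝ} (hs : 0 ≤ s) (hst : s ≤ t)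
    (ht : t ≤ scLen π) {φ G : ℝ → ℝ → ℝ} (h : ScDyn F π s t φ G) (z : ℝ) :
    IntervalIntegrable (fun r => scPt F π s r (G r) z) volume s t ∧
      scPt F π s t (φ t) z - φ s z = ∫ r in s..t, scPt F π s r (G r) z := by
  obtain ⟨S1, hS1, g1⟩ := h.gen
  obtain ⟨S2, hS2, d2⟩ := h.der
  have key := sc_piecewise_induction (S := scGrid π ∪ S1 ∪ S2) (((sc_grid_finite π).union hS1).union hS2)
    (P := fun a b => s ≤ a → b ≤ t → (IntervalIntegrable (fun r => scPt F π s r (G r) z) volume a b ∧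
      scPt F π s b (φ b) z - scPt F π s a (φ a) z = ∫ r in a..b, scPt F π s r (G r) z)) ?_ ?_ hst le_rfl le_rfl
  · rw [sc_Pt_self] at key
    exact key
  · intro a b hab hd hsa hbt
    rcases eq_or_lt_of_le hab with rfl | hlt
    · simp
    rw [disjoint_union_right, disjoint_union_right] at hd
    obtain ⟨G', hG', hGG⟩ := g1 a b hsa hab hbt hd.1.2
    refine sc_dynkin_piece hF hπ hs hsa hlt (hbt.trans ht) hd.1.1 (h.reg.subset (Icc_subset_Icc hsa hbt)) hG' hGG
      (fun r hr y => ?_) z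
    exact d2 r ⟨lt_of_le_of_lt hsa hr.1, lt_of_lt_of_le hr.2 hbt⟩ (fun hrS => (Set.disjoint_left.1 hd.2) hr hrS) y
  · intro a b c hab hbc h1 h2 hsa hct
    obtain ⟨i1, e1⟩ := h1 hsa (hbc.trans hct)
    obtain ⟨i2, e2⟩ := h2 (hsa.trans hab) hct
    refine ⟨i1.trans i2, ?_⟩
    rw [← intervalIntegral.integral_add_adjacent_intervals i1 i2, ← e1, ← e2]
    ring

theorem sc_dynkin {F : ℝ → ℝ} (hF : ScBI F) {π : List (ℝ × ℝ)} (hπ : ScPos π) {s t : ℝ} (hs : 0 ≤ s) (hst : s ≤ t)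
    (ht : t ≤ scLen π) {φ G : ℝ → ℝ → ℝ} (h : ScDyn F π s t φ G) (z : ℝ) :
    scPt F π s t (φ t) z - φ s z = ∫ r in s..t, scPt F π s r (G r) z := (sc_dynkin' hF hπ hs hst ht h z).2

theorem sc_dynkin_int {F : ℝ → ℝ} (hF : ScBI F) {π : List (ℝ × ℝ)} (hπ : ScPos π) {s t : ℝ} (hs : 0 ≤ s)
    (hst : s ≤ t) (ht : t ≤ scLen π) {φ G : ℝ → ℝ → ℝ} (h : ScDyn F π s t φ G) (z : ℝ) :
    IntervalIntegrable (fun r => scPt F π s r (G r) z) volume s t := (sc_dynkin' hF hπ hs hst ht h z).1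

end Claimed.Agent.R286
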