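import Claimed.Agent.R286.Sc.Tau
import Claimed.Agent.R286.Sc.Bound

/-!
# Row 286, scalar block, layer S4 (part C): WEIGHTED bounds of the transition operators, free of the partition

OWNER helper88 (typed + proved).   Prefix `sgw_`.   Port of the GRAD recursion of `Sc/Tau.lean` (helper92) to tests of EXPONENTIAL growth.
TEX[LL:paths:parameter-regularity] (backward regularity of `E[φ(Z_t) | Z_s = z]` for tests of the exponential class; field `P_T` of `LscMod.Ok`).

* `ScW w n M φ` : `φ, φ', .., φ^(n)` exist and are bounded by `M * w`, the last one continuous (`w` a positive weight, in the applications `cosh (c z)`).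
* `sgw_grad` : the GRAD formula of `Sc/Tau.lean` for tests of class `ScE 1`.
* `sgw_P` : if `scP F π w ≤ K₀ w` for all admissible profiles of length `≤ T` (exponential moments), then
  `ScW w n M φ ⟹ ScW w n (K M) (scP F π φ)`, `K = K(a, n, A, K₀)`: neither the number of steps nor the mesh enter.
* `sgw_Pt` : the same for `scPt F π s t φ`.
-/

set_option autoImplicit false

namespace Claimed.Agent.R286

open MeasureTheory ProbabilityTheory Filter Topology Set

/-- `φ, φ', .., φ^(n)` exist and are bounded by `M * w`; the last one is continuous -/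
def ScW (w : ℝ → ℝ) : ℕ → ℝ → (ℝ → ℝ) → Prop
  | 0, M, φ => Continuous φ ∧ ∀ z, |φ z| ≤ M * w z
  | n + 1, M, φ => (∀ z, |φ z| ≤ M * w z) ∧ Differentiable ℝ φ ∧ ScW w n M (deriv φ)

section cls

variable {w : ℝ → ℝ}

theorem ScW.bd {n : ℕ} {M : ℝ} {φ : ℝ → ℝ} (h : ScW w n M φ) (z : ℝ) : |φ z| ≤ M * w z := by
  cases n with
  | zero => exact h.2 z
  | succ n => exact h.1 z

theorem ScW.nonneg (hw : ∀ z, 0 < w z) {n : ℕ} {M : ℝ} {φ : ℝ → ℝ} (h : ScW w n M φ) : 0 ≤ M := by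
  have := (abs_nonneg _).trans (h.bd 0)
  exact nonneg_of_mul_nonneg_left this (hw 0)

theorem ScW.continuous {n : ℕ} {M : ℝ} {φ : ℝ → ℝ} (h : ScW w n M φ) : Continuous φ := by
  cases n with
  | zero => exact h.1
  | succ n => exact h.2.1.continuous

theorem ScW.der {n : ℕ} {M : ℝ} {φ : ℝ → ℝ} (h : ScW w (n + 1) M φ) : ScW w n M (deriv φ) := h.2.2

theorem ScW.of_succ {n : ℕ} {M : ℝ} {φ : ℝ → ℝ} (h : ScW w (n + 1) M φ) : ScW w n M φ := by
  induction n generalizing φ with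
  | zero => exact ⟨h.2.1.continuous, h.1⟩
  | succ n ih => exact ⟨h.1, h.2.1, ih h.2.2⟩

theorem ScW.mono {m n : ℕ} (hmn : m ≤ n) {M : ℝ} {φ : ℝ → ℝ} (h : ScW w n M φ) : ScW w m M φ := by
  induction n, hmn using Nat.le_induction with
  | base => exact h
  | succ n _ ih => exact ih h.of_succ

theorem ScW.weaken (hw : ∀ z, 0 < w z) {n : ℕ} {M M' : ℝ} (hM : M ≤ M') {φ : ℝ → ℝ} (h : ScW w n M φ) :
    ScW w n M' φ := by
  induction n generalizing φ with
  | zero => exact ⟨h.1, fun z => (h.2 z).trans (mul_le_mul_of_nonneg_right hM (hw z).le)⟩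
  | succ n ih => exact ⟨fun z => (h.1 z).trans (mul_le_mul_of_nonneg_right hM (hw z).le), h.2.1, ih h.2.2⟩

theorem ScW.scE (hG : ScG w) {n : ℕ} {M : ℝ} {φ : ℝ → ℝ} (h : ScW w n M φ) : ScE n φ := by
  have hg : ∀ {ψ : ℝ → ℝ}, (∀ z, |ψ z| ≤ M * w z) → ScG ψ := fun {ψ} hψ =>
    ((ScG.const M).mul hG).of_le fun z => (hψ z).trans (le_abs_self _)
  induction n generalizing φ with
  | zero => exact ⟨h.1, hg h.2⟩
  | succ n ih => exact ⟨h.2.1.continuous, hg h.1, h.2.1, ih h.2.2⟩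

theorem ScW.iter {n : ℕ} {M : ℝ} {φ : ℝ → ℝ} (h : ScW w n M φ) {k : ℕ} (hk : k ≤ n) (z : ℝ) :
    |deriv^[k] φ z| ≤ M * w z := by
  induction k generalizing n φ with
  | zero => exact h.bd z
  | succ k ih =>
    obtain ⟨n, rfl⟩ : ∃ n', n = n' + 1 := ⟨n - 1, by omega⟩
    rw [Function.iterate_succ_apply]
    exact ih h.der (by omega)

theorem ScW.iter_hasDerivAt {n : ℕ} {M : ℝ} {φ : ℝ → ℝ} (h : ScW w n M φ) {k : ℕ} (hk : k < n) (z : ℝ) :
    HasDerivAt (deriv^[k] φ) (deriv^[k + 1] φ z) z := by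
  induction k generalizing n φ with
  | zero =>
    obtain ⟨n, rfl⟩ : ∃ n', n = n' + 1 := ⟨n - 1, by omega⟩
    exact (h.2.1 z).hasDerivAt
  | succ k ih =>
    obtain ⟨n, rfl⟩ : ∃ n', n = n' + 1 := ⟨n - 1, by omega⟩
    have := ih h.der (by omega)
    simpa only [Function.iterate_succ_apply] using this

theorem ScW.iter_continuous {n : ℕ} {M : ℝ} {φ : ℝ → ℝ} (h : ScW w n M φ) {k : ℕ} (hk : k ≤ n) :
    Continuous (deriv^[k] φ) := by
  induction k generalizing n φ with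
  | zero => exact h.continuous
  | succ k ih =>
    obtain ⟨n, rfl⟩ : ∃ n', n = n' + 1 := ⟨n - 1, by omega⟩
    have := ih h.der (by omega)
    simpa only [Function.iterate_succ_apply] using this

theorem ScW.zero (w : ℝ → ℝ) (n : ℕ) : ScW w n 0 (fun _ => 0) := by
  induction n with
  | zero => exact ⟨continuous_const, fun z => by simp⟩
  | succ n ih =>
    refine ⟨fun z => by simp, differentiable_const 0, ?_⟩
    have e : deriv (fun _ : ℝ => (0 : ℝ)) = fun _ => 0 := by ext z; simp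
    rw [e]
    exact ih

theorem ScW.add {n : ℕ} {M M' : ℝ} {φ ψ : ℝ → ℝ} (hφ : ScW w n M φ) (hψ : ScW w n M' ψ) :
    ScW w n (M + M') (fun z => φ z + ψ z) := by
  induction n generalizing φ ψ with
  | zero =>
    exact ⟨hφ.1.add hψ.1, fun z => by
      rw [add_mul]; exact (abs_add_le _ _).trans (add_le_add (hφ.2 z) (hψ.2 z))⟩
  | succ n ih =>
    refine ⟨fun z => by rw [add_mul]; exact (abs_add_le _ _).trans (add_le_add (hφ.1 z) (hψ.1 z)),
      hφ.2.1.add hψ.2.1, ?_⟩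
    have e : deriv (fun z => φ z + ψ z) = fun z => deriv φ z + deriv ψ z := by
      ext z; exact deriv_fun_add (hφ.2.1 z) (hψ.2.1 z)
    rw [e]
    exact ih hφ.2.2 hψ.2.2

theorem ScW.const_mul {n : ℕ} {M : ℝ} {φ : ℝ → ℝ} (c : ℝ) (hφ : ScW w n M φ) :
    ScW w n (|c| * M) (fun z => c * φ z) := by
  induction n generalizing φ with
  | zero =>
    exact ⟨continuous_const.mul hφ.1, fun z => by
      rw [abs_mul, mul_assoc]; exact mul_le_mul_of_nonneg_left (hφ.2 z) (abs_nonneg _)⟩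
  | succ n ih =>
    refine ⟨fun z => by rw [abs_mul, mul_assoc]; exact mul_le_mul_of_nonneg_left (hφ.1 z) (abs_nonneg _),
      hφ.2.1.const_mul c, ?_⟩
    have e : deriv (fun z => c * φ z) = fun z => c * deriv φ z := by
      ext z; exact deriv_const_mul c (hφ.2.1 z)
    rw [e]
    exact ih hφ.2.2

theorem ScW.neg {n : ℕ} {M : ℝ} {φ : ℝ → ℝ} (hφ : ScW w n M φ) : ScW w n M (fun z => - φ z) := by
  simpa using hφ.const_mul (-1)

theorem ScW.sub {n : ℕ} {M M' : ℝ} {φ ψ : ℝ → ℝ} (hφ : ScW w n M φ) (hψ : ScW w n M' ψ) :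
    ScW w n (M + M') (fun z => φ z - ψ z) := by
  simpa [sub_eq_add_neg] using hφ.add hψ.neg

/-- a weighted function times a bounded one -/
theorem ScW.mul (hw : ∀ z, 0 < w z) {n : ℕ} {M M' : ℝ} {φ ψ : ℝ → ℝ} (hφ : ScW w n M φ) (hψ : ScN n M' ψ) :
    ScW w n (2 ^ n * (M * M')) (fun z => φ z * ψ z) := by
  have hM := hφ.nonneg hw
  have hM' := hψ.nonneg
  have key : ∀ {f g : ℝ → ℝ}, (∀ z, |f z| ≤ M * w z) → (∀ z, |g z| ≤ M') → ∀ z, |f z * g z| ≤ M * M' * w z := by
    intro f g hf hg z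
    rw [abs_mul]
    calc |f z| * |g z| ≤ (M * w z) * M' := mul_le_mul (hf z) (hg z) (abs_nonneg _) (mul_nonneg hM (hw z).le)
      _ = M * M' * w z := by ring
  induction n generalizing φ ψ with
  | zero =>
    refine ⟨hφ.1.mul hψ.1, fun z => ?_⟩
    rw [pow_zero, one_mul]
    exact key hφ.2 hψ.2 z
  | succ n ih =>
    have h0 : 0 ≤ M * M' := mul_nonneg hM hM'
    refine ⟨fun z => ?_, hφ.2.1.mul hψ.2.1, ?_⟩
    · refine (key hφ.1 hψ.1 z).trans (mul_le_mul_of_nonneg_right ?_ (hw z).le)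
      calc M * M' = 1 * (M * M') := (one_mul _).symm
        _ ≤ 2 ^ (n + 1) * (M * M') := mul_le_mul_of_nonneg_right (one_le_pow₀ (by norm_num)) h0
    · have e : deriv (fun z => φ z * ψ z) = fun z => deriv φ z * ψ z + φ z * deriv ψ z := by
        ext z; exact deriv_fun_mul (hφ.2.1 z) (hψ.2.1 z)
      rw [e]
      have := (ih hφ.2.2 hψ.of_succ).add (ih hφ.of_succ hψ.2.2)
      refine this.weaken hw (le_of_eq ?_)
      ring

/-- bounded functions, weight `≥ 1` -/
theorem ScN.scW (hw : ∀ z, 1 ≤ w z) {n : ℕ} {M : ℝ} {φ : ℝ → ℝ} (h : ScN n M φ) : ScW w n M φ := by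
  have hM := h.nonneg
  induction n generalizing φ with
  | zero => exact ⟨h.1, fun z => (h.2 z).trans (le_mul_of_one_le_right hM (hw z))⟩
  | succ n ih => exact ⟨fun z => (h.1 z).trans (le_mul_of_one_le_right hM (hw z)), h.2.1, ih h.2.2⟩

end cls

/-! ## the transition operator of a list on the exponential class -/

theorem sgw_P_add {F φ ψ : ℝ → ℝ} (hF : ScBI F) (hφ : ScE 0 φ) (hψ : ScE 0 ψ) (π : List (ℝ × ℝ)) :
    scP F π (fun z => φ z + ψ z) = fun z => scP F π φ z + scP F π ψ z := by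
  induction π with
  | nil => rfl
  | cons p π ih =>
    show scTr p.1 p.2 (scV F π) (scP F π fun z => φ z + ψ z) = _
    rw [ih, sc_tr_add (sc_V_BI hF π 1) (sc_P_E hF hφ π) (sc_P_E hF hψ π)]
    rfl

theorem sgw_P_mono {F φ ψ : ℝ → ℝ} (hF : ScBI F) (hφ : ScE 0 φ) (hψ : ScE 0 ψ) (h : ∀ z, φ z ≤ ψ z)
    (π : List (ℝ × ℝ)) (z : ℝ) : scP F π φ z ≤ scP F π ψ z := by
  induction π generalizing z with
  | nil => exact h z
  | cons p π ih => exact sc_tr_mono (sc_V_BI hF π 1) (sc_P_E hF hφ π) (sc_P_E hF hψ π) ih p.1 p.2 z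

/-- order `0` -/
theorem sgw_P_abs_le {F φ w : ℝ → ℝ} (hF : ScBI F) (hw : ScE 0 w) (hφ : Continuous φ) {M : ℝ}
    (h : ∀ z, |φ z| ≤ M * w z) (π : List (ℝ × ℝ)) (z : ℝ) : |scP F π φ z| ≤ M * scP F π w z := by
  have hMw : ScE 0 (fun z => M * w z) := hw.const_mul M
  have hφE : ScE 0 φ := ⟨hφ, hMw.growth.of_le fun z => (h z).trans (le_abs_self _)⟩
  have e := congrFun (sc_tau_P_const_mul F w M π) z
  have e' := congrFun (sc_tau_P_const_mul F (fun z => M * w z) (-1) π) z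
  rw [abs_le]
  constructor
  · have := sgw_P_mono hF (hMw.const_mul (-1)) hφE (fun y => by have := (abs_le.1 (h y)).1; linarith) π z
    rw [e', e] at this
    linarith
  · have := sgw_P_mono hF hφE hMw (fun y => (abs_le.1 (h y)).2) π z
    rw [e] at this
    exact this

theorem sgw_G_E {n : ℕ} {F φ : ℝ → ℝ} (hF : ScBI F) (hφ : ScE n φ) (π : List (ℝ × ℝ)) :
    ScE n (scTauG F φ π) :=
  (sc_P_E hF hφ π).mul (sc_V_BI hF π (n + 1)).deriv_bd.scE

theorem sgw_S_E {n : ℕ} {F φ : ℝ → ℝ} (hF : ScBI F) (hφ : ScE n φ) (π : List (ℝ × ℝ)) :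
    ScE n (scTauS F φ π) := by
  induction π with
  | nil => exact ScE.const n 0
  | cons p π ih =>
    cases π with
    | nil => exact ScE.const n 0
    | cons q π =>
      exact sc_tr_E (sc_V_BI hF (q :: π) (n + 1)) (((sgw_G_E hF hφ (q :: π)).const_mul _).add ih) p.1 p.2

/-- **GRAD** for tests of the exponential class:
`∂ P φ = P φ' + m_last P[φ F'] - m_first (P φ) u - Σ_jumps Δm P_{0,j}[(P_{j,end} φ) u_j]` -/
theorem sgw_grad {F φ : ℝ → ℝ} (hF : ScBI F) (hφ : ScE 1 φ) (π : List (ℝ × ℝ)) :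
    deriv (scP F π φ) = fun z => scP F π (deriv φ) z + scMl π * scP F π (fun y => φ y * deriv F y) z
      - scMf π * scTauG F φ π z - scTauS F φ π z := by
  have hF' : ScE 0 (deriv F) := (hF 1).deriv_bd.scE
  have hφ0 : ScE 0 φ := hφ.of_succ
  induction π with
  | nil =>
    funext z
    simp [scP, scMl, scMf, scTauS]
  | cons p π ih =>
    have hV1 : ScB 1 (scV F π) := sc_V_BI hF π 1
    have hψ : ScE 1 (scP F π φ) := sc_P_E hF hφ π
    have h1 : deriv (scP F (p :: π) φ) = _ := sc_tr_deriv_eq hV1 hψ p.1 p.2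
    rw [h1]
    have hu : deriv (scV F (p :: π)) = scTr p.1 p.2 (scV F π) (deriv (scV F π)) := sc_step_deriv hV1 p.1 p.2
    cases π with
    | nil =>
      funext z
      simp only [scP, scMl, scMf, scTauS, scTauG, scV] at hu ⊢
      rw [hu]
      ring
    | cons q π =>
      rw [ih]
      have a1 : ScE 0 (scP F (q :: π) (deriv φ)) := sc_P_E hF hφ.deriv (q :: π)
      have a2 : ScE 0 (scP F (q :: π) (fun y => φ y * deriv F y)) := sc_P_E hF (hφ0.mul hF') (q :: π)
      have a3 : ScE 0 (scTauG F φ (q :: π)) := sgw_G_E hF hφ0 (q :: π)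
      have a4 : ScE 0 (scTauS F φ (q :: π)) := sgw_S_E hF hφ0 (q :: π)
      have e1 : scTr p.1 p.2 (scV F (q :: π)) (fun z => scP F (q :: π) (deriv φ) z
            + scMl (q :: π) * scP F (q :: π) (fun y => φ y * deriv F y) z
            - scMf (q :: π) * scTauG F φ (q :: π) z - scTauS F φ (q :: π) z)
          = fun z => scTr p.1 p.2 (scV F (q :: π)) (scP F (q :: π) (deriv φ)) z
            + scMl (q :: π) * scTr p.1 p.2 (scV F (q :: π)) (scP F (q :: π) (fun y => φ y * deriv F y)) z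
            - scMf (q :: π) * scTr p.1 p.2 (scV F (q :: π)) (scTauG F φ (q :: π)) z
            - scTr p.1 p.2 (scV F (q :: π)) (scTauS F φ (q :: π)) z := by
        rw [sc_tr_sub hV1 ((a1.add (a2.const_mul _)).sub (a3.const_mul _)) a4,
          sc_tr_sub hV1 (a1.add (a2.const_mul _)) (a3.const_mul _),
          sc_tr_add hV1 a1 (a2.const_mul _), sc_tr_const_mul, sc_tr_const_mul]
      have e2 : scTauS F φ (p :: q :: π) = fun z => (q.1 - p.1) * scTr p.1 p.2 (scV F (q :: π)) (scTauG F φ (q :: π)) z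
            + scTr p.1 p.2 (scV F (q :: π)) (scTauS F φ (q :: π)) z := by
        show scTr p.1 p.2 (scV F (q :: π)) (fun y => (q.1 - p.1) * scTauG F φ (q :: π) y + scTauS F φ (q :: π) y) = _
        rw [sc_tr_add hV1 (a3.const_mul _) a4, sc_tr_const_mul]
      rw [e1, e2]
      funext z
      have e3 : scTauG F φ (p :: q :: π) z
          = scTr p.1 p.2 (scV F (q :: π)) (scP F (q :: π) φ) z * scTr p.1 p.2 (scV F (q :: π)) (deriv (scV F (q :: π))) z := by
        unfold scTauG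
        rw [hu]
        rfl
      rw [e3]
      have e4 : (fun y => scP F (q :: π) φ y * deriv (scV F (q :: π)) y) = scTauG F φ (q :: π) := rfl
      rw [e4]
      simp only [scP, scMl, scMf]
      ring

/-! ## the bound of the sum over the jumps -/

theorem sgw_len_le_left {ρ π : List (ℝ × ℝ)} (h : ScPos (ρ ++ π)) : scLen ρ ≤ scLen (ρ ++ π) := by
  rw [sc_len_append]
  have : 0 ≤ scLen π := sc_len_nonneg fun p hp => h p (List.mem_append_right _ hp)
  linarith

theorem sgw_len_upto_le (π : List (ℝ × ℝ)) {t : ℝ} (ht : 0 ≤ t) : scLen (scUpto π t) ≤ t := by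
  induction π generalizing t with
  | nil => simpa [scUpto, scLen] using ht
  | cons p π ih =>
    simp only [scUpto]
    split_ifs with h
    · simp [scLen]
    · have := ih (t := t - p.2) (by push Not at h; linarith)
      simp only [scLen]
      linarith

theorem sgw_S_bound {w : ℝ → ℝ} (hw : ∀ z, 0 < w z) {n : ℕ} {a A' K2 B T : ℝ} (_hK2 : 0 ≤ K2)
    (H : ∀ (F' : ℝ → ℝ) (ρ : List (ℝ × ℝ)) (ψ : ℝ → ℝ) (M : ℝ), ScBI F' → ScN n A' (deriv F') → ScAdm a ρ → ScInc ρ →
      scLen ρ ≤ T → ScW w n M ψ → ScW w n (K2 * M) (scP F' ρ ψ))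
    {F φ : ℝ → ℝ} (hF : ScBI F) (hφ : ScE 0 φ)
    (hV : ∀ π', ScAdm a π' → ScInc π' → ScN n A' (deriv (scV F π')))
    (hG : ∀ π', ScAdm a π' → ScInc π' → scLen π' ≤ T → ScW w n B (scTauG F φ π')) :
    ∀ π ρ : List (ℝ × ℝ), ScAdm a (ρ ++ π) → ScInc (ρ ++ π) → scLen (ρ ++ π) ≤ T →
      ScW w n (K2 * B * (scMl π - scMf π)) (scP (scV F π) ρ (scTauS F φ π)) := by
  intro π
  induction π with
  | nil =>
    intro ρ h1 h2 h3
    have := H (scV F []) ρ (fun _ => 0) 0 (sc_V_BI hF []) (hV [] (fun p hp => by simp at hp) List.Pairwise.nil)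
      (sc_tau_adm_sublist h1 (List.sublist_append_left _ _)) (sc_tau_inc_sublist h2 (List.sublist_append_left _ _))
      ((sgw_len_le_left h1.pos).trans h3) (ScW.zero w n)
    refine this.weaken hw (le_of_eq ?_)
    simp [scMl, scMf]
  | cons p π ih =>
    intro ρ h1 h2 h3
    have h1s : ScAdm a (p :: π) := sc_tau_adm_sublist h1 (List.sublist_append_right _ _)
    have h2s : ScInc (p :: π) := sc_tau_inc_sublist h2 (List.sublist_append_right _ _)
    cases π with
    | nil =>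
      have := H (scV F [p]) ρ (fun _ => 0) 0 (sc_V_BI hF [p]) (hV [p] h1s h2s)
        (sc_tau_adm_sublist h1 (List.sublist_append_left _ _)) (sc_tau_inc_sublist h2 (List.sublist_append_left _ _))
        ((sgw_len_le_left h1.pos).trans h3) (ScW.zero w n)
      refine this.weaken hw (le_of_eq ?_)
      simp [scMl, scMf]
    | cons q π =>
      have hpre : (ρ ++ [p]).Sublist (ρ ++ p :: q :: π) := List.IsPrefix.sublist ⟨q :: π, by simp⟩
      have h1p : ScAdm a (ρ ++ [p]) := sc_tau_adm_sublist h1 hpre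
      have h2p : ScInc (ρ ++ [p]) := sc_tau_inc_sublist h2 hpre
      have eapp : ρ ++ p :: q :: π = (ρ ++ [p]) ++ (q :: π) := by simp
      have h3p : scLen (ρ ++ [p]) ≤ T := by
        have := sgw_len_le_left (ρ := ρ ++ [p]) (π := q :: π) (by rw [← eapp]; exact h1.pos)
        rw [← eapp] at this
        exact this.trans h3
      have h3q : scLen (q :: π) ≤ T := by
        have e := sc_len_append (ρ ++ [p]) (q :: π)
        rw [← eapp] at e
        have := sc_len_nonneg h1p.pos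
        linarith
      have hpq : p.1 ≤ q.1 := (List.pairwise_cons.1 h2s).1 q (by simp)
      have hBI : ScBI (scV F (q :: π)) := sc_V_BI hF (q :: π)
      have e0 : scP (scV F (p :: q :: π)) ρ (scTauS F φ (p :: q :: π))
          = scP (scV F (q :: π)) (ρ ++ [p])
              (fun y => (q.1 - p.1) * scTauG F φ (q :: π) y + scTauS F φ (q :: π) y) := by
        rw [sc_P_append]
        rfl
      have e1 : scP (scV F (q :: π)) (ρ ++ [p])
              (fun y => (q.1 - p.1) * scTauG F φ (q :: π) y + scTauS F φ (q :: π) y)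
          = fun z => (q.1 - p.1) * scP (scV F (q :: π)) (ρ ++ [p]) (scTauG F φ (q :: π)) z
              + scP (scV F (q :: π)) (ρ ++ [p]) (scTauS F φ (q :: π)) z := by
        rw [sgw_P_add hBI ((sgw_G_E hF hφ (q :: π)).const_mul _) (sgw_S_E hF hφ (q :: π)),
          sc_tau_P_const_mul]
      rw [e0, e1]
      have t1 := (H (scV F (q :: π)) (ρ ++ [p]) (scTauG F φ (q :: π)) B hBI (hV _ h1s.of_cons h2s.of_cons) h1p h2p h3p
        (hG _ h1s.of_cons h2s.of_cons h3q)).const_mul (q.1 - p.1)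
      have t2 := ih (ρ ++ [p]) (by simpa using h1) (by simpa using h2) (by rw [← eapp]; exact h3)
      refine (t1.add t2).weaken hw (le_of_eq ?_)
      rw [abs_of_nonneg (sub_nonneg.2 hpq)]
      simp only [scMl, scMf]
      ring

/-! ## the main theorem -/

/-- **weighted bound of the transition operators, free of the partition**.   `H0` = exponential moments (order `0`). -/
theorem sgw_P {a : ℝ} (ha : 0 ≤ a) {w : ℝ → ℝ} (hw : ∀ z, 0 < w z) (hwE : ScE 0 w) {T : ℝ}
    (H0 : ∀ A : ℝ, 0 ≤ A → ∃ K0 : ℝ, 1 ≤ K0 ∧ ∀ (F : ℝ → ℝ) (π : List (ℝ × ℝ)), ScBI F → (∀ z, |deriv F z| ≤ A) →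
      ScAdm a π → scLen π ≤ T → ∀ z, scP F π w z ≤ K0 * w z)
    (n : ℕ) : ∀ A : ℝ, 0 ≤ A → ∃ K : ℝ, 1 ≤ K ∧
    ∀ (F : ℝ → ℝ) (π : List (ℝ × ℝ)) (φ : ℝ → ℝ) (M : ℝ), ScBI F → ScN n A (deriv F) → ScAdm a π → ScInc π →
      scLen π ≤ T → ScW w n M φ → ScW w n (K * M) (scP F π φ) := by
  have hb0 : ∀ A : ℝ, 0 ≤ A → ∃ K0 : ℝ, 1 ≤ K0 ∧ ∀ (F : ℝ → ℝ) (π : List (ℝ × ℝ)) (φ : ℝ → ℝ) (M : ℝ), ScBI F →
      (∀ z, |deriv F z| ≤ A) → ScAdm a π → scLen π ≤ T → Continuous φ → 0 ≤ M → (∀ z, |φ z| ≤ M * w z) →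
      ∀ z, |scP F π φ z| ≤ K0 * M * w z := by
    intro A hA
    obtain ⟨K0, hK0, H⟩ := H0 A hA
    refine ⟨K0, hK0, fun F π φ M hF hF' hπ hl hφ hM hb z => ?_⟩
    calc |scP F π φ z| ≤ M * scP F π w z := sgw_P_abs_le hF hwE hφ hb π z
      _ ≤ M * (K0 * w z) := mul_le_mul_of_nonneg_left (H F π hF hF' hπ hl z) hM
      _ = K0 * M * w z := by ring
  induction n with
  | zero =>
    intro A hA
    obtain ⟨K0, hK0, H⟩ := hb0 A hA
    refine ⟨K0, hK0, fun F π φ M hF hF' hπ _ hl hφ => ?_⟩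
    exact ⟨(sc_P_E hF (hφ.scE hwE.growth) π).continuous, H F π φ M hF hF'.bd hπ hl hφ.1 (hφ.nonneg hw) hφ.2⟩
  | succ n ih =>
    intro A hA
    obtain ⟨K0, hK0, Hb⟩ := hb0 A hA
    obtain ⟨K1, hK1, H1⟩ := ih A hA
    obtain ⟨Kt, hKt, Ht⟩ := sc_tau_P ha n A hA
    have hK00 : 0 ≤ K0 := zero_le_one.trans hK0
    have hK10 : 0 ≤ K1 := zero_le_one.trans hK1
    have hKt0 : 0 ≤ Kt := zero_le_one.trans hKt
    obtain ⟨K2, hK2, H2⟩ := ih (Kt * A) (mul_nonneg hKt0 hA)
    have hK20 : 0 ≤ K2 := zero_le_one.trans hK2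
    set c2 : ℝ := K1 * (2 ^ n * A) with hc2
    set c3 : ℝ := 2 ^ n * (K1 * (Kt * A)) with hc3
    have hc2n : 0 ≤ c2 := by positivity
    have hc3n : 0 ≤ c3 := by positivity
    have hpos : 0 ≤ a * c2 + a * c3 + a * (K2 * c3) := by positivity
    refine ⟨K0 + K1 + a * c2 + a * c3 + a * (K2 * c3), by linarith, fun F π φ M hF hF' hπ hi hl hφ => ?_⟩
    have hM : 0 ≤ M := hφ.nonneg hw
    have hFn : ScN n A (deriv F) := hF'.of_succ
    have hφE : ScE (n + 1) φ := hφ.scE hwE.growth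
    have hV : ∀ π', ScAdm a π' → ScInc π' → ScN n (Kt * A) (deriv (scV F π')) := by
      intro π' h1 h2
      rw [sc_V_deriv hF]
      exact Ht F π' (deriv F) A hF hFn h1 h2 hFn
    have hP : ∀ π', ScAdm a π' → ScInc π' → scLen π' ≤ T → ScW w n (K1 * M) (scP F π' φ) :=
      fun π' h1 h2 h3 => H1 F π' φ M hF hFn h1 h2 h3 hφ.of_succ
    have hG : ∀ π', ScAdm a π' → ScInc π' → scLen π' ≤ T → ScW w n (2 ^ n * (K1 * M * (Kt * A))) (scTauG F φ π') :=
      fun π' h1 h2 h3 => (hP π' h1 h2 h3).mul hw (hV π' h1 h2)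
    have hE1 : ScE 1 (scP F π φ) := sc_P_E hF (hφE.mono (by omega)) π
    refine ⟨fun z => (Hb F π φ M hF hF'.bd hπ hl hφ.continuous hM hφ.bd z).trans ?_, hE1.differentiable, ?_⟩
    · refine mul_le_mul_of_nonneg_right (mul_le_mul_of_nonneg_right ?_ hM) (hw z).le
      linarith
    rw [sgw_grad hF (hφE.mono (by omega)) π]
    have t1 : ScW w n (K1 * M) (scP F π (deriv φ)) := H1 F π _ M hF hFn hπ hi hl hφ.der
    have t2 := (H1 F π _ _ hF hFn hπ hi hl (hφ.of_succ.mul hw hFn)).const_mul (scMl π)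
    have t3 := (hG π hπ hi hl).const_mul (scMf π)
    have t4 := sgw_S_bound hw hK20 H2 hF (hφE.mono (by omega)) hV hG π [] (by simpa using hπ) (by simpa using hi)
      (by simpa using hl)
    have hf0 := sc_tau_Mf_nonneg hπ
    have hfl := sc_tau_Mf_le_Ml hi
    have hla := sc_tau_Ml_le ha hπ
    refine (((t1.add t2).sub t3).sub t4).weaken hw ?_
    rw [abs_of_nonneg (hf0.trans hfl), abs_of_nonneg hf0]
    have e : K1 * M + scMl π * (K1 * (2 ^ n * (M * A))) + scMf π * (2 ^ n * (K1 * M * (Kt * A)))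
        + K2 * (2 ^ n * (K1 * M * (Kt * A))) * (scMl π - scMf π)
        = M * (K1 + scMl π * c2 + scMf π * c3 + (scMl π - scMf π) * (K2 * c3)) := by
      rw [hc2, hc3]; ring
    rw [e, mul_comm _ M]
    refine mul_le_mul_of_nonneg_left ?_ hM
    have i1 : scMl π * c2 ≤ a * c2 := mul_le_mul_of_nonneg_right hla hc2n
    have i2 : scMf π * c3 ≤ a * c3 := mul_le_mul_of_nonneg_right (hfl.trans hla) hc3n
    have i3 : (scMl π - scMf π) * (K2 * c3) ≤ a * (K2 * c3) :=
      mul_le_mul_of_nonneg_right (by linarith) (by positivity)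
    linarith

/-- **weighted bound of the transition operators `P_{s,t}`, `t - s ≤ T`** -/
theorem sgw_Pt {a : ℝ} (ha : 0 ≤ a) {w : ℝ → ℝ} (hw : ∀ z, 0 < w z) (hwE : ScE 0 w) {T : ℝ}
    (H0 : ∀ A : ℝ, 0 ≤ A → ∃ K0 : ℝ, 1 ≤ K0 ∧ ∀ (F : ℝ → ℝ) (π : List (ℝ × ℝ)), ScBI F → (∀ z, |deriv F z| ≤ A) →
      ScAdm a π → scLen π ≤ T → ∀ z, scP F π w z ≤ K0 * w z)
    (n : ℕ) {A : ℝ} (hA : 0 ≤ A) : ∃ K : ℝ, 1 ≤ K ∧
    ∀ (F : ℝ → ℝ) (π : List (ℝ × ℝ)) (φ : ℝ → ℝ) (M : ℝ), ScBI F → ScN n A (deriv F) → ScAdm a π → ScInc π →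
      ScW w n M φ → ∀ s t, t - s ≤ T → ScW w n (K * M) (scPt F π s t φ) := by
  obtain ⟨C, hC, HV⟩ := sc_tau_V ha n hA
  obtain ⟨K, hK, H⟩ := sgw_P ha hw hwE H0 n C hC
  refine ⟨K, hK, fun F π φ M hF hF' hπ hi hφ s t hT => ?_⟩
  rcases le_total t s with hts | hst
  · rw [sc_Pt_of_le F π hts]
    refine hφ.weaken hw ?_
    calc M = 1 * M := (one_mul M).symm
      _ ≤ K * M := mul_le_mul_of_nonneg_right hK (hφ.nonneg hw)
  · rw [sc_Pt_eq_P hF hπ.pos hst]
    refine H _ _ φ M (sc_Vt_BI hF π t) ?_ (sc_upto_adm (sc_after_adm hπ s) (sub_nonneg.2 hst))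
      (sc_upto_inc (sc_after_inc hi s) _) ?_ hφ
    · rw [sc_Vt_after]
      exact HV F _ hF hF' (sc_after_adm hπ t) (sc_after_inc hi t)
    · exact (sgw_len_upto_le _ (sub_nonneg.2 hst)).trans hT

/-! ## the weight `cosh (c z)`: exponential moments -/

/-- the weight -/
noncomputable def scCw (c z : ℝ) : ℝ := Real.cosh (c * z)

theorem sgw_cw_pos (c z : ℝ) : 0 < scCw c z := Real.cosh_pos _

theorem sgw_cw_one_le (c z : ℝ) : 1 ≤ scCw c z := Real.one_le_cosh _

theorem sgw_abs_sinh_le (x : ℝ) : |Real.sinh x| ≤ Real.cosh x := by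
  rw [abs_le]
  constructor
  · have := Real.sinh_lt_cosh (-x)
    rw [Real.sinh_neg, Real.cosh_neg] at this
    linarith
  · exact (Real.sinh_lt_cosh x).le

theorem sgw_cosh_le_exp (x : ℝ) : Real.cosh x ≤ Real.exp |x| := by
  rw [← Real.cosh_abs, Real.cosh_eq]
  have : Real.exp (-|x|) ≤ Real.exp |x| := Real.exp_le_exp.2 (by linarith [abs_nonneg x])
  linarith

theorem sgw_exp_le_cosh (x : ℝ) : Real.exp |x| ≤ 2 * Real.cosh x := by
  rw [← Real.cosh_abs, Real.cosh_eq]
  have := Real.exp_pos (-|x|)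
  linarith

theorem sgw_chsh_E (c : ℝ) (n : ℕ) : ∀ A B : ℝ, ScE n (fun y => A * Real.cosh (c * y) + B * Real.sinh (c * y)) := by
  have hg : ∀ A B : ℝ, ScG (fun y => A * Real.cosh (c * y) + B * Real.sinh (c * y)) := by
    intro A B
    refine ⟨|A| + |B|, |c|, fun z => ?_⟩
    have h1 : Real.cosh (c * z) ≤ Real.exp (|c| * |z|) := by rw [← abs_mul]; exact sgw_cosh_le_exp _
    have h2 := sgw_abs_sinh_le (c * z)
    have h3 := Real.cosh_pos (c * z)
    calc |A * Real.cosh (c * z) + B * Real.sinh (c * z)| ≤ |A * Real.cosh (c * z)| + |B * Real.sinh (c * z)| :=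
          abs_add_le _ _
      _ = |A| * Real.cosh (c * z) + |B| * |Real.sinh (c * z)| := by rw [abs_mul, abs_mul, abs_of_pos h3]
      _ ≤ |A| * Real.exp (|c| * |z|) + |B| * Real.exp (|c| * |z|) :=
          add_le_add (mul_le_mul_of_nonneg_left h1 (abs_nonneg _))
            (mul_le_mul_of_nonneg_left (h2.trans h1) (abs_nonneg _))
      _ = _ := by ring
  have hc : ∀ A B : ℝ, Continuous (fun y => A * Real.cosh (c * y) + B * Real.sinh (c * y)) := by
    intro A B; fun_prop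
  have hd : ∀ A B y : ℝ, HasDerivAt (fun y => A * Real.cosh (c * y) + B * Real.sinh (c * y))
      ((c * B) * Real.cosh (c * y) + (c * A) * Real.sinh (c * y)) y := by
    intro A B y
    have h0 : HasDerivAt (fun y : ℝ => c * y) c y := by simpa using (hasDerivAt_id y).const_mul c
    have h1 := (h0.cosh.const_mul A).add (h0.sinh.const_mul B)
    exact h1.congr_deriv (by ring)
  induction n with
  | zero => exact fun A B => ⟨hc A B, hg A B⟩
  | succ n ih =>
    intro A B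
    refine ⟨hc A B, hg A B, fun y => (hd A B y).differentiableAt, ?_⟩
    have e : deriv (fun y => A * Real.cosh (c * y) + B * Real.sinh (c * y))
        = fun y => (c * B) * Real.cosh (c * y) + (c * A) * Real.sinh (c * y) := funext fun y => (hd A B y).deriv
    rw [e]
    exact ih _ _

theorem sgw_cw_E (c : ℝ) (n : ℕ) : ScE n (scCw c) := by
  have := sgw_chsh_E c n 1 0
  have e : scCw c = fun y => 1 * Real.cosh (c * y) + 0 * Real.sinh (c * y) := by funext y; simp [scCw]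
  rw [e]; exact this

theorem sgw_cw_deriv (c : ℝ) : deriv (scCw c) = fun y => c * Real.sinh (c * y) := by
  funext y
  have h0 : HasDerivAt (fun y : ℝ => c * y) c y := by simpa using (hasDerivAt_id y).const_mul c
  exact (h0.cosh.congr_deriv (by ring)).deriv

theorem sgw_cw_deriv2 (c : ℝ) : deriv (deriv (scCw c)) = fun y => c ^ 2 * scCw c y := by
  rw [sgw_cw_deriv]
  funext y
  have h0 : HasDerivAt (fun y : ℝ => c * y) c y := by simpa using (hasDerivAt_id y).const_mul c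
  exact ((h0.sinh.const_mul c).congr_deriv (by unfold scCw; ring)).deriv

/-- **exponential moments, free of the partition** (B03 S3.4) -/
theorem sgw_exp {F : ℝ → ℝ} (hF : ScBI F) {A : ℝ} (hA : ∀ z, |deriv F z| ≤ A) {a : ℝ} (ha : 0 ≤ a)
    {π : List (ℝ × ℝ)} (hπ : ScAdm a π) {c : ℝ} (hc : 0 ≤ c) {s t : ℝ} (hs : 0 ≤ s) (hst : s ≤ t)
    (ht : t ≤ scLen π) (z : ℝ) :
    scPt F π s t (scCw c) z ≤ Real.exp ((c ^ 2 / 2 + a * A * c) * (t - s)) * scCw c z := by
  set l : ℝ := c ^ 2 / 2 + a * A * c with hl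
  have hT1 : ScDyn F π s t (fun r _ => Real.exp (-l * (r - s))) (fun r _ => -l * Real.exp (-l * (r - s))) := by
    refine sc_dyn_time F π (a := fun r => Real.exp (-l * (r - s))) (a' := fun r => -l * Real.exp (-l * (r - s)))
      (Continuous.continuousOn (by fun_prop)) ?_ ⟨∅, finite_empty, fun r _ _ => ?_⟩
    · refine ScT.tp (ScT.of_time (Continuous.continuousOn (by fun_prop)) ?_ 0)
      exact (isCompact_Icc.exists_bound_of_continuousOn (f := fun r => -l * Real.exp (-l * (r - s)))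
        (Continuous.continuousOn (by fun_prop))).imp fun C hC r hr => by
          simpa [Real.norm_eq_abs] using hC r hr
    · have h1 : HasDerivAt (fun r : ℝ => -l * (r - s)) (-l) r := by
        simpa using ((hasDerivAt_id r).sub_const s).const_mul (-l)
      have h2 := h1.exp
      rwa [mul_comm] at h2
  have hS := sc_dyn_space hF hπ.pos hs ht (sgw_cw_E c 2)
  have hD := hT1.mul hS
  have hsup := scb_super hF hπ.pos hs hst ht hD (fun r _ y => ?_) z
  · simp only [sub_self, mul_zero, Real.exp_zero, one_mul] at hsup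
    rw [sc_Pt_const_mul] at hsup
    have hE : 0 < Real.exp (-l * (t - s)) := Real.exp_pos _
    have e : Real.exp (l * (t - s)) * Real.exp (-l * (t - s)) = 1 := by
      rw [← Real.exp_add]; simp
    calc scPt F π s t (scCw c) z = Real.exp (l * (t - s)) * (Real.exp (-l * (t - s)) * scPt F π s t (scCw c) z) := by
          rw [← mul_assoc, e, one_mul]
      _ ≤ Real.exp (l * (t - s)) * scCw c z := mul_le_mul_of_nonneg_left hsup (Real.exp_pos _).le
  · have hd0 : deriv (fun _ : ℝ => Real.exp (-l * (r - s))) y = 0 := by simp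
    simp only [hd0, zero_mul, add_zero]
    rw [sgw_cw_deriv2, sgw_cw_deriv]
    have hE1 : 0 < Real.exp (-l * (r - s)) := Real.exp_pos _
    have hal := sc_Al_mem ha hπ r
    have hu := sc_D1_le hF hA π r y
    have hA0 : 0 ≤ A := (abs_nonneg _).trans (hA 0)
    have hsh := sgw_abs_sinh_le (c * y)
    have hch : 0 < Real.cosh (c * y) := Real.cosh_pos _
    have h1 : scAl π r * scD 1 F π r y * (c * Real.sinh (c * y)) ≤ a * A * c * Real.cosh (c * y) := by
      calc scAl π r * scD 1 F π r y * (c * Real.sinh (c * y))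
          ≤ |scAl π r * scD 1 F π r y * (c * Real.sinh (c * y))| := le_abs_self _
        _ = scAl π r * |scD 1 F π r y| * (c * |Real.sinh (c * y)|) := by
            rw [abs_mul, abs_mul, abs_mul, abs_of_nonneg hal.1, abs_of_nonneg hc]
        _ ≤ a * A * (c * Real.cosh (c * y)) :=
            mul_le_mul (mul_le_mul hal.2 hu (abs_nonneg _) ha) (mul_le_mul_of_nonneg_left hsh hc)
              (by positivity) (by positivity)
        _ = _ := by ring
    have h2 : Real.exp (-l * (r - s)) * (c ^ 2 * scCw c y / 2 + scAl π r * scD 1 F π r y * (c * Real.sinh (c * y)))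
        + scCw c y * (-l * Real.exp (-l * (r - s)))
        = Real.exp (-l * (r - s)) * (scAl π r * scD 1 F π r y * (c * Real.sinh (c * y)) - a * A * c * scCw c y) := by
      rw [hl]; ring
    rw [h2]
    exact mul_nonpos_of_nonneg_of_nonpos hE1.le (by unfold scCw; linarith)

/-- the hypothesis `H0` of `sgw_P`, `sgw_Pt` for the weight `cosh (c z)` -/
theorem sgw_H0 {a : ℝ} (ha : 0 ≤ a) {c : ℝ} (hc : 0 ≤ c) {T : ℝ} (A : ℝ) (hA : 0 ≤ A) :
    ∃ K0 : ℝ, 1 ≤ K0 ∧ ∀ (F : ℝ → ℝ) (π : List (ℝ × ℝ)), ScBI F → (∀ z, |deriv F z| ≤ A) →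
      ScAdm a π → scLen π ≤ T → ∀ z, scP F π (scCw c) z ≤ K0 * scCw c z := by
  have hl : 0 ≤ c ^ 2 / 2 + a * A * c := by positivity
  refine ⟨Real.exp ((c ^ 2 / 2 + a * A * c) * max T 0), Real.one_le_exp (by positivity), fun F π hF hF' hπ hT z => ?_⟩
  rw [sc_P_eq_Pt F hπ.pos]
  refine (sgw_exp hF hF' ha hπ hc le_rfl (sc_len_nonneg hπ.pos) le_rfl z).trans ?_
  refine mul_le_mul_of_nonneg_right (Real.exp_le_exp.2 (mul_le_mul_of_nonneg_left ?_ hl)) (sgw_cw_pos c z).le
  rw [sub_zero]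
  exact hT.trans (le_max_left _ _)

/-- **EXIT**: weighted bounds of `∂_z^i P_{s,t} φ`, `i ≤ n`, for tests with `|φ^(i)| ≤ M cosh (c z)`; `K` is free of the partition.
TEX[LL:paths:parameter-regularity] -/
theorem sgw_Pt_cosh {a : ℝ} (ha : 0 ≤ a) {c : ℝ} (hc : 0 ≤ c) (T : ℝ) (n : ℕ) {A : ℝ} (hA : 0 ≤ A) : ∃ K : ℝ, 1 ≤ K ∧
    ∀ (F : ℝ → ℝ) (π : List (ℝ × ℝ)) (φ : ℝ → ℝ) (M : ℝ), ScBI F → ScN n A (deriv F) → ScAdm a π → ScInc π →
      ScW (scCw c) n M φ → ∀ s t, t - s ≤ T → ScW (scCw c) n (K * M) (scPt F π s t φ) :=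
  sgw_Pt ha (sgw_cw_pos c) (sgw_cw_E c 0) (fun A hA => sgw_H0 ha hc A hA) n hA

end Claimed.Agent.R286
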