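import Claimed.Agent.R286.Sc.Gen
import Claimed.Agent.R286.Sc.GenP
import Claimed.Agent.R286.Sc.GenW

/-!
# Row 286, scalar block, layer S4 (part D): the kernel `scPa` of a general profile on the EXPONENTIAL class; derivatives

OWNER helper88 (typed + proved).   Prefix `sgr_`.   Generic terminal datum `F : ScBI`, generic coefficient `ScCoef a τ α`.
TEX[FS:lem:diffusion] TEX[LL:paths:lift] (existence of the planted transition operators for a general monotone profile, as limits of the step kernels).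

* sec. 0  tools: `sgr_seq_of_unif` (from `ε`-`N` to a sequence of bounds), `scAvg` (average over `[x, x + d]`), `sgr_smooth` (double average: two bounded derivatives).
* sec. 1  `SgrApp c μ ψ`: `ψ` is approximable in the norm `sup |.| / cosh (c z)` by functions of class `ScN 2 (μ ε)`.
  **`sgr_P_close`** MASTER ESTIMATE: `|scPt F π s t ψ z - scPa F α τ s t ψ z| ≤ ε cosh (c z)` as soon as `scDa π α τ ≤ δ`, uniformly in `α`, `π`, `ψ ∈ SgrApp c μ`, `s`, `t`, `z`.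
  `sgr_P_mod` (two step profiles), `sgr_P_tendsto` (the limit exists), `sgr_Pt_w`, `sgr_Pa_w` (weighted bounds).
* sec. 2  DENSITY: `sgr_app_N1` (bounded Lipschitz tests), **`sgr_app_T`** (jointly continuous families `ScT (Icc p q) 0`), `sgr_app_E` (one test of class `ScE 0`).
* sec. 3  derivatives: finite towers `sgr_tower_diff`, `sgr_tower_limit`; **`sgr_P_unif`** (bounded tests `ScBd (m + 1)`: the derivatives of order `≤ m` converge uniformly, any approximation).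
* sec. 4  **`sgr_P_unif0`**: the master estimate as a sequence of bounds `δ n → 0`.
-/

set_option autoImplicit false

namespace Claimed.Agent.R286

open MeasureTheory ProbabilityTheory Filter Topology Set

/-! ## 0. tools -/

/-- from an `ε`-`N` statement, uniform in an index, to a sequence of bounds which tends to `0` -/
theorem sgr_seq_of_unif {ι : Type*} {u : ℕ → ι → ℝ} {B : ℝ} (hB : ∀ n i, |u n i| ≤ B)
    (h : ∀ ε > 0, ∃ N, ∀ n ≥ N, ∀ i, |u n i| ≤ ε) :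
    ∃ δ : ℕ → ℝ, Tendsto δ atTop (𝓝 0) ∧ ∀ n i, |u n i| ≤ δ n := by
  refine ⟨fun n => ⨆ i, |u n i|, ?_, fun n i => le_ciSup (f := fun i => |u n i|) ⟨B, ?_⟩ i⟩
  · rw [Metric.tendsto_atTop]
    intro ε hε
    obtain ⟨N, hN⟩ := h (ε / 2) (half_pos hε)
    refine ⟨N, fun n hn => ?_⟩
    rw [Real.dist_eq, sub_zero, abs_of_nonneg (Real.iSup_nonneg fun i => abs_nonneg _)]
    exact lt_of_le_of_lt (Real.iSup_le (fun i => hN n hn i) (half_pos hε).le) (half_lt_self hε)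
  · rintro _ ⟨i, rfl⟩
    exact hB n i

/-- the average over `[x, x + d]` -/
noncomputable def scAvg (d : ℝ) (f : ℝ → ℝ) (x : ℝ) : ℝ := d⁻¹ * ((∫ y in (0 : ℝ)..(x + d), f y) - ∫ y in (0 : ℝ)..x, f y)

theorem sgr_avg_hasDerivAt {f : ℝ → ℝ} (hf : Continuous f) (d x : ℝ) :
    HasDerivAt (scAvg d f) (d⁻¹ * (f (x + d) - f x)) x := by
  have h1 : HasDerivAt (fun u => ∫ y in (0 : ℝ)..u, f y) (f x) x := (hf.integral_hasStrictDerivAt 0 x).hasDerivAt
  have h2 : HasDerivAt (fun u => ∫ y in (0 : ℝ)..u, f y) (f (x + d)) (x + d) :=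
    (hf.integral_hasStrictDerivAt 0 (x + d)).hasDerivAt
  have h3 : HasDerivAt (fun u => ∫ y in (0 : ℝ)..(u + d), f y) (f (x + d)) x := by
    simpa using h2.comp_add_const x d
  exact (h3.sub h1).const_mul d⁻¹

/-- mean value: the average is a value of `f` -/
theorem sgr_avg_mem {f : ℝ → ℝ} (hf : Continuous f) {d : ℝ} (hd : 0 < d) (x : ℝ) :
    ∃ ξ ∈ Ioo x (x + d), scAvg d f x = f ξ := by
  have hder : ∀ u ∈ Ioo x (x + d), HasDerivAt (fun u => ∫ y in (0 : ℝ)..u, f y) (f u) u :=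
    fun u _ => (hf.integral_hasStrictDerivAt 0 u).hasDerivAt
  have hc : ContinuousOn (fun u => ∫ y in (0 : ℝ)..u, f y) (Icc x (x + d)) :=
    fun u _ => ((hf.integral_hasStrictDerivAt 0 u).hasDerivAt.continuousAt).continuousWithinAt
  obtain ⟨ξ, hξ, h⟩ := exists_hasDerivAt_eq_slope _ _ (by linarith : x < x + d) hc hder
  refine ⟨ξ, hξ, ?_⟩
  rw [h, scAvg, add_sub_cancel_left, div_eq_inv_mul]

theorem sgr_avg_continuous {f : ℝ → ℝ} (hf : Continuous f) (d : ℝ) : Continuous (scAvg d f) :=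
  continuous_iff_continuousAt.2 fun x => (sgr_avg_hasDerivAt hf d x).continuousAt

theorem sgr_avg_abs_le {f : ℝ → ℝ} (hf : Continuous f) {B : ℝ} (hB : ∀ x, |f x| ≤ B) {d : ℝ} (hd : 0 < d) (x : ℝ) :
    |scAvg d f x| ≤ B := by
  obtain ⟨ξ, _, h⟩ := sgr_avg_mem hf hd x
  rw [h]
  exact hB ξ

/-- **smoothing**: a bounded continuous function is uniformly close (by its modulus of continuity at the scale `2 d`) to a function with two bounded derivatives -/
theorem sgr_smooth {f : ℝ → ℝ} (hf : Continuous f) {B : ℝ} (hB : ∀ x, |f x| ≤ B) {d : ℝ} (hd : 0 < d) {ω : ℝ}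
    (hω : ∀ x y, |x - y| ≤ 2 * d → |f x - f y| ≤ ω) :
    ScN 2 (B * (1 + 2 / d + 4 / d ^ 2)) (scAvg d (scAvg d f)) ∧ ∀ x, |scAvg d (scAvg d f) x - f x| ≤ ω := by
  have hB0 : 0 ≤ B := (abs_nonneg _).trans (hB 0)
  have hc1 := sgr_avg_continuous hf d
  have hb1 := sgr_avg_abs_le hf hB hd
  have hb2 := sgr_avg_abs_le hc1 hb1 hd
  have hdi : 0 < d⁻¹ := inv_pos.2 hd
  have e1 : deriv (scAvg d (scAvg d f)) = fun x => d⁻¹ * (scAvg d f (x + d) - scAvg d f x) :=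
    funext fun x => (sgr_avg_hasDerivAt hc1 d x).deriv
  have hd2 : ∀ x, HasDerivAt (fun x => d⁻¹ * (scAvg d f (x + d) - scAvg d f x))
      (d⁻¹ * (d⁻¹ * (f (x + d + d) - f (x + d)) - d⁻¹ * (f (x + d) - f x))) x := by
    intro x
    have h1 := sgr_avg_hasDerivAt hf d x
    have h2 : HasDerivAt (fun u => scAvg d f (u + d)) (d⁻¹ * (f (x + d + d) - f (x + d))) x := by
      simpa using (sgr_avg_hasDerivAt hf d (x + d)).comp_add_const x d
    exact (h2.sub h1).const_mul d⁻¹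
  have e2 : deriv (fun x => d⁻¹ * (scAvg d f (x + d) - scAvg d f x))
      = fun x => d⁻¹ * (d⁻¹ * (f (x + d + d) - f (x + d)) - d⁻¹ * (f (x + d) - f x)) :=
    funext fun x => (hd2 x).deriv
  have k0 : B ≤ B * (1 + 2 / d + 4 / d ^ 2) := by
    have : 0 ≤ 2 / d + 4 / d ^ 2 := by positivity
    nlinarith
  have k1 : B * (2 / d) ≤ B * (1 + 2 / d + 4 / d ^ 2) := by
    refine mul_le_mul_of_nonneg_left ?_ hB0
    have : 0 ≤ 4 / d ^ 2 := by positivity
    linarith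
  have k2 : B * (4 / d ^ 2) ≤ B * (1 + 2 / d + 4 / d ^ 2) := by
    refine mul_le_mul_of_nonneg_left ?_ hB0
    have : 0 ≤ 2 / d := by positivity
    linarith
  refine ⟨⟨fun x => (hb2 x).trans k0, fun x => (sgr_avg_hasDerivAt hc1 d x).differentiableAt, ?_⟩, fun x => ?_⟩
  · rw [e1]
    refine ⟨fun x => ?_, fun x => (hd2 x).differentiableAt, ?_⟩
    · refine le_trans ?_ k1
      rw [abs_mul, abs_of_pos hdi]
      have := abs_sub (scAvg d f (x + d)) (scAvg d f x)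
      have h1 := hb1 (x + d)
      have h2 := hb1 x
      calc d⁻¹ * |scAvg d f (x + d) - scAvg d f x| ≤ d⁻¹ * (2 * B) := mul_le_mul_of_nonneg_left (by linarith) hdi.le
        _ = B * (2 / d) := by field_simp
    · rw [e2]
      refine ⟨by fun_prop, fun x => ?_⟩
      refine le_trans ?_ k2
      have h1 := abs_le.1 (hB (x + d + d))
      have h2 := abs_le.1 (hB (x + d))
      have h3 := abs_le.1 (hB x)
      have e : d⁻¹ * (d⁻¹ * (f (x + d + d) - f (x + d)) - d⁻¹ * (f (x + d) - f x))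
          = (d⁻¹ * d⁻¹) * (f (x + d + d) - 2 * f (x + d) + f x) := by ring
      show |d⁻¹ * (d⁻¹ * (f (x + d + d) - f (x + d)) - d⁻¹ * (f (x + d) - f x))| ≤ _
      rw [e, abs_mul, abs_of_pos (mul_pos hdi hdi)]
      have h4 : |f (x + d + d) - 2 * f (x + d) + f x| ≤ 4 * B := by
        rw [abs_le]; constructor <;> linarith [h1.1, h1.2, h2.1, h2.2, h3.1, h3.2]
      calc d⁻¹ * d⁻¹ * |f (x + d + d) - 2 * f (x + d) + f x| ≤ d⁻¹ * d⁻¹ * (4 * B) :=
            mul_le_mul_of_nonneg_left h4 (mul_pos hdi hdi).le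
        _ = B * (4 / d ^ 2) := by field_simp
  · obtain ⟨ξ, hξ, h⟩ := sgr_avg_mem hc1 hd x
    obtain ⟨ξ', hξ', h'⟩ := sgr_avg_mem hf hd ξ
    rw [h, h']
    refine hω _ _ ?_
    rw [abs_le]
    constructor <;> linarith [hξ.1, hξ.2, hξ'.1, hξ'.2]

/-! ## 1. the kernel on tests which are approximable in a weighted norm -/

/-- tests which are approximable in the weighted norm `cosh (c z)` by bounded `C²` functions; `μ ε` = size of the approximant at the precision `ε` -/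
def SgrApp (c : ℝ) (μ : ℝ → ℝ) (ψ : ℝ → ℝ) : Prop :=
  ScE 0 ψ ∧ ∀ ε > 0, ∃ g, ScN 2 (μ ε) g ∧ ∀ y, |ψ y - g y| ≤ ε * scCw c y

/-- order `0`: the step kernels are bounded in the weighted norm, free of the partition -/
theorem sgr_Pt_w {F : ℝ → ℝ} (hF : ScBI F) {a : ℝ} (ha : 0 ≤ a) {c : ℝ} (hc : 0 ≤ c) (T : ℝ) : ∃ K : ℝ, 1 ≤ K ∧
    ∀ (π : List (ℝ × ℝ)) (φ : ℝ → ℝ) (M : ℝ), ScAdm a π → ScInc π → Continuous φ → (∀ y, |φ y| ≤ M * scCw c y) →
      ∀ s t, t - s ≤ T → ∀ z, |scPt F π s t φ z| ≤ K * M * scCw c z := by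
  obtain ⟨A, hA0, hAN⟩ := scg_BI_N hF 0
  obtain ⟨K, hK, H⟩ := sgw_Pt_cosh ha hc T 0 hA0
  exact ⟨K, hK, fun π φ M hπ hi hφ hb s t hT z => (H F π φ M hF hAN hπ hi ⟨hφ, hb⟩ s t hT).bd z⟩

theorem sgr_P_mod {F : ℝ → ℝ} (hF : ScBI F) {a τ : ℝ} (ha : 0 ≤ a) (hτ : 0 ≤ τ) {c : ℝ} (hc : 0 ≤ c) (μ : ℝ → ℝ)
    {ε : ℝ} (hε : 0 < ε) :
    ∃ δ > 0, ∀ π π', SgpApx a τ π → SgpApx a τ π' → scDst π π' 0 τ ≤ δ → ∀ ψ, SgrApp c μ ψ →
      ∀ s t, 0 ≤ s → s ≤ t → t ≤ τ → ∀ z, |scPt F π s t ψ z - scPt F π' s t ψ z| ≤ ε * scCw c z := by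
  obtain ⟨K, hK, HK⟩ := sgr_Pt_w hF ha hc τ
  have hK0 : 0 < K := zero_lt_one.trans_le hK
  obtain ⟨δ, hδ, H⟩ := sgp_P_mod hF ha hτ (μ (ε / (4 * K))) (half_pos hε)
  refine ⟨δ, hδ, fun π π' hπ hπ' hd ψ hψ s t hs hst ht z => ?_⟩
  obtain ⟨g, hg, hb⟩ := hψ.2 (ε / (4 * K)) (by positivity)
  have hgE : ScE 0 g := hg.scE.mono (by omega)
  have hχ : Continuous fun y => ψ y - g y := hψ.1.continuous.sub hg.continuous
  have hT : t - s ≤ τ := by linarith
  have e1 := congrFun (sc_Pt_sub hF hψ.1 hgE π s t) z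
  have e2 := congrFun (sc_Pt_sub hF hψ.1 hgE π' s t) z
  have b1 := HK π _ _ hπ.adm hπ.inc hχ hb s t hT z
  have b2 := HK π' _ _ hπ'.adm hπ'.inc hχ hb s t hT z
  have b3 := H π π' hπ hπ' hd g hg s t hs hst ht z
  have hw := sgw_cw_one_le c z
  have eK : K * (ε / (4 * K)) = ε / 4 := by field_simp
  rw [eK] at b1 b2
  rw [e1] at b1
  rw [e2] at b2
  have e3 : scPt F π s t ψ z - scPt F π' s t ψ z = (scPt F π s t ψ z - scPt F π s t g z)
      - (scPt F π' s t ψ z - scPt F π' s t g z) + (scPt F π s t g z - scPt F π' s t g z) := by ring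
  rw [e3]
  have h4 := abs_add_le ((scPt F π s t ψ z - scPt F π s t g z) - (scPt F π' s t ψ z - scPt F π' s t g z))
    (scPt F π s t g z - scPt F π' s t g z)
  have h5 := abs_sub (scPt F π s t ψ z - scPt F π s t g z) (scPt F π' s t ψ z - scPt F π' s t g z)
  have h6 : ε / 2 ≤ ε / 2 * scCw c z := le_mul_of_one_le_right (half_pos hε).le hw
  nlinarith

/-- **the limit `scPa` exists** on approximable tests -/
theorem sgr_P_tendsto {F : ℝ → ℝ} (hF : ScBI F) {a τ : ℝ} {α : ℝ → ℝ} (hτ : 0 ≤ τ) (hα : ScCoef a τ α) {c : ℝ}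
    (hc : 0 ≤ c) {μ : ℝ → ℝ} {ψ : ℝ → ℝ} (hψ : SgrApp c μ ψ) {s t : ℝ} (hs : 0 ≤ s) (hst : s ≤ t) (ht : t ≤ τ) (z : ℝ) :
    Tendsto (fun n => scPt F (scDy α τ n) s t ψ z) atTop (𝓝 (scPa F α τ s t ψ z)) := by
  have ha := hα.a_nonneg hτ
  have hcs : CauchySeq (fun n => scPt F (scDy α τ n) s t ψ z) := by
    rw [Metric.cauchySeq_iff]
    intro ε hε
    have hw := sgw_cw_pos c z
    obtain ⟨δ, hδ, H⟩ := sgr_P_mod hF ha hτ hc μ (ε := ε / (2 * scCw c z)) (by positivity)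
    have hev := (sgp_da_dy_tendsto hτ hα).eventually (gt_mem_nhds (half_pos hδ))
    obtain ⟨N, hN⟩ := eventually_atTop.mp hev
    refine ⟨N, fun m hm n hn => ?_⟩
    rw [Real.dist_eq]
    have hd : scDst (scDy α τ m) (scDy α τ n) 0 τ ≤ δ := by
      have := sgp_dst_le_da hτ hα (sc_dy_adm hτ hα m) (sc_dy_adm hτ hα n)
      have h1 := hN m hm
      have h2 := hN n hn
      linarith
    have := H _ _ (sc_dy_apx hτ hα m) (sc_dy_apx hτ hα n) hd ψ hψ s t hs hst ht z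
    have e : ε / (2 * scCw c z) * scCw c z = ε / 2 := by field_simp
    rw [e] at this
    linarith
  obtain ⟨l, hl⟩ := cauchySeq_tendsto_of_complete hcs
  have : scPa F α τ s t ψ z = l := hl.limUnder_eq
  rw [this]
  exact hl

/-- **MASTER ESTIMATE**: every admissible step profile which is `L¹`-close to `α` has a kernel close to `scPa` in the weighted norm,
uniformly in `α`, in the test (`SgrApp c μ`), in the times -/
theorem sgr_P_close {F : ℝ → ℝ} (hF : ScBI F) {a τ : ℝ} (ha : 0 ≤ a) (hτ : 0 ≤ τ) {c : ℝ} (hc : 0 ≤ c) (μ : ℝ → ℝ)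
    {ε : ℝ} (hε : 0 < ε) :
    ∃ δ > 0, ∀ α, ScCoef a τ α → ∀ π, SgpApx a τ π → scDa π α τ ≤ δ → ∀ ψ, SgrApp c μ ψ →
      ∀ s t, 0 ≤ s → s ≤ t → t ≤ τ → ∀ z, |scPt F π s t ψ z - scPa F α τ s t ψ z| ≤ ε * scCw c z := by
  obtain ⟨δ, hδ, H⟩ := sgr_P_mod hF ha hτ hc μ hε
  refine ⟨δ / 2, half_pos hδ, fun α hα π hπ hd ψ hψ s t hs hst ht z => ?_⟩
  have hlim := sgr_P_tendsto hF hτ hα hc hψ hs hst ht z
  have hlim2 : Tendsto (fun n => |scPt F π s t ψ z - scPt F (scDy α τ n) s t ψ z|) atTop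
      (𝓝 |scPt F π s t ψ z - scPa F α τ s t ψ z|) := (tendsto_const_nhds.sub hlim).abs
  refine le_of_tendsto hlim2 ?_
  filter_upwards [(sgp_da_dy_tendsto hτ hα).eventually (gt_mem_nhds (half_pos hδ))] with n hn
  apply H _ _ hπ (sc_dy_apx hτ hα n) _ ψ hψ s t hs hst ht z
  have := sgp_dst_le_da hτ hα hπ.adm (sc_dy_adm hτ hα n)
  linarith

/-- the limit kernel is bounded in the weighted norm -/
theorem sgr_Pa_w {F : ℝ → ℝ} (hF : ScBI F) {a : ℝ} (ha : 0 ≤ a) {c : ℝ} (hc : 0 ≤ c) (T : ℝ) : ∃ K : ℝ, 1 ≤ K ∧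
    ∀ (τ : ℝ) (α : ℝ → ℝ), 0 ≤ τ → ScCoef a τ α → ∀ (μ : ℝ → ℝ) (φ : ℝ → ℝ) (M : ℝ), SgrApp c μ φ →
      (∀ y, |φ y| ≤ M * scCw c y) → ∀ s t, 0 ≤ s → s ≤ t → t ≤ τ → t - s ≤ T → ∀ z,
      |scPa F α τ s t φ z| ≤ K * M * scCw c z := by
  obtain ⟨K, hK, HK⟩ := sgr_Pt_w hF ha hc T
  refine ⟨K, hK, fun τ α hτ hα μ φ M hφ hb s t hs hst ht hT z => ?_⟩
  refine le_of_tendsto (sgr_P_tendsto hF hτ hα hc hφ hs hst ht z).abs (Eventually.of_forall fun n => ?_)
  exact HK _ φ M (sc_dy_adm hτ hα n) (sc_dy_inc hτ hα n) hφ.1.continuous hb s t hT z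

/-! ## 2. density -/

theorem ScN.lip {M : ℝ} {g : ℝ → ℝ} (hg : ScN 1 M g) (x y : ℝ) : |g x - g y| ≤ M * |x - y| := by
  have := Convex.norm_image_sub_le_of_norm_deriv_le (f := g) (s := univ) (x := y) (y := x) (C := M)
    (fun u _ => hg.2.1 u) (fun u _ => by rw [Real.norm_eq_abs]; exact hg.der.bd u) convex_univ (mem_univ _) (mem_univ _)
  simpa [Real.norm_eq_abs] using this

/-- the complexity of a bounded Lipschitz test -/
noncomputable def sgrMu1 (M ε : ℝ) : ℝ :=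
  M * (1 + 2 / (ε / (2 * (M + 1))) + 4 / (ε / (2 * (M + 1))) ^ 2)

/-- bounded Lipschitz tests are approximable -/
theorem sgr_app_N1 {M : ℝ} {g : ℝ → ℝ} (hg : ScN 1 M g) (c : ℝ) : SgrApp c (sgrMu1 M) g := by
  have hM := hg.nonneg
  refine ⟨hg.scE.mono (by omega), fun ε hε => ?_⟩
  have hd : 0 < ε / (2 * (M + 1)) := by positivity
  obtain ⟨h1, h2⟩ := sgr_smooth hg.continuous hg.bd hd (ω := ε) (fun x y hxy => by
    refine (hg.lip x y).trans ?_
    calc M * |x - y| ≤ M * (2 * (ε / (2 * (M + 1)))) := mul_le_mul_of_nonneg_left hxy hM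
      _ = ε * (M / (M + 1)) := by field_simp
      _ ≤ ε * 1 := mul_le_mul_of_nonneg_left (by rw [div_le_one (by positivity)]; linarith) hε.le
      _ = ε := mul_one ε)
  refine ⟨_, h1, fun y => ?_⟩
  rw [abs_sub_comm]
  exact (h2 y).trans (le_mul_of_one_le_right hε.le (sgw_cw_one_le c y))

theorem sgr_clamp_abs {R : ℝ} (hR : 0 ≤ R) (y : ℝ) : |max (-R) (min R y)| ≤ R := by
  rw [abs_le]
  exact ⟨le_max_left _ _, max_le (by linarith) (min_le_left _ _)⟩

theorem sgr_clamp_lip (R x y : ℝ) : |max (-R) (min R x) - max (-R) (min R y)| ≤ |x - y| := by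
  refine (abs_max_sub_max_le_max _ _ _ _).trans (max_le (by simp) ?_)
  exact (abs_min_sub_min_le_max _ _ _ _).trans (max_le (by simp) le_rfl)

theorem sgr_clamp_eq {R y : ℝ} (h : |y| ≤ R) : max (-R) (min R y) = y := by
  rw [abs_le] at h
  rw [min_eq_right h.2, max_eq_right h.1]

/-- **DENSITY**: a jointly continuous family of tests of uniform exponential growth, over a compact interval of parameters, is uniformly
approximable in a weighted norm by bounded `C²` functions -/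
theorem sgr_app_T {p q : ℝ} {ψ : ℝ → ℝ → ℝ} (hψ : ScT (Icc p q) 0 ψ) :
    ∃ (c : ℝ) (μ : ℝ → ℝ), 0 ≤ c ∧ ∀ r ∈ Icc p q, SgrApp c μ (ψ r) := by
  obtain ⟨C, c0, hC, hc0, hg⟩ := hψ.2.nonneg
  have key : ∀ ε > 0, ∃ M : ℝ, ∀ r ∈ Icc p q, ∃ g, ScN 2 M g ∧ ∀ y, |ψ r y - g y| ≤ ε * scCw (c0 + 1) y := by
    intro ε hε
    set R : ℝ := |Real.log (8 * (C + 1) / ε)| with hRdef
    have hR : 0 ≤ R := abs_nonneg _
    have hexpR : 8 * (C + 1) / ε ≤ Real.exp R := by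
      calc 8 * (C + 1) / ε = Real.exp (Real.log (8 * (C + 1) / ε)) := (Real.exp_log (by positivity)).symm
        _ ≤ Real.exp R := Real.exp_le_exp.2 (le_abs_self _)
    set B : ℝ := C * Real.exp (c0 * R) with hB
    have hK : IsCompact (Icc p q ×ˢ Icc (-R) R) := isCompact_Icc.prod isCompact_Icc
    have huc := hK.uniformContinuousOn_of_continuous (hψ.1.mono (prod_mono le_rfl (subset_univ _)))
    rw [Metric.uniformContinuousOn_iff_le] at huc
    obtain ⟨η, hη, Hη⟩ := huc (ε / 2) (half_pos hε)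
    have hd : 0 < η / 2 := half_pos hη
    refine ⟨B * (1 + 2 / (η / 2) + 4 / (η / 2) ^ 2), fun r hr => ?_⟩
    have hcr : Continuous (ψ r) := (hψ.scE hr).continuous
    have hch : Continuous fun y => ψ r (max (-R) (min R y)) := hcr.comp (by fun_prop)
    have hbh : ∀ y, |ψ r (max (-R) (min R y))| ≤ B := fun y => by
      refine (hg r hr _).trans (mul_le_mul_of_nonneg_left (Real.exp_le_exp.2 ?_) hC)
      exact mul_le_mul_of_nonneg_left (sgr_clamp_abs hR y) hc0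
    obtain ⟨h1, h2⟩ := sgr_smooth hch hbh hd (ω := ε / 2) (fun x y hxy => by
      have := Hη (r, max (-R) (min R x)) ⟨hr, abs_le.1 (sgr_clamp_abs hR x)⟩ (r, max (-R) (min R y))
        ⟨hr, abs_le.1 (sgr_clamp_abs hR y)⟩ (by
          rw [Prod.dist_eq, dist_self, Real.dist_eq]
          refine max_le hη.le ((sgr_clamp_lip R x y).trans ?_)
          linarith)
      rwa [Real.dist_eq] at this)
    refine ⟨_, h1, fun y => ?_⟩
    have hw1 := sgw_cw_one_le (c0 + 1) y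
    have h3 := h2 y
    have h4 : |ψ r y - ψ r (max (-R) (min R y))| ≤ ε / 2 * scCw (c0 + 1) y := by
      by_cases hy : |y| ≤ R
      · rw [sgr_clamp_eq hy, sub_self, abs_zero]
        positivity
      · push Not at hy
        have a1 := hg r hr y
        have a2 := hbh y
        have a3 : B ≤ C * Real.exp (c0 * |y|) :=
          mul_le_mul_of_nonneg_left (Real.exp_le_exp.2 (mul_le_mul_of_nonneg_left hy.le hc0)) hC
        have a4 := abs_sub (ψ r y) (ψ r (max (-R) (min R y)))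
        have a5 : Real.exp (c0 * |y|) * Real.exp R ≤ 2 * scCw (c0 + 1) y := by
          have := sgw_exp_le_cosh ((c0 + 1) * y)
          rw [abs_mul, abs_of_nonneg (by linarith : 0 ≤ c0 + 1)] at this
          refine le_trans ?_ this
          rw [← Real.exp_add]
          exact Real.exp_le_exp.2 (by nlinarith)
        have hE : 0 < Real.exp (c0 * |y|) := Real.exp_pos _
        have a6 : Real.exp (c0 * |y|) * (8 * (C + 1) / ε) ≤ 2 * scCw (c0 + 1) y :=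
          (mul_le_mul_of_nonneg_left hexpR hE.le).trans a5
        have a7 : 2 * (C * Real.exp (c0 * |y|)) ≤ ε / 2 * scCw (c0 + 1) y := by
          have e : Real.exp (c0 * |y|) * (8 * (C + 1) / ε) * (ε / 4) = 2 * ((C + 1) * Real.exp (c0 * |y|)) := by
            field_simp
            ring
          have := mul_le_mul_of_nonneg_right a6 (by positivity : 0 ≤ ε / 4)
          rw [e] at this
          nlinarith
        linarith
    have h5 : ψ r y - scAvg (η / 2) (scAvg (η / 2) fun y => ψ r (max (-R) (min R y))) y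
        = (ψ r y - ψ r (max (-R) (min R y)))
          - (scAvg (η / 2) (scAvg (η / 2) fun y => ψ r (max (-R) (min R y))) y - ψ r (max (-R) (min R y))) := by ring
    rw [h5]
    refine (abs_sub _ _).trans ?_
    have h6 : ε / 2 ≤ ε / 2 * scCw (c0 + 1) y := le_mul_of_one_le_right (half_pos hε).le hw1
    linarith
  classical
  refine ⟨c0 + 1, fun ε => if h : 0 < ε then Classical.choose (key ε h) else 0, by linarith, fun r hr => ?_⟩
  refine ⟨hψ.scE hr, fun ε hε => ?_⟩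
  simp only [dif_pos hε]
  exact Classical.choose_spec (key ε hε) r hr

/-- a single test of the exponential class -/
theorem sgr_app_E {φ : ℝ → ℝ} (hφ : ScE 0 φ) : ∃ (c : ℝ) (μ : ℝ → ℝ), 0 ≤ c ∧ SgrApp c μ φ := by
  obtain ⟨c, μ, hc, h⟩ := sgr_app_T (hφ.scT (Icc 0 0))
  exact ⟨c, μ, hc, h 0 ⟨le_rfl, le_rfl⟩⟩

/-! ## 3. derivatives -/

/-- two FINITE derivative towers with the same bound, close at order `0`, are close at every order `< N` -/
theorem sgr_tower_diff {F G : ℕ → ℝ → ℝ} {B ε : ℝ} {N : ℕ}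
    (hF : ∀ k < N, ∀ x, HasDerivAt (F k) (F (k + 1) x) x) (hG : ∀ k < N, ∀ x, HasDerivAt (G k) (G (k + 1) x) x)
    (bF : ∀ k ≤ N, ∀ x, |F k x| ≤ B) (bG : ∀ k ≤ N, ∀ x, |G k x| ≤ B)
    (h0 : ∀ x, |F 0 x - G 0 x| ≤ ε) : ∀ k, k + 1 ≤ N → ∀ x, |F k x - G k x| ≤ sckE (fun _ => B) ε k := by
  intro k
  induction k with
  | zero => exact fun _ => h0
  | succ k ih =>
    intro hk x
    have := sck_landau (f := fun x => F k x - G k x) (f' := fun x => F (k + 1) x - G (k + 1) x)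
      (f'' := fun x => F (k + 2) x - G (k + 2) x) (ε := sckE (fun _ => B) ε k) (M := 2 * B)
      (fun x => (hF k (by omega) x).sub (hG k (by omega) x))
      (fun x => (hF (k + 1) (by omega) x).sub (hG (k + 1) (by omega) x)) (ih (by omega))
      (fun x => by
        have a := bF (k + 2) (by omega) x
        have b := bG (k + 2) (by omega) x
        rw [abs_le] at a b ⊢
        constructor <;> linarith [a.1, a.2, b.1, b.2]) x
    simpa [sckE] using this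

/-- limit theorem for FINITE derivative towers, uniform in a parameter -/
theorem sgr_tower_limit {τ : Type*} {F : ℕ → ℕ → τ → ℝ → ℝ} {B : ℝ} {N : ℕ}
    (hd : ∀ n, ∀ k < N, ∀ t x, HasDerivAt (F n k t) (F n (k + 1) t x) x)
    (hb : ∀ n, ∀ k ≤ N, ∀ t x, |F n k t x| ≤ B)
    (hc : ∀ ε > 0, ∃ N', ∀ n ≥ N', ∀ m ≥ N', ∀ t x, |F n 0 t x - F m 0 t x| ≤ ε) :
    ∃ G : ℕ → τ → ℝ → ℝ,
      (∀ k, k + 1 ≤ N → ∀ ε > 0, ∃ N', ∀ n ≥ N', ∀ t x, |F n k t x - G k t x| ≤ ε) ∧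
      (∀ k, k + 1 ≤ N → ∀ t x, Tendsto (fun n => F n k t x) atTop (𝓝 (G k t x))) ∧
      (∀ k, k + 2 ≤ N → ∀ t x, HasDerivAt (G k t) (G (k + 1) t x) x) := by
  have hC : ∀ k, k + 1 ≤ N → ∀ δ > 0, ∃ N', ∀ n ≥ N', ∀ m ≥ N', ∀ t x, |F n k t x - F m k t x| ≤ δ := by
    intro k hk δ hδ
    obtain ⟨η, hη, H⟩ := sckE_small (fun _ => B) k hδ
    obtain ⟨N', hN⟩ := hc η hη
    refine ⟨N', fun n hn m hm t x => ?_⟩
    have := sgr_tower_diff (F := fun k => F n k t) (G := fun k => F m k t) (B := B) (ε := η) (N := N)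
      (fun k hk x => hd n k hk t x) (fun k hk x => hd m k hk t x) (fun k hk x => hb n k hk t x)
      (fun k hk x => hb m k hk t x) (fun x => hN n hn m hm t x) k hk x
    exact le_trans this (H η (by rw [abs_of_pos hη]))
  have hcs : ∀ k, k + 1 ≤ N → ∀ t x, CauchySeq (fun n => F n k t x) := by
    intro k hk t x
    rw [Metric.cauchySeq_iff']
    intro δ hδ
    obtain ⟨N', hN⟩ := hC k hk (δ / 2) (by positivity)
    refine ⟨N', fun n hn => ?_⟩
    rw [Real.dist_eq]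
    have := hN n hn N' le_rfl t x
    linarith
  have hex : ∀ k t x, ∃ l, k + 1 ≤ N → Tendsto (fun n => F n k t x) atTop (𝓝 l) := by
    intro k t x
    by_cases hk : k + 1 ≤ N
    · obtain ⟨l, hl⟩ := cauchySeq_tendsto_of_complete (hcs k hk t x)
      exact ⟨l, fun _ => hl⟩
    · exact ⟨0, fun h => absurd h hk⟩
  choose G hG using hex
  have hU : ∀ k, k + 1 ≤ N → ∀ ε > 0, ∃ N', ∀ n ≥ N', ∀ t x, |F n k t x - G k t x| ≤ ε := by
    intro k hk ε hε
    obtain ⟨N', hN⟩ := hC k hk ε hε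
    refine ⟨N', fun n hn t x => ?_⟩
    have ht : Tendsto (fun m => |F n k t x - F m k t x|) atTop (𝓝 |F n k t x - G k t x|) :=
      (tendsto_const_nhds.sub (hG k t x hk)).abs
    exact le_of_tendsto ht (eventually_atTop.2 ⟨N', fun m hm => hN n hn m hm t x⟩)
  refine ⟨G, hU, fun k hk t x => hG k t x hk, fun k hk t x => ?_⟩
  have hu : TendstoUniformly (fun n => F n (k + 1) t) (G (k + 1) t) atTop := by
    rw [Metric.tendstoUniformly_iff]
    intro ε hε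
    obtain ⟨N', hN⟩ := hU (k + 1) hk (ε / 2) (by positivity)
    refine eventually_atTop.2 ⟨N', fun n hn y => ?_⟩
    rw [Real.dist_eq, abs_sub_comm]
    have := hN n hn t y
    linarith
  exact hasDerivAt_of_tendstoUniformly hu (Eventually.of_forall fun n y => hd n k (by omega) t y)
    (fun y => hG k t y (by omega)) x

theorem ScN.iter_hasDerivAt {n : ℕ} {M : ℝ} {φ : ℝ → ℝ} (h : ScN n M φ) {k : ℕ} (hk : k < n) (z : ℝ) :
    HasDerivAt (deriv^[k] φ) (deriv^[k + 1] φ z) z :=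
  (h.scW (w := fun _ => 1) fun _ => le_rfl).iter_hasDerivAt hk z

/-- **uniform convergence of the derivatives of the kernels** (bounded tests; one derivative is lost), along ANY approximation; the limit tower is the tower of
the derivatives of `scPa` -/
theorem sgr_P_unif {F : ℝ → ℝ} (hF : ScBI F) {a τ : ℝ} {α : ℝ → ℝ} (hτ : 0 ≤ τ) (hα : ScCoef a τ α)
    {π : ℕ → List (ℝ × ℝ)} (hπ : ∀ n, SgpApx a τ (π n)) (hd : Tendsto (fun n => scDa (π n) α τ) atTop (𝓝 0))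
    {m : ℕ} {g : ℝ → ℝ} (hg : ScBd (m + 1) g) :
    (∃ δ : ℕ → ℝ, Tendsto δ atTop (𝓝 0) ∧ ∀ n, ∀ k ≤ m, ∀ s t, 0 ≤ s → s ≤ t → t ≤ τ → ∀ z,
      |deriv^[k] (scPt F (π n) s t g) z - deriv^[k] (scPa F α τ s t g) z| ≤ δ n) ∧
    ∀ k < m, ∀ s t, 0 ≤ s → s ≤ t → t ≤ τ → ∀ z,
      HasDerivAt (deriv^[k] (scPa F α τ s t g)) (deriv^[k + 1] (scPa F α τ s t g) z) z := by
  have ha := hα.a_nonneg hτ
  obtain ⟨M, hM⟩ := hg.scN
  obtain ⟨A, hA0, hAN⟩ := scg_BI_N hF (m + 1)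
  obtain ⟨K, hK, HK⟩ := sc_tau_Pt ha (m + 1) hA0
  have hN : ∀ n s t, ScN (m + 1) (K * M) (scPt F (π n) s t g) :=
    fun n s t => HK F (π n) g M hF hAN (hπ n).adm (hπ n).inc hM s t
  have happ : SgrApp 0 (sgrMu1 M) g := sgr_app_N1 (hM.mono (by omega)) 0
  have hcl : ∀ ε > 0, ∃ N', ∀ n ≥ N', ∀ s t, 0 ≤ s → s ≤ t → t ≤ τ → ∀ z,
      |scPt F (π n) s t g z - scPa F α τ s t g z| ≤ ε := by
    intro ε hε
    obtain ⟨δ, hδ, H⟩ := sgr_P_close hF ha hτ le_rfl (sgrMu1 M) hε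
    obtain ⟨N', hN'⟩ := eventually_atTop.1 (hd.eventually (gt_mem_nhds hδ))
    refine ⟨N', fun n hn s t hs hst ht z => ?_⟩
    have := H α hα (π n) (hπ n) (hN' n hn).le g happ s t hs hst ht z
    simpa [scCw] using this
  -- the towers
  let T : Type := {q : ℝ × ℝ // 0 ≤ q.1 ∧ q.1 ≤ q.2 ∧ q.2 ≤ τ}
  obtain ⟨G, hU, hG, hD⟩ := sgr_tower_limit (τ := T) (N := m + 1) (B := K * M)
    (F := fun n k q x => deriv^[k] (scPt F (π n) q.1.1 q.1.2 g) x)
    (fun n k hk q x => (hN n q.1.1 q.1.2).iter_hasDerivAt hk x)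
    (fun n k hk q x => (hN n q.1.1 q.1.2).iter hk x)
    (fun ε hε => by
      obtain ⟨N', hN'⟩ := hcl (ε / 2) (half_pos hε)
      refine ⟨N', fun n hn n' hn' q x => ?_⟩
      have h1 := hN' n hn q.1.1 q.1.2 q.2.1 q.2.2.1 q.2.2.2 x
      have h2 := hN' n' hn' q.1.1 q.1.2 q.2.1 q.2.2.1 q.2.2.2 x
      simp only [Function.iterate_zero, id_eq]
      rw [abs_le] at h1 h2 ⊢
      constructor <;> linarith [h1.1, h1.2, h2.1, h2.2])
  -- identification of the limit tower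
  have h0 : ∀ q : T, G 0 q = scPa F α τ q.1.1 q.1.2 g := by
    intro q
    funext x
    have l1 := hG 0 (by omega) q x
    have l2 : Tendsto (fun n => scPt F (π n) q.1.1 q.1.2 g x) atTop (𝓝 (scPa F α τ q.1.1 q.1.2 g x)) := by
      rw [Metric.tendsto_atTop]
      intro ε hε
      obtain ⟨N', hN'⟩ := hcl (ε / 2) (half_pos hε)
      refine ⟨N', fun n hn => ?_⟩
      rw [Real.dist_eq]
      have := hN' n hn q.1.1 q.1.2 q.2.1 q.2.2.1 q.2.2.2 x
      linarith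
    exact tendsto_nhds_unique l1 l2
  have hid : ∀ k, k ≤ m → ∀ q : T, deriv^[k] (scPa F α τ q.1.1 q.1.2 g) = G k q := by
    intro k
    induction k with
    | zero => exact fun _ q => (h0 q).symm
    | succ k ih =>
      intro hk q
      rw [Function.iterate_succ_apply', ih (by omega) q]
      funext x
      exact (hD k (by omega) q x).deriv
  refine ⟨?_, fun k hk s t hs hst ht z => ?_⟩
  · -- the sequence of bounds
    have hbG : ∀ k, k ≤ m → ∀ (q : T) x, |G k q x| ≤ K * M := fun k hk q x =>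
      le_of_tendsto (hG k (by omega) q x).abs (Eventually.of_forall fun n => (hN n q.1.1 q.1.2).iter (by omega) x)
    obtain ⟨δ, hδ, Hδ⟩ := sgr_seq_of_unif (ι := {k : ℕ // k ≤ m} × T × ℝ) (B := 2 * (K * M))
      (u := fun n i => deriv^[i.1.1] (scPt F (π n) i.2.1.1.1 i.2.1.1.2 g) i.2.2 - G i.1.1 i.2.1 i.2.2)
      (fun n i => by
        have h1 := (hN n i.2.1.1.1 i.2.1.1.2).iter (k := i.1.1) (by have := i.1.2; omega) i.2.2
        have h2 := hbG i.1.1 i.1.2 i.2.1 i.2.2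
        have := abs_sub (deriv^[i.1.1] (scPt F (π n) i.2.1.1.1 i.2.1.1.2 g) i.2.2) (G i.1.1 i.2.1 i.2.2)
        linarith)
      (fun ε hε => by
        choose! N' hN' using fun k (hk : k + 1 ≤ m + 1) => hU k hk ε hε
        refine ⟨(Finset.range (m + 1)).sup N', fun n hn i => ?_⟩
        have hi : i.1.1 ∈ Finset.range (m + 1) := Finset.mem_range.2 (by have := i.1.2; omega)
        exact hN' i.1.1 (by have := i.1.2; omega) n ((Finset.le_sup hi).trans hn) i.2.1 i.2.2)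
    refine ⟨δ, hδ, fun n k hk s t hs hst ht z => ?_⟩
    have := Hδ n (⟨k, hk⟩, ⟨(s, t), hs, hst, ht⟩, z)
    rw [hid k hk ⟨(s, t), hs, hst, ht⟩]
    exact this
  · rw [hid k hk.le ⟨(s, t), hs, hst, ht⟩, hid (k + 1) hk ⟨(s, t), hs, hst, ht⟩]
    exact hD k (by omega) ⟨(s, t), hs, hst, ht⟩ z


/-! ## 4. sequences of bounds -/

theorem SgrApp.bd {c : ℝ} {μ : ℝ → ℝ} {ψ : ℝ → ℝ} (h : SgrApp c μ ψ) (y : ℝ) : |ψ y| ≤ (μ 1 + 1) * scCw c y := by
  obtain ⟨g, hg, hb⟩ := h.2 1 one_pos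
  have h1 := hb y
  have h2 := hg.bd y
  have h3 := sgw_cw_one_le c y
  have h4 : |ψ y| ≤ |ψ y - g y| + |g y| := by
    have := abs_add_le (ψ y - g y) (g y)
    simpa using this
  have h5 : μ 1 ≤ μ 1 * scCw c y := le_mul_of_one_le_right hg.nonneg h3
  linarith

/-- **the master estimate as a sequence of bounds**: along any approximation, uniformly in the tests of a class `SgrApp c μ`, in the times; weighted in the space variable -/
theorem sgr_P_unif0 {F : ℝ → ℝ} (hF : ScBI F) {a τ : ℝ} {α : ℝ → ℝ} (hτ : 0 ≤ τ) (hα : ScCoef a τ α)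
    {π : ℕ → List (ℝ × ℝ)} (hπ : ∀ n, SgpApx a τ (π n)) (hd : Tendsto (fun n => scDa (π n) α τ) atTop (𝓝 0))
    {c : ℝ} (hc : 0 ≤ c) (μ : ℝ → ℝ) :
    ∃ δ : ℕ → ℝ, Tendsto δ atTop (𝓝 0) ∧ ∀ n, ∀ ψ, SgrApp c μ ψ → ∀ s t, 0 ≤ s → s ≤ t → t ≤ τ → ∀ z,
      |scPt F (π n) s t ψ z - scPa F α τ s t ψ z| ≤ δ n * scCw c z := by
  have ha := hα.a_nonneg hτ
  obtain ⟨K, hK, HK⟩ := sgr_Pt_w hF ha hc τ
  obtain ⟨K', hK', HK'⟩ := sgr_Pa_w hF ha hc τ
  let T : Type := {q : ℝ × ℝ // 0 ≤ q.1 ∧ q.1 ≤ q.2 ∧ q.2 ≤ τ}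
  obtain ⟨δ, hδ, Hδ⟩ := sgr_seq_of_unif (ι := {ψ : ℝ → ℝ // SgrApp c μ ψ} × T × ℝ) (B := K * (μ 1 + 1) + K' * (μ 1 + 1))
    (u := fun n i => (scPt F (π n) i.2.1.1.1 i.2.1.1.2 i.1.1 i.2.2 - scPa F α τ i.2.1.1.1 i.2.1.1.2 i.1.1 i.2.2)
      / scCw c i.2.2)
    (fun n i => by
      have hw := sgw_cw_pos c i.2.2
      have hT : i.2.1.1.2 - i.2.1.1.1 ≤ τ := by linarith [i.2.1.2.1, i.2.1.2.2.2]
      have h1 := HK (π n) i.1.1 _ (hπ n).adm (hπ n).inc i.1.2.1.continuous i.1.2.bd i.2.1.1.1 i.2.1.1.2 hT i.2.2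
      have h2 := HK' τ α hτ hα μ i.1.1 _ i.1.2 i.1.2.bd i.2.1.1.1 i.2.1.1.2 i.2.1.2.1 i.2.1.2.2.1 i.2.1.2.2.2 hT i.2.2
      rw [abs_div, abs_of_pos hw, div_le_iff₀ hw]
      refine (abs_sub _ _).trans ?_
      rw [add_mul]
      exact add_le_add h1 h2)
    (fun ε hε => by
      obtain ⟨η, hη, H⟩ := sgr_P_close hF ha hτ hc μ hε
      obtain ⟨N', hN'⟩ := eventually_atTop.1 (hd.eventually (gt_mem_nhds hη))
      refine ⟨N', fun n hn i => ?_⟩
      have hw := sgw_cw_pos c i.2.2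
      rw [abs_div, abs_of_pos hw, div_le_iff₀ hw]
      exact H α hα (π n) (hπ n) (hN' n hn).le i.1.1 i.1.2 _ _ i.2.1.2.1 i.2.1.2.2.1 i.2.1.2.2.2 i.2.2)
  refine ⟨δ, hδ, fun n ψ hψ s t hs hst ht z => ?_⟩
  have hw := sgw_cw_pos c z
  have := Hδ n (⟨ψ, hψ⟩, ⟨(s, t), hs, hst, ht⟩, z)
  rwa [abs_div, abs_of_pos hw, div_le_iff₀ hw] at this

theorem sgr_dy_apx {a τ : ℝ} {α : ℝ → ℝ} (hτ : 0 ≤ τ) (hα : ScCoef a τ α) :
    (∀ n, SgpApx a τ (scDy α τ n)) ∧ Tendsto (fun n => scDa (scDy α τ n) α τ) atTop (𝓝 0) :=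
  ⟨sc_dy_apx hτ hα, sgp_da_dy_tendsto hτ hα⟩

theorem sgr_cw_le_exp {c : ℝ} (hc : 0 ≤ c) (z : ℝ) : scCw c z ≤ Real.exp (c * |z|) := by
  have := sgw_cosh_le_exp (c * z)
  rwa [abs_mul, abs_of_nonneg hc] at this

end Claimed.Agent.R286
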