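import Claimed.Agent.R286.Sc.Cls

/-!
# Row 286, scalar block, layer S0 (part B): the heat operator at a fixed time
CONTRACT FILE (head: helper95; proofs: helper50, 0 sorry); definitions and classes in `Sc/Cls.lean`; plan: `origin/helper95:notes/R286/B03_helper95.md`.
-/

set_option autoImplicit false

namespace Claimed.Agent.R286

open MeasureTheory ProbabilityTheory Filter Topology Set

/-! ## B. the heat operator at a fixed time -/

theorem ScG.nonneg_consts {f : ℝ → ℝ} (h : ScG f) : ∃ C c : ℝ, 0 ≤ C ∧ 0 ≤ c ∧ ∀ z, |f z| ≤ C * Real.exp (c * |z|) := by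
  obtain ⟨C, c, h⟩ := h
  refine ⟨|C|, |c|, abs_nonneg _, abs_nonneg _, fun z => (h z).trans ?_⟩
  calc C * Real.exp (c * |z|) ≤ |C| * Real.exp (c * |z|) := mul_le_mul_of_nonneg_right (le_abs_self _) (Real.exp_pos _).le
    _ ≤ |C| * Real.exp (|c| * |z|) := by
      apply mul_le_mul_of_nonneg_left _ (abs_nonneg _)
      exact Real.exp_le_exp.2 (mul_le_mul_of_nonneg_right (le_abs_self _) (abs_nonneg _))

theorem sc_integrable_exp_abs (c : ℝ) : Integrable (fun g : ℝ => Real.exp (c * |g|)) (gaussianReal 0 1) :=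
  integrable_exp_mul_abs (integrable_exp_mul_gaussianReal c) (by simpa using integrable_exp_mul_gaussianReal (μ := 0) (v := 1) (-c))

theorem sc_exp_affine_le {c : ℝ} (hc : 0 ≤ c) (z b g : ℝ) :
    Real.exp (c * |z + b * g|) ≤ Real.exp (c * |z|) * Real.exp (c * |b| * |g|) := by
  rw [← Real.exp_add]
  apply Real.exp_le_exp.2
  have : |z + b * g| ≤ |z| + |b| * |g| := by rw [← abs_mul]; exact abs_add_le _ _
  nlinarith

/-- pointwise bound of the integrand of `scHeat` -/
theorem sc_heat_integrand_le {f : ℝ → ℝ} {C c : ℝ} (hC : 0 ≤ C) (hc : 0 ≤ c) (h : ∀ z, |f z| ≤ C * Real.exp (c * |z|)) (s z g : ℝ) :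
    |f (z + Real.sqrt s * g)| ≤ C * Real.exp (c * |z|) * Real.exp (c * Real.sqrt s * |g|) := by
  refine (h _).trans ?_
  rw [mul_assoc]
  apply mul_le_mul_of_nonneg_left _ hC
  have := sc_exp_affine_le hc z (Real.sqrt s) g
  rwa [abs_of_nonneg (Real.sqrt_nonneg s)] at this

theorem sc_heat_integrable {f : ℝ → ℝ} (hf : ScE 0 f) (s z : ℝ) :
    Integrable (fun g => f (z + Real.sqrt s * g)) (gaussianReal 0 1) := by
  obtain ⟨C, c, hC, hc, h⟩ := hf.2.nonneg_consts
  have hcont : Continuous f := hf.1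
  exact ((sc_integrable_exp_abs (c * Real.sqrt s)).const_mul (C * Real.exp (c * |z|))).mono' (by fun_prop)
    (Eventually.of_forall fun g => by simpa using sc_heat_integrand_le hC hc h s z g)

theorem sc_heat_zero (f : ℝ → ℝ) : scHeat 0 f = f := by
  funext z
  simp [scHeat]

theorem sc_heat_const (s c : ℝ) : scHeat s (fun _ => c) = fun _ => c := by
  funext z
  simp [scHeat]

theorem sc_heat_add {f g : ℝ → ℝ} (hf : ScE 0 f) (hg : ScE 0 g) (s : ℝ) :
    scHeat s (fun z => f z + g z) = fun z => scHeat s f z + scHeat s g z := by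
  funext z
  exact integral_add (sc_heat_integrable hf s z) (sc_heat_integrable hg s z)

theorem sc_heat_sub {f g : ℝ → ℝ} (hf : ScE 0 f) (hg : ScE 0 g) (s : ℝ) :
    scHeat s (fun z => f z - g z) = fun z => scHeat s f z - scHeat s g z := by
  funext z
  exact integral_sub (sc_heat_integrable hf s z) (sc_heat_integrable hg s z)

theorem sc_heat_const_mul (c s : ℝ) (f : ℝ → ℝ) :
    scHeat s (fun z => c * f z) = fun z => c * scHeat s f z := by
  funext z
  exact integral_const_mul _ _

theorem sc_heat_mono {f g : ℝ → ℝ} (hf : ScE 0 f) (hg : ScE 0 g) (h : ∀ z, f z ≤ g z) (s z : ℝ) :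
    scHeat s f z ≤ scHeat s g z :=
  integral_mono (sc_heat_integrable hf s z) (sc_heat_integrable hg s z) fun _ => h _

theorem sc_heat_pos {f : ℝ → ℝ} (hf : ScE 0 f) (h : ∀ z, 0 < f z) (s z : ℝ) : 0 < scHeat s f z := by
  unfold scHeat
  rw [integral_pos_iff_support_of_nonneg (fun g => (h _).le) (sc_heat_integrable hf s z)]
  have : Function.support (fun g => f (z + Real.sqrt s * g)) = univ := by
    ext g
    simp [(h _).ne']
  rw [this]
  simp

theorem sc_heat_abs_le {f : ℝ → ℝ} {C : ℝ} (h : ∀ z, |f z| ≤ C) (s z : ℝ) : |scHeat s f z| ≤ C := by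
  have h1 : ‖∫ g, f (z + Real.sqrt s * g) ∂(gaussianReal 0 1)‖ ≤ ∫ _g, C ∂(gaussianReal 0 1) :=
    norm_integral_le_of_norm_le (integrable_const _) (Eventually.of_forall fun g => by simpa using h _)
  simpa [scHeat] using h1

theorem sc_integral_exp_mul (a : ℝ) : ∫ g, Real.exp (a * g) ∂(gaussianReal 0 1) = Real.exp (a ^ 2 / 2) := by
  have h := congrFun (mgf_id_gaussianReal (μ := 0) (v := 1)) a
  simpa [mgf] using h

theorem sc_integral_exp_abs_le (a : ℝ) : ∫ g, Real.exp (a * |g|) ∂(gaussianReal 0 1) ≤ 2 * Real.exp (a ^ 2 / 2) := by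
  have h1 : ∫ g, Real.exp (a * |g|) ∂(gaussianReal 0 1) ≤ ∫ g, (Real.exp (a * g) + Real.exp (-a * g)) ∂(gaussianReal 0 1) := by
    refine integral_mono (sc_integrable_exp_abs a) ((integrable_exp_mul_gaussianReal a).add (integrable_exp_mul_gaussianReal (-a))) fun g => ?_
    rcases abs_cases g with ⟨h, _⟩ | ⟨h, _⟩
    · simp only [h]; linarith [Real.exp_pos (-a * g)]
    · simp only [h]
      have : a * -g = -a * g := by ring
      rw [this]; linarith [Real.exp_pos (a * g)]
  rw [integral_add (integrable_exp_mul_gaussianReal a) (integrable_exp_mul_gaussianReal (-a)), sc_integral_exp_mul, sc_integral_exp_mul] at h1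
  have : (-a) ^ 2 = a ^ 2 := by ring
  rw [this] at h1
  linarith

/-- explicit growth: `|f| ≤ C e^{c|z|}`, `c ≥ 0` gives `|heat s f| ≤ 2 C e^{c² s / 2} e^{c|z|}` -/
theorem sc_heat_growth {f : ℝ → ℝ} {C c : ℝ} (hc : 0 ≤ c) (h : ∀ z, |f z| ≤ C * Real.exp (c * |z|)) {s : ℝ}
    (hs : 0 ≤ s) (z : ℝ) : |scHeat s f z| ≤ 2 * C * Real.exp (c ^ 2 * s / 2) * Real.exp (c * |z|) := by
  have hC : 0 ≤ C := by
    have := (abs_nonneg _).trans (h 0)
    simpa using this
  have h1 : ‖∫ g, f (z + Real.sqrt s * g) ∂(gaussianReal 0 1)‖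
      ≤ ∫ g, C * Real.exp (c * |z|) * Real.exp (c * Real.sqrt s * |g|) ∂(gaussianReal 0 1) :=
    norm_integral_le_of_norm_le ((sc_integrable_exp_abs _).const_mul _)
      (Eventually.of_forall fun g => by simpa using sc_heat_integrand_le hC hc h s z g)
  rw [integral_const_mul, Real.norm_eq_abs] at h1
  have h2 := sc_integral_exp_abs_le (c * Real.sqrt s)
  have e : (c * Real.sqrt s) ^ 2 = c ^ 2 * s := by rw [mul_pow, Real.sq_sqrt hs]
  rw [e] at h2
  have h3 := mul_le_mul_of_nonneg_left h2 (by positivity : 0 ≤ C * Real.exp (c * |z|))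
  unfold scHeat
  calc _ ≤ _ := h1
    _ ≤ _ := h3
    _ = _ := by ring

theorem ScG.heat {f : ℝ → ℝ} (hf : ScG f) (s : ℝ) : ScG (scHeat s f) := by
  obtain ⟨C, c, hC, hc, h⟩ := hf.nonneg_consts
  rcases le_total 0 s with hs | hs
  · exact ⟨_, c, sc_heat_growth hc h hs⟩
  · refine ⟨C, c, fun z => ?_⟩
    have : scHeat s f = f := by
      funext z
      simp [scHeat, Real.sqrt_eq_zero_of_nonpos hs]
    rw [this]
    exact h z

/-- differentiation under the Gaussian integral, with an exponential bound -/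
theorem sc_hasDerivAt_integral {F F' : ℝ → ℝ → ℝ} {x₀ δ C c : ℝ} (hδ : 0 < δ)
    (hm : ∀ x ∈ Metric.ball x₀ δ, AEStronglyMeasurable (F x) (gaussianReal 0 1)) (hi : Integrable (F x₀) (gaussianReal 0 1))
    (hm' : AEStronglyMeasurable (F' x₀) (gaussianReal 0 1))
    (hb : ∀ g, ∀ x ∈ Metric.ball x₀ δ, |F' x g| ≤ C * Real.exp (c * |g|))
    (hd : ∀ g, ∀ x ∈ Metric.ball x₀ δ, HasDerivAt (fun x => F x g) (F' x g) x) :
    HasDerivAt (fun x => ∫ g, F x g ∂(gaussianReal 0 1)) (∫ g, F' x₀ g ∂(gaussianReal 0 1)) x₀ :=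
  (hasDerivAt_integral_of_dominated_loc_of_deriv_le (μ := gaussianReal 0 1) (F := F) (F' := F') (x₀ := x₀)
    (s := Metric.ball x₀ δ) (bound := fun g => C * Real.exp (c * |g|)) (Metric.ball_mem_nhds x₀ hδ)
    (Filter.eventually_of_mem (Metric.ball_mem_nhds x₀ hδ) hm) hi hm'
    (Eventually.of_forall fun g x hx => by simpa using hb g x hx) ((sc_integrable_exp_abs c).const_mul C)
    (Eventually.of_forall hd)).2

theorem sc_heat_hasDerivAt {f : ℝ → ℝ} (hf : ScE 1 f) (s z : ℝ) :
    HasDerivAt (scHeat s f) (scHeat s (deriv f) z) z := by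
  obtain ⟨C, c, hC, hc, h⟩ := hf.deriv.growth.nonneg_consts
  have hcf : Continuous f := hf.continuous
  have hcf' : Continuous (deriv f) := hf.deriv.continuous
  refine sc_hasDerivAt_integral (F := fun z g => f (z + Real.sqrt s * g)) (F' := fun z g => deriv f (z + Real.sqrt s * g))
    (C := C * Real.exp (c * (|z| + 1))) (c := c * Real.sqrt s) one_pos (fun x _ => by fun_prop)
    (sc_heat_integrable ⟨hcf, hf.growth⟩ _ _) (by fun_prop) ?_ ?_
  · intro g x hx
    refine (sc_heat_integrand_le hC hc h s x g).trans ?_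
    refine mul_le_mul_of_nonneg_right (mul_le_mul_of_nonneg_left (Real.exp_le_exp.2 ?_) hC) (Real.exp_pos _).le
    apply mul_le_mul_of_nonneg_left _ hc
    rw [Metric.mem_ball, Real.dist_eq] at hx
    have : |x| ≤ |x - z| + |z| := by simpa using abs_add_le (x - z) z
    linarith
  · intro g x _
    simpa using ((hf.differentiable (x + Real.sqrt s * g)).hasDerivAt).comp_add_const x (Real.sqrt s * g)

theorem sc_heat_deriv {f : ℝ → ℝ} (hf : ScE 1 f) (s : ℝ) : deriv (scHeat s f) = scHeat s (deriv f) :=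
  funext fun z => (sc_heat_hasDerivAt hf s z).deriv

theorem sc_heat_continuous {f : ℝ → ℝ} (hf : ScE 0 f) (s : ℝ) : Continuous (scHeat s f) := by
  obtain ⟨C, c, hC, hc, h⟩ := hf.2.nonneg_consts
  have hcf : Continuous f := hf.1
  rw [continuous_iff_continuousAt]
  intro z
  refine continuousAt_of_dominated (F := fun z g => f (z + Real.sqrt s * g))
    (bound := fun g => C * Real.exp (c * (|z| + 1)) * Real.exp (c * Real.sqrt s * |g|))
    (Eventually.of_forall fun x => by fun_prop) ?_ ((sc_integrable_exp_abs _).const_mul _)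
    (Eventually.of_forall fun g => by fun_prop)
  filter_upwards [Metric.ball_mem_nhds z one_pos] with x hx
  refine Eventually.of_forall fun g => ?_
  rw [Real.norm_eq_abs]
  refine (sc_heat_integrand_le hC hc h s x g).trans ?_
  refine mul_le_mul_of_nonneg_right (mul_le_mul_of_nonneg_left (Real.exp_le_exp.2 ?_) hC) (Real.exp_pos _).le
  apply mul_le_mul_of_nonneg_left _ hc
  rw [Metric.mem_ball, Real.dist_eq] at hx
  have : |x| ≤ |x - z| + |z| := by simpa using abs_add_le (x - z) z
  linarith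

theorem sc_heat_E {n : ℕ} {f : ℝ → ℝ} (hf : ScE n f) (s : ℝ) : ScE n (scHeat s f) := by
  induction n generalizing f with
  | zero => exact ⟨sc_heat_continuous hf s, hf.2.heat s⟩
  | succ n ih =>
    have h1 : ScE 1 f := hf.mono (by omega)
    refine ⟨sc_heat_continuous ⟨hf.continuous, hf.growth⟩ s, hf.growth.heat s, fun z => (sc_heat_hasDerivAt h1 s z).differentiableAt, ?_⟩
    rw [sc_heat_deriv h1 s]
    exact ih hf.deriv

theorem sc_heat_B {n : ℕ} {f : ℝ → ℝ} (hf : ScB (n + 1) f) (s : ℝ) : ScB (n + 1) (scHeat s f) := by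
  induction n generalizing f with
  | zero =>
    have h1 : ScE 1 f := hf.scE
    obtain ⟨C, hC⟩ := hf.2.1
    refine ⟨fun z => (sc_heat_hasDerivAt h1 s z).differentiableAt, ⟨C, fun z => ?_⟩, ?_⟩
    · rw [sc_heat_deriv h1 s]; exact sc_heat_abs_le hC s z
    · rw [sc_heat_deriv h1 s]; exact sc_heat_continuous h1.deriv s
  | succ n ih =>
    have h1 : ScE 1 f := hf.scE.mono (by omega)
    obtain ⟨C, hC⟩ := hf.2.1
    refine ⟨fun z => (sc_heat_hasDerivAt h1 s z).differentiableAt, ⟨C, fun z => ?_⟩, ?_⟩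
    · rw [sc_heat_deriv h1 s]; exact sc_heat_abs_le hC s z
    · rw [sc_heat_deriv h1 s]; exact ih hf.2.2

theorem ScE.integrable_gauss {f : ℝ → ℝ} (hf : ScE 0 f) : Integrable f (gaussianReal 0 1) := by
  simpa using sc_heat_integrable hf 1 0

theorem sc_gauss_map_sqrt {s : ℝ} (hs : 0 ≤ s) :
    (gaussianReal 0 1).map (fun g => Real.sqrt s * g) = gaussianReal 0 s.toNNReal := by
  rw [gaussianReal_map_const_mul]
  congr 1
  · simp
  · ext
    simp [Real.sq_sqrt hs, Real.coe_toNNReal _ hs]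

/-- the heat operator as an integral against the Gaussian of variance `s` -/
theorem sc_heat_eq_var {f : ℝ → ℝ} (hf : Continuous f) {s : ℝ} (hs : 0 ≤ s) (z : ℝ) :
    scHeat s f z = ∫ y, f (z + y) ∂(gaussianReal 0 s.toNNReal) := by
  rw [← sc_gauss_map_sqrt hs, integral_map (by fun_prop) (by fun_prop)]
  rfl

theorem sc_heat_integrable_var {f : ℝ → ℝ} (hf : ScE 0 f) {s : ℝ} (hs : 0 ≤ s) (z : ℝ) :
    Integrable (fun y => f (z + y)) (gaussianReal 0 s.toNNReal) := by
  have hc : Continuous f := hf.1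
  rw [← sc_gauss_map_sqrt hs, integrable_map_measure (by fun_prop) (by fun_prop)]
  exact sc_heat_integrable hf s z

/-- semigroup -/
theorem sc_heat_heat {f : ℝ → ℝ} (hf : ScE 0 f) {s s' : ℝ} (hs : 0 ≤ s) (hs' : 0 ≤ s') :
    scHeat s (scHeat s' f) = scHeat (s + s') f := by
  funext z
  have hc : Continuous f := hf.1
  rw [sc_heat_eq_var (sc_heat_continuous hf s') hs, sc_heat_eq_var hc (add_nonneg hs hs')]
  have e : gaussianReal 0 (s + s').toNNReal = gaussianReal 0 s.toNNReal ∗ gaussianReal 0 s'.toNNReal := by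
    rw [gaussianReal_conv_gaussianReal, Real.toNNReal_add hs hs']
    simp
  have hi := sc_heat_integrable_var hf (add_nonneg hs hs') z
  rw [e] at hi ⊢
  rw [integral_conv hi]
  refine integral_congr_ae (Eventually.of_forall fun x => ?_)
  simp only
  rw [sc_heat_eq_var hc hs']
  simp only [add_assoc]

theorem sc_integral_comp_neg (F : ℝ → ℝ) : ∫ g, F (-g) ∂(gaussianReal 0 1) = ∫ g, F g ∂(gaussianReal 0 1) := by
  have h := integral_map_equiv (μ := gaussianReal 0 1) (MeasurableEquiv.neg ℝ) F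
  have h2 : Measure.map (MeasurableEquiv.neg ℝ) (gaussianReal 0 1) = gaussianReal 0 1 := by
    have := gaussianReal_map_neg (μ := 0) (v := 1)
    simpa using this
  rw [h2] at h
  exact h.symm

theorem sc_heat_even {f : ℝ → ℝ} (h : ∀ z, f (-z) = f z) (s z : ℝ) : scHeat s f (-z) = scHeat s f z := by
  unfold scHeat
  rw [← sc_integral_comp_neg]
  refine integral_congr_ae (Eventually.of_forall fun g => ?_)
  simp only
  rw [← h]
  congr 1
  ring

theorem sc_heat_odd {f : ℝ → ℝ} (h : ∀ z, f (-z) = - f z) (s z : ℝ) : scHeat s f (-z) = - scHeat s f z := by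
  unfold scHeat
  rw [← sc_integral_comp_neg, ← integral_neg]
  refine integral_congr_ae (Eventually.of_forall fun g => ?_)
  simp only
  rw [← h]
  congr 1
  ring

/-- Jensen -/
theorem sc_heat_exp_ge {f : ℝ → ℝ} (hf : ScB 1 f) (s z : ℝ) :
    Real.exp (scHeat s f z) ≤ scHeat s (fun y => Real.exp (f y)) z := by
  have h1 : ScE 0 f := hf.scE.of_succ
  have h2 : ScE 0 (fun y => Real.exp (f y)) := by simpa using (hf.exp 1).of_succ
  exact convexOn_exp.map_integral_le Real.continuous_exp.continuousOn isClosed_univ (Eventually.of_forall fun _ => mem_univ _)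
    (sc_heat_integrable h1 s z) (sc_heat_integrable h2 s z)

theorem sc_integrable_gauss_iff (F : ℝ → ℝ) :
    Integrable F (gaussianReal 0 1) ↔ Integrable (fun x => gaussianPDFReal 0 1 x * F x) := by
  rw [gaussianReal_of_var_ne_zero _ one_ne_zero,
    integrable_withDensity_iff_integrable_smul' (measurable_gaussianPDF 0 1) (Eventually.of_forall fun _ => gaussianPDF_lt_top)]
  simp [gaussianPDF, ENNReal.toReal_ofReal (gaussianPDFReal_nonneg _ _ _)]

theorem sc_hasDerivAt_pdf (x : ℝ) : HasDerivAt (gaussianPDFReal 0 1) (-x * gaussianPDFReal 0 1 x) x := by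
  have e : gaussianPDFReal 0 1 = fun x => (Real.sqrt (2 * Real.pi))⁻¹ * Real.exp (-x ^ 2 / 2) := by
    funext x
    simp [gaussianPDFReal]
  rw [e]
  have h1 : HasDerivAt (fun x : ℝ => -x ^ 2 / 2) (-x) x := by
    have := ((hasDerivAt_pow 2 x).fun_neg.div_const 2)
    exact this.congr_deriv (by simp; ring)
  have h2 := (h1.exp).const_mul (Real.sqrt (2 * Real.pi))⁻¹
  exact h2.congr_deriv (by ring)

/-- Stein's lemma -/
theorem sc_stein {f : ℝ → ℝ} (hf : ScE 1 f) :
    ∫ g, g * f g ∂(gaussianReal 0 1) = ∫ g, deriv f g ∂(gaussianReal 0 1) := by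
  have i1 : Integrable (deriv f) (gaussianReal 0 1) := hf.deriv.integrable_gauss
  have i2 : Integrable f (gaussianReal 0 1) := hf.of_succ.integrable_gauss
  have i3 : Integrable (fun g => g * f g) (gaussianReal 0 1) := ((ScE.id 0).mul hf.of_succ).integrable_gauss
  rw [integral_gaussianReal_eq_integral_smul one_ne_zero, integral_gaussianReal_eq_integral_smul one_ne_zero]
  have key := integral_mul_deriv_eq_deriv_mul_of_integrable
    (u := gaussianPDFReal 0 1) (v := f) (u' := fun x => -x * gaussianPDFReal 0 1 x) (v' := deriv f)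
    (fun x _ => sc_hasDerivAt_pdf x) (fun x _ => (hf.differentiable x).hasDerivAt)
    ((sc_integrable_gauss_iff _).1 i1)
    (by
      have := ((sc_integrable_gauss_iff _).1 i3).neg
      refine this.congr (Eventually.of_forall fun x => ?_)
      simp only [Pi.neg_apply, Pi.mul_apply]; ring)
    ((sc_integrable_gauss_iff _).1 i2)
  simp only [smul_eq_mul]
  rw [key, ← integral_neg]
  congr 1
  ext x
  ring

theorem sc_gauss_m1 : ∫ g, g ∂(gaussianReal 0 1) = 0 := integral_id_gaussianReal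

theorem sc_gauss_m2 : ∫ g, g ^ 2 ∂(gaussianReal 0 1) = 1 := by
  have h := sc_stein (ScE.id 1)
  simp only [deriv_id''] at h
  simpa [sq] using h

theorem sc_gauss_m3 : ∫ g, g ^ 3 ∂(gaussianReal 0 1) = 0 := by
  have h := sc_stein ((ScE.id 1).pow 2)
  have e : deriv (fun z : ℝ => z ^ 2) = fun z => 2 * z := by
    funext z
    simp
  rw [e, integral_const_mul, sc_gauss_m1] at h
  have e2 : (fun g : ℝ => g ^ 3) = fun g => g * g ^ 2 := by funext g; ring
  rw [e2, h]; simp

theorem sc_heat_id (s z : ℝ) : scHeat s (fun y => y) z = z := by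
  unfold scHeat
  rw [integral_add (integrable_const _) ((ScE.id 0).integrable_gauss.const_mul _), integral_const_mul, sc_gauss_m1]
  simp

theorem sc_heat_sq {s : ℝ} (hs : 0 ≤ s) (z : ℝ) : scHeat s (fun y => y ^ 2) z = z ^ 2 + s := by
  unfold scHeat
  have i1 : Integrable (fun g : ℝ => g) (gaussianReal 0 1) := (ScE.id 0).integrable_gauss
  have i2 : Integrable (fun g : ℝ => g ^ 2) (gaussianReal 0 1) := ((ScE.id 0).pow 2).integrable_gauss
  have e : ∀ g : ℝ, (z + Real.sqrt s * g) ^ 2 = z ^ 2 + (2 * z * Real.sqrt s) * g + s * g ^ 2 := by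
    intro g
    have := Real.sq_sqrt hs
    nlinarith
  simp only [e]
  have j1 : Integrable (fun g : ℝ => z ^ 2 + (2 * z * Real.sqrt s) * g) (gaussianReal 0 1) := (integrable_const _).add (i1.const_mul _)
  rw [integral_add j1 (i2.const_mul _), integral_add (integrable_const _) (i1.const_mul _),
    integral_const_mul, integral_const_mul, sc_gauss_m1, sc_gauss_m2]
  simp

theorem sc_heat_cube {s : ℝ} (hs : 0 ≤ s) (z : ℝ) : scHeat s (fun y => y ^ 3) z = z ^ 3 + 3 * s * z := by
  unfold scHeat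
  have i1 : Integrable (fun g : ℝ => g) (gaussianReal 0 1) := (ScE.id 0).integrable_gauss
  have i2 : Integrable (fun g : ℝ => g ^ 2) (gaussianReal 0 1) := ((ScE.id 0).pow 2).integrable_gauss
  have i3 : Integrable (fun g : ℝ => g ^ 3) (gaussianReal 0 1) := ((ScE.id 0).pow 3).integrable_gauss
  have e : ∀ g : ℝ, (z + Real.sqrt s * g) ^ 3 = z ^ 3 + (3 * z ^ 2 * Real.sqrt s) * g + (3 * z * s) * g ^ 2 + (s * Real.sqrt s) * g ^ 3 := by
    intro g
    have h2 := Real.sq_sqrt hs
    have h3 : Real.sqrt s ^ 3 = s * Real.sqrt s := by rw [pow_succ, h2]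
    calc (z + Real.sqrt s * g) ^ 3 = z ^ 3 + (3 * z ^ 2 * Real.sqrt s) * g + (3 * z * Real.sqrt s ^ 2) * g ^ 2 + Real.sqrt s ^ 3 * g ^ 3 := by ring
      _ = _ := by rw [h2, h3]
  simp only [e]
  have j1 : Integrable (fun g : ℝ => z ^ 3 + (3 * z ^ 2 * Real.sqrt s) * g) (gaussianReal 0 1) := (integrable_const _).add (i1.const_mul _)
  have j2 : Integrable (fun g : ℝ => z ^ 3 + (3 * z ^ 2 * Real.sqrt s) * g + (3 * z * s) * g ^ 2) (gaussianReal 0 1) := j1.add (i2.const_mul _)
  rw [integral_add j2 (i3.const_mul _), integral_add j1 (i2.const_mul _), integral_add (integrable_const _) (i1.const_mul _),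
    integral_const_mul, integral_const_mul, integral_const_mul, sc_gauss_m1, sc_gauss_m2, sc_gauss_m3]
  simp
  ring

theorem sc_heat_exp_lin {s : ℝ} (hs : 0 ≤ s) (c z : ℝ) :
    scHeat s (fun y => Real.exp (c * y)) z = Real.exp (c ^ 2 * s / 2) * Real.exp (c * z) := by
  unfold scHeat
  have e : ∀ g : ℝ, Real.exp (c * (z + Real.sqrt s * g)) = Real.exp (c * z) * Real.exp ((c * Real.sqrt s) * g) := by
    intro g
    rw [← Real.exp_add]
    congr 1
    ring
  simp only [e]
  rw [integral_const_mul, sc_integral_exp_mul, mul_pow, Real.sq_sqrt hs, mul_comm]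

theorem sc_scE_exp_lin (c : ℝ) : ScE 0 (fun y => Real.exp (c * y)) := by
  refine ⟨by fun_prop, 1, |c|, fun z => ?_⟩
  rw [abs_of_pos (Real.exp_pos _), one_mul, ← abs_mul]
  exact Real.exp_le_exp.2 (le_abs_self _)

theorem sc_heat_cosh {s : ℝ} (hs : 0 ≤ s) (c z : ℝ) :
    scHeat s (fun y => Real.cosh (c * y)) z = Real.exp (c ^ 2 * s / 2) * Real.cosh (c * z) := by
  have e : (fun y => Real.cosh (c * y)) = fun y => (1 / 2) * (Real.exp (c * y) + Real.exp ((-c) * y)) := by
    funext y
    rw [Real.cosh_eq]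
    have : -(c * y) = -c * y := by ring
    rw [this]; ring
  rw [e, sc_heat_const_mul, sc_heat_add (sc_scE_exp_lin c) (sc_scE_exp_lin (-c))]
  simp only
  rw [sc_heat_exp_lin hs, sc_heat_exp_lin hs, Real.cosh_eq]
  have : -(c * z) = -c * z := by ring
  rw [this]
  have h2 : (-c) ^ 2 = c ^ 2 := by ring
  rw [h2]
  ring

/-- density form, `s > 0` -/
theorem sc_heat_eq_density {f : ℝ → ℝ} {s : ℝ} (hs : 0 < s) (z : ℝ) :
    scHeat s f z = ∫ y, f y * (Real.exp (-(y - z) ^ 2 / (2 * s)) / Real.sqrt (2 * Real.pi * s)) := by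
  have hq : 0 < Real.sqrt s := Real.sqrt_pos.2 hs
  have h1 := Measure.integral_comp_mul_left
    (fun x => f (z + x) * (Real.exp (-((z + x) - z) ^ 2 / (2 * s)) / Real.sqrt (2 * Real.pi * s))) (Real.sqrt s)
  have h2 := integral_add_left_eq_self (μ := volume)
    (fun y => f y * (Real.exp (-(y - z) ^ 2 / (2 * s)) / Real.sqrt (2 * Real.pi * s))) z
  rw [h2] at h1
  have h3 : ∫ y, f y * (Real.exp (-(y - z) ^ 2 / (2 * s)) / Real.sqrt (2 * Real.pi * s))
      = Real.sqrt s * ∫ x, f (z + Real.sqrt s * x) * (Real.exp (-((z + Real.sqrt s * x) - z) ^ 2 / (2 * s)) / Real.sqrt (2 * Real.pi * s)) := by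
    rw [h1, abs_of_pos (inv_pos.2 hq), smul_eq_mul, ← mul_assoc, mul_inv_cancel₀ hq.ne', one_mul]
  rw [h3, ← integral_const_mul]
  unfold scHeat
  rw [integral_gaussianReal_eq_integral_smul one_ne_zero]
  refine integral_congr_ae (Eventually.of_forall fun x => ?_)
  simp only [smul_eq_mul, gaussianPDFReal, NNReal.coe_one, mul_one, sub_zero]
  have e1 : -((z + Real.sqrt s * x) - z) ^ 2 / (2 * s) = -x ^ 2 / 2 := by
    have : ((z + Real.sqrt s * x) - z) ^ 2 = s * x ^ 2 := by
      rw [add_sub_cancel_left, mul_pow, Real.sq_sqrt hs.le]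
    rw [neg_div, this, neg_div]
    field_simp
  have e2 : Real.sqrt (2 * Real.pi * s) = Real.sqrt (2 * Real.pi) * Real.sqrt s := Real.sqrt_mul (by positivity) s
  rw [e1, e2]
  have hp : 0 < Real.sqrt (2 * Real.pi) := Real.sqrt_pos.2 (by positivity)
  field_simp

/-- the Dirichlet kernel on the half line -/
noncomputable def scK (s z y : ℝ) : ℝ :=
  (Real.exp (-(y - z) ^ 2 / (2 * s)) - Real.exp (-(y + z) ^ 2 / (2 * s))) / Real.sqrt (2 * Real.pi * s)

theorem sc_K_pos {s z y : ℝ} (hs : 0 < s) (hz : 0 < z) (hy : 0 < y) : 0 < scK s z y := by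
  unfold scK
  apply div_pos _ (Real.sqrt_pos.2 (by positivity))
  rw [sub_pos]
  apply Real.exp_lt_exp.2
  apply div_lt_div_of_pos_right _ (by positivity)
  nlinarith [mul_pos hz hy]

theorem sc_heat_density_integrable {f : ℝ → ℝ} (hf : ScE 0 f) {s : ℝ} (hs : 0 < s) (z : ℝ) :
    Integrable fun y => f y * (Real.exp (-(y - z) ^ 2 / (2 * s)) / Real.sqrt (2 * Real.pi * s)) := by
  have hq : 0 < Real.sqrt s := Real.sqrt_pos.2 hs
  have h0 := (sc_integrable_gauss_iff _).1 (sc_heat_integrable hf s z)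
  -- change of variables
  have h1 : Integrable fun x => f (z + Real.sqrt s * x) * (Real.exp (-((z + Real.sqrt s * x) - z) ^ 2 / (2 * s)) / Real.sqrt (2 * Real.pi * s)) := by
    refine (h0.const_mul (Real.sqrt s)⁻¹).congr (Eventually.of_forall fun x => ?_)
    simp only [gaussianPDFReal, NNReal.coe_one, mul_one, sub_zero]
    have e1 : -((z + Real.sqrt s * x) - z) ^ 2 / (2 * s) = -x ^ 2 / 2 := by
      have : ((z + Real.sqrt s * x) - z) ^ 2 = s * x ^ 2 := by
        rw [add_sub_cancel_left, mul_pow, Real.sq_sqrt hs.le]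
      rw [neg_div, this, neg_div]
      field_simp
    have e2 : Real.sqrt (2 * Real.pi * s) = Real.sqrt (2 * Real.pi) * Real.sqrt s := Real.sqrt_mul (by positivity) s
    rw [e1, e2]
    have hp : 0 < Real.sqrt (2 * Real.pi) := Real.sqrt_pos.2 (by positivity)
    field_simp
  have h2 := (integrable_comp_mul_left_iff
    (fun x => f (z + x) * (Real.exp (-((z + x) - z) ^ 2 / (2 * s)) / Real.sqrt (2 * Real.pi * s))) hq.ne').1 h1
  have h3 := h2.comp_sub_right z
  refine h3.congr (Eventually.of_forall fun y => ?_)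
  simp

/-- an odd function sees only the (positive) Dirichlet kernel -/
theorem sc_heat_odd_kernel {f : ℝ → ℝ} (hf : ScE 0 f) (h : ∀ z, f (-z) = - f z) {s : ℝ} (hs : 0 < s) (z : ℝ) :
    scHeat s f z = ∫ y in Ioi (0 : ℝ), f y * scK s z y := by
  have hi := sc_heat_density_integrable hf hs z
  rw [sc_heat_eq_density hs z, ← integral_add_compl (measurableSet_Ioi (a := (0 : ℝ))) hi, compl_Ioi]
  have h1 := integral_comp_neg_Ioi (0 : ℝ) (fun y => f y * (Real.exp (-(y - z) ^ 2 / (2 * s)) / Real.sqrt (2 * Real.pi * s)))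
  rw [neg_zero] at h1
  rw [← h1, ← integral_add hi.integrableOn]
  · refine integral_congr_ae (Eventually.of_forall fun y => ?_)
    simp only [scK]
    rw [h y]
    have : (-y - z) ^ 2 = (y + z) ^ 2 := by ring
    rw [this]
    ring
  · exact (hi.comp_neg).integrableOn

end Claimed.Agent.R286
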