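import Claimed.Agent.R286.Sc.Heat
import Claimed.Agent.R286.Heat.Flow

/-!
# Row 286, scalar block, layer S0 (part C): the heat operator, dependence on the time
CONTRACT FILE (head: helper95); plan: `origin/helper95:notes/R286/B03_helper95.md`.
-/

set_option autoImplicit false

namespace Claimed.Agent.R286

open MeasureTheory ProbabilityTheory Filter Topology Set

/-! ## C. dependence on the time
OWNERS: helper230 = sc_heat_T, T', T_of_T, T_time, hasDerivAt_var, continuousOn_var, sub_eq_integral;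
helper72 = sc_heat_hasDerivAt_time, continuousOn_time, sc_heat_dynkin, sc_deriv_comm. -/

/-! ## bridges -/

theorem sc_heat_eq_skhP (s : ℝ) (f : ℝ → ℝ) (z : ℝ) : scHeat s f z = skhP s f z := rfl

theorem sc_G_norm {C c x : ℝ} : C * Real.exp (c * |x|) ≤ |C| * Real.exp (|c| * |x|) := by
  calc C * Real.exp (c * |x|) ≤ |C| * Real.exp (c * |x|) := mul_le_mul_of_nonneg_right (le_abs_self _) (Real.exp_pos _).le
    _ ≤ |C| * Real.exp (|c| * |x|) :=
      mul_le_mul_of_nonneg_left (Real.exp_le_exp.2 (mul_le_mul_of_nonneg_right (le_abs_self _) (abs_nonneg _))) (abs_nonneg _)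

theorem ScG.skhGr {f : ℝ → ℝ} (h : ScG f) : SkhGr f := by
  obtain ⟨C, c, h⟩ := h
  exact ⟨|C|, |c|, abs_nonneg _, abs_nonneg _, fun x => (h x).trans sc_G_norm⟩

theorem SkhGr.scG {f : ℝ → ℝ} (h : SkhGr f) : ScG f := by
  obtain ⟨A, K, _, _, h⟩ := h
  exact ⟨A, K, h⟩

/-- uniform growth with nonnegative constants -/
theorem ScGU.norm {I : Set ℝ} {ψ : ℝ → ℝ → ℝ} (h : ScGU I ψ) :
    ∃ A K : ℝ, 0 ≤ A ∧ 0 ≤ K ∧ ∀ r ∈ I, ∀ z, |ψ r z| ≤ A * Real.exp (K * |z|) := by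
  obtain ⟨C, c, h⟩ := h
  exact ⟨|C|, |c|, abs_nonneg _, abs_nonneg _, fun r hr x => (h r hr x).trans sc_G_norm⟩

theorem ScT.contOn {I : Set ℝ} {n : ℕ} {ψ : ℝ → ℝ → ℝ} (h : ScT I n ψ) :
    ContinuousOn (fun p : ℝ × ℝ => ψ p.1 p.2) (I ×ˢ univ) := by
  cases n with
  | zero => exact h.1
  | succ n => exact h.1

theorem ScT.gu {I : Set ℝ} {n : ℕ} {ψ : ℝ → ℝ → ℝ} (h : ScT I n ψ) : ScGU I ψ := by
  cases n with
  | zero => exact h.2
  | succ n => exact h.2.1

theorem ScT.cont_slice {I : Set ℝ} {n : ℕ} {ψ : ℝ → ℝ → ℝ} (h : ScT I n ψ) {r : ℝ} (hr : r ∈ I) : Continuous (ψ r) := by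
  have h1 := h.contOn
  have h2 : Continuous (fun z : ℝ => ((r, z) : ℝ × ℝ)) := by fun_prop
  have h3 := h1.comp_continuous h2 (fun z => ⟨hr, mem_univ _⟩)
  exact h3

theorem ScT.cont_time {I : Set ℝ} {n : ℕ} {ψ : ℝ → ℝ → ℝ} (h : ScT I n ψ) (y : ℝ) : ContinuousOn (fun r => ψ r y) I := by
  have h1 := h.contOn
  have h2 : ContinuousOn (fun r : ℝ => ((r, y) : ℝ × ℝ)) I := by fun_prop
  exact h1.comp h2 (fun r hr => ⟨hr, mem_univ _⟩)

theorem ScT.slice_E {I : Set ℝ} {n : ℕ} {ψ : ℝ → ℝ → ℝ} (h : ScT I n ψ) {r : ℝ} (hr : r ∈ I) : ScE n (ψ r) := by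
  induction n generalizing ψ with
  | zero =>
    obtain ⟨C, c, hg⟩ := h.2
    exact ⟨h.cont_slice hr, C, c, hg r hr⟩
  | succ n ih =>
    obtain ⟨C, c, hg⟩ := h.2.1
    exact ⟨h.cont_slice hr, ⟨C, c, hg r hr⟩, h.2.2.1 r hr, ih h.2.2.2⟩

theorem ScT.congr' {I : Set ℝ} {n : ℕ} {ψ χ : ℝ → ℝ → ℝ} (h : ScT I n ψ) (e : ∀ r ∈ I, χ r = ψ r) : ScT I n χ := by
  induction n generalizing ψ χ with
  | zero =>
    refine ⟨h.1.congr fun p hp => ?_, ?_⟩
    · simp only [e p.1 hp.1]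
    · obtain ⟨C, c, hg⟩ := h.2
      exact ⟨C, c, fun r hr z => by rw [e r hr]; exact hg r hr z⟩
  | succ n ih =>
    refine ⟨h.1.congr fun p hp => ?_, ?_, fun r hr => ?_, ih h.2.2.2 fun r hr => ?_⟩
    · simp only [e p.1 hp.1]
    · obtain ⟨C, c, hg⟩ := h.2.1
      exact ⟨C, c, fun r hr z => by rw [e r hr]; exact hg r hr z⟩
    · rw [e r hr]; exact h.2.2.1 r hr
    · rw [e r hr]

/-- growth bound for all variances below `S` -/
theorem sc_heat_le_unif {f : ℝ → ℝ} {A K : ℝ} (hA : 0 ≤ A) (hK : 0 ≤ K) (hf : ∀ x, |f x| ≤ A * Real.exp (K * |x|)) {t S : ℝ} (ht : t ≤ S) (x : ℝ) :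
    |scHeat t f x| ≤ 2 * A * Real.exp (K ^ 2 * max S 0 / 2) * Real.exp (K * |x|) := by
  have h1 : (1 : ℝ) ≤ Real.exp (K ^ 2 * max S 0 / 2) := Real.one_le_exp (by positivity)
  rcases le_total t 0 with h0 | h0
  · have : scHeat t f x = f x := skh_P_nonpos f h0 x
    rw [this]
    refine (hf x).trans ?_
    have h2 : 0 ≤ A * Real.exp (K * |x|) := by positivity
    calc A * Real.exp (K * |x|) ≤ 2 * Real.exp (K ^ 2 * max S 0 / 2) * (A * Real.exp (K * |x|)) := by nlinarith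
      _ = _ := by ring
  · refine (skh_P_le hA hK hf h0 x).trans ?_
    have h2 : Real.exp (K ^ 2 * t / 2) ≤ Real.exp (K ^ 2 * max S 0 / 2) := by
      apply Real.exp_le_exp.2
      have : t ≤ max S 0 := ht.trans (le_max_left _ _)
      have hK2 : 0 ≤ K ^ 2 := by positivity
      nlinarith
    have h3 : 0 ≤ Real.exp (K * |x|) := (Real.exp_pos _).le
    gcongr

/-- joint continuity in (variance, time, space) -/
theorem sc_heat_cont3 {I : Set ℝ} {ψ : ℝ → ℝ → ℝ} (h : ScT I 0 ψ) :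
    ContinuousOn (fun q : ℝ × ℝ × ℝ => scHeat q.1 (ψ q.2.1) q.2.2) (univ ×ˢ I ×ˢ univ) := by
  obtain ⟨A, K, hA, hK, hg⟩ := h.gu.norm
  intro q0 hq0
  obtain ⟨R, hR⟩ : ∃ R, R = max (|q0.2.2| + 1) (Real.sqrt (|q0.1| + 1)) := ⟨_, rfl⟩
  unfold scHeat
  refine continuousWithinAt_of_dominated (bound := fun z => A * Real.exp (K * R) * Real.exp (K * R * |z|)) ?_ ?_
    ((skh_exp_abs_int (K * R)).const_mul _) ?_
  · filter_upwards [self_mem_nhdsWithin] with q hq
    have := h.cont_slice hq.2.1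
    exact Continuous.aestronglyMeasurable (by fun_prop)
  · have hU : {q : ℝ × ℝ × ℝ | |q.2.2| < |q0.2.2| + 1 ∧ |q.1| < |q0.1| + 1} ∈ 𝓝 q0 := by
      apply IsOpen.mem_nhds
      · apply IsOpen.inter
        · exact isOpen_lt (f := fun q : ℝ × ℝ × ℝ => |q.2.2|) (by fun_prop) continuous_const
        · exact isOpen_lt (f := fun q : ℝ × ℝ × ℝ => |q.1|) (by fun_prop) continuous_const
      · exact ⟨by simp, by simp⟩
    filter_upwards [self_mem_nhdsWithin, mem_nhdsWithin_of_mem_nhds hU] with q hq hq2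
    refine Eventually.of_forall fun z => ?_
    rw [Real.norm_eq_abs]
    refine skh_box hA hK (hg q.2.1 hq.2.1) ?_ ?_ z
    · rw [hR]; exact le_max_of_le_left hq2.1.le
    · rw [hR, abs_of_nonneg (Real.sqrt_nonneg _)]
      exact le_max_of_le_right (Real.sqrt_le_sqrt ((le_abs_self _).trans hq2.2.le))
  · refine Eventually.of_forall fun z => ?_
    have h1 : ContinuousWithinAt (fun p : ℝ × ℝ => ψ p.1 p.2) (I ×ˢ univ) (q0.2.1, q0.2.2 + Real.sqrt q0.1 * z) :=
      h.contOn _ ⟨hq0.2.1, mem_univ _⟩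
    have h2 : ContinuousWithinAt (fun q : ℝ × ℝ × ℝ => ((q.2.1, q.2.2 + Real.sqrt q.1 * z) : ℝ × ℝ)) (univ ×ˢ I ×ˢ univ) q0 :=
      Continuous.continuousWithinAt (by fun_prop)
    exact ContinuousWithinAt.comp (g := fun p : ℝ × ℝ => ψ p.1 p.2) (t := I ×ˢ univ)
      (f := fun q : ℝ × ℝ × ℝ => ((q.2.1, q.2.2 + Real.sqrt q.1 * z) : ℝ × ℝ)) (x := q0) h1 h2 (fun q hq => ⟨hq.2.1, mem_univ _⟩)

theorem sc_E1_hasDerivAt {n : ℕ} {f : ℝ → ℝ} (hf : ScE (n + 1) f) (y : ℝ) : HasDerivAt f (deriv f y) y :=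
  (hf.differentiable y).hasDerivAt

theorem sc_heat_hasDerivAt' {n : ℕ} {f : ℝ → ℝ} (hf : ScE (n + 1) f) (s z : ℝ) :
    HasDerivAt (scHeat s f) (scHeat s (deriv f) z) z :=
  skh_P_dx (sc_E1_hasDerivAt hf) hf.deriv.continuous hf.growth.skhGr hf.deriv.growth.skhGr s z

/-- the general form: variance `σ r` continuous and bounded above, time dependent function -/
theorem sc_heat_T_gen {I : Set ℝ} {n : ℕ} {ψ : ℝ → ℝ → ℝ} (hψ : ScT I n ψ) {σ : ℝ → ℝ} (hσ : ContinuousOn σ I)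
    {S : ℝ} (hS : ∀ r ∈ I, σ r ≤ S) : ScT I n (fun r => scHeat (σ r) (ψ r)) := by
  have base : ∀ {ψ : ℝ → ℝ → ℝ}, ScT I 0 ψ → ScT I 0 (fun r => scHeat (σ r) (ψ r)) := by
    intro ψ hψ
    refine ⟨?_, ?_⟩
    · have h1 := sc_heat_cont3 hψ
      have h2 : ContinuousOn (fun p : ℝ × ℝ => ((σ p.1, p.1, p.2) : ℝ × ℝ × ℝ)) (I ×ˢ univ) := by
        refine ContinuousOn.prodMk ?_ (Continuous.continuousOn (by fun_prop))
        exact hσ.comp continuousOn_fst (fun p hp => hp.1)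
      exact h1.comp h2 (fun p hp => ⟨mem_univ _, hp.1, mem_univ _⟩)
    · obtain ⟨A, K, hA, hK, hg⟩ := hψ.gu.norm
      exact ⟨2 * A * Real.exp (K ^ 2 * max S 0 / 2), K, fun r hr z => sc_heat_le_unif hA hK (hg r hr) (hS r hr) z⟩
  induction n generalizing ψ with
  | zero => exact base hψ
  | succ n ih =>
    have h0 : ScT I 0 ψ := ⟨hψ.1, hψ.2.1⟩
    have b := base h0
    refine ⟨b.1, b.2, fun r hr z => ?_, (ih hψ.2.2.2).congr' fun r hr => ?_⟩
    · exact (sc_heat_hasDerivAt' (hψ.slice_E hr) (σ r) z).differentiableAt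
    · funext z
      exact (sc_heat_hasDerivAt' (hψ.slice_E hr) (σ r) z).deriv

theorem sc_E_T {n : ℕ} {f : ℝ → ℝ} (h : ScE n f) (I : Set ℝ) : ScT I n (fun _ => f) := by
  induction n generalizing f with
  | zero =>
    obtain ⟨C, c, hg⟩ := h.2
    have := h.1
    exact ⟨Continuous.continuousOn (by fun_prop), C, c, fun r _ z => hg z⟩
  | succ n ih =>
    obtain ⟨C, c, hg⟩ := h.2.1
    have := h.1
    exact ⟨Continuous.continuousOn (by fun_prop), ⟨C, c, fun r _ z => hg z⟩, fun r _ => h.2.2.1, ih h.2.2.2⟩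

/-- joint continuity and uniform growth of `(r, z) ↦ heat (t₁ - r) f z` on `r ≤ t₁`, with all `z`-derivatives -/
theorem sc_heat_T {n : ℕ} {f : ℝ → ℝ} (hf : ScE n f) (t₀ t₁ : ℝ) :
    ScT (Icc t₀ t₁) n (fun r => scHeat (t₁ - r) f) :=
  sc_heat_T_gen (sc_E_T hf _) (σ := fun r => t₁ - r) (Continuous.continuousOn (by fun_prop)) (S := t₁ - t₀)
    (fun r hr => by linarith [hr.1])

/-- the same forward in time -/
theorem sc_heat_T' {n : ℕ} {f : ℝ → ℝ} (hf : ScE n f) (t₀ t₁ : ℝ) :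
    ScT (Icc t₀ t₁) n (fun r => scHeat (r - t₀) f) :=
  sc_heat_T_gen (sc_E_T hf _) (σ := fun r => r - t₀) (Continuous.continuousOn (by fun_prop)) (S := t₁ - t₀)
    (fun r hr => by linarith [hr.2])

/-- the heat operator applied to a time dependent function, frozen variance -/
theorem sc_heat_T_of_T {I : Set ℝ} {n : ℕ} {ψ : ℝ → ℝ → ℝ} (hψ : ScT I n ψ) (s : ℝ) :
    ScT I n (fun r => scHeat s (ψ r)) :=
  sc_heat_T_gen hψ (σ := fun _ => s) continuousOn_const (S := s) (fun _ _ => le_rfl)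

/-- the heat operator with running variance applied to a time dependent function -/
theorem sc_heat_T_time {r₀ r₁ : ℝ} {n : ℕ} {ψ : ℝ → ℝ → ℝ} (hψ : ScT (Icc r₀ r₁) n ψ) :
    ScT (Icc r₀ r₁) n (fun r => scHeat (r - r₀) (ψ r)) :=
  sc_heat_T_gen hψ (σ := fun r => r - r₀) (Continuous.continuousOn (by fun_prop)) (S := r₁ - r₀)
    (fun r hr => by linarith [hr.2])

theorem sc_heat_continuous_var {f : ℝ → ℝ} (hf : ScE 0 f) (z : ℝ) : Continuous (fun s => scHeat s f z) := by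
  obtain ⟨C, c, hC, hc, h⟩ := hf.2.nonneg_consts
  have hcf : Continuous f := hf.1
  rw [continuous_iff_continuousAt]
  intro s
  refine continuousAt_of_dominated (F := fun s g => f (z + Real.sqrt s * g))
    (bound := fun g => C * Real.exp (c * |z|) * Real.exp (c * Real.sqrt (|s| + 1) * |g|))
    (Eventually.of_forall fun x => by fun_prop) ?_ ((sc_integrable_exp_abs _).const_mul _)
    (Eventually.of_forall fun g => by fun_prop)
  filter_upwards [Metric.ball_mem_nhds s one_pos] with x hx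
  refine Eventually.of_forall fun g => ?_
  rw [Real.norm_eq_abs]
  refine (sc_heat_integrand_le hC hc h x z g).trans ?_
  refine mul_le_mul_of_nonneg_left (Real.exp_le_exp.2 ?_) (by positivity)
  refine mul_le_mul_of_nonneg_right (mul_le_mul_of_nonneg_left (Real.sqrt_le_sqrt ?_) hc) (abs_nonneg _)
  rw [Metric.mem_ball, Real.dist_eq] at hx
  have : |x| ≤ |x - s| + |s| := by simpa using abs_add_le (x - s) s
  linarith [le_abs_self x]

/-- heat equation -/
theorem sc_heat_hasDerivAt_var {f : ℝ → ℝ} (hf : ScE 2 f) {s : ℝ} (hs : 0 < s) (z : ℝ) :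
    HasDerivAt (fun s => scHeat s f z) (scHeat s (deriv (deriv f)) z / 2) s := by
  obtain ⟨C, c, hC, hc, h⟩ := hf.deriv.growth.nonneg_consts
  have hcf : Continuous f := hf.continuous
  have hcf' : Continuous (deriv f) := hf.deriv.continuous
  have hq : 0 < Real.sqrt s := Real.sqrt_pos.2 hs
  have hq2 : 0 < Real.sqrt (s / 2) := Real.sqrt_pos.2 (by linarith)
  have key := sc_hasDerivAt_integral (F := fun σ g => f (z + Real.sqrt σ * g))
    (F' := fun σ g => deriv f (z + Real.sqrt σ * g) * (1 / (2 * Real.sqrt σ) * g)) (x₀ := s) (δ := s / 2)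
    (C := C * Real.exp (c * |z|) * (1 / (2 * Real.sqrt (s / 2)))) (c := c * Real.sqrt (2 * s) + 1) (by linarith) (fun x _ => by fun_prop)
    (sc_heat_integrable ⟨hcf, hf.growth⟩ _ _) (by fun_prop) ?_ ?_
  · have e : ∫ g, deriv f (z + Real.sqrt s * g) * (1 / (2 * Real.sqrt s) * g) ∂(gaussianReal 0 1) = scHeat s (deriv (deriv f)) z / 2 := by
      have hG : ScE 1 (fun g => deriv f (Real.sqrt s * g + z)) := hf.deriv.comp_affine (Real.sqrt s) z
      have st := sc_stein hG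
      have d : deriv (fun g => deriv f (Real.sqrt s * g + z)) = fun g => Real.sqrt s * deriv (deriv f) (z + Real.sqrt s * g) := by
        funext g
        have h1 : HasDerivAt (fun g : ℝ => Real.sqrt s * g + z) (Real.sqrt s) g := by
          simpa using ((hasDerivAt_id g).const_mul (Real.sqrt s)).add_const z
        have h2 := ((hf.deriv.differentiable (Real.sqrt s * g + z)).hasDerivAt).comp g h1
        rw [show z + Real.sqrt s * g = Real.sqrt s * g + z by ring, mul_comm]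
        exact h2.deriv
      rw [d, integral_const_mul] at st
      have e1 : ∀ g : ℝ, deriv f (z + Real.sqrt s * g) * (1 / (2 * Real.sqrt s) * g) = (1 / (2 * Real.sqrt s)) * (g * deriv f (Real.sqrt s * g + z)) := by
        intro g
        rw [show z + Real.sqrt s * g = Real.sqrt s * g + z by ring]
        ring
      simp only [e1]
      rw [integral_const_mul, st]
      unfold scHeat
      field_simp
    rw [← e]
    exact key
  · intro g x hx
    rw [Metric.mem_ball, Real.dist_eq, abs_lt] at hx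
    have hx1 : s / 2 ≤ x := by linarith [hx.1]
    have hx2 : x ≤ 2 * s := by linarith [hx.2]
    have hqx : Real.sqrt (s / 2) ≤ Real.sqrt x := Real.sqrt_le_sqrt hx1
    have hqx2 : Real.sqrt x ≤ Real.sqrt (2 * s) := Real.sqrt_le_sqrt hx2
    have hqx0 : 0 < Real.sqrt x := lt_of_lt_of_le hq2 hqx
    rw [abs_mul, abs_mul, abs_of_pos (by positivity : 0 < 1 / (2 * Real.sqrt x))]
    have b1 := sc_heat_integrand_le hC hc h x z g
    have b2 : Real.exp (c * Real.sqrt x * |g|) ≤ Real.exp (c * Real.sqrt (2 * s) * |g|) :=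
      Real.exp_le_exp.2 (mul_le_mul_of_nonneg_right (mul_le_mul_of_nonneg_left hqx2 hc) (abs_nonneg _))
    have b3 : 1 / (2 * Real.sqrt x) ≤ 1 / (2 * Real.sqrt (s / 2)) := one_div_le_one_div_of_le (by positivity) (by linarith)
    have b4 : |g| ≤ Real.exp |g| := by linarith [Real.add_one_le_exp |g|]
    have e : Real.exp ((c * Real.sqrt (2 * s) + 1) * |g|) = Real.exp (c * Real.sqrt (2 * s) * |g|) * Real.exp |g| := by
      rw [← Real.exp_add]; congr 1; ring
    rw [e]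
    calc |deriv f (z + Real.sqrt x * g)| * (1 / (2 * Real.sqrt x) * |g|)
        ≤ (C * Real.exp (c * |z|) * Real.exp (c * Real.sqrt (2 * s) * |g|)) * (1 / (2 * Real.sqrt (s / 2)) * Real.exp |g|) := by
          refine mul_le_mul (b1.trans (mul_le_mul_of_nonneg_left b2 (by positivity))) (mul_le_mul b3 b4 (abs_nonneg _) (by positivity))
            (by positivity) (by positivity)
      _ = _ := by ring
  · intro g x hx
    rw [Metric.mem_ball, Real.dist_eq, abs_lt] at hx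
    have hx1 : 0 < x := by linarith [hx.1]
    have h1 : HasDerivAt (fun σ : ℝ => z + Real.sqrt σ * g) (1 / (2 * Real.sqrt x) * g) x :=
      ((Real.hasDerivAt_sqrt hx1.ne').mul_const g).const_add z
    exact ((hf.differentiable (z + Real.sqrt x * g)).hasDerivAt).comp x h1

theorem sc_heat_continuousOn_var {f : ℝ → ℝ} (hf : ScE 0 f) (z : ℝ) :
    ContinuousOn (fun s => scHeat s f z) (Ici 0) := by
  exact (sc_heat_continuous_var hf z).continuousOn

theorem sc_heat_sub_eq_integral {f : ℝ → ℝ} (hf : ScE 2 f) {s s' : ℝ} (hs : 0 ≤ s) (hss : s ≤ s') (z : ℝ) :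
    scHeat s' f z - scHeat s f z = ∫ r in s..s', scHeat r (deriv (deriv f)) z / 2 := by
  have hc2 : Continuous fun r => scHeat r (deriv (deriv f)) z / 2 := (sc_heat_continuous_var hf.deriv.deriv z).div_const 2
  symm
  refine intervalIntegral.integral_eq_sub_of_hasDerivAt_of_le hss (sc_heat_continuous_var (hf.mono (by omega)) z).continuousOn
    (fun r hr => sc_heat_hasDerivAt_var hf (lt_of_le_of_lt hs hr.1) z) (hc2.intervalIntegrable _ _)

/-- integrable Gaussian envelope -/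
theorem sc_ht_env_integrable (A b : ℝ) :
    Integrable (fun g : ℝ => A * Real.exp (b * |g|)) (gaussianReal 0 1) := by
  apply Integrable.const_mul
  have h1 : Integrable (fun g : ℝ => Real.exp (b * g) + Real.exp (-b * g)) (gaussianReal 0 1) :=
    (integrable_exp_mul_gaussianReal b).add (integrable_exp_mul_gaussianReal (-b))
  refine Integrable.mono' h1 (by fun_prop) (Eventually.of_forall fun g => ?_)
  rw [Real.norm_eq_abs, abs_of_pos (Real.exp_pos _)]
  rcases le_total 0 g with h | h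
  · rw [abs_of_nonneg h]; linarith [Real.exp_pos (-b * g)]
  · rw [abs_of_nonpos h]
    have : b * -g = -b * g := by ring
    rw [this]; linarith [Real.exp_pos (b * g)]

/-- the envelope dominates -/
theorem sc_ht_env_bound {C c z S σ g v : ℝ} (hσ : Real.sqrt σ ≤ S)
    (hv : |v| ≤ C * Real.exp (c * |z + Real.sqrt σ * g|)) :
    |v| ≤ |C| * Real.exp (|c| * |z|) * Real.exp (|c| * S * |g|) := by
  have h1 : |z + Real.sqrt σ * g| ≤ |z| + S * |g| := by
    refine (abs_add_le _ _).trans ?_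
    rw [abs_mul, abs_of_nonneg (Real.sqrt_nonneg σ)]
    have := mul_le_mul_of_nonneg_right hσ (abs_nonneg g)
    linarith
  have h2 : c * |z + Real.sqrt σ * g| ≤ |c| * |z| + |c| * S * |g| := by
    calc c * |z + Real.sqrt σ * g| ≤ |c| * |z + Real.sqrt σ * g| :=
          mul_le_mul_of_nonneg_right (le_abs_self c) (abs_nonneg _)
      _ ≤ |c| * (|z| + S * |g|) := mul_le_mul_of_nonneg_left h1 (abs_nonneg c)
      _ = _ := by ring
  calc |v| ≤ C * Real.exp (c * |z + Real.sqrt σ * g|) := hv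
    _ ≤ |C| * Real.exp (c * |z + Real.sqrt σ * g|) :=
        mul_le_mul_of_nonneg_right (le_abs_self C) (Real.exp_pos _).le
    _ ≤ |C| * Real.exp (|c| * |z| + |c| * S * |g|) :=
        mul_le_mul_of_nonneg_left (Real.exp_le_exp.mpr h2) (abs_nonneg C)
    _ = _ := by rw [Real.exp_add]; ring

theorem sc_ht_contOn {I : Set ℝ} {n : ℕ} {ψ : ℝ → ℝ → ℝ} (h : ScT I n ψ) :
    ContinuousOn (fun p : ℝ × ℝ => ψ p.1 p.2) (I ×ˢ univ) := by
  cases n with
  | zero => exact h.1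
  | succ n => exact h.1

theorem sc_ht_growthU {I : Set ℝ} {n : ℕ} {ψ : ℝ → ℝ → ℝ} (h : ScT I n ψ) : ScGU I ψ := by
  cases n with
  | zero => exact h.2
  | succ n => exact h.2.1

theorem sc_ht_cont_slice {I : Set ℝ} {n : ℕ} {ψ : ℝ → ℝ → ℝ} (h : ScT I n ψ) {r : ℝ} (hr : r ∈ I) :
    Continuous (ψ r) := by
  have h1 := sc_ht_contOn h
  have h2 : ContinuousOn (fun y : ℝ => ψ r y) univ :=
    h1.comp (f := fun y : ℝ => (r, y)) (by fun_prop) (fun y _ => ⟨hr, mem_univ _⟩)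
  exact continuousOn_univ.mp h2

/-- joint continuity in the variance and the time -/
theorem sc_ht_continuousOn_two {I : Set ℝ} {χ : ℝ → ℝ → ℝ} (hχ : ScT I 0 χ) (z : ℝ) :
    ContinuousOn (fun p : ℝ × ℝ => scHeat p.1 (χ p.2) z) (univ ×ˢ I) := by
  obtain ⟨C, c, hC⟩ := (sc_ht_growthU hχ)
  intro p0 hp0
  unfold scHeat
  set S : ℝ := Real.sqrt (|p0.1| + 1) with hS
  have hnear : ∀ᶠ p : ℝ × ℝ in 𝓝[univ ×ˢ I] p0, Real.sqrt p.1 ≤ S ∧ p.2 ∈ I := by
    have h1 : ∀ᶠ p : ℝ × ℝ in 𝓝 p0, p.1 < |p0.1| + 1 := by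
      have : ContinuousAt (fun p : ℝ × ℝ => p.1) p0 := continuous_fst.continuousAt
      exact this.eventually_lt continuousAt_const (by have := le_abs_self p0.1; linarith)
    filter_upwards [nhdsWithin_le_nhds h1, self_mem_nhdsWithin] with p hp hpI
    exact ⟨Real.sqrt_le_sqrt hp.le, hpI.2⟩
  refine continuousWithinAt_of_dominated
    (bound := fun g => |C| * Real.exp (|c| * |z|) * Real.exp (|c| * S * |g|)) ?_ ?_
    (sc_ht_env_integrable _ _) ?_
  · filter_upwards [hnear] with p hp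
    have := sc_ht_cont_slice hχ hp.2
    exact (this.comp (by fun_prop)).aestronglyMeasurable
  · filter_upwards [hnear] with p hp
    refine Eventually.of_forall fun g => ?_
    rw [Real.norm_eq_abs]
    exact sc_ht_env_bound hp.1 (hC p.2 hp.2 _)
  · refine Eventually.of_forall fun g => ?_
    have h1 : ContinuousOn (fun p : ℝ × ℝ => χ p.2 (z + Real.sqrt p.1 * g)) (univ ×ˢ I) :=
      (sc_ht_contOn hχ).comp (f := fun p : ℝ × ℝ => (p.2, z + Real.sqrt p.1 * g)) (by fun_prop)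
        (fun p hp => ⟨hp.2, mem_univ _⟩)
    exact h1 p0 hp0

/-- derivative in the time at frozen variance -/
theorem sc_ht_hasDerivAt_frozen {r₀ r₁ : ℝ} {ψ ψt : ℝ → ℝ → ℝ} (hψ : ScT (Icc r₀ r₁) 0 ψ)
    (hψt : ScT (Icc r₀ r₁) 0 ψt) (hd : ∀ r ∈ Ioo r₀ r₁, ∀ y, HasDerivAt (fun r => ψ r y) (ψt r y) r)
    {r : ℝ} (hr : r ∈ Ioo r₀ r₁) (σ z : ℝ) :
    HasDerivAt (fun r => scHeat σ (ψ r) z) (scHeat σ (ψt r) z) r := by
  obtain ⟨C, c, hC⟩ := sc_ht_growthU hψt
  obtain ⟨C', c', hC'⟩ := sc_ht_growthU hψ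
  have hs : Ioo r₀ r₁ ∈ 𝓝 r := isOpen_Ioo.mem_nhds hr
  have hsub : Ioo r₀ r₁ ⊆ Icc r₀ r₁ := Ioo_subset_Icc_self
  unfold scHeat
  refine (hasDerivAt_integral_of_dominated_loc_of_deriv_le (μ := gaussianReal 0 1)
    (F := fun r g => ψ r (z + Real.sqrt σ * g)) (F' := fun r g => ψt r (z + Real.sqrt σ * g))
    (bound := fun g => |C| * Real.exp (|c| * |z|) * Real.exp (|c| * Real.sqrt σ * |g|))
    hs ?_ ?_ ?_ ?_ (sc_ht_env_integrable _ _) ?_).2
  · filter_upwards [hs] with ρ hρ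
    exact ((sc_ht_cont_slice hψ (hsub hρ)).comp (by fun_prop)).aestronglyMeasurable
  · refine Integrable.mono' (sc_ht_env_integrable (|C'| * Real.exp (|c'| * |z|)) (|c'| * Real.sqrt σ))
      ((sc_ht_cont_slice hψ (hsub hr)).comp (by fun_prop)).aestronglyMeasurable
      (Eventually.of_forall fun g => ?_)
    rw [Real.norm_eq_abs]
    exact sc_ht_env_bound le_rfl (hC' r (hsub hr) _)
  · exact ((sc_ht_cont_slice hψt (hsub hr)).comp (by fun_prop)).aestronglyMeasurable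
  · refine Eventually.of_forall fun g ρ hρ => ?_
    rw [Real.norm_eq_abs]
    exact sc_ht_env_bound le_rfl (hC ρ (hsub hρ) _)
  · exact Eventually.of_forall fun g ρ hρ => hd ρ hρ _

/-- **time dependent heat derivative**: `d/dr heat (r - r₀) (ψ r) z = heat (r - r₀) (ψ_r + ψ_zz / 2) z`.
Proof: density form, product rule at fixed `y`, `∂_σ ρ = ρ'' / 2`, two integrations by parts. -/
theorem sc_heat_hasDerivAt_time {r₀ r₁ : ℝ} {ψ ψt : ℝ → ℝ → ℝ} (hψ : ScT (Icc r₀ r₁) 2 ψ)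
    (hψt : ScT (Icc r₀ r₁) 0 ψt) (hd : ∀ r ∈ Ioo r₀ r₁, ∀ y, HasDerivAt (fun r => ψ r y) (ψt r y) r)
    {r : ℝ} (hr : r ∈ Ioo r₀ r₁) (z : ℝ) :
    HasDerivAt (fun r => scHeat (r - r₀) (ψ r) z)
      (scHeat (r - r₀) (fun y => ψt r y + deriv (deriv (ψ r)) y / 2) z) r := by
  have hsub : Ioo r₀ r₁ ⊆ Icc r₀ r₁ := Ioo_subset_Icc_self
  have hψ0 : ScT (Icc r₀ r₁) 0 ψ := hψ.mono (by norm_num)
  have hψ2 : ScT (Icc r₀ r₁) 0 (fun r => deriv (deriv (ψ r))) := hψ.2.2.2.2.2.2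
  -- the two partial derivatives
  set f₁ : ℝ → ℝ → ℝ →L[ℝ] ℝ := fun σ ρ =>
    ContinuousLinearMap.toSpanSingleton ℝ (scHeat σ (deriv (deriv (ψ ρ))) z / 2) with hf₁
  set f₂ : ℝ → ℝ → ℝ →L[ℝ] ℝ := fun σ ρ =>
    ContinuousLinearMap.toSpanSingleton ℝ (scHeat σ (ψt ρ) z) with hf₂
  set u : ℝ × ℝ := (r - r₀, r) with hu
  have hopen : IsOpen (Ioi (0:ℝ) ×ˢ Ioo r₀ r₁) := isOpen_Ioi.prod isOpen_Ioo
  have hmem : u ∈ Ioi (0:ℝ) ×ˢ Ioo r₀ r₁ := ⟨by simp only [hu, mem_Ioi]; linarith [hr.1], hr⟩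
  have hnear : ∀ᶠ v in 𝓝 u, v ∈ Ioi (0:ℝ) ×ˢ Ioo r₀ r₁ := hopen.mem_nhds hmem
  have hstrict : HasStrictFDerivAt (Function.HasUncurry.uncurry fun σ ρ => scHeat σ (ψ ρ) z)
      ((Function.HasUncurry.uncurry f₁ u).coprod (Function.HasUncurry.uncurry f₂ u)) u := by
    apply hasStrictFDerivAt_uncurry_coprod
    · filter_upwards [hnear] with v hv
      have := sc_heat_hasDerivAt_var (hψ.scE (hsub hv.2)) hv.1 z
      exact this.hasFDerivAt
    · filter_upwards [hnear] with v hv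
      exact (sc_ht_hasDerivAt_frozen hψ0 hψt hd hv.2 v.1 z).hasFDerivAt
    · have h1 : ContinuousAt (fun v : ℝ × ℝ => scHeat v.1 (deriv (deriv (ψ v.2))) z / 2) u :=
        (((sc_ht_continuousOn_two hψ2 z).continuousAt
          (mem_of_superset (hopen.mem_nhds hmem) (prod_mono (subset_univ _) hsub))).div_const 2)
      exact (ContinuousLinearMap.toSpanSingletonCLE (𝕜 := ℝ) (E := ℝ)).continuous.continuousAt.comp h1
    · have h1 : ContinuousAt (fun v : ℝ × ℝ => scHeat v.1 (ψt v.2) z) u :=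
        (sc_ht_continuousOn_two hψt z).continuousAt
          (mem_of_superset (hopen.mem_nhds hmem) (prod_mono (subset_univ _) hsub))
      exact (ContinuousLinearMap.toSpanSingletonCLE (𝕜 := ℝ) (E := ℝ)).continuous.continuousAt.comp h1
  have hpath : HasDerivAt (fun ρ : ℝ => ((ρ - r₀, ρ) : ℝ × ℝ)) ((1 : ℝ), (1 : ℝ)) r :=
    ((hasDerivAt_id r).sub_const r₀).prodMk (hasDerivAt_id r)
  have hF : HasFDerivAt (Function.HasUncurry.uncurry fun σ ρ => scHeat σ (ψ ρ) z)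
      ((Function.HasUncurry.uncurry f₁ u).coprod (Function.HasUncurry.uncurry f₂ u))
      ((fun ρ : ℝ => ((ρ - r₀, ρ) : ℝ × ℝ)) r) := hstrict.hasFDerivAt
  have hcomp := HasFDerivAt.comp_hasDerivAt (f := fun ρ : ℝ => ((ρ - r₀, ρ) : ℝ × ℝ)) r hF hpath
  have hE2 : ScE 0 (deriv (deriv (ψ r))) := hψ2.scE (hsub hr)
  have hEt : ScE 0 (ψt r) := hψt.scE (hsub hr)
  have hval : scHeat (r - r₀) (fun y => ψt r y + deriv (deriv (ψ r)) y / 2) z
      = scHeat (r - r₀) (deriv (deriv (ψ r))) z / 2 + scHeat (r - r₀) (ψt r) z := by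
    have e1 : (fun y => ψt r y + deriv (deriv (ψ r)) y / 2)
        = fun y => ψt r y + (1 / 2 : ℝ) * deriv (deriv (ψ r)) y := by
      ext y; ring
    rw [e1, sc_heat_add hEt (hE2.const_mul (1 / 2)), sc_heat_const_mul]
    ring
  have hval2 : ((Function.HasUncurry.uncurry f₁ u).coprod (Function.HasUncurry.uncurry f₂ u))
      ((1 : ℝ), (1 : ℝ))
      = scHeat (r - r₀) (deriv (deriv (ψ r))) z / 2 + scHeat (r - r₀) (ψt r) z := by
    rw [ContinuousLinearMap.coprod_apply]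
    show (ContinuousLinearMap.toSpanSingleton ℝ (scHeat (r - r₀) (deriv (deriv (ψ r))) z / 2)) 1
      + (ContinuousLinearMap.toSpanSingleton ℝ (scHeat (r - r₀) (ψt r) z)) 1 = _
    rw [ContinuousLinearMap.toSpanSingleton_apply_one,
      ContinuousLinearMap.toSpanSingleton_apply_one]
  rw [hval, ← hval2]
  exact hcomp

theorem sc_heat_continuousOn_time {r₀ r₁ : ℝ} {ψ : ℝ → ℝ → ℝ} (hψ : ScT (Icc r₀ r₁) 0 ψ) (z : ℝ) :
    ContinuousOn (fun r => scHeat (r - r₀) (ψ r) z) (Icc r₀ r₁) := by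
  exact (sc_ht_continuousOn_two hψ z).comp (f := fun r : ℝ => (r - r₀, r)) (by fun_prop)
    (fun r hr => ⟨mem_univ _, hr⟩)

/-- integrated form (`Dynkin` for the free heat flow) -/
theorem sc_heat_dynkin {r₀ r₁ : ℝ} (h01 : r₀ ≤ r₁) {ψ ψt : ℝ → ℝ → ℝ} (hψ : ScT (Icc r₀ r₁) 2 ψ)
    (hψt : ScT (Icc r₀ r₁) 0 ψt) (hd : ∀ r ∈ Ioo r₀ r₁, ∀ y, HasDerivAt (fun r => ψ r y) (ψt r y) r) (z : ℝ) :
    scHeat (r₁ - r₀) (ψ r₁) z - ψ r₀ z =
      ∫ r in r₀..r₁, scHeat (r - r₀) (fun y => ψt r y + deriv (deriv (ψ r)) y / 2) z := by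
  have hψ0 : ScT (Icc r₀ r₁) 0 ψ := hψ.mono (by norm_num)
  have hψ2 : ScT (Icc r₀ r₁) 0 (fun r => deriv (deriv (ψ r))) := hψ.2.2.2.2.2.2
  have hsum : ScT (Icc r₀ r₁) 0 (fun r y => ψt r y + deriv (deriv (ψ r)) y / 2) := by
    have h1 := hψt.add (hψ2.const_mul (1 / 2))
    have e1 : (fun r y => ψt r y + deriv (deriv (ψ r)) y / 2)
        = fun r y => ψt r y + (1 / 2 : ℝ) * deriv (deriv (ψ r)) y := by
      ext r y; ring
    rw [e1]; exact h1
  have hcont := sc_heat_continuousOn_time hψ0 z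
  have hint : IntervalIntegrable
      (fun r => scHeat (r - r₀) (fun y => ψt r y + deriv (deriv (ψ r)) y / 2) z) volume r₀ r₁ := by
    apply ContinuousOn.intervalIntegrable
    rw [uIcc_of_le h01]
    exact sc_heat_continuousOn_time hsum z
  have := intervalIntegral.integral_eq_sub_of_hasDerivAt_of_le h01 hcont
    (fun r hr => sc_heat_hasDerivAt_time hψ hψt hd hr z) hint
  rw [this, sub_self, sc_heat_zero]

/-- time and space derivatives commute: if `∂_r ψ = χ` pointwise and `χ` is `C¹` in `z` (class `ScT`), then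
`∂_r ∂_z ψ = ∂_z χ`.  Proof: `ψ r' z - ψ r z = ∫ χ`, differentiate under the integral in `z`, then FTC. -/
theorem sc_deriv_comm {r₀ r₁ : ℝ} {ψ χ : ℝ → ℝ → ℝ} (hψ : ScT (Icc r₀ r₁) 1 ψ) (hχ : ScT (Icc r₀ r₁) 1 χ)
    (hd : ∀ r ∈ Ioo r₀ r₁, ∀ y, HasDerivAt (fun r => ψ r y) (χ r y) r) {r : ℝ} (hr : r ∈ Ioo r₀ r₁) (y : ℝ) :
    HasDerivAt (fun r => deriv (ψ r) y) (deriv (χ r) y) r := by
  have hsub : Ioo r₀ r₁ ⊆ Icc r₀ r₁ := Ioo_subset_Icc_self
  have hχ1 : ScT (Icc r₀ r₁) 0 (fun r => deriv (χ r)) := hχ.2.2.2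
  obtain ⟨C, c, hC⟩ := sc_ht_growthU hχ1
  have hs : Ioo r₀ r₁ ∈ 𝓝 r := isOpen_Ioo.mem_nhds hr
  -- continuity in time at fixed space point
  have hct : ∀ (φ : ℝ → ℝ → ℝ), ScT (Icc r₀ r₁) 0 φ → ∀ w : ℝ, ContinuousOn (fun t => φ t w) (Icc r₀ r₁) := by
    intro φ hφ w
    exact (sc_ht_contOn hφ).comp (f := fun t : ℝ => (t, w)) (by fun_prop) (fun t ht => ⟨ht, mem_univ _⟩)
  have hχ0 : ScT (Icc r₀ r₁) 0 χ := hχ.mono (by norm_num)
  have huIcc : ∀ ρ ∈ Ioo r₀ r₁, uIcc r ρ ⊆ Ioo r₀ r₁ := by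
    intro ρ hρ
    exact (ordConnected_Ioo).uIcc_subset hr hρ
  -- FTC at fixed space point
  have hftc : ∀ ρ ∈ Ioo r₀ r₁, ∀ w : ℝ, ψ ρ w = ψ r w + ∫ t in r..ρ, χ t w := by
    intro ρ hρ w
    have h1 := intervalIntegral.integral_eq_sub_of_hasDerivAt (f := fun t => ψ t w) (f' := fun t => χ t w)
      (a := r) (b := ρ) (fun t ht => hd t (huIcc ρ hρ ht) w)
      (((hct χ hχ0 w).mono ((huIcc ρ hρ).trans hsub)).intervalIntegrable)
    rw [h1]; ring
  -- differentiate under the integral in the space variable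
  have hdz : ∀ ρ ∈ Ioo r₀ r₁, HasDerivAt (fun w => ∫ t in r..ρ, χ t w) (∫ t in r..ρ, deriv (χ t) y) y := by
    intro ρ hρ
    have hI : Set.uIoc r ρ ⊆ Icc r₀ r₁ := (uIoc_subset_uIcc.trans (huIcc ρ hρ)).trans hsub
    refine (intervalIntegral.hasDerivAt_integral_of_dominated_loc_of_deriv_le (μ := volume)
      (F := fun w t => χ t w) (F' := fun w t => deriv (χ t) w) (s := Metric.ball y 1)
      (bound := fun _ => |C| * Real.exp (|c| * (|y| + 1)))
      (Metric.ball_mem_nhds y one_pos) ?_ ?_ ?_ ?_ intervalIntegrable_const ?_).2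
    · refine Eventually.of_forall fun w => ?_
      exact ((hct χ hχ0 w).mono hI).aestronglyMeasurable measurableSet_uIoc
    · exact ((hct χ hχ0 y).mono ((huIcc ρ hρ).trans hsub)).intervalIntegrable
    · exact ((hct _ hχ1 y).mono hI).aestronglyMeasurable measurableSet_uIoc
    · refine Eventually.of_forall fun t ht w hw => ?_
      rw [Real.norm_eq_abs]
      have hw' : |w| ≤ |y| + 1 := by
        have h1 : |w - y| < 1 := by simpa [Real.dist_eq] using hw
        have h2 := abs_add_le (w - y) y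
        simp only [sub_add_cancel] at h2
        linarith
      calc |deriv (χ t) w| ≤ C * Real.exp (c * |w|) := hC t (hI ht) w
        _ ≤ |C| * Real.exp (c * |w|) := mul_le_mul_of_nonneg_right (le_abs_self C) (Real.exp_pos _).le
        _ ≤ |C| * Real.exp (|c| * (|y| + 1)) := by
            apply mul_le_mul_of_nonneg_left _ (abs_nonneg C)
            apply Real.exp_le_exp.mpr
            exact (mul_le_mul_of_nonneg_right (le_abs_self c) (abs_nonneg w)).trans
              (mul_le_mul_of_nonneg_left hw' (abs_nonneg c))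
    · refine Eventually.of_forall fun t ht w _ => ?_
      exact ((hχ.2.2.1 t (hI ht)) w).hasDerivAt
  -- hence a formula for the space derivative
  have hform : ∀ ρ ∈ Ioo r₀ r₁, deriv (ψ ρ) y = deriv (ψ r) y + ∫ t in r..ρ, deriv (χ t) y := by
    intro ρ hρ
    have h1 : ψ ρ = fun w => ψ r w + ∫ t in r..ρ, χ t w := funext (hftc ρ hρ)
    have h2 : HasDerivAt (fun w => ψ r w + ∫ t in r..ρ, χ t w)
        (deriv (ψ r) y + ∫ t in r..ρ, deriv (χ t) y) y :=
      ((hψ.2.2.1 r (hsub hr)) y).hasDerivAt.add (hdz ρ hρ)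
    rw [h1]; exact h2.deriv
  -- FTC-1
  have hc1 : ContinuousOn (fun t => deriv (χ t) y) (Icc r₀ r₁) := hct _ hχ1 y
  have hcAt : ContinuousAt (fun t => deriv (χ t) y) r :=
    hc1.continuousAt (mem_of_superset hs hsub)
  have hmeasAt : StronglyMeasurableAtFilter (fun t => deriv (χ t) y) (𝓝 r) volume :=
    ⟨Ioo r₀ r₁, hs, (hc1.mono hsub).aestronglyMeasurable measurableSet_Ioo⟩
  have hF1 : HasDerivAt (fun ρ => ∫ t in r..ρ, deriv (χ t) y) (deriv (χ r) y) r :=
    intervalIntegral.integral_hasDerivAt_right (by simp) hmeasAt hcAt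
  have hF2 : HasDerivAt (fun ρ => deriv (ψ r) y + ∫ t in r..ρ, deriv (χ t) y) (deriv (χ r) y) r :=
    hF1.const_add _
  refine hF2.congr_of_eventuallyEq ?_
  filter_upwards [hs] with ρ hρ
  exact hform ρ hρ

end Claimed.Agent.R286
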