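import Claimed.Agent.R286.Sc.LscV
import Claimed.Agent.R286.Sc.GenP
import Claimed.Agent.R286.Sc.GenR
import Claimed.Agent.R286.Sc.GenQ

/-!
# Row 286, scalar block, unit C11 (`exit_scgen`): the `P`-fields of `LscMod.Ok`      HEAD of the unit: helper95 (chief helper183).   Prefix `lsi_`.

CONTRACT FILE.   OWNERS: helper230 (`Sc/GenQ.lean`: exponential moments, convergence on `ScE 0`, algebra, Chapman-Kolmogorov) => sections 1, 2;   helper100 + helper88 => sections 3, 4.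
* DEF  `lsiP A j s t φ z = lim_n scPa (scLC j) A n s t φ z`   (eventually constant in the horizon `n`);
* KEY  `lsi_P_eq`: every horizon `R ≥ max Ξ t` computes `lsiP`;   `lsi_P_tendsto`: the DYADIC STEP KERNELS converge, moving tests, weighted norm (used by `Sc/LscDyn.lean`);
* FIELDS in the exact shapes of `LscMod.Ok` (`LL/PathsSc.lean`) with `M.V := lsiV`, `M.P := lsiP`.
Horizon independence: `(scDy A R n) ++ [(j, R' - R)]` approximates `A` on `[0, R']` and `sc_ann_Pt` (`Sc/App.lean`); any approximation has the same limit.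
Derivatives: for a bounded test with `m + 1` bounded derivatives the derivatives of order `≤ m + 1` of the step kernels are bounded free of the partition (`sc_tau_Pt`), the kernels converge uniformly
(`sgp_P_mod`), so the derivatives of order `≤ m` converge uniformly (`Sc/LimKit.lean`).   `P_grad` at the order `i`: the derivative of order `i - 1` of the limit is Lipschitz.
-/

set_option autoImplicit false

namespace Claimed.Agent.R286

open MeasureTheory ProbabilityTheory Filter Topology Set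

/-- the transition operators of the scalar model on `[0,∞)`: no horizon -/
noncomputable def lsiP (A : ℝ → ℝ) (j s t : ℝ) (φ : ℝ → ℝ) (z : ℝ) : ℝ := limUnder atTop fun n : ℕ => scPa (scLC j) A n s t φ z

/-! ## 1. horizon, convergence -/

/-- exponential moments of the step kernels, free of the partition -/
theorem lsi_Pt_growth {a : ℝ} (ha : 0 ≤ a) (c T : ℝ) : ∃ K : ℝ, 0 ≤ K ∧ ∀ (F : ℝ → ℝ) (π : List (ℝ × ℝ)), ScBI F → (∀ z, |deriv F z| ≤ 1) →
    ScAdm a π → ∀ s t, 0 ≤ s → s ≤ t → t ≤ s + T → ∀ (φ : ℝ → ℝ) (C : ℝ), ScE 0 φ → (∀ y, |φ y| ≤ C * Real.exp (c * |y|)) →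
    ∀ z, |scPt F π s t φ z| ≤ K * C * Real.exp (c * |z|) := by
  refine ⟨2 * Real.exp (sgqR a 1 c * T), by positivity, fun F π hF hA hπ s t hs hst ht φ C hφ h z => ?_⟩
  have hC : 0 ≤ C := by
    have := (abs_nonneg _).trans (h 0)
    simpa using this
  refine (sgq_Pt_growth hF hA ha hπ c hφ h hs hst z).trans ?_
  refine mul_le_mul_of_nonneg_right ?_ (Real.exp_pos _).le
  rw [mul_comm]
  refine mul_le_mul_of_nonneg_right ?_ hC
  have : Real.exp (sgqR a 1 c * (t - s)) ≤ Real.exp (sgqR a 1 c * T) :=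
    Real.exp_le_exp.2 (mul_le_mul_of_nonneg_left (by linarith) (sgq_R_nonneg ha zero_le_one c))
  linarith

theorem lsi_P_horizon {j : ℝ} (hj : 0 < j) {A : ℝ → ℝ} {R R' : ℝ} (hRR : R ≤ R') (hc : ScCoef j R' A)
    (hA : ∀ r ∈ Ico R R', A r = j) {s t : ℝ} (hs : 0 ≤ s) (hst : s ≤ t) (ht : t ≤ R) {φ : ℝ → ℝ} (hφ : ScE 0 φ) :
    scPa (scLC j) A R' s t φ = scPa (scLC j) A R s t φ := by
  funext z
  have hR : 0 ≤ R := (hs.trans hst).trans ht
  have hcR : ScCoef j R A := hc.sub_interval hRR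
  have hap := (sgq_dy_apx hR hcR).append_top hR hRR hA
  have h1 := sgq_P_tendsto_apx (sc_LC_BI j) (hR.trans hRR) hc hap hφ hs hst (ht.trans hRR) z
  refine tendsto_nhds_unique h1 ((sgq_P_tendsto (sc_LC_BI j) hR hcR hφ hs hst ht z).congr fun n => ?_)
  rw [sc_ann_Pt hj.ne' (sub_nonneg.2 hRR) _ hs (by rw [sc_dy_len]; exact ht)]

/-- **KEY**: any horizon `R ≥ max Ξ t` computes `lsiP` -/
theorem lsi_P_eq {A : ℝ → ℝ} {j Ξ : ℝ} (hj : 0 < j) (hA : LscProf j Ξ A) {R s t : ℝ} (hR : Ξ ≤ R) (hs : 0 ≤ s) (hst : s ≤ t)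
    (ht : t ≤ R) {φ : ℝ → ℝ} (hφ : ScE 0 φ) : lsiP A j s t φ = scPa (scLC j) A R s t φ := by
  funext z
  unfold lsiP
  refine Tendsto.limUnder_eq ?_
  refine tendsto_const_nhds.congr' ?_
  filter_upwards [eventually_ge_atTop ⌈R⌉₊] with n hn
  have hRn : R ≤ (n : ℝ) := (Nat.le_ceil R).trans (by exact_mod_cast hn)
  rw [lsi_P_horizon hj hRn (hA.coef n) (fun r hr => hA.top r (hR.trans hr.1)) hs hst ht hφ]

/-- **KEY**: convergence of the dyadic step kernels; moving tests which converge in a weighted norm -/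
theorem lsi_P_tendsto {A : ℝ → ℝ} {j Ξ : ℝ} (hj : 0 < j) (hA : LscProf j Ξ A) {τ s t : ℝ} (hτ : Ξ ≤ τ) (hs : 0 ≤ s) (hst : s ≤ t)
    (ht : t ≤ τ) {φ : ℝ → ℝ} (hφ : ScE 0 φ) {φn : ℕ → ℝ → ℝ} (hφn : ∀ n, ScE 0 (φn n)) {c : ℝ} {δ : ℕ → ℝ}
    (hδ : Tendsto δ atTop (𝓝 0)) (hb : ∀ n y, |φn n y - φ y| ≤ δ n * Real.exp (c * |y|)) (z : ℝ) :
    Tendsto (fun n => scPt (scLC j) (scDy A τ n) s t (φn n) z) atTop (𝓝 (lsiP A j s t φ z)) := by
  have hτ0 : 0 ≤ τ := hA.Xi0.trans hτ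
  rw [lsi_P_eq hj hA hτ hs hst ht hφ]
  refine sgq_P_tendsto_mov (sc_LC_BI j) hτ0 (hA.coef τ) (sgq_dy_apx hτ0 (hA.coef τ)) hφ hφn (c := max c 0)
    (le_max_right _ _) (fun ε hε => ?_) hs hst ht z
  filter_upwards [hδ.eventually (gt_mem_nhds hε)] with n hn y
  have hδ0 : 0 ≤ δ n := by
    have := (abs_nonneg _).trans (hb n 0)
    simpa using this
  refine (hb n y).trans ?_
  exact mul_le_mul hn.le (Real.exp_le_exp.2 (mul_le_mul_of_nonneg_right (le_max_left _ _) (abs_nonneg y)))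
    (Real.exp_pos _).le hε.le

/-- the same, uniformly in the times and locally uniformly in the space variable, for a jointly continuous family of tests -/
theorem lsi_P_unif0 {A : ℝ → ℝ} {j Ξ : ℝ} (hj : 0 < j) (hA : LscProf j Ξ A) {τ a b : ℝ} (hτ : Ξ ≤ τ) {ψ : ℝ → ℝ → ℝ}
    (hψ : ScT (Icc a b) 0 ψ) : ∃ (c : ℝ) (δ : ℕ → ℝ), Tendsto δ atTop (𝓝 0) ∧ ∀ n, ∀ ρ ∈ Icc a b, ∀ s t, 0 ≤ s → s ≤ t → t ≤ τ → ∀ z,
      |scPt (scLC j) (scDy A τ n) s t (ψ ρ) z - lsiP A j s t (ψ ρ) z| ≤ δ n * Real.exp (c * |z|) := by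
  have hτ0 : 0 ≤ τ := hA.Xi0.trans hτ
  obtain ⟨c, μ, hc, happ⟩ := sgr_app_T hψ
  obtain ⟨h1, h2⟩ := sgr_dy_apx hτ0 (hA.coef τ)
  obtain ⟨δ, hδ, H⟩ := sgr_P_unif0 (sc_LC_BI j) hτ0 (hA.coef τ) h1 h2 hc μ
  refine ⟨c, δ, hδ, fun n ρ hρ s t hs hst ht z => ?_⟩
  rw [lsi_P_eq hj hA hτ hs hst ht (hψ.scE hρ)]
  have h3 := H n (ψ ρ) (happ ρ hρ) s t hs hst ht z
  have hδ0 : 0 ≤ δ n := nonneg_of_mul_nonneg_left ((abs_nonneg _).trans h3) (sgw_cw_pos c z)
  exact h3.trans (mul_le_mul_of_nonneg_left (sgr_cw_le_exp hc z) hδ0)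

/-- uniform convergence of the derivatives for bounded tests (one derivative is lost) -/
theorem lsi_P_unif {A : ℝ → ℝ} {j Ξ : ℝ} (hj : 0 < j) (hA : LscProf j Ξ A) {τ : ℝ} (hτ : Ξ ≤ τ) {m : ℕ} {g : ℝ → ℝ}
    (hg : ScBd (m + 1) g) : ∃ δ : ℕ → ℝ, Tendsto δ atTop (𝓝 0) ∧ ∀ n, ∀ k ≤ m, ∀ s t, 0 ≤ s → s ≤ t → t ≤ τ → ∀ z,
      |deriv^[k] (scPt (scLC j) (scDy A τ n) s t g) z - deriv^[k] (lsiP A j s t g) z| ≤ δ n := by
  have hτ0 : 0 ≤ τ := hA.Xi0.trans hτ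
  obtain ⟨h1, h2⟩ := sgr_dy_apx hτ0 (hA.coef τ)
  obtain ⟨⟨δ, hδ, H⟩, _⟩ := sgr_P_unif (sc_LC_BI j) hτ0 (hA.coef τ) h1 h2 hg
  refine ⟨δ, hδ, fun n k hk s t hs hst ht z => ?_⟩
  rw [lsi_P_eq hj hA hτ hs hst ht (hg.scE.mono (Nat.zero_le _))]
  exact H n k hk s t hs hst ht z

/-! ## 2. algebra -/

theorem lsi_P_self (A : ℝ → ℝ) (j s : ℝ) (φ : ℝ → ℝ) : lsiP A j s s φ = φ := by
  funext z
  unfold lsiP
  simp only [sgq_Pa_self]
  exact tendsto_const_nhds.limUnder_eq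

theorem lsi_P_const {A : ℝ → ℝ} {j Ξ : ℝ} (hj : 0 < j) (hA : LscProf j Ξ A) {s t : ℝ} (hs : 0 ≤ s) (hst : s ≤ t) (c z : ℝ) :
    lsiP A j s t (fun _ => c) z = c := by
  unfold lsiP
  simp only [sgq_Pa_const (sc_LC_BI j)]
  exact tendsto_const_nhds.limUnder_eq

theorem lsi_P_add {A : ℝ → ℝ} {j Ξ : ℝ} (hj : 0 < j) (hA : LscProf j Ξ A) {s t : ℝ} (hs : 0 ≤ s) (hst : s ≤ t) {φ ψ : ℝ → ℝ}
    (hφ : ScE 0 φ) (hψ : ScE 0 ψ) (z : ℝ) : lsiP A j s t (fun y => φ y + ψ y) z = lsiP A j s t φ z + lsiP A j s t ψ z := by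
  have hR : Ξ ≤ max Ξ t := le_max_left _ _
  have ht : t ≤ max Ξ t := le_max_right _ _
  rw [lsi_P_eq hj hA hR hs hst ht (hφ.add hψ), lsi_P_eq hj hA hR hs hst ht hφ, lsi_P_eq hj hA hR hs hst ht hψ,
    sgq_Pa_add (sc_LC_BI j) (hA.Xi0.trans hR) (hA.coef _) hφ hψ hs hst ht]

theorem lsi_P_smul {A : ℝ → ℝ} {j Ξ : ℝ} (hj : 0 < j) (hA : LscProf j Ξ A) {s t : ℝ} (hs : 0 ≤ s) (hst : s ≤ t) (c : ℝ)
    {φ : ℝ → ℝ} (hφ : ScE 0 φ) (z : ℝ) : lsiP A j s t (fun y => c * φ y) z = c * lsiP A j s t φ z := by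
  have hR : Ξ ≤ max Ξ t := le_max_left _ _
  have ht : t ≤ max Ξ t := le_max_right _ _
  rw [lsi_P_eq hj hA hR hs hst ht (hφ.const_mul c), lsi_P_eq hj hA hR hs hst ht hφ,
    sgq_Pa_const_mul (sc_LC_BI j) (hA.Xi0.trans hR) (hA.coef _) c hφ hs hst ht]

theorem lsi_P_mono {A : ℝ → ℝ} {j Ξ : ℝ} (hj : 0 < j) (hA : LscProf j Ξ A) {s t : ℝ} (hs : 0 ≤ s) (hst : s ≤ t) {φ ψ : ℝ → ℝ}
    (hφ : ScE 0 φ) (hψ : ScE 0 ψ) (h : ∀ y, φ y ≤ ψ y) (z : ℝ) : lsiP A j s t φ z ≤ lsiP A j s t ψ z := by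
  have hR : Ξ ≤ max Ξ t := le_max_left _ _
  have ht : t ≤ max Ξ t := le_max_right _ _
  rw [lsi_P_eq hj hA hR hs hst ht hφ, lsi_P_eq hj hA hR hs hst ht hψ]
  exact sgq_Pa_mono (sc_LC_BI j) (hA.Xi0.trans hR) (hA.coef _) hφ hψ h hs hst ht z

theorem lsi_P_even {A : ℝ → ℝ} {j Ξ : ℝ} (hj : 0 < j) (hA : LscProf j Ξ A) {s t : ℝ} (hs : 0 ≤ s) (hst : s ≤ t) {φ : ℝ → ℝ}
    (hφ : ScE 0 φ) (h : ∀ y, φ (-y) = φ y) (z : ℝ) : lsiP A j s t φ (-z) = lsiP A j s t φ z := by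
  have hR : Ξ ≤ max Ξ t := le_max_left _ _
  have ht : t ≤ max Ξ t := le_max_right _ _
  rw [lsi_P_eq hj hA hR hs hst ht hφ]
  exact sgq_Pa_even (sc_LC_BI j) (lsi_LC_ad hj).even (hA.Xi0.trans hR) (hA.coef _) hφ h hs hst ht z

theorem lsi_P_odd {A : ℝ → ℝ} {j Ξ : ℝ} (hj : 0 < j) (hA : LscProf j Ξ A) {s t : ℝ} (hs : 0 ≤ s) (hst : s ≤ t) {φ : ℝ → ℝ}
    (hφ : ScE 0 φ) (h : ∀ y, φ (-y) = - φ y) (z : ℝ) : lsiP A j s t φ (-z) = - lsiP A j s t φ z := by
  have hR : Ξ ≤ max Ξ t := le_max_left _ _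
  have ht : t ≤ max Ξ t := le_max_right _ _
  rw [lsi_P_eq hj hA hR hs hst ht hφ]
  exact sgq_Pa_odd (sc_LC_BI j) (lsi_LC_ad hj).even (hA.Xi0.trans hR) (hA.coef _) hφ h hs hst ht z

theorem lsi_P_comp {A : ℝ → ℝ} {j Ξ : ℝ} (hj : 0 < j) (hA : LscProf j Ξ A) {s r t : ℝ} (hs : 0 ≤ s) (hsr : s ≤ r) (hrt : r ≤ t)
    {φ : ℝ → ℝ} (hφ : ScE 0 φ) : lsiP A j s r (lsiP A j r t φ) = lsiP A j s t φ := by
  have hR : Ξ ≤ max Ξ t := le_max_left _ _
  have ht : t ≤ max Ξ t := le_max_right _ _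
  have hτ := hA.Xi0.trans hR
  rw [lsi_P_eq hj hA hR (hs.trans hsr) hrt ht hφ, lsi_P_eq hj hA hR hs (hsr.trans hrt) ht hφ,
    lsi_P_eq hj hA hR hs hsr (hrt.trans ht) (sgq_Pa_E (sc_LC_BI j) hτ (hA.coef _) hφ (hs.trans hsr) hrt ht)]
  exact sgq_Pa_Pa (sc_LC_BI j) hτ (hA.coef _) hφ hs hsr hrt ht

/-! ## 3. a stretch of constant mass -/

theorem lsi_abs_exp_sub_one_le (x : ℝ) : |Real.exp x - 1| ≤ Real.exp |x| - 1 := by
  rcases le_total 0 x with h | h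
  · rw [abs_of_nonneg h, abs_of_nonneg (by linarith [Real.add_one_le_exp x])]
  · rw [abs_of_nonpos h, abs_of_nonpos (by linarith [Real.exp_le_one_iff.2 h])]
    linarith [Real.add_one_le_exp x, Real.add_one_le_exp (-x)]

/-- continuity of the weighted heat integral in the tilt -/
theorem lsi_heat_tilt {G : ℝ → ℝ} (hG : ScB 1 G) {Gn : ℕ → ℝ → ℝ} (hGn : ∀ n, ScB 1 (Gn n)) {δ : ℕ → ℝ}
    (hδ : Tendsto δ atTop (𝓝 0)) (hb : ∀ n y, |Gn n y - G y| ≤ δ n) (m s : ℝ) {φ : ℝ → ℝ} (hφ : ScE 0 φ) (z : ℝ) :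
    Tendsto (fun n => scHeat s (fun y => φ y * Real.exp (m * Gn n y)) z) atTop
      (𝓝 (scHeat s (fun y => φ y * Real.exp (m * G y)) z)) := by
  have hφa : ScE 0 (fun y => |φ y|) := by
    obtain ⟨C, c, h⟩ := hφ.2
    exact ⟨hφ.1.abs, C, c, fun y => by rw [abs_abs]; exact h y⟩
  set B : ℝ := scHeat s (fun y => |φ y| * Real.exp (m * G y)) z with hB
  have hη : Tendsto (fun n => (Real.exp (|m| * δ n) - 1) * B) atTop (𝓝 0) := by
    have h1 : Tendsto (fun n => Real.exp (|m| * δ n)) atTop (𝓝 (Real.exp (|m| * 0))) :=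
      (Real.continuous_exp.tendsto _).comp (hδ.const_mul |m|)
    rw [mul_zero, Real.exp_zero] at h1
    have h2 := (h1.sub_const 1).mul_const B
    simpa using h2
  rw [tendsto_iff_dist_tendsto_zero]
  refine squeeze_zero (fun _ => dist_nonneg) (fun n => ?_) hη
  rw [Real.dist_eq]
  have e1 := sc_mulexpF_E0 (hGn n) hφ m
  have e2 := sc_mulexpF_E0 hG hφ m
  have e3 := sc_mulexpF_E0 hG hφa m
  have hs : scHeat s (fun y => φ y * Real.exp (m * Gn n y)) z - scHeat s (fun y => φ y * Real.exp (m * G y)) z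
      = scHeat s (fun y => φ y * Real.exp (m * Gn n y) - φ y * Real.exp (m * G y)) z := by
    rw [sc_heat_sub e1 e2]
  rw [hs]
  have hpt : ∀ y, |φ y * Real.exp (m * Gn n y) - φ y * Real.exp (m * G y)|
      ≤ (Real.exp (|m| * δ n) - 1) * (|φ y| * Real.exp (m * G y)) := by
    intro y
    have h1 : φ y * Real.exp (m * Gn n y) - φ y * Real.exp (m * G y)
        = (Real.exp (m * (Gn n y - G y)) - 1) * (φ y * Real.exp (m * G y)) := by
      have : Real.exp (m * Gn n y) = Real.exp (m * (Gn n y - G y)) * Real.exp (m * G y) := by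
        rw [← Real.exp_add]; congr 1; ring
      rw [this]; ring
    rw [h1, abs_mul, abs_mul, abs_of_pos (Real.exp_pos (m * G y))]
    refine mul_le_mul_of_nonneg_right ?_ (mul_nonneg (abs_nonneg _) (Real.exp_pos _).le)
    refine (lsi_abs_exp_sub_one_le _).trans ?_
    have : |m * (Gn n y - G y)| ≤ |m| * δ n := by
      rw [abs_mul]; exact mul_le_mul_of_nonneg_left (hb n y) (abs_nonneg _)
    linarith [Real.exp_le_exp.2 this]
  have e4 : ScE 0 (fun y => (Real.exp (|m| * δ n) - 1) * (|φ y| * Real.exp (m * G y))) := e3.const_mul _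
  have e5 : ScE 0 (fun y => φ y * Real.exp (m * Gn n y) - φ y * Real.exp (m * G y)) := e1.sub e2
  have hup := sc_heat_mono e5 e4 (fun y => (le_abs_self _).trans (hpt y)) s z
  have hlo := sc_heat_mono (e4.const_mul (-1)) e5 (fun y => by
    have := (abs_le.1 (hpt y)).1
    linarith) s z
  rw [sc_heat_const_mul] at hup hlo
  rw [sc_heat_const_mul] at hlo
  rw [abs_le]
  constructor
  · simpa [hB] using hlo
  · simpa [hB] using hup

/-- continuity of the planted transition in the tilt -/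
theorem lsi_tr_tilt {G : ℝ → ℝ} (hG : ScB 1 G) {Gn : ℕ → ℝ → ℝ} (hGn : ∀ n, ScB 1 (Gn n)) {δ : ℕ → ℝ}
    (hδ : Tendsto δ atTop (𝓝 0)) (hb : ∀ n y, |Gn n y - G y| ≤ δ n) (m s : ℝ) {φ : ℝ → ℝ} (hφ : ScE 0 φ) (z : ℝ) :
    Tendsto (fun n => scTr m s (Gn n) φ z) atTop (𝓝 (scTr m s G φ z)) := by
  unfold scTr
  refine (lsi_heat_tilt hG hGn hδ hb m s hφ z).div ?_ (sc_W_pos hG m s z).ne'
  have := lsi_heat_tilt hG hGn hδ hb m s (ScE.const 0 1) z
  simpa [scW] using this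

/-- OWNER helper230 (`Sc/GenQ.lean`, item (2)): ANY `L¹`-approximating sequence of step profiles computes `scPa` on `ScE 0` tests -/
theorem lsi_Pa_tendsto_apx {F : ℝ → ℝ} (hF : ScBI F) {a a' τ : ℝ} {α : ℝ → ℝ} (hτ : 0 ≤ τ) (hα : ScCoef a τ α)
    {π : ℕ → List (ℝ × ℝ)} (hπ : ScApx a' τ α π) {φ : ℝ → ℝ} (hφ : ScE 0 φ) {s t : ℝ} (hs : 0 ≤ s) (hst : s ≤ t)
    (ht : t ≤ τ) (z : ℝ) : Tendsto (fun n => scPt F (π n) s t φ z) atTop (𝓝 (scPa F α τ s t φ z)) :=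
  sgq_P_tendsto_apx hF hτ hα hπ hφ hs hst ht z

/-- three-piece approximation adapted to a stretch `[s,t)` of constant mass `m` -/
noncomputable def lsiPi (A : ℝ → ℝ) (τ s t m : ℝ) (n : ℕ) : List (ℝ × ℝ) :=
  scDy A s n ++ ((m, t - s) :: scDy (fun r => A (t + r)) (τ - t) n)

theorem lsi_integral_congr_Ico {f g : ℝ → ℝ} {s t : ℝ} (hst : s ≤ t) (h : ∀ r ∈ Ico s t, f r = g r) :
    ∫ r in s..t, f r = ∫ r in s..t, g r := by
  rw [intervalIntegral.integral_of_le hst, intervalIntegral.integral_of_le hst, ← integral_Ico_eq_integral_Ioc,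
    ← integral_Ico_eq_integral_Ioc]
  exact setIntegral_congr_fun measurableSet_Ico h

theorem lsi_dy_mem {α : ℝ → ℝ} {τ : ℝ} (hτ : 0 ≤ τ) {n : ℕ} {p : ℝ × ℝ} (hp : p ∈ scDy α τ n) :
    ∃ x ∈ Icc 0 τ, p.1 = α x := by
  rw [sc_dy_eq_uni] at hp
  obtain ⟨k, hk, rfl⟩ := sc_uni_mem hp
  exact ⟨k * τ / 2 ^ n, by rw [mul_div_assoc]; exact sc_dy_cell_mem hτ hk.le, rfl⟩

theorem lsi_pi_apx {a τ : ℝ} {A : ℝ → ℝ} (hA : ScCoef a τ A) {s t m : ℝ} (hs : 0 ≤ s) (hst : s < t) (ht : t ≤ τ)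
    (hm : ∀ r ∈ Ico s t, A r = m) : ScApx a τ A (lsiPi A τ s t m) := by
  have ht0 : 0 ≤ t := hs.trans hst.le
  have hτ : 0 ≤ τ := ht0.trans ht
  have ha : 0 ≤ a := hA.nonneg hτ
  have hτ' : 0 ≤ τ - t := sub_nonneg.2 ht
  have hA1 : ScCoef a s A := hA.sub_interval (hst.le.trans ht)
  have hA2 : ScCoef a (τ - t) (fun r => A (t + r)) := hA.shift ht0
  have hms : A s = m := hm s ⟨le_rfl, hst⟩
  have hm0 : 0 ≤ m ∧ m ≤ a := hms ▸ hA.2 s ⟨hs, hst.le.trans ht⟩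
  have hadm2 : ∀ n, ScAdm a ((m, t - s) :: scDy (fun r => A (t + r)) (τ - t) n) := by
    intro n p hp
    rcases List.mem_cons.1 hp with rfl | hp
    · exact ⟨hm0.1, hm0.2, (sub_pos.2 hst).le⟩
    · exact sc_dy_adm hτ' hA2 n p hp
  have hadm : ∀ n, ScAdm a (lsiPi A τ s t m n) := fun n => sc_app_adm (sc_dy_adm hs hA1 n) (hadm2 n)
  have hge : ∀ n, ∀ q ∈ scDy (fun r => A (t + r)) (τ - t) n, m ≤ q.1 := by
    intro n q hq
    obtain ⟨x, hx, e⟩ := lsi_dy_mem hτ' hq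
    rw [e, ← hms]
    exact hA.1 ⟨hs, hst.le.trans ht⟩ ⟨by linarith [hx.1], by linarith [hx.2]⟩ (by linarith [hx.1])
  have hle : ∀ n, ∀ p ∈ scDy A s n, p.1 ≤ m := by
    intro n p hp
    obtain ⟨x, hx, e⟩ := lsi_dy_mem hs hp
    rw [e, ← hms]
    exact hA.1 ⟨hx.1, hx.2.trans (hst.le.trans ht)⟩ ⟨hs, hst.le.trans ht⟩ hx.2
  have hlen : ∀ n, scLen (lsiPi A τ s t m n) = τ := by
    intro n
    unfold lsiPi
    rw [sc_len_append, sc_dy_len, scLen, sc_dy_len]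
    ring
  have hint : IntervalIntegrable A volume 0 τ := sc_dy_coef_intervalIntegrable hA ⟨le_rfl, hτ⟩ ⟨hτ, le_rfl⟩
  refine ⟨ha, hadm, fun n => ?_, hlen, hint, ?_⟩
  · refine sc_app_inc (sc_dy_inc hs hA1 n) (List.pairwise_cons.2 ⟨fun q hq => hge n q hq, sc_dy_inc hτ' hA2 n⟩) ?_
    intro p hp q hq
    rcases List.mem_cons.1 hq with rfl | hq
    · exact hle n p hp
    · exact (hle n p hp).trans (hge n q hq)
  · refine squeeze_zero (g := fun n : ℕ => (a * s + a * (τ - t)) * (1 / 2 : ℝ) ^ n)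
      (fun n => intervalIntegral.integral_nonneg hτ fun _ _ => abs_nonneg _) (fun n => ?_) ?_
    · have hI : ∀ x y : ℝ, x ∈ Icc 0 τ → y ∈ Icc 0 τ →
          IntervalIntegrable (fun r => |scAl (lsiPi A τ s t m n) r - A r|) volume x y := fun x y hx hy =>
        ((sc_dy_al_intervalIntegrable ha (hadm n) x y).sub (sc_dy_coef_intervalIntegrable hA hx hy)).abs
      have m0 : (0 : ℝ) ∈ Icc 0 τ := ⟨le_rfl, hτ⟩
      have ms : s ∈ Icc 0 τ := ⟨hs, hst.le.trans ht⟩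
      have mt : t ∈ Icc 0 τ := ⟨ht0, ht⟩
      have mτ : τ ∈ Icc 0 τ := ⟨hτ, le_rfl⟩
      rw [← intervalIntegral.integral_add_adjacent_intervals (hI 0 s m0 ms) (hI s τ ms mτ),
        ← intervalIntegral.integral_add_adjacent_intervals (hI s t ms mt) (hI t τ mt mτ)]
      have hpos1 : ScPos (scDy A s n) := (sc_dy_adm hs hA1 n).pos
      have e1 : ∫ r in (0 : ℝ)..s, |scAl (lsiPi A τ s t m n) r - A r| = ∫ r in (0 : ℝ)..s, |A r - scAl (scDy A s n) r| := by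
        refine lsi_integral_congr_Ico hs fun r hr => ?_
        unfold lsiPi
        rw [sc_app_Al_left _ _ hr.1 (by rw [sc_dy_len]; exact hr.2), abs_sub_comm]
      have hal : ∀ r, s ≤ r → scAl (lsiPi A τ s t m n) r
          = scAl ((m, t - s) :: scDy (fun r => A (t + r)) (τ - t) n) (r - s) := by
        intro r hr
        have := sc_app_Al_right hpos1 ((m, t - s) :: scDy (fun r => A (t + r)) (τ - t) n) (sub_nonneg.2 hr)
        rw [sc_dy_len, add_sub_cancel] at this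
        exact this
      have e2 : ∫ r in s..t, |scAl (lsiPi A τ s t m n) r - A r| = ∫ r in s..t, (0 : ℝ) := by
        refine lsi_integral_congr_Ico hst.le fun r hr => ?_
        rw [hal r hr.1, scAl, if_neg (by simp only [not_le]; linarith [hr.2]), hm r hr]
        simp
      have e3 : ∫ r in t..τ, |scAl (lsiPi A τ s t m n) r - A r|
          = ∫ r in (0 : ℝ)..(τ - t), |A (t + r) - scAl (scDy (fun r => A (t + r)) (τ - t) n) r| := by
        have h1 : ∫ r in t..τ, |scAl (lsiPi A τ s t m n) r - A r|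
            = ∫ r in t..τ, |A r - scAl (scDy (fun r => A (t + r)) (τ - t) n) (r - t)| := by
          refine lsi_integral_congr_Ico ht fun r hr => ?_
          rw [hal r (hst.le.trans hr.1), scAl, if_pos (by simp only; linarith [hr.1]), abs_sub_comm]
          have : r - s - (m, t - s).2 = r - t := by simp only; ring
          rw [this]
        have h2 := intervalIntegral.integral_comp_add_left (a := 0) (b := τ - t)
          (fun r => |A r - scAl (scDy (fun r => A (t + r)) (τ - t) n) (r - t)|) t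
        simp only [add_zero, add_sub_cancel, add_sub_cancel_left] at h2
        rw [h1, ← h2]
      rw [e1, e2, e3, intervalIntegral.integral_zero]
      have b1 := sc_dy_L1 hs hA1 n
      have b2 := sc_dy_L1 hτ' hA2 n
      have c1 : a * s / 2 ^ n = a * s * (1 / 2 : ℝ) ^ n := by rw [one_div, inv_pow, div_eq_mul_inv]
      have c2 : a * (τ - t) / 2 ^ n = a * (τ - t) * (1 / 2 : ℝ) ^ n := by rw [one_div, inv_pow, div_eq_mul_inv]
      rw [c1] at b1
      rw [c2] at b2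
      linarith
    · have := (tendsto_pow_atTop_nhds_zero_of_lt_one (r := (1 / 2 : ℝ)) (by norm_num) (by norm_num)).const_mul
        (a * s + a * (τ - t))
      simpa using this

theorem lsi_pi_Pt (F : ℝ → ℝ) (A : ℝ → ℝ) {τ s t : ℝ} (m : ℝ) (hs : 0 ≤ s) (hst : s < t) (n : ℕ) (φ : ℝ → ℝ) :
    scPt F (lsiPi A τ s t m n) s t φ = scTr m (t - s) (scV F (scDy (fun r => A (t + r)) (τ - t) n)) φ := by
  have hpos1 : ScPos (scDy A s n) := scg_dy_pos A hs n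
  have h1 := sc_app_Pt_right F hpos1 ((m, t - s) :: scDy (fun r => A (t + r)) (τ - t) n) (le_refl (0 : ℝ)) (t - s) φ
  rw [sc_dy_len, add_zero, add_sub_cancel] at h1
  unfold lsiPi
  rw [h1, scPt, if_neg (by simp only [not_le]; linarith), if_pos (le_refl _)]
  simp only [sub_zero, sub_self, sc_step_var_zero]

/-- **Cole-Hopf for the kernel on a stretch of constant mass** -/
theorem lsi_Pa_step {F : ℝ → ℝ} (hF : ScBI F) {a τ : ℝ} {A : ℝ → ℝ} (hA : ScCoef a τ A) {s t m : ℝ} (hs : 0 ≤ s)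
    (hst : s < t) (ht : t ≤ τ) (hm : ∀ r ∈ Ico s t, A r = m) {φ : ℝ → ℝ} (hφ : ScE 0 φ) :
    scPa F A τ s t φ = scTr m (t - s) (scVa F A τ t) φ := by
  have ht0 : 0 ≤ t := hs.trans hst.le
  have hτ : 0 ≤ τ := ht0.trans ht
  have hτ' : 0 ≤ τ - t := sub_nonneg.2 ht
  have hA2 : ScCoef a (τ - t) (fun r => A (t + r)) := hA.shift ht0
  obtain ⟨L, hL⟩ := (hF 1).2.1
  funext z
  have l1 := lsi_Pa_tendsto_apx hF hτ hA (lsi_pi_apx hA hs hst ht hm) hφ hs hst.le ht z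
  have e : scVa F (fun r => A (t + r)) (τ - t) 0 = scVa F A τ t := by
    have := scg_shift hF hA ht0 ht (le_refl (0 : ℝ))
    rwa [add_zero] at this
  have hδ : Tendsto (fun n : ℕ => L ^ 2 / 2 * (a * (τ - t) / 2 ^ n)) atTop (𝓝 0) := by
    have h1 := (tendsto_pow_atTop_nhds_zero_of_lt_one (r := (1 / 2 : ℝ)) (by norm_num) (by norm_num)).const_mul
      (L ^ 2 / 2 * (a * (τ - t)))
    rw [mul_zero] at h1
    refine h1.congr fun n => ?_
    rw [one_div, inv_pow]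
    ring
  have l2 := lsi_tr_tilt (G := scVa F A τ t) (scg_Va_BI hF hτ hA ht0 1)
    (Gn := fun n => scV F (scDy (fun r => A (t + r)) (τ - t) n)) (fun n => sc_V_BI hF _ 1) hδ (fun n y => by
      have := scg_V_rate hF hL hτ' hA2 n (le_refl (0 : ℝ)) y
      rwa [e, sc_Vt_zero F (scg_dy_pos _ hτ' n)] at this) m (t - s) hφ z
  refine tendsto_nhds_unique l1 (l2.congr fun n => ?_)
  rw [lsi_pi_Pt F A m hs hst n φ]

theorem lsi_P_step {A : ℝ → ℝ} {j Ξ : ℝ} (hj : 0 < j) (hA : LscProf j Ξ A) {s t m : ℝ} (hs : 0 ≤ s) (hst : s ≤ t)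
    (hm : ∀ r ∈ Ico s t, A r = m) (φ : ℝ → ℝ) (hφ : ScE 0 φ) : lsiP A j s t φ = scTr m (t - s) (lsiV A j t) φ := by
  rcases hst.eq_or_lt with rfl | hlt
  · rw [lsi_P_self, sub_self, sc_tr_var_zero]
  have ht0 : 0 ≤ t := hs.trans hst
  have hR : Ξ ≤ max Ξ t := le_max_left _ _
  have htR : t ≤ max Ξ t := le_max_right _ _
  rw [lsi_P_eq hj hA hR hs hst htR hφ, lsi_V_eq hj hA hR ht0 htR, lsi_Pa_step (sc_LC_BI j) (hA.coef _) hs hlt htR hm hφ]
  have := sc_tr_add_const m (t - s) (-(j * max Ξ t / 2)) (scVa (scLC j) A (max Ξ t) t) φ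
  simp only [← sub_eq_add_neg] at this
  exact this.symm

/-! ## 4. regularity -/

/-- a limit in a weighted norm (uniform in the time) of functions of class `ScT I 0` is of class `ScT I 0` -/
theorem lsi_aux_T0 {I : Set ℝ} {f : ℕ → ℝ → ℝ → ℝ} {g : ℝ → ℝ → ℝ} {c : ℝ} {δ : ℕ → ℝ} (hδ : Tendsto δ atTop (𝓝 0))
    (hf : ∀ n, ScT I 0 (f n)) (hb : ∀ n, ∀ r ∈ I, ∀ z, |f n r z - g r z| ≤ δ n * Real.exp (c * |z|)) : ScT I 0 g := by
  refine ⟨?_, ?_⟩
  · have hloc : TendstoLocallyUniformlyOn (fun n (p : ℝ × ℝ) => f n p.1 p.2) (fun p => g p.1 p.2) atTop (I ×ˢ univ) := by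
      rw [Metric.tendstoLocallyUniformlyOn_iff]
      intro ε hε x _
      set B : ℝ := Real.exp (|c| * (|x.2| + 1)) with hB
      have hBpos : 0 < B := Real.exp_pos _
      refine ⟨{p : ℝ × ℝ | |p.2| < |x.2| + 1} ∩ (I ×ˢ univ), ?_, ?_⟩
      · have ho : IsOpen {p : ℝ × ℝ | |p.2| < |x.2| + 1} :=
          isOpen_lt (continuous_abs.comp continuous_snd) continuous_const
        exact inter_mem (mem_nhdsWithin_of_mem_nhds (ho.mem_nhds (by simp))) self_mem_nhdsWithin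
      · have h1 : ∀ᶠ n in atTop, δ n < ε / B := (tendsto_order.1 hδ).2 _ (by positivity)
        filter_upwards [h1] with n hn p hp
        rw [Real.dist_eq, abs_sub_comm]
        have h2 := hb n p.1 hp.2.1 p.2
        have h3 : Real.exp (c * |p.2|) ≤ B := by
          refine Real.exp_le_exp.2 ?_
          calc c * |p.2| ≤ |c| * |p.2| := mul_le_mul_of_nonneg_right (le_abs_self c) (abs_nonneg _)
            _ ≤ |c| * (|x.2| + 1) := mul_le_mul_of_nonneg_left (le_of_lt hp.1) (abs_nonneg _)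
        have hδ0 : 0 ≤ δ n := by
          have := (abs_nonneg _).trans h2
          exact nonneg_of_mul_nonneg_left this (Real.exp_pos _)
        calc |f n p.1 p.2 - g p.1 p.2| ≤ δ n * Real.exp (c * |p.2|) := h2
          _ ≤ δ n * B := mul_le_mul_of_nonneg_left h3 hδ0
          _ < ε / B * B := mul_lt_mul_of_pos_right hn hBpos
          _ = ε := div_mul_cancel₀ _ hBpos.ne'
    exact hloc.continuousOn (Eventually.of_forall fun n => (hf n).1).frequently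
  · obtain ⟨C0, c0, h0⟩ := (hf 0).2
    refine ⟨|C0| + |δ 0|, max |c0| |c|, fun r hr z => ?_⟩
    have h1 := h0 r hr z
    have h2 := hb 0 r hr z
    have e1 : Real.exp (c0 * |z|) ≤ Real.exp (max |c0| |c| * |z|) :=
      Real.exp_le_exp.2 (mul_le_mul_of_nonneg_right ((le_abs_self _).trans (le_max_left _ _)) (abs_nonneg _))
    have e2 : Real.exp (c * |z|) ≤ Real.exp (max |c0| |c| * |z|) :=
      Real.exp_le_exp.2 (mul_le_mul_of_nonneg_right ((le_abs_self _).trans (le_max_right _ _)) (abs_nonneg _))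
    have h3 : |g r z| ≤ |f 0 r z| + |f 0 r z - g r z| := by
      have := abs_sub (f 0 r z) (f 0 r z - g r z)
      simpa using this
    calc |g r z| ≤ |f 0 r z| + |f 0 r z - g r z| := h3
      _ ≤ C0 * Real.exp (c0 * |z|) + δ 0 * Real.exp (c * |z|) := add_le_add h1 h2
      _ ≤ |C0| * Real.exp (c0 * |z|) + |δ 0| * Real.exp (c * |z|) :=
          add_le_add (mul_le_mul_of_nonneg_right (le_abs_self _) (Real.exp_pos _).le)
            (mul_le_mul_of_nonneg_right (le_abs_self _) (Real.exp_pos _).le)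
      _ ≤ |C0| * Real.exp (max |c0| |c| * |z|) + |δ 0| * Real.exp (max |c0| |c| * |z|) :=
          add_le_add (mul_le_mul_of_nonneg_left e1 (abs_nonneg _)) (mul_le_mul_of_nonneg_left e2 (abs_nonneg _))
      _ = _ := by ring

theorem lsi_P_T0 {A : ℝ → ℝ} {j Ξ : ℝ} (hj : 0 < j) (hA : LscProf j Ξ A) {t : ℝ} (ht : 0 ≤ t) {φ : ℝ → ℝ} (hφ : ScE 0 φ) :
    ScT (Icc 0 t) 0 fun r => lsiP A j r t φ := by
  obtain ⟨c, δ, hδ, hb⟩ := lsi_P_unif0 hj hA (τ := max Ξ t) (a := 0) (b := 0) (le_max_left _ _) (hφ.scT (Icc 0 0))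
  have hτ : 0 ≤ max Ξ t := ht.trans (le_max_right _ _)
  refine lsi_aux_T0 (f := fun n r => scPt (scLC j) (scDy A (max Ξ t) n) r t φ) (c := c) hδ
    (fun n => sc_Pt_T (sc_LC_BI j) hφ (scg_dy_pos A hτ n) t) fun n r hr z => ?_
  exact hb n 0 ⟨le_rfl, le_rfl⟩ r t hr.1 hr.2 (le_max_right _ _) z

/-- a family which is the uniform limit, with its `n` first space derivatives, of families of class `ScT I n` is of class `ScT I n` -/
theorem lsi_T_limit {I : Set ℝ} (n : ℕ) : ∀ {ψn : ℕ → ℝ → ℝ → ℝ} {ψ : ℝ → ℝ → ℝ} {δ : ℕ → ℝ}, (∀ N, ScT I n (ψn N)) →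
    Tendsto δ atTop (𝓝 0) → (∀ N, ∀ k ≤ n, ∀ r ∈ I, ∀ z, |deriv^[k] (ψn N r) z - deriv^[k] (ψ r) z| ≤ δ N) → ScT I n ψ := by
  have hcont : ∀ {n : ℕ} {ψn : ℕ → ℝ → ℝ → ℝ} {ψ : ℝ → ℝ → ℝ} {δ : ℕ → ℝ}, (∀ N, ScT I n (ψn N)) →
      Tendsto δ atTop (𝓝 0) → (∀ N, ∀ r ∈ I, ∀ z, |ψn N r z - ψ r z| ≤ δ N) →
      ContinuousOn (fun p : ℝ × ℝ => ψ p.1 p.2) (I ×ˢ univ) ∧ ScGU I ψ := by
    intro n ψn ψ δ h hδ hb
    constructor
    · refine sck_unif_limit_continuousOn (f := fun N (p : ℝ × ℝ) => ψn N p.1 p.2) (fun N => (h N).continuousOn) ?_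
      intro ε hε
      obtain ⟨N, hN⟩ := eventually_atTop.1 (hδ.eventually (gt_mem_nhds hε))
      exact ⟨N, fun m hm p hp => (hb m p.1 hp.1 p.2).trans (hN m hm).le⟩
    · obtain ⟨C, c, hC⟩ := (h 0).growth
      refine ⟨|C| + |δ 0|, |c|, fun r hr z => ?_⟩
      have h1 := hb 0 r hr z
      have h2 := hC r hr z
      have h3 : Real.exp (c * |z|) ≤ Real.exp (|c| * |z|) :=
        Real.exp_le_exp.2 (mul_le_mul_of_nonneg_right (le_abs_self c) (abs_nonneg z))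
      have h4 : 1 ≤ Real.exp (|c| * |z|) := Real.one_le_exp (by positivity)
      have h5 : |ψ r z| ≤ |ψn 0 r z| + |ψn 0 r z - ψ r z| := by
        have := abs_sub_abs_le_abs_sub (ψ r z) (ψn 0 r z)
        rw [abs_sub_comm] at this
        linarith
      have h6 : C * Real.exp (c * |z|) ≤ |C| * Real.exp (|c| * |z|) :=
        (mul_le_mul_of_nonneg_right (le_abs_self C) (Real.exp_pos _).le).trans
          (mul_le_mul_of_nonneg_left h3 (abs_nonneg C))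
      have h7 : δ 0 ≤ |δ 0| * Real.exp (|c| * |z|) :=
        (le_abs_self _).trans (le_mul_of_one_le_right (abs_nonneg _) h4)
      rw [add_mul]
      linarith
  induction n with
  | zero =>
    intro ψn ψ δ h hδ hb
    exact hcont h hδ (fun N r hr z => hb N 0 le_rfl r hr z)
  | succ n ih =>
    intro ψn ψ δ h hδ hb
    obtain ⟨h1, h2⟩ := hcont h hδ (fun N r hr z => hb N 0 (Nat.zero_le _) r hr z)
    refine ⟨h1, h2, fun r hr => ?_, ?_⟩
    · intro z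
      have hu : TendstoUniformly (fun N => deriv (ψn N r)) (deriv (ψ r)) atTop := by
        rw [Metric.tendstoUniformly_iff]
        intro ε hε
        filter_upwards [hδ.eventually (gt_mem_nhds hε)] with N hN y
        rw [Real.dist_eq, abs_sub_comm]
        exact lt_of_le_of_lt (hb N 1 (by omega) r hr y) hN
      have hd : ∀ᶠ N in atTop, ∀ x : ℝ, HasDerivAt (ψn N r) (deriv (ψn N r) x) x :=
        Eventually.of_forall fun N x => ((h N).2.2.1 r hr x).hasDerivAt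
      have hp : ∀ x : ℝ, Tendsto (fun N => ψn N r x) atTop (𝓝 (ψ r x)) := by
        intro x
        rw [Metric.tendsto_atTop]
        intro ε hε
        obtain ⟨N, hN⟩ := eventually_atTop.1 (hδ.eventually (gt_mem_nhds hε))
        refine ⟨N, fun m hm => ?_⟩
        rw [Real.dist_eq]
        exact lt_of_le_of_lt (hb m 0 (Nat.zero_le _) r hr x) (hN m hm)
      exact (hasDerivAt_of_tendstoUniformly hu hd hp z).differentiableAt
    · refine ih (ψn := fun N r => deriv (ψn N r)) (ψ := fun r => deriv (ψ r)) (δ := δ) (fun N => (h N).2.2.2) hδ ?_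
      intro N k hk r hr z
      have := hb N (k + 1) (by omega) r hr z
      rwa [Function.iterate_succ_apply, Function.iterate_succ_apply] at this

theorem lsi_P_T {A : ℝ → ℝ} {j Ξ : ℝ} (hj : 0 < j) (hA : LscProf j Ξ A) {t : ℝ} (ht : 0 ≤ t) {n : ℕ} {φ : ℝ → ℝ}
    (hφ : ScBd (n + 1) φ) : ScT (Icc 0 t) n fun r => lsiP A j r t φ := by
  obtain ⟨δ, hδ, hb⟩ := lsi_P_unif hj hA (le_max_left Ξ t) (m := n) hφ
  have hτ : 0 ≤ max Ξ t := ht.trans (le_max_right _ _)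
  refine lsi_T_limit n (ψn := fun N r => scPt (scLC j) (scDy A (max Ξ t) N) r t φ) (δ := δ)
    (fun N => sc_Pt_T (sc_logcosh_BI j) hφ.scE.of_succ (scg_dy_pos A hτ N) t) hδ ?_
  intro N k hk r hr z
  exact hb N k hk r t hr.1 hr.2 (le_max_right _ _) z

theorem lsi_P_fwd {A : ℝ → ℝ} {j Ξ : ℝ} (hj : 0 < j) (hA : LscProf j Ξ A) {s t : ℝ} (hs : 0 ≤ s) (hst : s ≤ t) {ψ : ℝ → ℝ → ℝ}
    (hψ : ScT (Icc s t) 0 ψ) (z : ℝ) : ContinuousOn (fun r => lsiP A j s r (ψ r) z) (Icc s t) := by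
  obtain ⟨c, δ, hδ, hb⟩ := lsi_P_unif0 hj hA (τ := max Ξ t) (le_max_left _ _) hψ
  have hτ : 0 ≤ max Ξ t := (hs.trans hst).trans (le_max_right _ _)
  refine sck_unif_limit_continuousOn (f := fun n r => scPt (scLC j) (scDy A (max Ξ t) n) s r (ψ r) z)
    (fun n => (sc_Pt_T' (sc_LC_BI j) (scg_dy_pos A hτ n) hs hψ).continuousOn_time z) fun ε hε => ?_
  have hBpos : 0 < Real.exp (c * |z|) := Real.exp_pos _
  have h1 : ∀ᶠ n in atTop, δ n < ε / Real.exp (c * |z|) := (tendsto_order.1 hδ).2 _ (by positivity)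
  obtain ⟨N, hN⟩ := eventually_atTop.1 h1
  refine ⟨N, fun n hn r hr => ?_⟩
  calc _ ≤ δ n * Real.exp (c * |z|) := hb n r hr s r hs hr.1 (hr.2.trans (le_max_right _ _)) z
    _ ≤ ε / Real.exp (c * |z|) * Real.exp (c * |z|) := mul_le_mul_of_nonneg_right (hN n hn).le hBpos.le
    _ = ε := div_mul_cancel₀ _ hBpos.ne'

theorem lsi_N_of_Bd (n : ℕ) : ∀ {φ : ℝ → ℝ} {K : ℝ}, ScBd n φ → (∀ k ≤ n, ∀ y, |deriv^[k] φ y| ≤ K) → ScN n K φ := by
  induction n with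
  | zero =>
    intro φ K h hb
    exact ⟨h.2, fun z => hb 0 le_rfl z⟩
  | succ n ih =>
    intro φ K h hb
    refine ⟨fun z => hb 0 (Nat.zero_le _) z, h.2.1, ih h.deriv fun k hk y => ?_⟩
    have := hb (k + 1) (by omega) y
    rwa [Function.iterate_succ_apply] at this

theorem lsi_N_iter_der {n : ℕ} {M : ℝ} (k : ℕ) : ∀ {φ : ℝ → ℝ}, ScN (n + k) M φ → ScN n M (deriv^[k] φ) := by
  induction k with
  | zero => intro φ h; exact h
  | succ k ih =>
    intro φ h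
    rw [Function.iterate_succ_apply]
    exact ih (ScN.der (n := n + k) h)

theorem lsi_P_grad (J : ℝ) (i : ℕ) : ∃ C : ℝ, ∀ (A : ℝ → ℝ) (j Ξ : ℝ), 1 ≤ j → j ≤ J → LscProf j Ξ A → ∀ s t : ℝ, 0 ≤ s → s ≤ t →
    ∀ (φ : ℝ → ℝ) (K : ℝ), ScBd i φ → (∀ k ≤ i, ∀ y, |deriv^[k] φ y| ≤ K) → ∀ z, |deriv^[i] (lsiP A j s t φ) z| ≤ C * K := by
  obtain ⟨B, hB, hLC⟩ := lsi_LC_N i J
  obtain ⟨K0, hK0, H⟩ := sc_tau_Pt (abs_nonneg J) i hB
  refine ⟨K0, fun A j Ξ hj1 hjJ hA s t hs hst φ K hφ hb z => ?_⟩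
  have hj : 0 < j := lt_of_lt_of_le one_pos hj1
  have ht : 0 ≤ t := hs.trans hst
  have hτ : 0 ≤ max Ξ t := ht.trans (le_max_right _ _)
  have hjJ' : |j| ≤ J := by rwa [abs_of_pos hj]
  have hN : ScN i K φ := lsi_N_of_Bd i hφ hb
  have hstep : ∀ N, ScN i (K0 * K) (scPt (scLC j) (scDy A (max Ξ t) N) s t φ) := by
    intro N
    refine H (scLC j) _ φ K (sc_logcosh_BI j) (hLC j hjJ' hj.ne') ?_ (sc_dy_inc hτ (hA.coef _) N) hN s t
    intro p hp
    have := sc_dy_adm hτ (hA.coef (max Ξ t)) N p hp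
    exact ⟨this.1, this.2.1.trans (hjJ.trans (le_abs_self J)), this.2.2⟩
  cases i with
  | zero =>
    have hlim := lsi_P_tendsto hj hA (le_max_left Ξ t) hs hst (le_max_right Ξ t) hφ.scE (φn := fun _ => φ) (fun _ => hφ.scE)
      (c := 0) (δ := fun _ => 0) tendsto_const_nhds (fun n y => by simp) z
    exact sck_limit_abs_le hlim (Eventually.of_forall fun N => (hstep N).bd z)
  | succ m =>
    obtain ⟨δ, hδ, hu⟩ := lsi_P_unif hj hA (le_max_left Ξ t) (m := m) hφ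
    have hM : 0 ≤ K0 * K := (hstep 0).nonneg
    have hlim : ∀ x, Tendsto (fun N => deriv^[m] (scPt (scLC j) (scDy A (max Ξ t) N) s t φ) x) atTop
        (𝓝 (deriv^[m] (lsiP A j s t φ) x)) := by
      intro x
      rw [Metric.tendsto_atTop]
      intro ε hε
      obtain ⟨N, hN⟩ := eventually_atTop.1 (hδ.eventually (gt_mem_nhds hε))
      refine ⟨N, fun n hn => ?_⟩
      rw [Real.dist_eq]
      exact lt_of_le_of_lt (hu n m le_rfl s t hs hst (le_max_right _ _) x) (hN n hn)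
    have hlipN : ∀ N x y, |deriv^[m] (scPt (scLC j) (scDy A (max Ξ t) N) s t φ) x
        - deriv^[m] (scPt (scLC j) (scDy A (max Ξ t) N) s t φ) y| ≤ K0 * K * |x - y| := by
      intro N x y
      have h1 : ScN 1 (K0 * K) (deriv^[m] (scPt (scLC j) (scDy A (max Ξ t) N) s t φ)) :=
        lsi_N_iter_der (n := 1) m (by rw [add_comm]; exact hstep N)
      have := Convex.norm_image_sub_le_of_norm_deriv_le (s := univ)
        (f := deriv^[m] (scPt (scLC j) (scDy A (max Ξ t) N) s t φ)) (C := K0 * K) (x := y) (y := x)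
        (fun w _ => h1.2.1 w) (fun w _ => by rw [Real.norm_eq_abs]; exact h1.der.bd w) convex_univ (mem_univ _) (mem_univ _)
      simpa [Real.norm_eq_abs] using this
    have hlip : LipschitzWith (K0 * K).toNNReal (deriv^[m] (lsiP A j s t φ)) := by
      refine LipschitzWith.of_dist_le_mul fun x y => ?_
      rw [Real.dist_eq, Real.dist_eq, Real.coe_toNNReal _ hM]
      exact le_of_tendsto' ((hlim x).sub (hlim y)).abs fun N => hlipN N x y
    have := norm_deriv_le_of_lipschitz (x₀ := z) hlip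
    rw [Real.norm_eq_abs, Real.coe_toNNReal _ hM] at this
    rwa [Function.iterate_succ_apply']

end Claimed.Agent.R286
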