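import Claimed.Agent.R286.Sc.MomG
import Claimed.Agent.R286.Sc.Hopf
import Claimed.Agent.R286.Sc.Small

/-!
# Row 286, scalar block, layer S5 (part 3): POSITIVITY and the remaining EXITS of the moment curves of a general profile      (owner helper108; prefix `scm_`)

TEX[PE:prof:scalar-derivatives] TEX[FS:lem:diffusion] TEX[FS:lem:regularity]
On `Sc/MomG.lean` (helper48: `scmObsA`, `scmMa`, `scm_M_tendsto`, `scm_Ma_cont`, `scm_moment_gen`, `scm_Ma_bound`, `scm_Ma_lip`, `scm_exit_Gam, _M2, _N3, _cont`).     0 sorry.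
* A. the limit kernel on bounded `C²` tests: `scm_Pa_abs_le`, `scm_Pa_sub`   (stability `scm_Ma_stab`, `scm_exit_stab`: `Sc/MomG.lean` sec. 5).
* B. positivity: `scm_Ma_nonneg`, `scm_exit_N4_nonneg`, `scm_exit_w_pos` (`E V_zz^j ≥ (a e^{-3a²τ})^j`), `scm_exit_M3_pos`, `_M4_pos`, `scm_exit_Gam_end`, `scm_exit_Gam_mem`, `scm_exit_rs` (I7).
* C. `ss_supply : SsSupply a Q` (the input of `Sc/Small.lean`);  with `sch_curv_low` (helper141): `ss_rig_sc` = `ss_rig_of` without hypotheses on the scalar block.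
-/

set_option autoImplicit false

namespace Claimed.Agent.R286

open MeasureTheory ProbabilityTheory Filter Topology Set

/-! ## A. the limit kernel -/

/-- contraction property of the limit kernel on bounded `C²` tests -/
theorem scm_Pa_abs_le {F : ℝ → ℝ} (hF : ScBI F) {a τ : ℝ} {α : ℝ → ℝ} (hτ : 0 ≤ τ) (hα : ScCoef a τ α)
    {ψ : ℝ → ℝ} {M : ℝ} (hψ : ScN 2 M ψ) {C : ℝ} (hC : ∀ z, |ψ z| ≤ C) {s t : ℝ} (hs : 0 ≤ s) (hst : s ≤ t) (ht : t ≤ τ)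
    (z : ℝ) : |scPa F α τ s t ψ z| ≤ C :=
  sck_limit_abs_le (sgp_P_tendsto_bd hF hτ hα hψ hs hst ht z)
    (Eventually.of_forall fun _ => sc_Pt_abs_le hF hψ.continuous hC _ _ _ _)

theorem scm_Pa_sub {F : ℝ → ℝ} (hF : ScBI F) {a τ : ℝ} {α : ℝ → ℝ} (hτ : 0 ≤ τ) (hα : ScCoef a τ α)
    {φ ψ : ℝ → ℝ} {M M' : ℝ} (hφ : ScN 2 M φ) (hψ : ScN 2 M' ψ) {s t : ℝ} (hs : 0 ≤ s) (hst : s ≤ t) (ht : t ≤ τ)
    (z : ℝ) : scPa F α τ s t (fun y => φ y - ψ y) z = scPa F α τ s t φ z - scPa F α τ s t ψ z := by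
  have h1 := sgp_P_tendsto_bd hF hτ hα (hφ.sub hψ) hs hst ht z
  have h2 := (sgp_P_tendsto_bd hF hτ hα hφ hs hst ht z).sub (sgp_P_tendsto_bd hF hτ hα hψ hs hst ht z)
  refine tendsto_nhds_unique h1 (h2.congr fun n => ?_)
  exact (congrFun (sc_Pt_sub hF hφ.scE.of_succ.of_succ hψ.scE.of_succ.of_succ _ s t) z).symm

/-! ## B. positivity -/

/-- the moment curves of the dyadic approximants converge -/
theorem scm_Ma_tendsto_dy {F : ℝ → ℝ} (hF : ScBI F) {a τ : ℝ} {α : ℝ → ℝ} (hα : ScCoef a τ α)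
    (p : MvPolynomial ℕ ℝ) {t : ℝ} (ht : t ∈ Icc 0 τ) :
    Tendsto (fun n => scmM p F (scDy α τ n) t) atTop (𝓝 (scmMa p F α τ t)) :=
  scm_Ma_lim hF hα (ht.1.trans ht.2) p (scg_dy_apx (ht.1.trans ht.2) hα) ht

/-- positivity: a polynomial which is nonnegative on `ℝ^ℕ` has a nonnegative moment curve -/
theorem scm_Ma_nonneg {F : ℝ → ℝ} (hF : ScBI F) {a τ : ℝ} {α : ℝ → ℝ} (hα : ScCoef a τ α) {p : MvPolynomial ℕ ℝ}
    (hp : ∀ x : ℕ → ℝ, 0 ≤ MvPolynomial.eval x p) {t : ℝ} (ht : t ∈ Icc 0 τ) : 0 ≤ scmMa p F α τ t := by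
  refine ge_of_tendsto (scm_Ma_tendsto_dy hF hα _ ht) (Eventually.of_forall fun n => ?_)
  unfold scmM scEx
  exact sc_Pt_nonneg hF (scm_obs_Bd hF _ _ _ 0).scE (fun z => hp _) _ _ _ _

theorem scm_exit_N4_nonneg {a τ : ℝ} {F : ℝ → ℝ} (hF : ScCont a F) {α : ℝ → ℝ} (hα : ScCoef a τ α) {t : ℝ}
    (ht : t ∈ Icc 0 τ) : 0 ≤ scaN4 F α τ t := by
  rw [scm_aN4_eq]
  exact scm_Ma_nonneg hF.smooth hα (fun x => by simp only [map_pow, MvPolynomial.eval_X]; positivity) ht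

theorem scm_LC_chi {a : ℝ} (ha : 0 < a) (z : ℝ) : a * scChi a z ≤ deriv (deriv (scLC a)) z := by
  rw [scb_LC_deriv2 ha.ne']
  exact le_rfl

/-- `E V_zz^j ≥ (a e^{-3 a² τ})^j` -/
theorem scm_exit_w_pos {a τ : ℝ} (ha : 0 < a) {α : ℝ → ℝ} (hα : ScCoef a τ α) {t : ℝ} (ht : t ∈ Icc 0 τ) (j : ℕ) :
    (a * Real.exp (-3 * a ^ 2 * τ)) ^ j ≤ scmMa (MvPolynomial.X 1 ^ j) (scLC a) α τ t := by
  have hτ : 0 ≤ τ := ht.1.trans ht.2
  refine ge_of_tendsto (scm_Ma_tendsto_dy (scb_LC_cont ha).smooth hα _ ht) (Eventually.of_forall fun n => ?_)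
  have h := scb_Ew_lower (scb_LC_cont ha) ha.le (scm_LC_chi ha) (sc_dy_adm hτ hα n) ht.1
    (by rw [sc_dy_len]; exact ht.2) j
  rw [sc_dy_len] at h
  refine h.trans (le_of_eq ?_)
  unfold scmM
  congr 1
  funext z
  simp [scmObs]

theorem scm_exit_M3_pos {a τ : ℝ} (ha : 0 < a) {α : ℝ → ℝ} (hα : ScCoef a τ α) {t : ℝ} (ht : t ∈ Icc 0 τ) :
    (a * Real.exp (-3 * a ^ 2 * τ)) ^ 3 ≤ scaM3 (scLC a) α τ t := by
  rw [scm_aM3_eq]; exact scm_exit_w_pos ha hα ht 3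

theorem scm_exit_M4_pos {a τ : ℝ} (ha : 0 < a) {α : ℝ → ℝ} (hα : ScCoef a τ α) {t : ℝ} (ht : t ∈ Icc 0 τ) :
    (a * Real.exp (-3 * a ^ 2 * τ)) ^ 4 ≤ scaM4 (scLC a) α τ t := by
  rw [scm_aM4_eq]; exact scm_exit_w_pos ha hα ht 4

theorem scm_exit_Gam_end {a τ : ℝ} (ha : 0 < a) {α : ℝ → ℝ} (hα : ScCoef a τ α) (hτ : 0 ≤ τ) :
    scaGam (scLC a) α τ τ ≤ 1 - Real.exp (-3 * a ^ 2 * τ) := by
  rw [scm_aGam_eq]
  refine le_of_tendsto (scm_Ma_tendsto_dy (scb_LC_cont ha).smooth hα _ ⟨hτ, le_rfl⟩) (Eventually.of_forall fun n => ?_)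
  have h := scb_Gam_end ha (sc_dy_adm hτ hα n)
  rw [sc_dy_len] at h
  rw [← scm_Gam_eq]
  exact h

/-- `0 ≤ Γ ≤ Γ(τ) ≤ 1 - e^{-3 a² τ} < 1` -/
theorem scm_exit_Gam_mem {a τ : ℝ} (ha : 0 < a) {α : ℝ → ℝ} (hα : ScCoef a τ α) {t : ℝ} (ht : t ∈ Icc 0 τ) :
    0 ≤ scaGam (scLC a) α τ t ∧ scaGam (scLC a) α τ t ≤ 1 - Real.exp (-3 * a ^ 2 * τ) := by
  have hτ : 0 ≤ τ := ht.1.trans ht.2
  have hF := scb_LC_cont ha
  have hnn : ∀ r ∈ Icc 0 τ, 0 ≤ scaM2 (scLC a) α τ r := fun r hr => by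
    rw [scm_aM2_eq]
    exact scm_Ma_nonneg hF.smooth hα (fun x => by simp only [map_pow, MvPolynomial.eval_X]; positivity) hr
  have hc := (scm_exit_cont hF hα hτ).2.1
  constructor
  · rw [scm_aGam_eq]
    exact scm_Ma_nonneg hF.smooth hα (fun x => by simp only [map_pow, MvPolynomial.eval_X]; positivity) ht
  · refine le_trans ?_ (scm_exit_Gam_end ha hα hτ)
    rw [scm_exit_Gam hF hα ht, scm_exit_Gam hF hα ⟨hτ, le_rfl⟩]
    have i1 : IntervalIntegrable (scaM2 (scLC a) α τ) volume 0 t :=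
      (hc.mono (by rw [uIcc_of_le ht.1]; exact Icc_subset_Icc le_rfl ht.2)).intervalIntegrable
    have i2 : IntervalIntegrable (scaM2 (scLC a) α τ) volume t τ :=
      (hc.mono (by rw [uIcc_of_le ht.2]; exact Icc_subset_Icc ht.1 le_rfl)).intervalIntegrable
    rw [← intervalIntegral.integral_add_adjacent_intervals i1 i2]
    have : 0 ≤ ∫ r in t..τ, scaM2 (scLC a) α τ r :=
      intervalIntegral.integral_nonneg ht.2 fun r hr => hnn r ⟨ht.1.trans hr.1, hr.2⟩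
    linarith

/-- I7: the annealed (replica symmetric) profile -/
theorem scm_exit_rs {a τ : ℝ} (ha : 0 < a) (hτ : 0 ≤ τ) {α : ℝ → ℝ} (hα : ∀ t ∈ Ico 0 τ, α t = a) :
    scaM2 (scLC a) α τ 0 = a ^ 2 := by
  have h0 : deriv^[2] (scLC a) 0 = a := by
    show deriv (deriv (scLC a)) 0 = a
    rw [scb_LC_deriv2 ha.ne']; simp
  have key : scaD 2 (scLC a) α τ 0 0 = a := by
    rcases hτ.eq_or_lt with h | h
    · subst h
      rw [scg_aD_of_le 2 _ _ le_rfl le_rfl, h0]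
    · have hβ : ScCoef a τ (fun _ => a) := ⟨monotoneOn_const, fun _ _ => ⟨ha.le, le_rfl⟩⟩
      have e1 : scaD 2 (scLC a) α τ 0 = scaD 2 (scLC a) (fun _ => a) τ 0 := by
        unfold scaD
        rw [scg_congr (scLC a) h (β := fun _ => a) hα]
      have hadm : ScAdm a [(a, τ)] := by
        intro p hp
        simp only [List.mem_singleton] at hp
        subst hp
        exact ⟨ha.le, le_rfl, hτ⟩
      have e2 := scg_step_D (scb_LC_cont ha).smooth hβ (π := [(a, τ)]) hadm (List.pairwise_singleton _ _)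
        (by simp [scLen]) (fun r hr => by simp [scAl, not_le.mpr hr.2]) 2 (le_refl (0:ℝ))
      rw [e1, e2]
      unfold scD
      rw [sc_Vt_zero _ hadm.pos]
      have e3 : scV (scLC a) [(a, τ)] = fun z => scLC a z + a * τ / 2 := sc_step_logcosh ha.ne' hτ
      rw [e3]
      show deriv (deriv (fun z => scLC a z + a * τ / 2)) 0 = a
      have e4 : deriv (fun z => scLC a z + a * τ / 2) = deriv (scLC a) := by
        funext z; rw [deriv_add_const]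
      rw [e4]
      exact h0
  rw [scm_exit_M2_zero, key]

/-! ## C. the supply of `Sc/Small.lean` -/

/-- **the Dynkin chain with ONE constant**, free of the horizon and of the profile.      TEX[PE:prof:scalar-derivatives] -/
theorem ss_supply {a : ℝ} (ha : 0 < a) (Q : ℝ) : SsSupply a Q := by
  have hF := scb_LC_cont ha
  obtain ⟨L3, hL3, H3⟩ := scm_Ma_lip ha.le hF.smooth (MvPolynomial.X 1 ^ 3)
  obtain ⟨L4, hL4, H4⟩ := scm_Ma_lip ha.le hF.smooth (MvPolynomial.X 3 ^ 2)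
  obtain ⟨B3, hB3, G3⟩ := scm_Ma_bound ha.le hF.smooth (MvPolynomial.X 1 ^ 3)
  obtain ⟨B4, hB4, G4⟩ := scm_Ma_bound ha.le hF.smooth (MvPolynomial.X 3 ^ 2)
  obtain ⟨B13, hB13, G13⟩ := scm_Ma_bound ha.le hF.smooth (MvPolynomial.X 1 * MvPolynomial.X 2 ^ 2)
  refine ⟨L3 + L4 + B3 + B4 + B13, fun α τ hτ _ hα => ?_⟩
  obtain ⟨_, c2, c3, _, c5, c6, c7⟩ := scm_exit_cont hF hα hτ
  have h0 : (0:ℝ) ∈ Icc 0 τ := ⟨le_rfl, hτ⟩
  refine ⟨hα.1, fun t ht => (hα.2 t ht).1, fun t ht => scm_exit_Gam hF hα ht, fun t ht => ?_,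
    fun t ht => scm_exit_N3 hF hα ht, c2, c3, c5, c6, c7, fun t ht => ?_, fun t ht => ?_, fun t ht => ?_,
    fun t ht => ?_, fun t ht => ?_⟩
  · have := scm_exit_M2 hF hα h0 ht
    show scaM2 (scLC a) α τ t = scaM2 (scLC a) α τ 0
      + ∫ s in (0:ℝ)..t, (scaN3 (scLC a) α τ s - 2 * α s * scaM3 (scLC a) α τ s)
    rw [← this]; ring
  · show |scaM3 (scLC a) α τ t - scaM3 (scLC a) α τ 0| ≤ _
    have := H3 τ α hα 0 t le_rfl ht.1 ht.2
    rw [sub_zero] at this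
    rw [scm_aM3_eq]
    refine this.trans (mul_le_mul_of_nonneg_right (by linarith) ht.1)
  · show |scaN4 (scLC a) α τ t - scaN4 (scLC a) α τ 0| ≤ _
    have := H4 τ α hα 0 t le_rfl ht.1 ht.2
    rw [sub_zero] at this
    rw [scm_aN4_eq]
    refine this.trans (mul_le_mul_of_nonneg_right (by linarith) ht.1)
  · show |scaM3 (scLC a) α τ t| ≤ _
    rw [scm_aM3_eq]; linarith [G3 τ α hα t ht]
  · show |scaN4 (scLC a) α τ t| ≤ _
    rw [scm_aN4_eq]; linarith [G4 τ α hα t ht]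
  · show |scaM13 (scLC a) α τ t| ≤ _
    rw [scm_aM13_eq]; linarith [G13 τ α hα t ht]

/-- **the scalar supply of `RgHyp`, unconditional**  (`ss_rig_of` + `ss_supply` + `sch_curv_low` of helper141).      TEX[PE:prof:scalar-compactness] TEX[PE:prof:low-clock-linearization] -/
theorem ss_rig_sc {ι : Type*} (𝒰 : Ultrafilter ι) {a Q T : ℝ} (ha : 0 < a)
    (αn : ι → ℝ → ℝ) (τn Tn xn Rn : ι → ℝ)
    (hα : ∀ᶠ n in (𝒰 : Filter ι), 0 ≤ τn n ∧ τn n ≤ Q ∧ ScCoef a (τn n) (αn n))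
    (hT : 0 < T) (hTl : Tendsto Tn (𝒰 : Filter ι) (𝓝 T))
    (hx : ∀ᶠ n in (𝒰 : Filter ι), 0 < xn n) (hxl : Tendsto xn (𝒰 : Filter ι) (𝓝 0))
    (hR : ∀ᶠ n in (𝒰 : Filter ι), Tn n * xn n * Rn n ≤ τn n) (hRl : Tendsto Rn (𝒰 : Filter ι) atTop)
    (hbd : ∀ C : ℝ, ∃ C' : ℝ, ∀ᶠ n in (𝒰 : Filter ι), ∀ t ∈ Icc 0 C, αn n (Tn n * xn n * t) / xn n ≤ C') :
    ∃ A B : ℝ, 0 < A ∧ 0 < B ∧
      (∀ C : ℝ, TendstoUniformlyOn (fun n => (ssOf a (αn n) (τn n)).P (Tn n) (xn n)) (fun t => A * t) (𝒰 : Filter ι) (Icc 0 C)) ∧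
      (∀ C : ℝ, TendstoUniformlyOn (fun n => (ssOf a (αn n) (τn n)).Bc (Tn n) (xn n)) (fun _ => B) (𝒰 : Filter ι) (Icc 0 C)) :=
  ss_rig_of 𝒰 (ss_supply ha Q) (sch_curv_low ha Q) αn τn Tn xn Rn hα hT hTl hx hxl hR hRl hbd

end Claimed.Agent.R286
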