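import Claimed.Agent.R286.Sc.Bound
import Claimed.Agent.R286.Sc.Tau

/-!
# Row 286 (S0533), scalar block: PERTURBATION KIT for step profiles, LINEAR rates      (owner helper277; prefix `scq_`)

What LL 03 (Lemmas paths:lift, paths:parameter-regularity; package `LppOk` of `LL/PathsPk.lean`, fields `dlip`, `llip`, `mom2`) needs BEYOND `Sc/Stab.lean`:
no loss in the rate (the main term of the lift is itself of the order of the `L¹` distance `ρ₁ = λ ∫ P`).
* `scq_dlip` (K2): two profiles, two terminal data, window `[s, b]`: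
      `sup_z |∂_z^k V' - ∂_z^k V|(s) ≤ 2 (ε + A ∫_s^b |α' - α|) e^{2 κ (b - s)}`, `1 ≤ k ≤ K`, `ε` = the same distance at the time `b`,
      `A = (2^K + 1) B²`, `κ = a (2^K + 1) B`, `B` = bound of the derivatives of order `1..K+1` of both continuations on `[0,b]`.
      Proof: `(∂ + L') δ_k = -(α' - α)(..) - α Σ_{j ≤ k} c_{kj} δ_j` (Leibniz), Duhamel bound `scb_duhamel`, Gronwall `sck_gronwall_back` for `max_k sup_z |δ_k|`.
* `scq_mom2` : `E Z_t² ≤ 2 t e^{4 a B t}`.
* `scq_llip` (K3): Duhamel on EVEN test functions with the parity gain `E Z_r² ≤ C r`.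
TEX[LL:paths:lift] (l.141: "positive-order derivatives of continuations change by O(ρ₁)", "coupling ... O_k(ρ₁ √ξ)").
-/

set_option autoImplicit false

namespace Claimed.Agent.R286

open MeasureTheory Filter Topology Set

/-! ## 0. algebra -/

theorem scq_sum_bound (n : ℕ) (c x y x' y' : ℕ → ℝ) (hc : ∀ i, 0 ≤ c i) {B μ : ℝ} (hB : 0 ≤ B)
    (hx : ∀ i < n, |x i| ≤ B) (hx' : ∀ i < n, |x' i| ≤ B) (hy' : ∀ i < n, |y' i| ≤ B)
    (dx : ∀ i < n, |x' i - x i| ≤ μ) (dy : ∀ i < n, |y' i - y i| ≤ μ) :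
    |∑ i ∈ Finset.range n, c i * x' i * y' i| ≤ (∑ i ∈ Finset.range n, c i) * B ^ 2 ∧
    |∑ i ∈ Finset.range n, c i * x' i * y' i - ∑ i ∈ Finset.range n, c i * x i * y i|
      ≤ (∑ i ∈ Finset.range n, c i) * (2 * B * μ) := by
  constructor
  · rw [Finset.sum_mul]
    refine (Finset.abs_sum_le_sum_abs _ _).trans (Finset.sum_le_sum fun i hi => ?_)
    have hi' := Finset.mem_range.1 hi
    rw [mul_assoc, abs_mul, abs_of_nonneg (hc i), abs_mul, sq]
    exact mul_le_mul_of_nonneg_left (mul_le_mul (hx' i hi') (hy' i hi') (abs_nonneg _) hB) (hc i)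
  · rw [← Finset.sum_sub_distrib, Finset.sum_mul]
    refine (Finset.abs_sum_le_sum_abs _ _).trans (Finset.sum_le_sum fun i hi => ?_)
    have hi' := Finset.mem_range.1 hi
    have e : c i * x' i * y' i - c i * x i * y i = c i * ((x' i - x i) * y' i + x i * (y' i - y i)) := by ring
    rw [e, abs_mul, abs_of_nonneg (hc i)]
    refine mul_le_mul_of_nonneg_left ?_ (hc i)
    have hμ : 0 ≤ μ := (abs_nonneg _).trans (dx i hi')
    calc |(x' i - x i) * y' i + x i * (y' i - y i)| ≤ |x' i - x i| * |y' i| + |x i| * |y' i - y i| := by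
          rw [← abs_mul, ← abs_mul]; exact abs_add_le _ _
      _ ≤ μ * B + B * μ := add_le_add (mul_le_mul (dx i hi') (hy' i hi') (abs_nonneg _) hμ)
          (mul_le_mul (hx i hi') (dy i hi') (abs_nonneg _) hB)
      _ = 2 * B * μ := by ring

theorem scq_choose_sum (k : ℕ) : ∑ i ∈ Finset.range k, ((k + 1).choose (i + 1) : ℝ) ≤ 2 ^ (k + 1) := by
  have h := Nat.sum_range_choose (k + 1)
  have h2 : (∑ i ∈ Finset.range (k + 1 + 1), ((k + 1).choose i : ℝ)) = 2 ^ (k + 1) := by exact_mod_cast h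
  rw [Finset.sum_range_succ, Finset.sum_range_succ'] at h2
  have : (0 : ℝ) ≤ ((k + 1).choose 0 : ℝ) + ((k + 1).choose (k + 1) : ℝ) := by positivity
  linarith

/-- the source of `v_{k+1}` without the two extreme terms of the Leibniz sum -/
theorem scq_src {F : ℝ → ℝ} (hF : ScBI F) (π : List (ℝ × ℝ)) (k : ℕ) (r y : ℝ) :
    scSrc (k + 1) F π r y = -(scAl π r / 2) *
      ∑ i ∈ Finset.range k, ((k + 1).choose (i + 1) : ℝ) * scD (i + 2) F π r y * scD (k - i + 1) F π r y := by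
  unfold scSrc
  rw [scb_leibniz hF, Finset.sum_range_succ, Finset.sum_range_succ']
  congr 1
  have e : ∀ i ∈ Finset.range k, ((k + 1).choose (i + 1) : ℝ) * scD (i + 1 + 1) F π r y * scD (k + 1 - (i + 1) + 1) F π r y =
      ((k + 1).choose (i + 1) : ℝ) * scD (i + 2) F π r y * scD (k - i + 1) F π r y := by
    intro i _
    rw [Nat.add_sub_add_right]
  rw [Finset.sum_congr rfl e]
  simp only [Nat.choose_zero_right, Nat.choose_self, Nat.cast_one, one_mul, zero_add, Nat.sub_zero, Nat.sub_self]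
  ring

theorem scq_Al_ii (π π' : List (ℝ × ℝ)) (s t : ℝ) : IntervalIntegrable (fun r => |scAl π' r - scAl π r|) volume s t := by
  obtain ⟨C, hC⟩ := sc_Al_bdd π
  obtain ⟨C', hC'⟩ := sc_Al_bdd π'
  refine (intervalIntegrable_const (c := C' + C)).mono_fun'
    (((sc_Al_measurable π').sub (sc_Al_measurable π)).abs.aestronglyMeasurable) (Eventually.of_forall fun r => ?_)
  simp only [Real.norm_eq_abs, abs_abs]
  exact (abs_sub _ _).trans (add_le_add (hC' r) (hC r))

/-! ## 1. K2: the derivatives of the continuation are Lipschitz in the profile, linear rate -/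

section K2

variable {F F' : ℝ → ℝ} {π π' : List (ℝ × ℝ)}

/-- the generator of `(F', π')` applied to `δ_k = ∂^k V' - ∂^k V` -/
noncomputable def scqG (k : ℕ) (F F' : ℝ → ℝ) (π π' : List (ℝ × ℝ)) (r y : ℝ) : ℝ :=
  scSrc k F' π' r y -
    (scSrc k F π r y + (scAl π' r * scD 1 F' π' r y - scAl π r * scD 1 F π r y) * deriv (scD k F π r) y)

theorem scq_dyn (hF : ScBI F) (hF' : ScBI F') (h : ScPos π) (h' : ScPos π') {s t : ℝ} (h0 : 0 ≤ s) (hst : s ≤ t)
    (ht : t ≤ scLen π) (ht' : t ≤ scLen π') (k : ℕ) :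
    ScDyn F' π' s t (fun r y => scD k F' π' r y - scD k F π r y) (scqG k F F' π π') :=
  (scb_dyn_D hF' h' h0 hst ht' k).sub (ScDyn.change hF' hF h' h h0 ht' ht (scb_dyn_D hF h h0 hst ht k))

theorem scq_G_le (hF : ScBI F) (hF' : ScBI F') {a B μ : ℝ} (K k : ℕ) (hk : k + 1 ≤ K) {r : ℝ}
    (hα : scAl π r ∈ Icc 0 a) (hB : ∀ j, 1 ≤ j → j ≤ K + 1 → ∀ z, |scD j F π r z| ≤ B)
    (hB' : ∀ j, 1 ≤ j → j ≤ K + 1 → ∀ z, |scD j F' π' r z| ≤ B)
    (hμ : ∀ j, 1 ≤ j → j ≤ K → ∀ z, |scD j F' π' r z - scD j F π r z| ≤ μ) (y : ℝ) :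
    |scqG (k + 1) F F' π π' r y| ≤ (2 ^ K + 1) * B ^ 2 * |scAl π' r - scAl π r| + a * (2 ^ K + 1) * B * μ := by
  have hB0 : 0 ≤ B := (abs_nonneg _).trans (hB 1 le_rfl (by omega) 0)
  have hμ0 : 0 ≤ μ := (abs_nonneg _).trans (hμ 1 le_rfl (by omega) 0)
  have ha0 : 0 ≤ a := hα.1.trans hα.2
  set c : ℝ := ∑ i ∈ Finset.range k, ((k + 1).choose (i + 1) : ℝ) with hc
  have hc0 : 0 ≤ c := Finset.sum_nonneg fun i _ => by positivity
  have hcK : c ≤ 2 ^ K := (scq_choose_sum k).trans (pow_le_pow_right₀ (by norm_num) hk)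
  obtain ⟨h1, h2⟩ := scq_sum_bound k (fun i => ((k + 1).choose (i + 1) : ℝ)) (fun i => scD (i + 2) F π r y)
    (fun i => scD (k - i + 1) F π r y) (fun i => scD (i + 2) F' π' r y) (fun i => scD (k - i + 1) F' π' r y)
    (fun i => by positivity) hB0 (fun i hi => hB _ (by omega) (by omega) y) (fun i hi => hB' _ (by omega) (by omega) y)
    (fun i hi => hB' _ (by omega) (by omega) y) (fun i hi => hμ _ (by omega) (by omega) y)
    (fun i hi => hμ _ (by omega) (by omega) y)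
  set X' : ℝ := ∑ i ∈ Finset.range k, ((k + 1).choose (i + 1) : ℝ) * scD (i + 2) F' π' r y * scD (k - i + 1) F' π' r y
  set X : ℝ := ∑ i ∈ Finset.range k, ((k + 1).choose (i + 1) : ℝ) * scD (i + 2) F π r y * scD (k - i + 1) F π r y
  set α := scAl π r
  set α' := scAl π' r
  have e : scqG (k + 1) F F' π π' r y = -((α' - α) / 2 * X') - α / 2 * (X' - X)
      - (α' - α) * (scD 1 F' π' r y * scD (k + 2) F π r y)
      - α * ((scD 1 F' π' r y - scD 1 F π r y) * scD (k + 2) F π r y) := by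
    unfold scqG
    rw [scq_src hF', scq_src hF, sc_D_succ]
    ring
  have b1 : |(α' - α) / 2 * X'| ≤ |α' - α| / 2 * (c * B ^ 2) := by
    rw [abs_mul, abs_div, abs_of_pos (by norm_num : (0 : ℝ) < 2)]
    exact mul_le_mul_of_nonneg_left h1 (by positivity)
  have b2 : |α / 2 * (X' - X)| ≤ a / 2 * (c * (2 * B * μ)) := by
    rw [abs_mul, abs_of_nonneg (by linarith [hα.1] : 0 ≤ α / 2)]
    exact mul_le_mul (by linarith [hα.2]) h2 (abs_nonneg _) (by positivity)
  have b3 : |(α' - α) * (scD 1 F' π' r y * scD (k + 2) F π r y)| ≤ |α' - α| * (B * B) := by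
    rw [abs_mul, abs_mul]
    exact mul_le_mul_of_nonneg_left (mul_le_mul (hB' 1 le_rfl (by omega) y) (hB _ (by omega) (by omega) y)
      (abs_nonneg _) hB0) (abs_nonneg _)
  have b4 : |α * ((scD 1 F' π' r y - scD 1 F π r y) * scD (k + 2) F π r y)| ≤ a * (μ * B) := by
    rw [abs_mul, abs_mul, abs_of_nonneg hα.1]
    exact mul_le_mul hα.2 (mul_le_mul (hμ 1 le_rfl (by omega) y) (hB _ (by omega) (by omega) y) (abs_nonneg _) hμ0)
      (by positivity) ha0
  rw [e]
  have t1 : |-((α' - α) / 2 * X') - α / 2 * (X' - X) - (α' - α) * (scD 1 F' π' r y * scD (k + 2) F π r y)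
      - α * ((scD 1 F' π' r y - scD 1 F π r y) * scD (k + 2) F π r y)| ≤
      |(α' - α) / 2 * X'| + |α / 2 * (X' - X)| + |(α' - α) * (scD 1 F' π' r y * scD (k + 2) F π r y)|
      + |α * ((scD 1 F' π' r y - scD 1 F π r y) * scD (k + 2) F π r y)| := by
    refine (abs_sub _ _).trans (add_le_add ((abs_sub _ _).trans (add_le_add ((abs_sub _ _).trans ?_) le_rfl)) le_rfl)
    rw [abs_neg]
  refine t1.trans ?_
  have hd : 0 ≤ |α' - α| := abs_nonneg _
  have q1 : |α' - α| / 2 * (c * B ^ 2) ≤ |α' - α| * (2 ^ K * B ^ 2) := by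
    have : c * B ^ 2 ≤ 2 ^ K * B ^ 2 := mul_le_mul_of_nonneg_right hcK (sq_nonneg _)
    have h3 : 0 ≤ 2 ^ K * B ^ 2 := by positivity
    nlinarith
  have q2 : a / 2 * (c * (2 * B * μ)) ≤ a * (2 ^ K * (B * μ)) := by
    have : c * (B * μ) ≤ 2 ^ K * (B * μ) := mul_le_mul_of_nonneg_right hcK (by positivity)
    nlinarith
  nlinarith [b1, b2, b3, b4, q1, q2]

/-- **K2**: windowed, linear, two terminal data -/
theorem scq_dlip (hF : ScBI F) (hF' : ScBI F') {a B ε : ℝ} (ha0 : 0 ≤ a) (K : ℕ) (h : ScAdm a π) (h' : ScAdm a π') {b : ℝ}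
    (hb : b ≤ scLen π) (hb' : b ≤ scLen π')
    (hB : ∀ j, 1 ≤ j → j ≤ K + 1 → ∀ r ∈ Icc 0 b, ∀ z, |scD j F π r z| ≤ B)
    (hB' : ∀ j, 1 ≤ j → j ≤ K + 1 → ∀ r ∈ Icc 0 b, ∀ z, |scD j F' π' r z| ≤ B)
    (hε : ∀ j, 1 ≤ j → j ≤ K → ∀ z, |scD j F' π' b z - scD j F π b z| ≤ ε) :
    ∀ s ∈ Icc 0 b, ∀ j, 1 ≤ j → j ≤ K → ∀ z, |scD j F' π' s z - scD j F π s z| ≤
      2 * (ε + (2 ^ K + 1) * B ^ 2 * ∫ r in s..b, |scAl π' r - scAl π r|)
        * Real.exp (2 * (a * (2 ^ K + 1) * B) * (b - s)) := by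
  intro s0 hs0 j hj1 hjK z
  have hB0 : 0 ≤ B := (abs_nonneg _).trans (hB 1 le_rfl (by omega) s0 hs0 0)
  have hε0 : 0 ≤ ε := (abs_nonneg _).trans (hε 1 le_rfl (by omega) 0)
  set A : ℝ := (2 ^ K + 1) * B ^ 2 with hA
  set κ : ℝ := a * (2 ^ K + 1) * B with hκ
  have hA0 : 0 ≤ A := by positivity
  have hκ0 : 0 ≤ κ := by positivity
  set σ : ℝ → ℝ := fun r => |scAl π' r - scAl π r| with hσ
  have hσi : ∀ u v : ℝ, IntervalIntegrable σ volume u v := fun u v => scq_Al_ii π π' u v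
  have hσ0 : ∀ r, 0 ≤ σ r := fun r => abs_nonneg _
  set m : ℝ → ℝ := fun r => ⨆ p : Fin K × ℝ, |scD (p.1.1 + 1) F' π' r p.2 - scD (p.1.1 + 1) F π r p.2| with hm
  have hbdd : ∀ r ∈ Icc 0 b, BddAbove (range fun p : Fin K × ℝ =>
      |scD (p.1.1 + 1) F' π' r p.2 - scD (p.1.1 + 1) F π r p.2|) := by
    intro r hr
    refine ⟨B + B, ?_⟩
    rintro _ ⟨p, rfl⟩
    have hp := p.1.2
    exact (abs_sub _ _).trans (add_le_add (hB' _ (by omega) (by omega) r hr _) (hB _ (by omega) (by omega) r hr _))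
  have hle : ∀ r ∈ Icc 0 b, ∀ i, 1 ≤ i → i ≤ K → ∀ y, |scD i F' π' r y - scD i F π r y| ≤ m r := by
    intro r hr i hi1 hiK y
    have := le_ciSup (hbdd r hr) ((⟨i - 1, by omega⟩ : Fin K), y)
    simp only at this
    rwa [Nat.sub_add_cancel hi1] at this
  have hm0 : ∀ r, 0 ≤ m r := fun r => Real.iSup_nonneg fun p => abs_nonneg _
  have hI0 : 0 ≤ ∫ r in s0..b, σ r := intervalIntegral.integral_nonneg hs0.2 fun r _ => hσ0 r
  have key := sck_gronwall_back (a := s0) (b := b) (c0 := ε + A * ∫ r in s0..b, σ r) (κ := κ) (ρ := 0) (B := B + B) (m := m)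
    hκ0 le_rfl (by positivity)
    (fun t ht => Real.iSup_le (fun p => by
      have hp := p.1.2
      have ht' : t ∈ Icc 0 b := ⟨hs0.1.trans ht.1, ht.2⟩
      exact (abs_sub _ _).trans (add_le_add (hB' _ (by omega) (by omega) t ht' _) (hB _ (by omega) (by omega) t ht' _)))
      (by positivity))
    (by
      intro t ht μ hμc hμ
      have ht0 : 0 ≤ t := hs0.1.trans ht.1
      have hμ0 : ∀ r ∈ Icc t b, 0 ≤ μ r := fun r hr => (hm0 r).trans (hμ r hr)
      have hμi : IntervalIntegrable (fun r => κ * μ r) volume t b := (hμc.const_mul κ |>.intervalIntegrable t b)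
      have hJ0 : 0 ≤ ∫ r in t..b, κ * μ r :=
        intervalIntegral.integral_nonneg ht.2 fun r hr => mul_nonneg hκ0 (hμ0 r hr)
      have hsplit : ∫ r in t..b, σ r ≤ ∫ r in s0..b, σ r := by
        rw [← intervalIntegral.integral_add_adjacent_intervals (hσi s0 t) (hσi t b)]
        have : 0 ≤ ∫ r in s0..t, σ r := intervalIntegral.integral_nonneg ht.1 fun r _ => hσ0 r
        linarith
      simp only [add_zero]
      refine Real.iSup_le (fun p => ?_) (by positivity)
      obtain ⟨i, y⟩ := p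
      have hi := i.2
      have hdy := scq_dyn hF hF' h.pos h'.pos ht0 ht.2 hb hb' (i.1 + 1)
      have hg : IntervalIntegrable (fun r => A * σ r + κ * μ r) volume t b := ((hσi t b).const_mul A).add hμi
      have hG : ∀ r ∈ Ioo t b, ∀ y, |scqG (i.1 + 1) F F' π π' r y| ≤ A * σ r + κ * μ r := by
        intro r hr y
        have hr' : r ∈ Icc 0 b := ⟨ht0.trans hr.1.le, hr.2.le⟩
        exact scq_G_le hF hF' K i.1 (by omega) (sc_Al_mem ha0 h r) (fun j h1 h2 z => hB j h1 h2 r hr' z)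
          (fun j h1 h2 z => hB' j h1 h2 r hr' z)
          (fun j h1 h2 z => (hle r hr' j h1 h2 z).trans (hμ r ⟨hr.1.le, hr.2.le⟩)) y
      have hdu := scb_duhamel hF' h'.pos ht0 ht.2 hb' hdy hg hG y
      have hc : Continuous (fun y => scD (i.1 + 1) F' π' b y - scD (i.1 + 1) F π b y) :=
        (sc_D_E hF' (i.1 + 1) 0 π' b).continuous.sub (sc_D_E hF (i.1 + 1) 0 π b).continuous
      have hP := sc_Pt_abs_le hF' hc (fun y => hε (i.1 + 1) (by omega) (by omega) y) π' t b y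
      have hint : ∫ r in t..b, (A * σ r + κ * μ r) = A * (∫ r in t..b, σ r) + ∫ r in t..b, κ * μ r := by
        rw [intervalIntegral.integral_add ((hσi t b).const_mul A) hμi, intervalIntegral.integral_const_mul]
      rw [hint] at hdu
      have h3 : A * (∫ r in t..b, σ r) ≤ A * ∫ r in s0..b, σ r := mul_le_mul_of_nonneg_left hsplit hA0
      have h4 := abs_sub_abs_le_abs_sub (scD (i.1 + 1) F' π' t y - scD (i.1 + 1) F π t y)
        (scPt F' π' t b (fun y => scD (i.1 + 1) F' π' b y - scD (i.1 + 1) F π b y) y)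
      rw [abs_sub_comm (scD (i.1 + 1) F' π' t y - scD (i.1 + 1) F π t y)] at h4
      simp only at hdu ⊢
      linarith)
    s0 ⟨le_rfl, hs0.2⟩
  simp only [zero_mul, add_zero] at key
  exact (hle s0 hs0 j hj1 hjK z).trans key

end K2

/-! ## 2. the second moment of the planted field -/

theorem scq_lin_of_zero {f f' : ℝ → ℝ} (hd : ∀ x, HasDerivAt f (f' x) x) (h0 : f 0 = 0) {B : ℝ} (hB : ∀ x, |f' x| ≤ B)
    (y : ℝ) : |f y| ≤ B * |y| := by
  have := Convex.norm_image_sub_le_of_norm_hasDerivWithin_le (f := f) (f' := f') (C := B) (s := univ) (x := 0) (y := y)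
    (fun x _ => (hd x).hasDerivWithinAt) (fun x _ => by simpa using hB x) convex_univ (mem_univ _) (mem_univ _)
  simpa [h0] using this

theorem scq_even_deriv_zero {g : ℝ → ℝ} (hg : ∀ y, g (-y) = g y) : deriv g 0 = 0 := by
  have h1 := deriv_comp_neg g 0
  have h2 : (fun x => g (-x)) = g := funext hg
  rw [h2, neg_zero] at h1
  linarith

theorem scq_u_le {F : ℝ → ℝ} (hF : ScBI F) (he : ∀ z, F (-z) = F z) (π : List (ℝ × ℝ)) {r B : ℝ}
    (hB : ∀ z, |scD 2 F π r z| ≤ B) (y : ℝ) : |scD 1 F π r y| ≤ B * |y| := by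
  refine scq_lin_of_zero (fun x => sc_D_hasDerivAt hF 1 π r x) ?_ hB y
  have := sc_D_parity hF he 1 π r 0
  simp only [neg_zero, pow_one] at this
  linarith

theorem scq_sq_E (n : ℕ) : ScE n (fun y : ℝ => y ^ 2) := (ScE.id n).pow 2

/-- `E Z_t² ≤ 2 t e^{4 a B t}` -/
theorem scq_mom2 {F : ℝ → ℝ} (hF : ScBI F) (he : ∀ z, F (-z) = F z) {a B : ℝ} (ha : 0 ≤ a) {π : List (ℝ × ℝ)}
    (h : ScAdm a π) {b : ℝ} (hb : b ≤ scLen π) (hB : ∀ r ∈ Icc 0 b, ∀ z, |scD 2 F π r z| ≤ B) :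
    ∀ t ∈ Icc 0 b, scEx F π t (fun y => y ^ 2) ≤ 2 * t * Real.exp (4 * a * B * t) := by
  intro t0 ht0
  have hB0 : 0 ≤ B := (abs_nonneg _).trans (hB t0 ht0 0)
  set n : ℝ → ℝ := fun t => scEx F π t (fun y => y ^ 2) with hn
  have hn0 : ∀ t, 0 ≤ n t := fun t => sc_Pt_nonneg hF (scq_sq_E 0) (fun z => sq_nonneg z) π 0 t 0
  have hcont : ContinuousOn n (Icc 0 t0) := sc_dynkin_continuousOn hF h.pos le_rfl ((scq_sq_E 0).scT (Icc 0 t0)) 0
  obtain ⟨Bd, hBd⟩ := isCompact_Icc.exists_bound_of_continuousOn hcont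
  have d1 : deriv (fun y : ℝ => y ^ 2) = fun y => 2 * y := by
    funext y; simp
  have d2 : deriv (deriv (fun y : ℝ => y ^ 2)) = fun _ => 2 := by
    rw [d1]; funext y
    simp
  have key := sck_gronwall_fwd (a := 0) (b := t0) (c0 := 0) (κ := 2 * a * B) (ρ := 1) (B := Bd) (m := n)
    (by positivity) zero_le_one le_rfl (fun t ht => (le_abs_self _).trans (by simpa using hBd t ht))
    (by
      intro t ht μ hμc hμ
      have htb : t ≤ scLen π := ht.2.trans (ht0.2.trans hb)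
      have hdy := sc_dyn_space hF h.pos (s := 0) (t := t) le_rfl htb (scq_sq_E 2)
      have hfor := sc_dynkin hF h.pos le_rfl ht.1 htb hdy 0
      have hint := sc_dynkin_int hF h.pos le_rfl ht.1 htb hdy 0
      have hle : ∀ r ∈ Icc 0 t, scPt F π 0 r (fun y => deriv (deriv (fun y : ℝ => y ^ 2)) y / 2
          + scAl π r * scD 1 F π r y * deriv (fun y : ℝ => y ^ 2) y) 0 ≤ 2 * a * B * μ r + 1 := by
        intro r hr
        have hr' : r ∈ Icc 0 b := ⟨hr.1, hr.2.trans (ht.2.trans ht0.2)⟩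
        have hα := sc_Al_mem ha h r
        have hE1 : ScE 0 (fun y => deriv (deriv (fun y : ℝ => y ^ 2)) y / 2
            + scAl π r * scD 1 F π r y * deriv (fun y : ℝ => y ^ 2) y) := by
          rw [d2, d1]
          exact (ScE.const 0 _).add ((((sc_D_E hF 1 0 π r).const_mul _)).mul ((ScE.id 0).const_mul 2))
        have hE2 : ScE 0 (fun y : ℝ => 1 + 2 * a * B * y ^ 2) := (ScE.const 0 1).add ((scq_sq_E 0).const_mul _)
        have h1 := sc_Pt_mono hF hE1 hE2 (fun y => by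
          rw [d2, d1]
          have hu := scq_u_le hF he π (hB r hr') y
          have h2 : scD 1 F π r y * y ≤ B * y ^ 2 := by
            calc scD 1 F π r y * y ≤ |scD 1 F π r y * y| := le_abs_self _
              _ = |scD 1 F π r y| * |y| := abs_mul _ _
              _ ≤ B * |y| * |y| := mul_le_mul_of_nonneg_right hu (abs_nonneg _)
              _ = B * y ^ 2 := by rw [mul_assoc, abs_mul_abs_self, sq]
          have h3 : scAl π r * (scD 1 F π r y * y) ≤ a * (B * y ^ 2) := by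
            have h4 : scAl π r * (scD 1 F π r y * y) ≤ scAl π r * (B * y ^ 2) := mul_le_mul_of_nonneg_left h2 hα.1
            have h5 : scAl π r * (B * y ^ 2) ≤ a * (B * y ^ 2) := mul_le_mul_of_nonneg_right hα.2 (by positivity)
            linarith
          simp only
          nlinarith) π 0 r 0
        rw [sc_Pt_add hF (ScE.const 0 1) ((scq_sq_E 0).const_mul _), sc_Pt_const hF, sc_Pt_const_mul] at h1
        have h6 : n r ≤ μ r := hμ r hr
        have h7 : 2 * a * B * n r ≤ 2 * a * B * μ r := mul_le_mul_of_nonneg_left h6 (by positivity)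
        simp only [hn, scEx] at h7
        linarith
      have hgi : IntervalIntegrable (fun r => 2 * a * B * μ r + 1) volume 0 t :=
        ((hμc.const_mul _).add continuous_const).intervalIntegrable 0 t
      have := intervalIntegral.integral_mono_on ht.1 hint hgi hle
      simp only [hn, scEx, zero_add]
      simp only [ne_eq, OfNat.ofNat_ne_zero, not_false_eq_true, zero_pow, sub_zero] at hfor
      linarith)
    t0 ⟨ht0.1, le_rfl⟩
  simp only [zero_add, one_mul, sub_zero] at key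
  refine key.trans (le_of_eq ?_)
  congr 2
  ring

/-! ## 3. K3: the law of the planted field tested on EVEN functions, with the parity gain -/

/-- **K3**.   `Γ` = bound of `∂_z² P'_{r,t} ψ`, `D r` = distance of the two Hessians at the time `r`, `B` = bound of the Hessian of `(F, π)`. -/
theorem scq_llip {F F' ψ : ℝ → ℝ} (hF : ScBI F) (hF' : ScBI F') (he : ∀ z, F (-z) = F z) (he' : ∀ z, F' (-z) = F' z)
    (hψ : ScE 2 ψ) (hψe : ∀ z, ψ (-z) = ψ z) {a B Γ : ℝ} (ha : 0 ≤ a) {π π' : List (ℝ × ℝ)} (h : ScAdm a π)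
    (h' : ScAdm a π') {t : ℝ} (h0 : 0 ≤ t) (ht : t ≤ scLen π) (ht' : t ≤ scLen π')
    (hB : ∀ r ∈ Icc 0 t, ∀ z, |scD 2 F π r z| ≤ B)
    (hΓ : ∀ r ∈ Icc 0 t, ∀ y, |deriv (deriv (scPt F' π' r t ψ)) y| ≤ Γ)
    {D H : ℝ → ℝ} (hD : ∀ r ∈ Icc 0 t, ∀ y, |scD 2 F π r y - scD 2 F' π' r y| ≤ D r)
    (hH : ∀ r ∈ Icc 0 t, (B * |scAl π r - scAl π' r| + scAl π' r * D r) * r ≤ H r)
    (hHi : IntervalIntegrable H volume 0 t) :
    |scEx F π t ψ - scEx F' π' t ψ| ≤ 2 * Γ * Real.exp (4 * a * B * t) * ∫ r in (0 : ℝ)..t, H r := by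
  have hB0 : 0 ≤ B := (abs_nonneg _).trans (hB t ⟨h0, le_rfl⟩ 0)
  have hΓ0 : 0 ≤ Γ := (abs_nonneg _).trans (hΓ t ⟨h0, le_rfl⟩ 0)
  unfold scEx
  rw [sc_duhamel_P hF hF' hψ h.pos h'.pos le_rfl h0 ht ht' 0]
  have hb : ∀ r ∈ Ioc 0 t, ‖scPt F π 0 r (fun y => (scAl π r * scD 1 F π r y - scAl π' r * scD 1 F' π' r y)
      * deriv (scPt F' π' r t ψ) y) 0‖ ≤ 2 * Γ * Real.exp (4 * a * B * t) * H r := by
    intro r hr
    have hr' : r ∈ Icc 0 t := ⟨hr.1.le, hr.2⟩
    set c : ℝ := B * |scAl π r - scAl π' r| + scAl π' r * D r with hc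
    have hα' := sc_Al_mem ha h' r
    have hD0 : 0 ≤ D r := (abs_nonneg _).trans (hD r hr' 0)
    have hc0 : 0 ≤ c := add_nonneg (mul_nonneg hB0 (abs_nonneg _)) (mul_nonneg hα'.1 hD0)
    have hPE : ScE 2 (scPt F' π' r t ψ) := sc_Pt_E hF' hψ π' r t
    -- the drift difference
    have h1 : ∀ y, |scAl π r * scD 1 F π r y - scAl π' r * scD 1 F' π' r y| ≤ c * |y| := by
      intro y
      have e : scAl π r * scD 1 F π r y - scAl π' r * scD 1 F' π' r y
          = (scAl π r - scAl π' r) * scD 1 F π r y + scAl π' r * (scD 1 F π r y - scD 1 F' π' r y) := by ring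
      have u1 := scq_u_le hF he π (hB r hr') y
      have u2 : |scD 1 F π r y - scD 1 F' π' r y| ≤ D r * |y| := by
        refine scq_lin_of_zero (f := fun y => scD 1 F π r y - scD 1 F' π' r y)
          (fun x => (sc_D_hasDerivAt hF 1 π r x).sub (sc_D_hasDerivAt hF' 1 π' r x)) ?_ (hD r hr') y
        have p1 := sc_D_parity hF he 1 π r 0
        have p2 := sc_D_parity hF' he' 1 π' r 0
        simp only [neg_zero, pow_one] at p1 p2
        linarith
      rw [e]
      refine (abs_add_le _ _).trans ?_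
      rw [abs_mul, abs_mul, abs_of_nonneg hα'.1]
      have q1 : |scAl π r - scAl π' r| * |scD 1 F π r y| ≤ |scAl π r - scAl π' r| * (B * |y|) :=
        mul_le_mul_of_nonneg_left u1 (abs_nonneg _)
      have q2 : scAl π' r * |scD 1 F π r y - scD 1 F' π' r y| ≤ scAl π' r * (D r * |y|) :=
        mul_le_mul_of_nonneg_left u2 hα'.1
      rw [hc]
      nlinarith
    -- the gradient of the backward transition
    have h2 : ∀ y, |deriv (scPt F' π' r t ψ) y| ≤ Γ * |y| := by
      intro y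
      refine scq_lin_of_zero (f := deriv (scPt F' π' r t ψ)) (f' := deriv (deriv (scPt F' π' r t ψ)))
        (fun x => (hPE.deriv.differentiable x).hasDerivAt) ?_ (hΓ r hr') y
      exact scq_even_deriv_zero (fun y => sc_Pt_even he' hψe π' r t y)
    have hΦE : ScE 0 (fun y => (scAl π r * scD 1 F π r y - scAl π' r * scD 1 F' π' r y)
        * deriv (scPt F' π' r t ψ) y) :=
      (((sc_D_E hF 1 0 π r).const_mul _).sub ((sc_D_E hF' 1 0 π' r).const_mul _)).mul hPE.deriv.of_succ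
    have hΦ : ∀ y, |(scAl π r * scD 1 F π r y - scAl π' r * scD 1 F' π' r y) * deriv (scPt F' π' r t ψ) y|
        ≤ c * Γ * y ^ 2 := by
      intro y
      rw [abs_mul]
      calc _ ≤ (c * |y|) * (Γ * |y|) := mul_le_mul (h1 y) (h2 y) (abs_nonneg _) (by positivity)
        _ = c * Γ * (|y| * |y|) := by ring
        _ = c * Γ * y ^ 2 := by rw [abs_mul_abs_self, sq]
    have hME : ScE 0 (fun y : ℝ => c * Γ * y ^ 2) := (scq_sq_E 0).const_mul _
    have up := sc_Pt_mono hF hΦE hME (fun y => (le_abs_self _).trans (hΦ y)) π 0 r 0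
    have lo := sc_Pt_mono hF (hME.neg) hΦE (fun y => by have := hΦ y; rw [abs_le] at this; exact this.1) π 0 r 0
    have eneg : (fun y : ℝ => -(c * Γ * y ^ 2)) = fun y => (-(c * Γ)) * y ^ 2 := by funext y; ring
    rw [eneg, sc_Pt_const_mul] at lo
    rw [sc_Pt_const_mul] at up
    have hmom := scq_mom2 hF he ha h ht hB r hr'
    unfold scEx at hmom
    have hexp : Real.exp (4 * a * B * r) ≤ Real.exp (4 * a * B * t) :=
      Real.exp_le_exp.2 (mul_le_mul_of_nonneg_left hr.2 (by positivity))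
    have hn0 : 0 ≤ scPt F π 0 r (fun y => y ^ 2) 0 := sc_Pt_nonneg hF (scq_sq_E 0) (fun z => sq_nonneg z) π 0 r 0
    have hmom' : scPt F π 0 r (fun y => y ^ 2) 0 ≤ 2 * r * Real.exp (4 * a * B * t) :=
      hmom.trans (mul_le_mul_of_nonneg_left hexp (by linarith [hr.1]))
    rw [Real.norm_eq_abs, abs_le]
    have hcΓ : 0 ≤ c * Γ := by positivity
    have hfin : c * Γ * scPt F π 0 r (fun y => y ^ 2) 0 ≤ 2 * Γ * Real.exp (4 * a * B * t) * H r := by
      calc c * Γ * scPt F π 0 r (fun y => y ^ 2) 0 ≤ c * Γ * (2 * r * Real.exp (4 * a * B * t)) :=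
            mul_le_mul_of_nonneg_left hmom' hcΓ
        _ = 2 * Γ * Real.exp (4 * a * B * t) * (c * r) := by ring
        _ ≤ _ := mul_le_mul_of_nonneg_left (hH r hr') (by positivity)
    constructor
    · simp only at lo; nlinarith
    · simp only at up; linarith
  have h1 := intervalIntegral.norm_integral_le_of_norm_le h0 (Eventually.of_forall hb) (hHi.const_mul _)
  rw [Real.norm_eq_abs, intervalIntegral.integral_const_mul] at h1
  exact h1

end Claimed.Agent.R286
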