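import Claimed.Agent.R286.Sc.DynC
import Claimed.Agent.R286.Sc.Tau
import Claimed.Agent.R286.Sc.LimKit
import Claimed.Agent.R286.Sc.GenDefs
import Claimed.Agent.R286.Sc.Dy

/-!
# Row 286, scalar block: TWO PROFILES, step level      (OWNER helper250, typed + PROVED, 0 sorry; prefix `sc2`)

The PDE drift comparison of LL Lemma `bud:curvature` (07-budgets.tex l.1400-1435, node N12, eq. (C14)), for two step profiles `π, π'` on ARBITRARY grids,
same length `τ`, masses nondecreasing in `[0,a]`, even terminal datum `F` with `ScN 4 A F'`.   `δ = scAl π - scAl π'`,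
      `J(t) = ∫_t^τ |δ|`   (`sc2J`),         `W(t) = ∫_0^t r (|δ(r)| + J(r)) dr`   (`sc2W`).
* `sc2_T1`  `|∂^k V - ∂^k V'|(t,z) ≤ C J(t)`, `1 ≤ k ≤ 4`  (LIPSCHITZ rate: linear equation for the differences + Dynkin + Gronwall; no interpolation).
* `sc2_T2`  odd derivatives gain `|z|`.
* `sc2_mom2`  `E Z_t² ≤ C t`.
* `sc2_T3`  change of the forward diffusion, bounded `C²` EVEN observable: `|E ψ(Z_t) - E' ψ(Z_t)| ≤ C M W(t)`.
* `sc2_T4`  `|M2 - M2'|, |M3 - M3'| ≤ C (J + W)`,   `|N3 - N3'|, |Γ - Γ'| ≤ C (t J + W)`,   `N3 ≤ C t`.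
All constants depend only on `(a, τ, A)`.   General profiles, the calculus of (C14) and the exit `TEX[LL:bud:curvature]`: `Sc/TwoX.lean`.
-/

set_option autoImplicit false

namespace Claimed.Agent.R286

open MeasureTheory ProbabilityTheory Filter Topology Set

noncomputable section

/-- `J(t) = ∫_t^τ |α - α'|` -/
def sc2J (α α' : ℝ → ℝ) (τ t : ℝ) : ℝ := ∫ r in t..τ, |α r - α' r|

/-- `W(t) = ∫_0^t r (|α - α'|(r) + J(r)) dr` -/
def sc2W (α α' : ℝ → ℝ) (τ t : ℝ) : ℝ := ∫ r in (0 : ℝ)..t, r * (|α r - α' r| + sc2J α α' τ r)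

/-- standing hypotheses on a pair of step profiles -/
structure Sc2H (a τ A : ℝ) (F : ℝ → ℝ) (π π' : List (ℝ × ℝ)) : Prop where
  bi : ScBI F
  ev : ∀ z, F (-z) = F z
  nF : ScN 4 A (deriv F)
  adm : ScAdm a π
  adm' : ScAdm a π'
  inc : ScInc π
  inc' : ScInc π'
  len : scLen π = τ
  len' : scLen π' = τ

theorem Sc2H.symm {a τ A : ℝ} {F : ℝ → ℝ} {π π' : List (ℝ × ℝ)} (h : Sc2H a τ A F π π') : Sc2H a τ A F π' π :=
  ⟨h.bi, h.ev, h.nF, h.adm', h.adm, h.inc', h.inc, h.len', h.len⟩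

/-! ## A. the two weights -/

theorem sc2J_comm (α α' : ℝ → ℝ) (τ t : ℝ) : sc2J α α' τ t = sc2J α' α τ t := by
  unfold sc2J
  simp only [abs_sub_comm]

theorem sc2W_comm (α α' : ℝ → ℝ) (τ t : ℝ) : sc2W α α' τ t = sc2W α' α τ t := by
  unfold sc2W
  simp only [abs_sub_comm, sc2J_comm α α']

theorem sc2J_nonneg (α α' : ℝ → ℝ) {τ t : ℝ} (ht : t ≤ τ) : 0 ≤ sc2J α α' τ t :=
  intervalIntegral.integral_nonneg ht fun _ _ => abs_nonneg _

theorem sc2J_anti {α α' : ℝ → ℝ} {τ : ℝ} (hI : IntervalIntegrable (fun r => |α r - α' r|) volume 0 τ) {s t : ℝ} (hs : 0 ≤ s)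
    (hst : s ≤ t) (ht : t ≤ τ) : sc2J α α' τ t ≤ sc2J α α' τ s := by
  unfold sc2J
  refine intervalIntegral.integral_mono_interval hst ht le_rfl (Filter.Eventually.of_forall fun _ => abs_nonneg _) ?_
  refine hI.mono_set ?_
  rw [uIcc_of_le (hst.trans ht), uIcc_of_le (hs.trans (hst.trans ht))]
  exact Icc_subset_Icc hs le_rfl

theorem sc2J_eq {α α' : ℝ → ℝ} {τ : ℝ} (hτ : 0 ≤ τ) (hI : IntervalIntegrable (fun r => |α r - α' r|) volume 0 τ) {t : ℝ}
    (ht : t ∈ Icc 0 τ) : sc2J α α' τ t = (∫ r in (0 : ℝ)..τ, |α r - α' r|) - ∫ r in (0 : ℝ)..t, |α r - α' r| := by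
  unfold sc2J
  have h1 : IntervalIntegrable (fun r => |α r - α' r|) volume 0 t := by
    refine hI.mono_set ?_
    rw [uIcc_of_le ht.1, uIcc_of_le hτ]
    exact Icc_subset_Icc le_rfl ht.2
  have h2 : IntervalIntegrable (fun r => |α r - α' r|) volume t τ := by
    refine hI.mono_set ?_
    rw [uIcc_of_le ht.2, uIcc_of_le hτ]
    exact Icc_subset_Icc ht.1 le_rfl
  rw [← intervalIntegral.integral_add_adjacent_intervals h1 h2]
  ring

theorem sc2J_continuousOn {α α' : ℝ → ℝ} {τ : ℝ} (hτ : 0 ≤ τ) (hI : IntervalIntegrable (fun r => |α r - α' r|) volume 0 τ) :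
    ContinuousOn (sc2J α α' τ) (Icc 0 τ) := by
  have h1 : ContinuousOn (fun t => ∫ r in (0 : ℝ)..t, |α r - α' r|) (uIcc 0 τ) :=
    intervalIntegral.continuousOn_primitive_interval ((intervalIntegrable_iff_integrableOn_Icc_of_le hτ).1 hI |>.mono_set (by rw [uIcc_of_le hτ]))
  rw [uIcc_of_le hτ] at h1
  exact (continuousOn_const.sub h1).congr fun t ht => sc2J_eq hτ hI ht

theorem sc2W_nonneg (α α' : ℝ → ℝ) {τ t : ℝ} (h0 : 0 ≤ t) (ht : t ≤ τ) : 0 ≤ sc2W α α' τ t :=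
  intervalIntegral.integral_nonneg h0 fun _ hr =>
    mul_nonneg hr.1 (add_nonneg (abs_nonneg _) (sc2J_nonneg α α' (hr.2.trans ht)))

theorem sc2W_int {α α' : ℝ → ℝ} {τ : ℝ} (hτ : 0 ≤ τ) (hI : IntervalIntegrable (fun r => |α r - α' r|) volume 0 τ) :
    IntervalIntegrable (fun r => r * (|α r - α' r| + sc2J α α' τ r)) volume 0 τ := by
  have h1 : IntervalIntegrable (sc2J α α' τ) volume 0 τ := by
    refine ContinuousOn.intervalIntegrable ?_
    rw [uIcc_of_le hτ]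
    exact sc2J_continuousOn hτ hI
  exact (hI.add h1).continuousOn_mul continuousOn_id

theorem sc2_al_int {a : ℝ} (ha : 0 ≤ a) {π π' : List (ℝ × ℝ)} (h : ScAdm a π) (h' : ScAdm a π') (s t : ℝ) :
    IntervalIntegrable (fun r => |scAl π r - scAl π' r|) volume s t :=
  ((sc_dy_al_intervalIntegrable ha h s t).sub (sc_dy_al_intervalIntegrable ha h' s t)).abs

/-! ## B. uniform bounds -/

/-- one constant for `∂^k V`, `1 ≤ k ≤ 5` -/
theorem sc2_bd {a A : ℝ} (ha : 0 ≤ a) (hA : 0 ≤ A) : ∃ Cb : ℝ, 1 ≤ Cb ∧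
    ∀ (F : ℝ → ℝ) (π : List (ℝ × ℝ)), ScBI F → ScN 4 A (deriv F) → ScAdm a π → ScInc π →
      ∀ k, 1 ≤ k → k ≤ 5 → ∀ t z, |scD k F π t z| ≤ Cb := by
  obtain ⟨C, _, H⟩ := sc_tau_D ha 4 hA
  refine ⟨max C 1, le_max_right _ _, fun F π hF hN hπ hi k hk1 hk5 t z => ?_⟩
  obtain ⟨j, rfl⟩ : ∃ j, k = j + 1 := ⟨k - 1, by omega⟩
  exact (H F π hF hN hπ hi j (by omega) t z).trans (le_max_left _ _)

/-- an odd function with bounded derivative -/
theorem sc2_odd_le {f f' : ℝ → ℝ} {C : ℝ} (hd : ∀ z, HasDerivAt f (f' z) z) (hb : ∀ z, |f' z| ≤ C) (h0 : f 0 = 0) (z : ℝ) :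
    |f z| ≤ C * |z| := by
  have := Convex.norm_image_sub_le_of_norm_hasDerivWithin_le (f := f) (f' := f') (s := univ) (C := C)
    (fun x _ => (hd x).hasDerivWithinAt) (fun x _ => by rw [Real.norm_eq_abs]; exact hb x) convex_univ (mem_univ 0) (mem_univ z)
  simpa [h0] using this

/-! ## C. (T1): the derivatives of the continuation -/

/-- Duhamel bound for a test function with zero terminal value -/
theorem sc2_duh {F : ℝ → ℝ} (hF : ScBI F) {π : List (ℝ × ℝ)} (hπ : ScPos π) {s t : ℝ} (hs : 0 ≤ s) (hst : s ≤ t)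
    (ht : t ≤ scLen π) {φ G : ℝ → ℝ → ℝ} (h : ScDyn F π s t φ G) (hT : ∀ y, φ t y = 0) {g : ℝ → ℝ}
    (hg : IntervalIntegrable g volume s t) (hc : ∀ r ∈ Icc s t, Continuous (G r))
    (hb : ∀ r ∈ Icc s t, ∀ y, |G r y| ≤ g r) (z : ℝ) : |φ s z| ≤ ∫ r in s..t, g r := by
  have hd := sc_dynkin hF hπ hs hst ht h z
  have e : φ t = fun _ => (0 : ℝ) := funext hT
  rw [e, sc_Pt_const hF] at hd
  have h1 : ‖∫ r in s..t, scPt F π s r (G r) z‖ ≤ ∫ r in s..t, g r := by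
    refine intervalIntegral.norm_integral_le_of_norm_le hst (Filter.Eventually.of_forall fun r hr => ?_) hg
    rw [Real.norm_eq_abs]
    exact sc_Pt_abs_le hF (hc r ⟨hr.1.le, hr.2⟩) (hb r ⟨hr.1.le, hr.2⟩) π s r z
  rw [← hd, Real.norm_eq_abs, zero_sub, abs_neg] at h1
  exact h1

theorem sc2_lin {x1 x2 x3 x4 c1 c2 c3 c4 d δ K D m : ℝ} (h1 : |c1| ≤ K) (h2 : |c2| ≤ K) (h3 : |c3| ≤ K) (h4 : |c4| ≤ K)
    (hd : |d| ≤ D) (hm : |x1| + |x2| + |x3| + |x4| ≤ m) :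
    |c1 * x1 + c2 * x2 + c3 * x3 + c4 * x4 + d * δ| ≤ K * m + D * |δ| := by
  have hK : 0 ≤ K := (abs_nonneg _).trans h1
  have t1 : |c1 * x1| ≤ K * |x1| := by rw [abs_mul]; exact mul_le_mul_of_nonneg_right h1 (abs_nonneg _)
  have t2 : |c2 * x2| ≤ K * |x2| := by rw [abs_mul]; exact mul_le_mul_of_nonneg_right h2 (abs_nonneg _)
  have t3 : |c3 * x3| ≤ K * |x3| := by rw [abs_mul]; exact mul_le_mul_of_nonneg_right h3 (abs_nonneg _)
  have t4 : |c4 * x4| ≤ K * |x4| := by rw [abs_mul]; exact mul_le_mul_of_nonneg_right h4 (abs_nonneg _)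
  have t5 : |d * δ| ≤ D * |δ| := by rw [abs_mul]; exact mul_le_mul_of_nonneg_right hd (abs_nonneg _)
  have s1 := abs_add_le (c1 * x1 + c2 * x2 + c3 * x3 + c4 * x4) (d * δ)
  have s2 := abs_add_le (c1 * x1 + c2 * x2 + c3 * x3) (c4 * x4)
  have s3 := abs_add_le (c1 * x1 + c2 * x2) (c3 * x3)
  have s4 := abs_add_le (c1 * x1) (c2 * x2)
  have s5 : K * (|x1| + |x2| + |x3| + |x4|) ≤ K * m := mul_le_mul_of_nonneg_left hm hK
  linarith

theorem sc2_ab {al a x X : ℝ} (h0 : 0 ≤ al) (h1 : al ≤ a) (hx : |x| ≤ X) : |al * x| ≤ a * X := by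
  rw [abs_mul, abs_of_nonneg h0]
  exact mul_le_mul h1 hx (abs_nonneg _) (h0.trans h1)

theorem sc2_pp {x y C : ℝ} (hx : |x| ≤ C) (hy : |y| ≤ C) : |x * y| ≤ C ^ 2 := by
  rw [abs_mul, sq]
  exact mul_le_mul hx hy (abs_nonneg _) ((abs_nonneg _).trans hx)

/-- the generators of the differences `∂^k V - ∂^k V'`, `k = 1, .., 4`, are linear in the differences and in `α - α'` -/
theorem sc2_Gbd {a Cb al al' v1 v2 v3 v4 w1 w2 w3 w4 w5 m : ℝ} (h0 : 0 ≤ al) (h1 : al ≤ a)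
    (a2 : |v2| ≤ Cb) (a3 : |v3| ≤ Cb) (a4 : |v4| ≤ Cb)
    (b1 : |w1| ≤ Cb) (b2 : |w2| ≤ Cb) (b3 : |w3| ≤ Cb) (b4 : |w4| ≤ Cb) (b5 : |w5| ≤ Cb)
    (hm : |v1 - w1| + |v2 - w2| + |v3 - w3| + |v4 - w4| ≤ m) :
    |0 - (0 + (al * v1 - al' * w1) * w2)| ≤ a * (6 * Cb) * m + 8 * Cb ^ 2 * |al - al'| ∧
    |-(al * v2 ^ 2) - (-(al' * w2 ^ 2) + (al * v1 - al' * w1) * w3)| ≤ a * (6 * Cb) * m + 8 * Cb ^ 2 * |al - al'| ∧
    |-(al * (3 * v2 * v3)) - (-(al' * (3 * w2 * w3)) + (al * v1 - al' * w1) * w4)|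
      ≤ a * (6 * Cb) * m + 8 * Cb ^ 2 * |al - al'| ∧
    |-(al * (4 * v2 * v4 + 3 * v3 ^ 2)) - (-(al' * (4 * w2 * w4 + 3 * w3 ^ 2)) + (al * v1 - al' * w1) * w5)|
      ≤ a * (6 * Cb) * m + 8 * Cb ^ 2 * |al - al'| := by
  have hC : 0 ≤ Cb := (abs_nonneg _).trans a2
  have A2 := abs_le.1 a2
  have A3 := abs_le.1 a3
  have A4 := abs_le.1 a4
  have B2 := abs_le.1 b2
  have B3 := abs_le.1 b3
  have B4 := abs_le.1 b4
  have B5 := abs_le.1 b5
  have p12 := abs_le.1 (sc2_pp b1 b2)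
  have p13 := abs_le.1 (sc2_pp b1 b3)
  have p14 := abs_le.1 (sc2_pp b1 b4)
  have p15 := abs_le.1 (sc2_pp b1 b5)
  have p22 := abs_le.1 (sc2_pp b2 b2)
  have p23 := abs_le.1 (sc2_pp b2 b3)
  have p24 := abs_le.1 (sc2_pp b2 b4)
  have p33 := abs_le.1 (sc2_pp b3 b3)
  have hsq : 0 ≤ Cb ^ 2 := sq_nonneg _
  have z0 : |al * 0| ≤ a * (6 * Cb) := sc2_ab h0 h1 (by rw [abs_zero]; positivity)
  refine ⟨?_, ?_, ?_, ?_⟩
  · have := sc2_lin (x1 := v1 - w1) (x2 := v2 - w2) (x3 := v3 - w3) (x4 := v4 - w4) (δ := al - al')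
      (c1 := al * (-w2)) (c2 := al * 0) (c3 := al * 0) (c4 := al * 0) (d := -(w1 * w2)) (K := a * (6 * Cb)) (D := 8 * Cb ^ 2)
      (sc2_ab h0 h1 (abs_le.2 ⟨by linarith, by linarith⟩)) z0 z0 z0 (abs_le.2 ⟨by linarith, by linarith⟩) hm
    refine le_trans (le_of_eq ?_) this
    congr 1; ring
  · have := sc2_lin (x1 := v1 - w1) (x2 := v2 - w2) (x3 := v3 - w3) (x4 := v4 - w4) (δ := al - al')
      (c1 := al * (-w3)) (c2 := al * (-(v2 + w2))) (c3 := al * 0) (c4 := al * 0) (d := -(w2 * w2 + w1 * w3))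
      (K := a * (6 * Cb)) (D := 8 * Cb ^ 2)
      (sc2_ab h0 h1 (abs_le.2 ⟨by linarith, by linarith⟩)) (sc2_ab h0 h1 (abs_le.2 ⟨by linarith, by linarith⟩)) z0 z0
      (abs_le.2 ⟨by linarith, by linarith⟩) hm
    refine le_trans (le_of_eq ?_) this
    congr 1; ring
  · have := sc2_lin (x1 := v1 - w1) (x2 := v2 - w2) (x3 := v3 - w3) (x4 := v4 - w4) (δ := al - al')
      (c1 := al * (-w4)) (c2 := al * (-(3 * v3))) (c3 := al * (-(3 * w2))) (c4 := al * 0) (d := -(3 * (w2 * w3) + w1 * w4))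
      (K := a * (6 * Cb)) (D := 8 * Cb ^ 2)
      (sc2_ab h0 h1 (abs_le.2 ⟨by linarith, by linarith⟩)) (sc2_ab h0 h1 (abs_le.2 ⟨by linarith, by linarith⟩))
      (sc2_ab h0 h1 (abs_le.2 ⟨by linarith, by linarith⟩)) z0 (abs_le.2 ⟨by linarith, by linarith⟩) hm
    refine le_trans (le_of_eq ?_) this
    congr 1; ring
  · have := sc2_lin (x1 := v1 - w1) (x2 := v2 - w2) (x3 := v3 - w3) (x4 := v4 - w4) (δ := al - al')
      (c1 := al * (-w5)) (c2 := al * (-(4 * v4))) (c3 := al * (-(3 * (v3 + w3)))) (c4 := al * (-(4 * w2)))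
      (d := -(4 * (w2 * w4) + 3 * (w3 * w3) + w1 * w5)) (K := a * (6 * Cb)) (D := 8 * Cb ^ 2)
      (sc2_ab h0 h1 (abs_le.2 ⟨by linarith, by linarith⟩)) (sc2_ab h0 h1 (abs_le.2 ⟨by linarith, by linarith⟩))
      (sc2_ab h0 h1 (abs_le.2 ⟨by linarith, by linarith⟩)) (sc2_ab h0 h1 (abs_le.2 ⟨by linarith, by linarith⟩))
      (abs_le.2 ⟨by linarith, by linarith⟩) hm
    refine le_trans (le_of_eq ?_) this
    congr 1; ring

/-- **(T1)** PDE drift comparison, Lipschitz rate -/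
theorem sc2_T1 {a τ A : ℝ} (ha : 0 ≤ a) (_hτ : 0 ≤ τ) (hA : 0 ≤ A) : ∃ C : ℝ, 0 ≤ C ∧
    ∀ (F : ℝ → ℝ) (π π' : List (ℝ × ℝ)), Sc2H a τ A F π π' → ∀ t ∈ Icc 0 τ, ∀ k, 1 ≤ k → k ≤ 4 → ∀ z,
      |scD k F π t z - scD k F π' t z| ≤ C * sc2J (scAl π) (scAl π') τ t := by
  obtain ⟨Cb, hCb1, HB⟩ := sc2_bd ha hA
  have hCb0 : 0 ≤ Cb := zero_le_one.trans hCb1
  refine ⟨64 * Cb ^ 2 * Real.exp (48 * a * Cb * τ), by positivity, fun F π π' H t0 ht0 => ?_⟩
  have hF := H.bi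
  have hp := H.adm.pos
  have hp' := H.adm'.pos
  have hlen : τ ≤ scLen π := H.len.ge
  have hlen' : τ ≤ scLen π' := H.len'.ge
  have hδI : ∀ s t, IntervalIntegrable (fun r => |scAl π r - scAl π' r|) volume s t := sc2_al_int ha H.adm H.adm'
  have bv : ∀ k, 1 ≤ k → k ≤ 5 → ∀ t z, |scD k F π t z| ≤ Cb := HB F π hF H.nF H.adm H.inc
  have bw : ∀ k, 1 ≤ k → k ≤ 5 → ∀ t z, |scD k F π' t z| ≤ Cb := HB F π' hF H.nF H.adm' H.inc'
  have cv : ∀ k r, Continuous (scD k F π r) := fun k r => (sc_D_E hF k 0 π r).continuous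
  have cw : ∀ k r, Continuous (scD k F π' r) := fun k r => (sc_D_E hF k 0 π' r).continuous
  have hterm : ∀ k y, scD k F π τ y - scD k F π' τ y = 0 := fun k y => by
    rw [sc_D_of_le k F hp H.len.le, sc_D_of_le k F hp' H.len'.le, sub_self]
  -- the sum of the differences and its supremum
  set S : ℝ → ℝ → ℝ := fun r y => |scD 1 F π r y - scD 1 F π' r y| + |scD 2 F π r y - scD 2 F π' r y|
    + |scD 3 F π r y - scD 3 F π' r y| + |scD 4 F π r y - scD 4 F π' r y| with hS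
  set m : ℝ → ℝ := fun r => ⨆ y, S r y with hm
  have hdiff : ∀ k, 1 ≤ k → k ≤ 5 → ∀ r y, |scD k F π r y - scD k F π' r y| ≤ 2 * Cb := fun k h1 h5 r y => by
    have := abs_sub (scD k F π r y) (scD k F π' r y)
    linarith [bv k h1 h5 r y, bw k h1 h5 r y]
  have hSb : ∀ r y, S r y ≤ 8 * Cb := fun r y => by
    simp only [hS]
    linarith [hdiff 1 le_rfl (by norm_num) r y, hdiff 2 (by norm_num) (by norm_num) r y,
      hdiff 3 (by norm_num) (by norm_num) r y, hdiff 4 (by norm_num) (by norm_num) r y]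
  have hbdd : ∀ r, BddAbove (range (S r)) := fun r => ⟨8 * Cb, by rintro _ ⟨y, rfl⟩; exact hSb r y⟩
  have hSm : ∀ r y, S r y ≤ m r := fun r y => le_ciSup (hbdd r) y
  -- the integral inequality
  have key : ∀ t ∈ Icc 0 τ, ∀ μ : ℝ → ℝ, Continuous μ → (∀ r ∈ Icc t τ, m r ≤ μ r) → ∀ z,
      S t z ≤ 4 * ∫ r in t..τ, (a * (6 * Cb) * μ r + 8 * Cb ^ 2 * |scAl π r - scAl π' r|) := by
    intro t ht μ hμ hle z
    have hg : IntervalIntegrable (fun r => a * (6 * Cb) * μ r + 8 * Cb ^ 2 * |scAl π r - scAl π' r|) volume t τ :=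
      ((hμ.intervalIntegrable _ _).const_mul _).add ((hδI t τ).const_mul _)
    have P := fun r (hr : r ∈ Icc t τ) y => sc2_Gbd (a := a) (Cb := Cb) (al := scAl π r) (al' := scAl π' r)
      (v1 := scD 1 F π r y) (v2 := scD 2 F π r y) (v3 := scD 3 F π r y) (v4 := scD 4 F π r y)
      (w1 := scD 1 F π' r y) (w2 := scD 2 F π' r y) (w3 := scD 3 F π' r y) (w4 := scD 4 F π' r y) (w5 := scD 5 F π' r y)
      (m := μ r) (sc_Al_mem ha H.adm r).1 (sc_Al_mem ha H.adm r).2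
      (bv 2 (by norm_num) (by norm_num) r y) (bv 3 (by norm_num) (by norm_num) r y) (bv 4 (by norm_num) (by norm_num) r y)
      (bw 1 (by norm_num) (by norm_num) r y) (bw 2 (by norm_num) (by norm_num) r y) (bw 3 (by norm_num) (by norm_num) r y)
      (bw 4 (by norm_num) (by norm_num) r y) (bw 5 (by norm_num) (by norm_num) r y) ((hSm r y).trans (hle r hr))
    have d1 := (sc_dyn_D1 hF hp ht.1 hlen).sub (ScDyn.change hF hF hp hp' ht.1 hlen hlen' (sc_dyn_D1 hF hp' ht.1 hlen'))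
    have d2 := (sc_dyn_D2 hF hp ht.1 hlen).sub (ScDyn.change hF hF hp hp' ht.1 hlen hlen' (sc_dyn_D2 hF hp' ht.1 hlen'))
    have d3 := (sc_dyn_D3 hF hp ht.1 hlen).sub (ScDyn.change hF hF hp hp' ht.1 hlen hlen' (sc_dyn_D3 hF hp' ht.1 hlen'))
    have d4 := (sc_dyn_D4 hF hp ht.1 hlen).sub (ScDyn.change hF hF hp hp' ht.1 hlen hlen' (sc_dyn_D4 hF hp' ht.1 hlen'))
    have e1 := sc2_duh hF hp ht.1 ht.2 hlen d1 (hterm 1) hg
      (fun r _ => by
        simp only [sc_D_succ]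
        have c1 := cv 1 r; have c1' := cw 1 r; have c2' := cw (1 + 1) r
        fun_prop)
      (fun r hr y => by simp only [sc_D_succ]; exact (P r hr y).1) z
    have e2 := sc2_duh hF hp ht.1 ht.2 hlen d2 (hterm 2) hg
      (fun r _ => by
        simp only [sc_D_succ]
        have c1 := cv 1 r; have c2 := cv 2 r; have c1' := cw 1 r; have c2' := cw 2 r; have c3' := cw (2 + 1) r
        fun_prop)
      (fun r hr y => by simp only [sc_D_succ]; exact (P r hr y).2.1) z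
    have e3 := sc2_duh hF hp ht.1 ht.2 hlen d3 (hterm 3) hg
      (fun r _ => by
        simp only [sc_D_succ]
        have c1 := cv 1 r; have c2 := cv 2 r; have c3 := cv 3 r
        have c1' := cw 1 r; have c2' := cw 2 r; have c3' := cw 3 r; have c4' := cw (3 + 1) r
        fun_prop)
      (fun r hr y => by simp only [sc_D_succ]; exact (P r hr y).2.2.1) z
    have e4 := sc2_duh hF hp ht.1 ht.2 hlen d4 (hterm 4) hg
      (fun r _ => by
        simp only [sc_D_succ]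
        have c1 := cv 1 r; have c2 := cv 2 r; have c3 := cv 3 r; have c4 := cv 4 r
        have c1' := cw 1 r; have c2' := cw 2 r; have c3' := cw 3 r; have c4' := cw 4 r; have c5' := cw (4 + 1) r
        fun_prop)
      (fun r hr y => by simp only [sc_D_succ]; exact (P r hr y).2.2.2) z
    simp only [hS]
    linarith
  -- Gronwall
  have hJ0 : 0 ≤ sc2J (scAl π) (scAl π') τ t0 := sc2J_nonneg _ _ ht0.2
  have G := sck_gronwall_back (a := t0) (b := τ) (c0 := 32 * Cb ^ 2 * sc2J (scAl π) (scAl π') τ t0) (κ := 24 * a * Cb)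
    (ρ := 0) (B := 8 * Cb) (m := m) (by positivity) le_rfl (by positivity) (fun t _ => ciSup_le (hSb t))
    (by
      intro t ht μ hμ hle
      have ht' : t ∈ Icc 0 τ := ⟨ht0.1.trans ht.1, ht.2⟩
      refine ciSup_le fun z => (key t ht' μ hμ hle z).trans ?_
      rw [intervalIntegral.integral_add ((hμ.intervalIntegrable _ _).const_mul _) ((hδI t τ).const_mul _),
        intervalIntegral.integral_const_mul, intervalIntegral.integral_const_mul]
      have e : ∫ r in t..τ, (24 * a * Cb * μ r + 0) = 24 * a * Cb * ∫ r in t..τ, μ r := by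
        simp only [add_zero]
        rw [intervalIntegral.integral_const_mul]
      rw [e]
      have hJ : (∫ r in t..τ, |scAl π r - scAl π' r|) ≤ sc2J (scAl π) (scAl π') τ t0 :=
        sc2J_anti (hδI 0 τ) ht0.1 ht.1 ht.2
      have : 0 ≤ Cb ^ 2 := sq_nonneg _
      nlinarith)
    t0 ⟨le_rfl, ht0.2⟩
  have hfin : m t0 ≤ 64 * Cb ^ 2 * Real.exp (48 * a * Cb * τ) * sc2J (scAl π) (scAl π') τ t0 := by
    refine G.trans ?_
    have h1 : Real.exp (2 * (24 * a * Cb) * (τ - t0)) ≤ Real.exp (48 * a * Cb * τ) := by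
      refine Real.exp_le_exp.2 ?_
      have : 0 ≤ a * Cb * t0 := by have := ht0.1; positivity
      nlinarith
    have h2 : 0 ≤ 2 * (32 * Cb ^ 2 * sc2J (scAl π) (scAl π') τ t0 + 0 * (τ - t0)) := by
      rw [zero_mul, add_zero]; positivity
    calc 2 * (32 * Cb ^ 2 * sc2J (scAl π) (scAl π') τ t0 + 0 * (τ - t0)) * Real.exp (2 * (24 * a * Cb) * (τ - t0))
        ≤ 2 * (32 * Cb ^ 2 * sc2J (scAl π) (scAl π') τ t0 + 0 * (τ - t0)) * Real.exp (48 * a * Cb * τ) :=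
          mul_le_mul_of_nonneg_left h1 h2
      _ = _ := by ring
  intro k hk1 hk4 z
  refine le_trans ?_ ((hSm t0 z).trans hfin)
  simp only [hS]
  have n1 := abs_nonneg (scD 1 F π t0 z - scD 1 F π' t0 z)
  have n2 := abs_nonneg (scD 2 F π t0 z - scD 2 F π' t0 z)
  have n3 := abs_nonneg (scD 3 F π t0 z - scD 3 F π' t0 z)
  have n4 := abs_nonneg (scD 4 F π t0 z - scD 4 F π' t0 z)
  interval_cases k <;> linarith

theorem sc2_D_odd_zero {F : ℝ → ℝ} (hF : ScBI F) (hev : ∀ z, F (-z) = F z) (π : List (ℝ × ℝ)) (t : ℝ) :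
    scD 1 F π t 0 = 0 ∧ scD 3 F π t 0 = 0 := by
  have h1 := sc_D_parity hF hev 1 π t 0
  have h3 := sc_D_parity hF hev 3 π t 0
  rw [neg_zero] at h1 h3
  constructor
  · linarith
  · have : ((-1 : ℝ)) ^ 3 = -1 := by norm_num
    rw [this] at h3
    linarith

/-- **(T2)** odd derivatives gain a factor `|z|` -/
theorem sc2_T2 {a τ A : ℝ} (ha : 0 ≤ a) (hτ : 0 ≤ τ) (hA : 0 ≤ A) : ∃ C : ℝ, 0 ≤ C ∧
    ∀ (F : ℝ → ℝ) (π π' : List (ℝ × ℝ)), Sc2H a τ A F π π' → ∀ t ∈ Icc 0 τ, ∀ z,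
      |scD 1 F π t z - scD 1 F π' t z| ≤ C * sc2J (scAl π) (scAl π') τ t * |z| ∧
      |scD 3 F π t z - scD 3 F π' t z| ≤ C * sc2J (scAl π) (scAl π') τ t * |z| ∧
      |scD 1 F π t z| ≤ C * |z| ∧ |scD 3 F π t z| ≤ C * |z| := by
  obtain ⟨Cb, hCb1, HB⟩ := sc2_bd ha hA
  obtain ⟨C1, hC1, H1⟩ := sc2_T1 ha hτ hA
  refine ⟨max C1 Cb, hC1.trans (le_max_left _ _), fun F π π' H t ht z => ?_⟩
  have hF := H.bi
  have hJ : 0 ≤ sc2J (scAl π) (scAl π') τ t := sc2J_nonneg _ _ ht.2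
  have hz := abs_nonneg z
  obtain ⟨o1, o3⟩ := sc2_D_odd_zero hF H.ev π t
  obtain ⟨o1', o3'⟩ := sc2_D_odd_zero hF H.ev π' t
  have e1 := sc2_odd_le (f := fun z => scD 1 F π t z - scD 1 F π' t z)
    (f' := fun z => scD 2 F π t z - scD 2 F π' t z) (C := C1 * sc2J (scAl π) (scAl π') τ t)
    (fun z => (sc_D_hasDerivAt hF 1 π t z).sub (sc_D_hasDerivAt hF 1 π' t z))
    (fun z => H1 F π π' H t ht 2 (by norm_num) (by norm_num) z) (by simp only [o1, o1', sub_self]) z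
  have e3 := sc2_odd_le (f := fun z => scD 3 F π t z - scD 3 F π' t z)
    (f' := fun z => scD 4 F π t z - scD 4 F π' t z) (C := C1 * sc2J (scAl π) (scAl π') τ t)
    (fun z => (sc_D_hasDerivAt hF 3 π t z).sub (sc_D_hasDerivAt hF 3 π' t z))
    (fun z => H1 F π π' H t ht 4 (by norm_num) (by norm_num) z) (by simp only [o3, o3', sub_self]) z
  have b1 := sc2_odd_le (f := scD 1 F π t) (f' := scD 2 F π t) (C := Cb) (fun z => sc_D_hasDerivAt hF 1 π t z)
    (fun z => HB F π hF H.nF H.adm H.inc 2 (by norm_num) (by norm_num) t z) o1 z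
  have b3 := sc2_odd_le (f := scD 3 F π t) (f' := scD 4 F π t) (C := Cb) (fun z => sc_D_hasDerivAt hF 3 π t z)
    (fun z => HB F π hF H.nF H.adm H.inc 4 (by norm_num) (by norm_num) t z) o3 z
  have m1 : C1 * sc2J (scAl π) (scAl π') τ t * |z| ≤ max C1 Cb * sc2J (scAl π) (scAl π') τ t * |z| :=
    mul_le_mul_of_nonneg_right (mul_le_mul_of_nonneg_right (le_max_left _ _) hJ) hz
  have m2 : Cb * |z| ≤ max C1 Cb * |z| := mul_le_mul_of_nonneg_right (le_max_right _ _) hz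
  exact ⟨e1.trans m1, e3.trans m1, b1.trans m2, b3.trans m2⟩

/-! ## D. the forward diffusion -/

/-- a test function bounded by `c y²` -/
theorem sc2_Pt_sq_le {F : ℝ → ℝ} (hF : ScBI F) {φ : ℝ → ℝ} (hφ : ScE 0 φ) {c : ℝ} (hb : ∀ y, |φ y| ≤ c * y ^ 2)
    (π : List (ℝ × ℝ)) (s t z : ℝ) : |scPt F π s t φ z| ≤ c * scPt F π s t (fun y => y ^ 2) z := by
  have hq : ScE 0 (fun y : ℝ => c * y ^ 2) := ((ScE.id 0).pow 2).const_mul c
  have e : scPt F π s t (fun y => c * y ^ 2) z = c * scPt F π s t (fun y => y ^ 2) z := by rw [sc_Pt_const_mul]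
  have h1 := sc_Pt_mono hF hφ hq (fun y => (le_abs_self _).trans (hb y)) π s t z
  have h2 := sc_Pt_mono hF hφ.neg hq (fun y => (neg_le_abs _).trans (hb y)) π s t z
  have e2 : scPt F π s t (fun y => - φ y) z = - scPt F π s t φ z := by
    have : (fun y => - φ y) = fun y => (-1) * φ y := by funext y; ring
    rw [this, sc_Pt_const_mul]; ring
  rw [e] at h1 h2
  rw [e2] at h2
  exact abs_le.2 ⟨by linarith, h1⟩

/-- `E Z_t² ≤ C t` -/
theorem sc2_mom2 {a τ A : ℝ} (ha : 0 ≤ a) (_hτ : 0 ≤ τ) (hA : 0 ≤ A) : ∃ C : ℝ, 0 ≤ C ∧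
    ∀ (F : ℝ → ℝ) (π : List (ℝ × ℝ)), ScBI F → (∀ z, F (-z) = F z) → ScN 4 A (deriv F) → ScAdm a π → ScInc π → scLen π = τ →
      ∀ t ∈ Icc 0 τ, scEx F π t (fun y => y ^ 2) ≤ C * t := by
  obtain ⟨Cb, hCb1, HB⟩ := sc2_bd ha hA
  have hCb0 : 0 ≤ Cb := zero_le_one.trans hCb1
  refine ⟨2 * Real.exp (4 * a * Cb * τ), by positivity, fun F π hF hev hN hadm hinc hlen t0 ht0 => ?_⟩
  have hp := hadm.pos
  set m : ℝ → ℝ := fun t => scEx F π t (fun y => y ^ 2) with hm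
  have hq : ScE 0 (fun y : ℝ => y ^ 2) := (ScE.id 0).pow 2
  have hu : ∀ r y, |y * scD 1 F π r y| ≤ Cb * y ^ 2 := by
    intro r y
    have b1 := sc2_odd_le (f := scD 1 F π r) (f' := scD 2 F π r) (C := Cb) (fun z => sc_D_hasDerivAt hF 1 π r z)
      (fun z => HB F π hF hN hadm hinc 2 (by norm_num) (by norm_num) r z) (sc2_D_odd_zero hF hev π r).1 y
    rw [abs_mul]
    calc |y| * |scD 1 F π r y| ≤ |y| * (Cb * |y|) := mul_le_mul_of_nonneg_left b1 (abs_nonneg _)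
      _ = Cb * (|y| * |y|) := by ring
      _ = Cb * y ^ 2 := by rw [abs_mul_abs_self, sq]
  have hcont : ContinuousOn m (Icc 0 t0) := sc_dynkin_continuousOn hF hp le_rfl (hq.scT _) 0
  obtain ⟨B, hB⟩ := isCompact_Icc.exists_bound_of_continuousOn hcont
  have G := sck_gronwall_fwd (a := 0) (b := t0) (c0 := 0) (κ := 2 * a * Cb) (ρ := 1) (B := B) (m := m) (by positivity)
    zero_le_one le_rfl (fun t ht => (le_abs_self _).trans (hB t ht))
    (by
      intro t ht μ hμ hle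
      have hr := sc_rule_sq hF hp le_rfl ht.1 (ht.2.trans (ht0.2.trans hlen.ge)) 0
      have e : m t = ∫ r in (0 : ℝ)..t, (1 + 2 * scAl π r * scPt F π 0 r (fun y => y * scD 1 F π r y) 0) := by
        rw [← hr]; simp only [hm, scEx]; ring
      rw [e, zero_add]
      refine (le_abs_self _).trans ?_
      rw [← Real.norm_eq_abs]
      refine intervalIntegral.norm_integral_le_of_norm_le ht.1 (Filter.Eventually.of_forall fun r hr => ?_)
        (((hμ.intervalIntegrable _ _).const_mul _).add intervalIntegrable_const)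
      rw [Real.norm_eq_abs]
      have h1 := sc2_Pt_sq_le hF ((ScE.id 0).mul (sc_D_E hF 1 0 π r)) (hu r) π 0 r 0
      have h2 : scPt F π 0 r (fun y => y ^ 2) 0 ≤ μ r := hle r ⟨hr.1.le, hr.2⟩
      have h3 := sc_Al_mem ha hadm r
      have h4 : |scPt F π 0 r (fun y => y * scD 1 F π r y) 0| ≤ Cb * μ r := h1.trans (mul_le_mul_of_nonneg_left h2 hCb0)
      have h5 : |2 * scAl π r * scPt F π 0 r (fun y => y * scD 1 F π r y) 0| ≤ 2 * a * (Cb * μ r) := by
        rw [abs_mul, abs_of_nonneg (by linarith [h3.1] : (0 : ℝ) ≤ 2 * scAl π r)]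
        exact mul_le_mul (by linarith [h3.2]) h4 (abs_nonneg _) (by positivity)
      have h6 := abs_add_le (1 : ℝ) (2 * scAl π r * scPt F π 0 r (fun y => y * scD 1 F π r y) 0)
      rw [abs_one] at h6
      linarith)
    t0 ⟨ht0.1, le_rfl⟩
  refine G.trans ?_
  have h1 : Real.exp (2 * (2 * a * Cb) * (t0 - 0)) ≤ Real.exp (4 * a * Cb * τ) := by
    refine Real.exp_le_exp.2 ?_
    have : a * Cb * t0 ≤ a * Cb * τ := mul_le_mul_of_nonneg_left ht0.2 (by positivity)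
    nlinarith
  calc 2 * (0 + 1 * (t0 - 0)) * Real.exp (2 * (2 * a * Cb) * (t0 - 0))
      ≤ 2 * (0 + 1 * (t0 - 0)) * Real.exp (4 * a * Cb * τ) :=
        mul_le_mul_of_nonneg_left h1 (by linarith [ht0.1])
    _ = _ := by ring

/-- the derivative of an even function vanishes at the origin -/
theorem sc2_even_deriv_zero {f : ℝ → ℝ} (hev : ∀ z, f (-z) = f z) : deriv f 0 = 0 := by
  have h1 : deriv (fun x => f (-x)) 0 = - deriv f (-0) := deriv_comp_neg f 0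
  have h2 : (fun x => f (-x)) = f := funext hev
  rw [h2, neg_zero] at h1
  linarith

/-- **(T3)** change of the forward diffusion for a bounded `C²` even observable -/
theorem sc2_T3 {a τ A : ℝ} (ha : 0 ≤ a) (hτ : 0 ≤ τ) (hA : 0 ≤ A) : ∃ C : ℝ, 0 ≤ C ∧
    ∀ (F : ℝ → ℝ) (π π' : List (ℝ × ℝ)), Sc2H a τ A F π π' → ∀ (ψ : ℝ → ℝ) (M : ℝ), ScN 2 M ψ → (∀ z, ψ (-z) = ψ z) →
      ∀ t ∈ Icc 0 τ, |scEx F π t ψ - scEx F π' t ψ| ≤ C * M * sc2W (scAl π) (scAl π') τ t := by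
  obtain ⟨C2, hC2, H2⟩ := sc2_T2 ha hτ hA
  obtain ⟨Cm, hCm, Hm⟩ := sc2_mom2 ha hτ hA
  obtain ⟨K, hK1, HK⟩ := sc_tau_Pt ha 2 hA
  have hK0 : 0 ≤ K := zero_le_one.trans hK1
  refine ⟨Cm * K * (a * C2 + C2), by positivity, fun F π π' H ψ M hψ hev t ht => ?_⟩
  have hF := H.bi
  have hp := H.adm.pos
  have hp' := H.adm'.pos
  have hM := hψ.nonneg
  have hδI : IntervalIntegrable (fun r => |scAl π r - scAl π' r|) volume 0 τ := sc2_al_int ha H.adm H.adm' 0 τ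
  have hD := sc_duhamel_P hF hF hψ.scE hp hp' le_rfl ht.1 (ht.2.trans H.len.ge) (ht.2.trans H.len'.ge) 0
  unfold scEx
  rw [hD, ← Real.norm_eq_abs]
  have hWi : IntervalIntegrable (fun r => r * (|scAl π r - scAl π' r| + sc2J (scAl π) (scAl π') τ r)) volume 0 t := by
    refine (sc2W_int hτ hδI).mono_set ?_
    rw [uIcc_of_le ht.1, uIcc_of_le hτ]
    exact Icc_subset_Icc le_rfl ht.2
  have hmain := intervalIntegral.norm_integral_le_of_norm_le (a := 0) (b := t) (μ := volume)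
    (f := fun r => scPt F π 0 r (fun y => (scAl π r * scD 1 F π r y - scAl π' r * scD 1 F π' r y)
          * deriv (scPt F π' r t ψ) y) 0)
    (g := fun r => Cm * K * (a * C2 + C2) * M * (r * (|scAl π r - scAl π' r| + sc2J (scAl π) (scAl π') τ r)))
    ht.1 (Filter.Eventually.of_forall fun r hr => ?_) (hWi.const_mul _)
  · refine hmain.trans (le_of_eq ?_)
    rw [intervalIntegral.integral_const_mul]
    rfl
  · have hr' : r ∈ Icc 0 τ := ⟨hr.1.le, hr.2.trans ht.2⟩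
    have hJ : 0 ≤ sc2J (scAl π) (scAl π') τ r := sc2J_nonneg _ _ hr'.2
    set J := sc2J (scAl π) (scAl π') τ r with hJdef
    set δ := |scAl π r - scAl π' r| with hδ
    have hδ0 : 0 ≤ δ := abs_nonneg _
    have hal := sc_Al_mem ha H.adm r
    -- the propagated gradient
    have N := HK F π' ψ M hF (H.nF.mono (by norm_num)) H.adm' H.inc' hψ r t
    have hpz : deriv (scPt F π' r t ψ) 0 = 0 := sc2_even_deriv_zero (fun z => sc_Pt_even H.ev hev π' r t z)
    have hpb : ∀ y, |deriv (scPt F π' r t ψ) y| ≤ K * M * |y| := fun y =>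
      sc2_odd_le (f := deriv (scPt F π' r t ψ)) (f' := deriv (deriv (scPt F π' r t ψ))) (C := K * M)
        (fun z => (N.der.2.1 z).hasDerivAt) (fun z => N.der.der.bd z) hpz y
    -- the drift difference
    have hdb : ∀ y, |scAl π r * scD 1 F π r y - scAl π' r * scD 1 F π' r y| ≤ (a * C2 * J + C2 * δ) * |y| := by
      intro y
      have e : scAl π r * scD 1 F π r y - scAl π' r * scD 1 F π' r y
          = scAl π r * (scD 1 F π r y - scD 1 F π' r y) + (scAl π r - scAl π' r) * scD 1 F π' r y := by ring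
      rw [e]
      refine (abs_add_le _ _).trans ?_
      have h1 : |scAl π r * (scD 1 F π r y - scD 1 F π' r y)| ≤ a * (C2 * J * |y|) :=
        sc2_ab hal.1 hal.2 (H2 F π π' H r hr' y).1
      have h2 : |(scAl π r - scAl π' r) * scD 1 F π' r y| ≤ δ * (C2 * |y|) := by
        rw [abs_mul]
        exact mul_le_mul_of_nonneg_left (H2 F π' π H.symm r hr' y).2.2.1 hδ0
      nlinarith
    have hb : ∀ y, |(scAl π r * scD 1 F π r y - scAl π' r * scD 1 F π' r y) * deriv (scPt F π' r t ψ) y|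
        ≤ ((a * C2 * J + C2 * δ) * (K * M)) * y ^ 2 := by
      intro y
      rw [abs_mul]
      calc |scAl π r * scD 1 F π r y - scAl π' r * scD 1 F π' r y| * |deriv (scPt F π' r t ψ) y|
          ≤ ((a * C2 * J + C2 * δ) * |y|) * (K * M * |y|) :=
            mul_le_mul (hdb y) (hpb y) (abs_nonneg _) (by positivity)
        _ = ((a * C2 * J + C2 * δ) * (K * M)) * (|y| * |y|) := by ring
        _ = _ := by rw [abs_mul_abs_self, sq]
    have hE : ScE 0 (fun y => (scAl π r * scD 1 F π r y - scAl π' r * scD 1 F π' r y) * deriv (scPt F π' r t ψ) y) :=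
      (((sc_D_E hF 1 0 π r).const_mul _).sub ((sc_D_E hF 1 0 π' r).const_mul _)).mul
        (sc_Pt_E hF hψ.scE π' r t).deriv.of_succ
    have h1 := sc2_Pt_sq_le hF hE hb π 0 r 0
    have h2 : scPt F π 0 r (fun y => y ^ 2) 0 ≤ Cm * r := Hm F π hF H.ev H.nF H.adm H.inc H.len r hr'
    rw [Real.norm_eq_abs]
    refine h1.trans ?_
    have h3 : (a * C2 * J + C2 * δ) * (K * M) * scPt F π 0 r (fun y => y ^ 2) 0
        ≤ (a * C2 * J + C2 * δ) * (K * M) * (Cm * r) := mul_le_mul_of_nonneg_left h2 (by positivity)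
    refine h3.trans ?_
    have h4 : a * C2 * J + C2 * δ ≤ (a * C2 + C2) * (δ + J) := by
      have : 0 ≤ a * C2 * δ := by positivity
      have : 0 ≤ C2 * J := by positivity
      nlinarith
    have h5 : 0 ≤ K * M * (Cm * r) := by have := hr.1.le; positivity
    calc (a * C2 * J + C2 * δ) * (K * M) * (Cm * r) = (a * C2 * J + C2 * δ) * (K * M * (Cm * r)) := by ring
      _ ≤ ((a * C2 + C2) * (δ + J)) * (K * M * (Cm * r)) := mul_le_mul_of_nonneg_right h4 h5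
      _ = _ := by ring

/-! ## E. the moment curves -/

/-- `∂^k V(t,·)`, `1 ≤ k ≤ 3`, is of class `ScN 2` with the uniform constant -/
theorem sc2_D_N {F : ℝ → ℝ} (hF : ScBI F) {π : List (ℝ × ℝ)} {Cb : ℝ}
    (hb : ∀ k, 1 ≤ k → k ≤ 5 → ∀ t z, |scD k F π t z| ≤ Cb) (k : ℕ) (hk1 : 1 ≤ k) (hk3 : k ≤ 3) (t : ℝ) :
    ScN 2 Cb (scD k F π t) := by
  refine ⟨hb k hk1 (by omega) t, fun z => (sc_D_hasDerivAt hF k π t z).differentiableAt, ?_⟩
  rw [sc_D_succ]
  refine ⟨hb (k + 1) (by omega) (by omega) t, fun z => (sc_D_hasDerivAt hF (k + 1) π t z).differentiableAt, ?_⟩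
  rw [sc_D_succ]
  exact ⟨(sc_D_E hF (k + 1 + 1) 0 π t).continuous, hb (k + 1 + 1) (by omega) (by omega) t⟩

theorem sc2_split {F : ℝ → ℝ} (hF : ScBI F) (π π' : List (ℝ × ℝ)) (t : ℝ) {f g : ℝ → ℝ} (hf : ScE 0 f) (hg : ScE 0 g) :
    scEx F π t f - scEx F π' t g = scEx F π t (fun z => f z - g z) + (scEx F π t g - scEx F π' t g) := by
  unfold scEx
  rw [sc_Pt_sub hF hf hg]
  ring

theorem sc2_comb {x y c1 c2 C X Y : ℝ} (hx : |x| ≤ c1 * X) (hy : |y| ≤ c2 * Y) (h1 : c1 ≤ C) (h2 : c2 ≤ C) (hX : 0 ≤ X)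
    (hY : 0 ≤ Y) : |x + y| ≤ C * (X + Y) := by
  have a1 := abs_add_le x y
  have a2 : c1 * X ≤ C * X := mul_le_mul_of_nonneg_right h1 hX
  have a3 : c2 * Y ≤ C * Y := mul_le_mul_of_nonneg_right h2 hY
  linarith

/-- **(T4)** the moment curves of `Γ' = M2`, `Γ'' = N3 - 2 α M3` -/
theorem sc2_T4 {a τ A : ℝ} (ha : 0 ≤ a) (hτ : 0 ≤ τ) (hA : 0 ≤ A) : ∃ C : ℝ, 0 ≤ C ∧
    ∀ (F : ℝ → ℝ) (π π' : List (ℝ × ℝ)), Sc2H a τ A F π π' → ∀ t ∈ Icc 0 τ,
      |scM2 F π t - scM2 F π' t| ≤ C * (sc2J (scAl π) (scAl π') τ t + sc2W (scAl π) (scAl π') τ t) ∧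
      |scM3 F π t - scM3 F π' t| ≤ C * (sc2J (scAl π) (scAl π') τ t + sc2W (scAl π) (scAl π') τ t) ∧
      |scN3 F π t - scN3 F π' t| ≤ C * (t * sc2J (scAl π) (scAl π') τ t + sc2W (scAl π) (scAl π') τ t) ∧
      |scGam F π t - scGam F π' t| ≤ C * (t * sc2J (scAl π) (scAl π') τ t + sc2W (scAl π) (scAl π') τ t) ∧
      |scN3 F π t| ≤ C * t ∧ |scM2 F π t| ≤ C ∧ |scM3 F π t| ≤ C := by
  obtain ⟨Cb, hCb1, HB⟩ := sc2_bd ha hA
  have hCb0 : 0 ≤ Cb := zero_le_one.trans hCb1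
  obtain ⟨C1, hC1, H1⟩ := sc2_T1 ha hτ hA
  obtain ⟨C2, hC2, H2⟩ := sc2_T2 ha hτ hA
  obtain ⟨Cm, hCm, Hm⟩ := sc2_mom2 ha hτ hA
  obtain ⟨C3, hC3, H3⟩ := sc2_T3 ha hτ hA
  set M2c : ℝ := 2 ^ 2 * (Cb * Cb) with hM2c
  set M3c : ℝ := 2 ^ 2 * (Cb * (2 ^ 2 * (Cb * Cb))) with hM3c
  have hM2c0 : 0 ≤ M2c := by positivity
  have hM3c0 : 0 ≤ M3c := by positivity
  set C : ℝ := 2 * Cb * C1 + 3 * Cb ^ 2 * C1 + 2 * C2 ^ 2 * Cm + C3 * M2c + C3 * M3c + C2 ^ 2 * Cm + Cb ^ 2 + Cb ^ 3 with hC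
  have p1 : 0 ≤ 2 * Cb * C1 := by positivity
  have p2 : 0 ≤ 3 * Cb ^ 2 * C1 := by positivity
  have p3 : 0 ≤ 2 * C2 ^ 2 * Cm := by positivity
  have p4 : 0 ≤ C3 * M2c := by positivity
  have p5 : 0 ≤ C3 * M3c := by positivity
  have p6 : 0 ≤ C2 ^ 2 * Cm := by positivity
  have p7 : 0 ≤ Cb ^ 2 := by positivity
  have p8 : 0 ≤ Cb ^ 3 := by positivity
  refine ⟨C, by positivity, fun F π π' H t ht => ?_⟩
  have hF := H.bi
  have bv : ∀ k, 1 ≤ k → k ≤ 5 → ∀ t z, |scD k F π t z| ≤ Cb := HB F π hF H.nF H.adm H.inc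
  have bw : ∀ k, 1 ≤ k → k ≤ 5 → ∀ t z, |scD k F π' t z| ≤ Cb := HB F π' hF H.nF H.adm' H.inc'
  have ev : ∀ k, ScE 0 (scD k F π t) := fun k => sc_D_E hF k 0 π t
  have ew : ∀ k, ScE 0 (scD k F π' t) := fun k => sc_D_E hF k 0 π' t
  set J := sc2J (scAl π) (scAl π') τ t with hJdef
  set W := sc2W (scAl π) (scAl π') τ t with hWdef
  have hJ : 0 ≤ J := sc2J_nonneg _ _ ht.2
  have hW : 0 ≤ W := sc2W_nonneg _ _ ht.1 ht.2
  have htJ : 0 ≤ t * J := mul_nonneg ht.1 hJ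
  have hmt : scPt F π 0 t (fun y => y ^ 2) 0 ≤ Cm * t := Hm F π hF H.ev H.nF H.adm H.inc H.len t ht
  -- the squares and the cube of the second profile as observables
  have sqN : ∀ k, 1 ≤ k → k ≤ 3 → ScN 2 M2c (fun z => scD k F π' t z ^ 2) := fun k h1 h3 => by
    have := (sc2_D_N hF bw k h1 h3 t).mul (sc2_D_N hF bw k h1 h3 t)
    have e : (fun z => scD k F π' t z ^ 2) = fun z => scD k F π' t z * scD k F π' t z := by funext z; ring
    rw [e]; exact this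
  have cuN : ScN 2 M3c (fun z => scD 2 F π' t z ^ 3) := by
    have h2 := sc2_D_N hF bw 2 (by norm_num) (by norm_num) t
    have := h2.mul (h2.mul h2)
    have e : (fun z => scD 2 F π' t z ^ 3) = fun z => scD 2 F π' t z * (scD 2 F π' t z * scD 2 F π' t z) := by
      funext z; ring
    rw [e]; exact this
  have sqE : ∀ k z, scD k F π' t (-z) ^ 2 = scD k F π' t z ^ 2 := fun k z => by
    rw [sc_D_parity hF H.ev k π' t z, mul_pow, ← pow_mul, mul_comm k 2, pow_mul]; simp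
  have cuE : ∀ z, scD 2 F π' t (-z) ^ 3 = scD 2 F π' t z ^ 3 := fun z => by
    rw [sc_D_parity hF H.ev 2 π' t z]; ring
  -- quadratic observables of odd derivatives
  have oddcase : ∀ k, (k = 1 ∨ k = 3) → |scEx F π t (fun z => scD k F π t z ^ 2) - scEx F π' t (fun z => scD k F π' t z ^ 2)|
      ≤ C * (t * J + W) := by
    intro k hk
    have hk13 : 1 ≤ k ∧ k ≤ 3 := by rcases hk with rfl | rfl <;> norm_num
    rw [sc2_split hF π π' t ((ev k).pow 2) ((ew k).pow 2)]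
    have hd : ∀ y, |scD k F π t y - scD k F π' t y| ≤ C2 * J * |y| := fun y => by
      rcases hk with rfl | rfl
      · exact (H2 F π π' H t ht y).1
      · exact (H2 F π π' H t ht y).2.1
    have hv : ∀ y, |scD k F π t y| ≤ C2 * |y| := fun y => by
      rcases hk with rfl | rfl
      · exact (H2 F π π' H t ht y).2.2.1
      · exact (H2 F π π' H t ht y).2.2.2
    have hw : ∀ y, |scD k F π' t y| ≤ C2 * |y| := fun y => by
      rcases hk with rfl | rfl
      · exact (H2 F π' π H.symm t ht y).2.2.1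
      · exact (H2 F π' π H.symm t ht y).2.2.2
    have hb : ∀ y, |scD k F π t y ^ 2 - scD k F π' t y ^ 2| ≤ (2 * C2 ^ 2 * J) * y ^ 2 := by
      intro y
      have e : scD k F π t y ^ 2 - scD k F π' t y ^ 2
          = (scD k F π t y - scD k F π' t y) * (scD k F π t y + scD k F π' t y) := by ring
      rw [e, abs_mul]
      have h1 : |scD k F π t y + scD k F π' t y| ≤ 2 * C2 * |y| := by
        have := abs_add_le (scD k F π t y) (scD k F π' t y)
        linarith [hv y, hw y]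
      calc |scD k F π t y - scD k F π' t y| * |scD k F π t y + scD k F π' t y|
          ≤ (C2 * J * |y|) * (2 * C2 * |y|) := mul_le_mul (hd y) h1 (abs_nonneg _) (by positivity)
        _ = (2 * C2 ^ 2 * J) * (|y| * |y|) := by ring
        _ = _ := by rw [abs_mul_abs_self]; ring
    have hx : |scEx F π t (fun z => scD k F π t z ^ 2 - scD k F π' t z ^ 2)| ≤ (2 * C2 ^ 2 * Cm) * (t * J) := by
      refine (sc2_Pt_sq_le hF (((ev k).pow 2).sub ((ew k).pow 2)) hb π 0 t 0).trans ?_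
      calc 2 * C2 ^ 2 * J * scPt F π 0 t (fun y => y ^ 2) 0 ≤ 2 * C2 ^ 2 * J * (Cm * t) :=
            mul_le_mul_of_nonneg_left hmt (by positivity)
        _ = _ := by ring
    exact sc2_comb hx (H3 F π π' H _ M2c (sqN k hk13.1 hk13.2) (sqE k) t ht) (by linarith) (by linarith) htJ hW
  refine ⟨?_, ?_, oddcase 3 (Or.inr rfl), oddcase 1 (Or.inl rfl), ?_, ?_, ?_⟩
  · -- M2
    unfold scM2
    rw [sc2_split hF π π' t ((ev 2).pow 2) ((ew 2).pow 2)]
    have hb : ∀ y, |scD 2 F π t y ^ 2 - scD 2 F π' t y ^ 2| ≤ (2 * Cb * C1) * J := by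
      intro y
      have e : scD 2 F π t y ^ 2 - scD 2 F π' t y ^ 2
          = (scD 2 F π t y - scD 2 F π' t y) * (scD 2 F π t y + scD 2 F π' t y) := by ring
      rw [e, abs_mul]
      have h1 : |scD 2 F π t y + scD 2 F π' t y| ≤ 2 * Cb := by
        have := abs_add_le (scD 2 F π t y) (scD 2 F π' t y)
        linarith [bv 2 (by norm_num) (by norm_num) t y, bw 2 (by norm_num) (by norm_num) t y]
      calc |scD 2 F π t y - scD 2 F π' t y| * |scD 2 F π t y + scD 2 F π' t y|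
          ≤ (C1 * J) * (2 * Cb) := mul_le_mul (H1 F π π' H t ht 2 (by norm_num) (by norm_num) y) h1 (abs_nonneg _) (by positivity)
        _ = _ := by ring
    have hx := sc_Pt_abs_le hF (((ev 2).pow 2).sub ((ew 2).pow 2)).continuous hb π 0 t 0
    exact sc2_comb hx (H3 F π π' H _ M2c (sqN 2 (by norm_num) (by norm_num)) (sqE 2) t ht) (by linarith) (by linarith) hJ hW
  · -- M3
    unfold scM3
    rw [sc2_split hF π π' t ((ev 2).pow 3) ((ew 2).pow 3)]
    have hb : ∀ y, |scD 2 F π t y ^ 3 - scD 2 F π' t y ^ 3| ≤ (3 * Cb ^ 2 * C1) * J := by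
      intro y
      have e : scD 2 F π t y ^ 3 - scD 2 F π' t y ^ 3 = (scD 2 F π t y - scD 2 F π' t y)
          * (scD 2 F π t y * scD 2 F π t y + scD 2 F π t y * scD 2 F π' t y + scD 2 F π' t y * scD 2 F π' t y) := by ring
      rw [e, abs_mul]
      have b2 := bv 2 (by norm_num) (by norm_num) t y
      have b2' := bw 2 (by norm_num) (by norm_num) t y
      have q1 := abs_le.1 (sc2_pp b2 b2)
      have q2 := abs_le.1 (sc2_pp b2 b2')
      have q3 := abs_le.1 (sc2_pp b2' b2')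
      have h1 : |scD 2 F π t y * scD 2 F π t y + scD 2 F π t y * scD 2 F π' t y + scD 2 F π' t y * scD 2 F π' t y|
          ≤ 3 * Cb ^ 2 := abs_le.2 ⟨by linarith, by linarith⟩
      calc _ ≤ (C1 * J) * (3 * Cb ^ 2) :=
            mul_le_mul (H1 F π π' H t ht 2 (by norm_num) (by norm_num) y) h1 (abs_nonneg _) (by positivity)
        _ = _ := by ring
    have hx := sc_Pt_abs_le hF (((ev 2).pow 3).sub ((ew 2).pow 3)).continuous hb π 0 t 0
    exact sc2_comb hx (H3 F π π' H _ M3c cuN cuE t ht) (by linarith) (by linarith) hJ hW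
  · -- N3 ≤ C t
    unfold scN3
    have hb : ∀ y, |scD 3 F π t y ^ 2| ≤ C2 ^ 2 * y ^ 2 := by
      intro y
      rw [abs_pow]
      calc |scD 3 F π t y| ^ 2 ≤ (C2 * |y|) ^ 2 := pow_le_pow_left₀ (abs_nonneg _) (H2 F π π' H t ht y).2.2.2 2
        _ = C2 ^ 2 * y ^ 2 := by rw [mul_pow, sq_abs]
    refine (sc2_Pt_sq_le hF ((ev 3).pow 2) hb π 0 t 0).trans ?_
    calc C2 ^ 2 * scPt F π 0 t (fun y => y ^ 2) 0 ≤ C2 ^ 2 * (Cm * t) := mul_le_mul_of_nonneg_left hmt (by positivity)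
      _ = (C2 ^ 2 * Cm) * t := by ring
      _ ≤ C * t := mul_le_mul_of_nonneg_right (by linarith) ht.1
  · unfold scM2
    refine (sc_Pt_abs_le hF ((ev 2).pow 2).continuous (C := Cb ^ 2) (fun y => ?_) π 0 t 0).trans (by linarith)
    rw [abs_pow]
    exact pow_le_pow_left₀ (abs_nonneg _) (bv 2 (by norm_num) (by norm_num) t y) 2
  · unfold scM3
    refine (sc_Pt_abs_le hF ((ev 2).pow 3).continuous (C := Cb ^ 3) (fun y => ?_) π 0 t 0).trans (by linarith)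
    rw [abs_pow]
    exact pow_le_pow_left₀ (abs_nonneg _) (bv 2 (by norm_num) (by norm_num) t y) 3

end

end Claimed.Agent.R286
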