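import Claimed.Agent.R286.Sc.UpWmp

/-!
# Row 286, scalar block, (U+), file 2: THE POINTWISE ALGEBRA      (helper159; paper proof helper67, notes/R286/P11_helper67.md sec. 4 (1)-(4); prefix `sk_up_`)

`skL T β dr dz dzz = dr + (T/2) dzz + β dz` = the value of the operator on a jet.   Leibniz rule `sk_up_L_mul`.
* `skRho z = 1 / cosh² z`, its two derivatives, `|ρ'| ≤ 2 ρ`, `ρ'' ≥ -2 ρ`, `L ρ ≥ -3 T ρ`.
* `sk_up_alg_U`   `L U ≤ 0`      * `sk_up_alg_psi`   `L (E ρ Y²) ≥ E (T/2) ρ Y_z²` when `L Y = 0`, `E' = 11 T E`      * `sk_up_alg_sig`   `L (ρ w₂²) ≥ -9 T ρ w₂²`.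
* `sk_up_term` : `(1/2) log cosh (z + w) + (1/2) log cosh (z - w) - log cosh z ≥ (1/2) e^{-T} ρ(z) w²` for `|w| ≤ T/2`.
-/

set_option autoImplicit false

namespace Claimed.Agent.R286

open Set Filter Topology

/-- the value of the operator on a jet -/
noncomputable def skL (T β dr dz dzz : ℝ) : ℝ := dr + T / 2 * dzz + β * dz

/-- `ρ = sech²` -/
noncomputable def skRho (z : ℝ) : ℝ := 1 / Real.cosh z ^ 2

/-- `ρ'` -/
noncomputable def skRho1 (z : ℝ) : ℝ := -2 * Real.sinh z / Real.cosh z ^ 3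

/-- `ρ''` -/
noncomputable def skRho2 (z : ℝ) : ℝ := 4 * skRho z - 6 * skRho z ^ 2

theorem sk_up_alg_eqns_cite : True := by
  have := @skL.eq_1; have := @skRho.eq_1; have := @skRho1.eq_1; have := @skRho2.eq_1
  trivial

theorem sk_up_L_mul (T β f fr fz fzz g gr gz gzz : ℝ) :
    skL T β (fr * g + f * gr) (fz * g + f * gz) (fzz * g + 2 * fz * gz + f * gzz) = g * skL T β fr fz fzz + f * skL T β gr gz gzz + T * fz * gz := by
  unfold skL
  ring

theorem sk_up_L_sq (T β f fr fz fzz : ℝ) :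
    skL T β (2 * f * fr) (2 * f * fz) (2 * fz ^ 2 + 2 * f * fzz) = 2 * f * skL T β fr fz fzz + T * fz ^ 2 := by
  unfold skL
  ring

/-! ## `ρ` -/

theorem sk_up_rho_pos (z : ℝ) : 0 < skRho z := by
  unfold skRho
  have := Real.cosh_pos z
  positivity

theorem sk_up_rho_le_one (z : ℝ) : skRho z ≤ 1 := by
  unfold skRho
  have h := Real.one_le_cosh z
  rw [div_le_one (by positivity)]
  nlinarith

theorem sk_up_rho_zero : skRho 0 = 1 := by simp [skRho]

theorem sk_up_rho_cont : Continuous skRho := by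
  unfold skRho
  refine continuous_const.div (Real.continuous_cosh.pow 2) fun z => ?_
  have := Real.cosh_pos z
  positivity

theorem sk_up_rho_d1 (z : ℝ) : HasDerivAt skRho (skRho1 z) z := by
  have hc := Real.cosh_pos z
  have h0 : HasDerivAt (fun z => Real.cosh z ^ 2) (2 * Real.cosh z * Real.sinh z) z := by
    have h := (Real.hasDerivAt_cosh z).mul (Real.hasDerivAt_cosh z)
    have e : (fun z => Real.cosh z ^ 2) = fun z => Real.cosh z * Real.cosh z := by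
      funext z
      ring
    have e2 : 2 * Real.cosh z * Real.sinh z = Real.sinh z * Real.cosh z + Real.cosh z * Real.sinh z := by ring
    rw [e, e2]
    exact h
  have h := HasDerivAt.fun_inv h0 (pow_ne_zero 2 hc.ne')
  have e : skRho = fun z => (Real.cosh z ^ 2)⁻¹ := by
    funext z
    unfold skRho
    rw [one_div]
  have e2 : skRho1 z = -(2 * Real.cosh z * Real.sinh z) / (Real.cosh z ^ 2) ^ 2 := by
    unfold skRho1
    field_simp
  rw [e, e2]
  exact h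

theorem sk_up_rho_d2 (z : ℝ) : HasDerivAt skRho1 (skRho2 z) z := by
  have hc := Real.cosh_pos z
  have h0 : HasDerivAt (fun z => Real.cosh z ^ 3) (3 * Real.cosh z ^ 2 * Real.sinh z) z := by
    have h := ((Real.hasDerivAt_cosh z).mul (Real.hasDerivAt_cosh z)).mul (Real.hasDerivAt_cosh z)
    have e : (fun z => Real.cosh z ^ 3) = fun z => Real.cosh z * Real.cosh z * Real.cosh z := by
      funext z
      ring
    have e2 : 3 * Real.cosh z ^ 2 * Real.sinh z = (Real.sinh z * Real.cosh z + Real.cosh z * Real.sinh z) * Real.cosh z + Real.cosh z * Real.cosh z * Real.sinh z := by ring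
    rw [e, e2]
    exact h
  have h := HasDerivAt.fun_div ((Real.hasDerivAt_sinh z).const_mul (-2)) h0 (pow_ne_zero 3 hc.ne')
  have e : skRho1 = fun z => -2 * Real.sinh z / Real.cosh z ^ 3 := rfl
  have hs : Real.sinh z ^ 2 = Real.cosh z ^ 2 - 1 := by
    have := Real.cosh_sq z
    linarith
  have e2 : skRho2 z = (-2 * Real.cosh z * Real.cosh z ^ 3 - -2 * Real.sinh z * (3 * Real.cosh z ^ 2 * Real.sinh z)) / (Real.cosh z ^ 3) ^ 2 := by
    have e3 : -2 * Real.cosh z * Real.cosh z ^ 3 - -2 * Real.sinh z * (3 * Real.cosh z ^ 2 * Real.sinh z) = -2 * Real.cosh z ^ 4 + 6 * Real.cosh z ^ 2 * Real.sinh z ^ 2 := by ring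
    rw [e3, hs]
    unfold skRho2 skRho
    field_simp
    ring
  rw [e, e2]
  exact h

theorem sk_up_rho1_abs (z : ℝ) : |skRho1 z| ≤ 2 * skRho z := by
  have hc := Real.cosh_pos z
  have hs : |Real.sinh z| ≤ Real.cosh z := by
    rw [abs_le]
    constructor
    · have := Real.cosh_add_sinh z
      have := Real.exp_pos z
      linarith
    · exact (Real.sinh_lt_cosh z).le
  unfold skRho1 skRho
  rw [abs_div, abs_mul, abs_of_pos (by positivity : 0 < Real.cosh z ^ 3)]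
  rw [div_le_iff₀ (by positivity)]
  have e : 2 * (1 / Real.cosh z ^ 2) * Real.cosh z ^ 3 = 2 * Real.cosh z := by
    field_simp
  rw [e]
  norm_num
  exact hs

theorem sk_up_rho2_ge (z : ℝ) : -2 * skRho z ≤ skRho2 z := by
  unfold skRho2
  have h0 := sk_up_rho_pos z
  have h1 := sk_up_rho_le_one z
  nlinarith

/-- `L ρ ≥ -3 T ρ` -/
theorem sk_up_L_rho {T β : ℝ} (hT : 0 < T) (hβ : |β| ≤ T) (z : ℝ) : -(3 * T) * skRho z ≤ skL T β 0 (skRho1 z) (skRho2 z) := by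
  unfold skL
  have h0 := sk_up_rho_pos z
  have h1 := sk_up_rho1_abs z
  have h2 := sk_up_rho2_ge z
  have h3 : -(T * (2 * skRho z)) ≤ β * skRho1 z := by
    have : |β * skRho1 z| ≤ T * (2 * skRho z) := by
      rw [abs_mul]
      exact mul_le_mul hβ h1 (abs_nonneg _) hT.le
    exact (abs_le.1 this).1
  nlinarith

/-! ## the three inequalities -/

/-- `L U ≤ 0` -/
theorem sk_up_alg_U {T α1 α2 : ℝ} (hT : 0 < T) (h1 : 0 ≤ α1) (h2 : 0 ≤ α2) (m p1 p2 q1 q2 qb : ℝ) :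
    1 / 2 * skL T (T * ((α1 + α2) / 2) * m) (-(T / 2) * (q1 + α1 * p1 ^ 2) + T / 2 * (α1 - α2) * m * p1) p1 q1
      + 1 / 2 * skL T (T * ((α1 + α2) / 2) * m) (-(T / 2) * (q2 + α2 * p2 ^ 2) - T / 2 * (α1 - α2) * m * p2) p2 q2
      - skL T (T * ((α1 + α2) / 2) * m) (-(T / 2) * (qb + (α1 + α2) / 2 * m ^ 2)) m qb ≤ 0 := by
  have e : 1 / 2 * skL T (T * ((α1 + α2) / 2) * m) (-(T / 2) * (q1 + α1 * p1 ^ 2) + T / 2 * (α1 - α2) * m * p1) p1 q1
      + 1 / 2 * skL T (T * ((α1 + α2) / 2) * m) (-(T / 2) * (q2 + α2 * p2 ^ 2) - T / 2 * (α1 - α2) * m * p2) p2 q2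
      - skL T (T * ((α1 + α2) / 2) * m) (-(T / 2) * (qb + (α1 + α2) / 2 * m ^ 2)) m qb
      = -(T / 4) * (α1 * (m - p1) ^ 2 + α2 * (m - p2) ^ 2) := by
    unfold skL
    ring
  rw [e]
  have : 0 ≤ α1 * (m - p1) ^ 2 + α2 * (m - p2) ^ 2 := by positivity
  nlinarith

/-- `L (ρ Y²) ≥ -11 T ρ Y² + (T/2) ρ Y_z²` when `L Y = 0` -/
theorem sk_up_alg_rY {T ρ ρ1 Lρ y yz : ℝ} (hT : 0 < T) (hρ : 0 ≤ ρ) (h1 : |ρ1| ≤ 2 * ρ) (hL : -(3 * T) * ρ ≤ Lρ) :
    -(11 * T) * (ρ * y ^ 2) + T / 2 * ρ * yz ^ 2 ≤ y ^ 2 * Lρ + ρ * (T * yz ^ 2) + T * ρ1 * (2 * y * yz) := by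
  have h2 : -(2 * ρ * (4 * y ^ 2 + yz ^ 2 / 4)) ≤ ρ1 * (2 * y * yz) := by
    have h3 : |ρ1 * (2 * y * yz)| ≤ 2 * ρ * |2 * y * yz| := by
      rw [abs_mul]
      exact mul_le_mul_of_nonneg_right h1 (abs_nonneg _)
    have h4 : |2 * y * yz| ≤ 4 * y ^ 2 + yz ^ 2 / 4 := by
      rw [abs_le]
      constructor <;> nlinarith [sq_nonneg (2 * y - yz / 2), sq_nonneg (2 * y + yz / 2)]
    have h5 := (abs_le.1 h3).1
    have h6 := mul_le_mul_of_nonneg_left h4 (by positivity : 0 ≤ 2 * ρ)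
    linarith
  have h7 : y ^ 2 * (-(3 * T) * ρ) ≤ y ^ 2 * Lρ := mul_le_mul_of_nonneg_left hL (sq_nonneg _)
  have h8 := mul_le_mul_of_nonneg_left h2 hT.le
  nlinarith

/-- `L (ρ w₂²) ≥ -9 T ρ w₂²` -/
theorem sk_up_alg_sig {T ρ ρ1 Lρ ab w2 w3 : ℝ} (hT : 0 < T) (hρ : 0 ≤ ρ) (h1 : |ρ1| ≤ 2 * ρ) (hL : -(3 * T) * ρ ≤ Lρ)
    (ha1 : ab ≤ 1) (hw0 : 0 ≤ w2) (hw1 : w2 ≤ 1) :
    -(9 * T) * (ρ * w2 ^ 2) ≤ w2 ^ 2 * Lρ + ρ * (2 * w2 * (-(T * ab * w2 ^ 2)) + T * w3 ^ 2) + T * ρ1 * (2 * w2 * w3) := by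
  have h2 : -(2 * ρ * (2 * w2 ^ 2 + w3 ^ 2 / 2)) ≤ ρ1 * (2 * w2 * w3) := by
    have h3 : |ρ1 * (2 * w2 * w3)| ≤ 2 * ρ * |2 * w2 * w3| := by
      rw [abs_mul]
      exact mul_le_mul_of_nonneg_right h1 (abs_nonneg _)
    have h4 : |2 * w2 * w3| ≤ 2 * w2 ^ 2 + w3 ^ 2 / 2 := by
      rw [abs_le]
      constructor <;> nlinarith [sq_nonneg (2 * w2 - w3), sq_nonneg (2 * w2 + w3)]
    have h5 := (abs_le.1 h3).1
    have h6 := mul_le_mul_of_nonneg_left h4 (by positivity : 0 ≤ 2 * ρ)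
    linarith
  have h7 : w2 ^ 2 * (-(3 * T) * ρ) ≤ w2 ^ 2 * Lρ := mul_le_mul_of_nonneg_left hL (sq_nonneg _)
  have h8 := mul_le_mul_of_nonneg_left h2 hT.le
  have h9 : ab * w2 ^ 3 ≤ w2 ^ 2 := by
    have : w2 ^ 3 ≤ w2 ^ 2 := by nlinarith [sq_nonneg w2]
    have h10 : ab * w2 ^ 3 ≤ 1 * w2 ^ 3 := mul_le_mul_of_nonneg_right ha1 (by positivity)
    linarith
  have h11 : ρ * (T * (ab * w2 ^ 3)) ≤ ρ * (T * w2 ^ 2) := mul_le_mul_of_nonneg_left (mul_le_mul_of_nonneg_left h9 hT.le) hρ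
  nlinarith

/-! ## the terminal inequality -/

theorem sk_up_cosh_mul (z w : ℝ) : Real.cosh (z + w) * Real.cosh (z - w) = Real.cosh z ^ 2 + Real.sinh w ^ 2 := by
  rw [Real.cosh_add, Real.cosh_sub]
  have h1 := Real.cosh_sq z
  have h2 := Real.cosh_sq w
  nlinarith

/-- the second difference of `log cosh` -/
theorem sk_up_lc_diff (z w : ℝ) :
    1 / 2 * Real.log (Real.cosh (z + w)) + 1 / 2 * Real.log (Real.cosh (z - w)) - Real.log (Real.cosh z) = 1 / 2 * Real.log (1 + Real.sinh w ^ 2 * skRho z) := by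
  have h0 := Real.cosh_pos z
  have h1 := Real.cosh_pos (z + w)
  have h2 := Real.cosh_pos (z - w)
  have e : 1 + Real.sinh w ^ 2 * skRho z = Real.cosh (z + w) * Real.cosh (z - w) / Real.cosh z ^ 2 := by
    rw [sk_up_cosh_mul]
    unfold skRho
    field_simp
  rw [e, Real.log_div (by positivity) (by positivity), Real.log_mul h1.ne' h2.ne', Real.log_pow]
  push_cast
  ring

theorem sk_up_lc_diff_nonneg (z w : ℝ) :
    0 ≤ 1 / 2 * Real.log (Real.cosh (z + w)) + 1 / 2 * Real.log (Real.cosh (z - w)) - Real.log (Real.cosh z) := by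
  rw [sk_up_lc_diff]
  have := sk_up_rho_pos z
  have h : 0 ≤ Real.log (1 + Real.sinh w ^ 2 * skRho z) := Real.log_nonneg (by nlinarith [sq_nonneg (Real.sinh w)])
  linarith

/-- **the terminal inequality** -/
theorem sk_up_term {T : ℝ} (z w : ℝ) (hw : |w| ≤ T / 2) :
    1 / 2 * Real.exp (-T) * (skRho z * w ^ 2)
      ≤ 1 / 2 * Real.log (Real.cosh (z + w)) + 1 / 2 * Real.log (Real.cosh (z - w)) - Real.log (Real.cosh z) := by
  rw [sk_up_lc_diff]
  have hρ0 := sk_up_rho_pos z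
  have hρ1 := sk_up_rho_le_one z
  obtain ⟨x, hx⟩ : ∃ x : ℝ, x = Real.sinh w ^ 2 * skRho z := ⟨_, rfl⟩
  have hx0 : 0 ≤ x := by rw [hx]; positivity
  rw [← hx]
  -- `log (1 + x) ≥ x / (1 + x)`
  have h1 : x / (1 + x) ≤ Real.log (1 + x) := by
    have h := Real.one_sub_inv_le_log_of_pos (by linarith : 0 < 1 + x)
    have e : x / (1 + x) = 1 - (1 + x)⁻¹ := by field_simp; ring
    rw [e]
    exact h
  -- `x / (1 + x) ≥ ρ sinh² / cosh²`
  have hc := Real.cosh_pos w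
  have h2 : skRho z * (Real.sinh w ^ 2 / Real.cosh w ^ 2) ≤ x / (1 + x) := by
    rw [le_div_iff₀ (by linarith)]
    have h3 : 1 + x ≤ Real.cosh w ^ 2 := by
      have := Real.cosh_sq w
      rw [hx]
      nlinarith [sq_nonneg (Real.sinh w)]
    have h4 : Real.sinh w ^ 2 / Real.cosh w ^ 2 * (1 + x) ≤ Real.sinh w ^ 2 := by
      rw [div_mul_eq_mul_div, div_le_iff₀ (by positivity)]
      exact mul_le_mul_of_nonneg_left h3 (sq_nonneg _)
    calc skRho z * (Real.sinh w ^ 2 / Real.cosh w ^ 2) * (1 + x) = skRho z * (Real.sinh w ^ 2 / Real.cosh w ^ 2 * (1 + x)) := by ring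
      _ ≤ skRho z * Real.sinh w ^ 2 := mul_le_mul_of_nonneg_left h4 hρ0.le
      _ = x := by rw [hx]; ring
  -- `sinh² ≥ w²`, `cosh² ≤ e^T`
  have h5 : w ^ 2 ≤ Real.sinh w ^ 2 := by
    have h6 : |w| ≤ |Real.sinh w| := by
      rcases le_total 0 w with h | h
      · rw [abs_of_nonneg h, abs_of_nonneg (Real.sinh_nonneg_iff.2 h)]
        exact Real.self_le_sinh_iff.2 h
      · rw [abs_of_nonpos h, abs_of_nonpos (Real.sinh_nonpos_iff.2 h)]
        have := Real.sinh_le_self_iff.2 h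
        linarith
    exact sq_le_sq.2 h6
  have h7 : Real.cosh w ^ 2 ≤ Real.exp T := by
    have h8 : Real.cosh w ≤ Real.exp (T / 2) := by
      have h9 : Real.cosh w ≤ Real.exp |w| := by
        rw [← Real.cosh_abs]
        have := Real.cosh_eq |w|
        have h10 : Real.exp (-|w|) ≤ Real.exp |w| := Real.exp_le_exp.2 (by linarith [abs_nonneg w])
        linarith
      exact h9.trans (Real.exp_le_exp.2 hw)
    calc Real.cosh w ^ 2 ≤ Real.exp (T / 2) ^ 2 := pow_le_pow_left₀ hc.le h8 2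
      _ = Real.exp T := by rw [← Real.exp_nat_mul]; congr 1; push_cast; ring
  have h11 : Real.exp (-T) * w ^ 2 ≤ Real.sinh w ^ 2 / Real.cosh w ^ 2 := by
    rw [le_div_iff₀ (by positivity), Real.exp_neg]
    have hE := Real.exp_pos T
    calc (Real.exp T)⁻¹ * w ^ 2 * Real.cosh w ^ 2 ≤ (Real.exp T)⁻¹ * w ^ 2 * Real.exp T := mul_le_mul_of_nonneg_left h7 (by positivity)
      _ = w ^ 2 := by field_simp
      _ ≤ _ := h5
  have h12 := mul_le_mul_of_nonneg_left h11 hρ0.le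
  nlinarith

end Claimed.Agent.R286
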