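import Claimed.Agent.R286.Sc.UpMain
import Claimed.Agent.R286.Sc.GenDefs

/-!
# Row 286, scalar block, (U+), file 4: THE INSTANCE ON STEP PROFILES      (helper159; prefix `sk_up_`)

TEX[PE:prof:scalar-minimizer] (uniqueness part, quantitative).      Objects of `Sc/Prof.lean`, `Sc/GenDefs.lean` (helper95, helper183): `scV, scVt, scD, scAl, scGrid, scLC, ScSame`.
* `sk_up_part_of_finite` : a partition of `[0,1]` whose open steps avoid a given finite set.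
* `sk_up_inst_sol`, `sk_up_inst_sol4` : `t ↦ scVt (scLC 1) π (T t)`, `T = scLen π`, is a solution in the sense of `SkSol`, `SkSol4`.
* `scMid π₁ π₂` : the midpoint of two profiles on the same grid.
EXIT `sk_up_list` :  `(1/16) e^{-18 T} ∫₀ᵀ (∫ₛᵀ (α₁ - α₂))² ds ≤ (1/2) V_{π₁}(0,0) + (1/2) V_{π₂}(0,0) - V_{mid}(0,0)`,      `αᵢ = scAl πᵢ`, masses in `[0,1]`, `T = scLen πᵢ > 0`.
-/

set_option autoImplicit false

namespace Claimed.Agent.R286

open Set Filter Topology MeasureTheory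

/-! ## A. a partition which avoids a finite set -/

theorem sk_up_part_of_finite {S : Set ℝ} (hS : S.Finite) :
    ∃ (K : ℕ) (τ : ℕ → ℝ), SkPart K τ ∧ ∀ k < K, ∀ t ∈ Ioo (τ k) (τ (k + 1)), t ∉ S := by
  classical
  obtain ⟨s, hs⟩ : ∃ s : Finset ℝ, s = insert 0 (insert 1 (hS.toFinset.filter fun x => 0 < x ∧ x < 1)) := ⟨_, rfl⟩
  have h0 : (0 : ℝ) ∈ s := by rw [hs]; simp
  have h1 : (1 : ℝ) ∈ s := by rw [hs]; simp
  have hmem : ∀ x ∈ s, 0 ≤ x ∧ x ≤ 1 := by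
    intro x hx
    rw [hs] at hx
    simp only [Finset.mem_insert, Finset.mem_filter] at hx
    rcases hx with rfl | rfl | hx
    · exact ⟨le_rfl, zero_le_one⟩
    · exact ⟨zero_le_one, le_rfl⟩
    · exact ⟨hx.2.1.le, hx.2.2.le⟩
  have hin : ∀ x ∈ S, 0 < x → x < 1 → x ∈ s := by
    intro x hx h2 h3
    rw [hs]
    simp only [Finset.mem_insert, Finset.mem_filter, Set.Finite.mem_toFinset]
    exact Or.inr (Or.inr ⟨hx, h2, h3⟩)
  have hcard : 0 < s.card := Finset.card_pos.2 ⟨0, h0⟩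
  obtain ⟨e, he⟩ : ∃ e : Fin s.card ↪o ℝ, e = s.orderEmbOfFin rfl := ⟨_, rfl⟩
  obtain ⟨τ, hτ⟩ : ∃ τ : ℕ → ℝ, τ = fun k => if h : k < s.card then e ⟨k, h⟩ else 1 := ⟨_, rfl⟩
  have hτv : ∀ k (hk : k < s.card), τ k = e ⟨k, hk⟩ := by
    intro k hk
    rw [hτ]
    simp only [dif_pos hk]
  have hz : e ⟨0, hcard⟩ = 0 := by
    rw [he, Finset.orderEmbOfFin_zero rfl hcard]
    exact le_antisymm (Finset.min'_le _ _ h0) (Finset.le_min' _ _ _ fun y hy => (hmem y hy).1)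
  have hl : e ⟨s.card - 1, Nat.sub_lt hcard Nat.one_pos⟩ = 1 := by
    rw [he, Finset.orderEmbOfFin_last rfl hcard]
    exact le_antisymm (Finset.max'_le _ _ _ fun y hy => (hmem y hy).2) (Finset.le_max' _ _ h1)
  refine ⟨s.card - 1, τ, ⟨?_, ?_, ?_⟩, ?_⟩
  · intro k hk
    rw [hτv k (by omega), hτv (k + 1) (by omega)]
    exact e.strictMono (by simp [Fin.lt_def])
  · rw [hτv 0 hcard, hz]
  · rw [hτv (s.card - 1) (Nat.sub_lt hcard Nat.one_pos), hl]
  · intro k hk t ht htS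
    rw [hτv k (by omega), hτv (k + 1) (by omega)] at ht
    have hk0 : 0 ≤ e ⟨k, by omega⟩ := (hmem _ (by rw [he]; exact Finset.orderEmbOfFin_mem _ _ _)).1
    have hk1 : e ⟨k + 1, by omega⟩ ≤ 1 := (hmem _ (by rw [he]; exact Finset.orderEmbOfFin_mem _ _ _)).2
    have hts : t ∈ s := hin t htS (lt_of_le_of_lt hk0 ht.1) (lt_of_lt_of_le ht.2 hk1)
    have hr : t ∈ Set.range e := by
      rw [he, Finset.range_orderEmbOfFin]
      exact hts
    obtain ⟨j, rfl⟩ := hr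
    have h2 := e.lt_iff_lt.1 ht.1
    have h3 := e.lt_iff_lt.1 ht.2
    simp only [Fin.lt_def] at h2 h3
    omega

/-! ## B. the terminal datum -/

theorem sk_up_LC_eq : scLC 1 = fun z => Real.log (Real.cosh z) := by
  funext z
  simp [scLC]

theorem sk_up_LC_BI : ScBI (scLC 1) := sc_logcosh_BI 1

theorem sk_up_LC_d1 : deriv (scLC 1) = Real.tanh := by
  funext z
  rw [sk_up_LC_eq]
  have h := (Real.hasDerivAt_cosh z).log (Real.cosh_pos z).ne'
  rw [h.deriv, Real.tanh_eq_sinh_div_cosh]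

theorem sk_up_LC_d2 : deriv (deriv (scLC 1)) = skRho := by
  funext z
  rw [sk_up_LC_d1, (sc_hasDerivAt_tanh z).deriv, sk_up_rho_tanh]

/-! ## C. the instance -/

theorem sk_up_time {f : ℝ → ℝ} {f' T t : ℝ} (h : HasDerivAt f f' (T * t)) : HasDerivAt (fun s => f (T * s)) (T * f') t := by
  have h1 : HasDerivAt (fun s : ℝ => T * s) T t := by
    simpa using (hasDerivAt_id t).const_mul T
  have h2 := h.comp t h1
  rw [mul_comm]
  exact h2

section inst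

variable {T : ℝ} {π : List (ℝ × ℝ)} {K : ℕ} {τ : ℕ → ℝ}

theorem sk_up_inst_cont (hT : 0 < T) (hpos : ScPos π) (hlen : scLen π = T) (k : ℕ) :
    ContinuousOn (fun p : ℝ × ℝ => scD k (scLC 1) π (T * p.1) p.2) (Icc 0 1 ×ˢ univ) := by
  have h := (sc_D_T sk_up_LC_BI hpos k 0).continuousOn
  refine h.comp (f := fun p : ℝ × ℝ => (T * p.1, p.2)) (Continuous.continuousOn (by fun_prop)) ?_
  rintro ⟨t, z⟩ ⟨ht, -⟩
  exact ⟨⟨mul_nonneg hT.le ht.1, by rw [hlen]; nlinarith [ht.2]⟩, mem_univ _⟩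

theorem sk_up_inst_mem (hT : 0 < T) (hlen : scLen π = T) {t : ℝ} (ht : t ∈ Ioo (0 : ℝ) 1) : 0 < T * t ∧ T * t < scLen π :=
  ⟨mul_pos hT ht.1, by rw [hlen]; nlinarith [ht.2]⟩

theorem sk_up_inst_bdd (hT : 0 < T) (hπ : ScAdm 1 π) (hlen : scLen π = T) :
    ∃ C : ℝ, ∀ t ∈ Icc (0 : ℝ) 1, ∀ z, |scVt (scLC 1) π (T * t) z - Real.log (Real.cosh z)| ≤ C := by
  obtain ⟨C2, hC2⟩ := sc_D_bdd sk_up_LC_BI 1 hπ.pos
  refine ⟨(C2 / 2 + 1 / 2) * T, fun t ht z => ?_⟩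
  have h0 : 0 ≤ T * t := mul_nonneg hT.le ht.1
  have h1 : T * t ≤ scLen π := by rw [hlen]; nlinarith [ht.2]
  have h := sc_D_sub_eq_integral sk_up_LC_BI hπ.pos 0 h0 h1 le_rfl z
  rw [sc_D_of_le 0 _ hπ.pos le_rfl] at h
  simp only [Function.iterate_zero, id] at h
  have e : scVt (scLC 1) π (T * t) z - Real.log (Real.cosh z) = -(scLC 1 z - scD 0 (scLC 1) π (T * t) z) := by
    rw [sc_D_zero, sk_up_LC_eq]
    ring
  rw [e, abs_neg, h]
  have hb := intervalIntegral.norm_integral_le_of_norm_le_const (a := T * t) (b := scLen π) (C := C2 / 2 + 1 / 2)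
    (f := fun r => -scD (0 + 2) (scLC 1) π r z / 2 - scAl π r * (scD 1 (scLC 1) π r z ^ 2 / 2)) (fun r hr => by
      rw [uIoc_of_le h1] at hr
      have b1 := abs_le.1 (hC2 r (h0.trans hr.1.le) z)
      have b2 := abs_le.1 (sc_D1_le sk_up_LC_BI (L := 1) (fun y => by rw [sk_up_LC_d1]; exact (Real.abs_tanh_lt_one y).le) π r z)
      have b3 := sc_Al_mem zero_le_one hπ r
      have b4 : scD 1 (scLC 1) π r z ^ 2 ≤ 1 := by nlinarith [b2.1, b2.2]
      have b5 : scAl π r * scD 1 (scLC 1) π r z ^ 2 ≤ 1 := by nlinarith [b3.1, b3.2, sq_nonneg (scD 1 (scLC 1) π r z)]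
      have b6 : 0 ≤ scAl π r * scD 1 (scLC 1) π r z ^ 2 := mul_nonneg b3.1 (sq_nonneg _)
      rw [Real.norm_eq_abs, abs_le]
      constructor
      · have := b1.2
        simp only [zero_add]
        linarith
      · have := b1.1
        simp only [zero_add]
        linarith)
  rw [Real.norm_eq_abs] at hb
  refine hb.trans ?_
  have hC : 0 ≤ C2 / 2 + 1 / 2 := by
    have := (abs_nonneg _).trans (hC2 0 le_rfl 0)
    linarith
  refine mul_le_mul_of_nonneg_left ?_ hC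
  rw [abs_of_nonneg (by linarith), hlen]
  linarith

theorem sk_up_inst_sol (hT : 0 < T) (hπ : ScAdm 1 π) (hlen : scLen π = T) (hP : SkPart K τ)
    (hav : ∀ k < K, ∀ t ∈ Ioo (τ k) (τ (k + 1)), T * t ∉ scGrid π) :
    SkSol T (fun t => scAl π (T * t)) K τ (fun t => scVt (scLC 1) π (T * t)) (fun t => scD 1 (scLC 1) π (T * t)) (fun t => scD 2 (scLC 1) π (T * t)) where
  cont := sk_up_inst_cont hT hπ.pos hlen 0
  term := fun z => by
    rw [mul_one, ← hlen, sc_Vt_len _ hπ.pos, sk_up_LC_eq]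
  bdd := sk_up_inst_bdd hT hπ hlen
  dz := fun k _ t _ z => sc_D_hasDerivAt sk_up_LC_BI 0 π (T * t) z
  dzz := fun k _ t _ z => sc_D_hasDerivAt sk_up_LC_BI 1 π (T * t) z
  dt := fun k hk t ht z => by
    obtain ⟨h0, h1⟩ := sk_up_inst_mem hT hlen (hP.mem hk ht)
    have h := sk_up_time (sc_D_pde sk_up_LC_BI hπ.pos 0 h0 h1 (hav k hk t ht) z)
    simp only [Function.iterate_zero, id, zero_add] at h
    have e : -(T / 2) * (scD 2 (scLC 1) π (T * t) z + scAl π (T * t) * scD 1 (scLC 1) π (T * t) z ^ 2)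
        = T * (-scD 2 (scLC 1) π (T * t) z / 2 - scAl π (T * t) * (scD 1 (scLC 1) π (T * t) z ^ 2 / 2)) := by ring
    rw [e]
    exact h
  cz := fun k hk t ht z => by
    have h01 := hP.mem hk ht
    exact (sk_up_inst_cont hT hπ.pos hlen 1).continuousAt (prod_mem_nhds (Icc_mem_nhds h01.1 h01.2) univ_mem)

theorem sk_up_inst_sq1 (r z : ℝ) :
    HasDerivAt (fun y => scD 1 (scLC 1) π r y ^ 2 / 2) (scD 1 (scLC 1) π r z * scD 2 (scLC 1) π r z) z := by
  have h := ((sc_D_hasDerivAt sk_up_LC_BI 1 π r z).mul (sc_D_hasDerivAt sk_up_LC_BI 1 π r z)).div_const 2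
  have e : (fun y => scD 1 (scLC 1) π r y ^ 2 / 2) = fun y => scD 1 (scLC 1) π r y * scD 1 (scLC 1) π r y / 2 := by
    funext y
    ring
  have e2 : scD 1 (scLC 1) π r z * scD 2 (scLC 1) π r z
      = (scD (1 + 1) (scLC 1) π r z * scD 1 (scLC 1) π r z + scD 1 (scLC 1) π r z * scD (1 + 1) (scLC 1) π r z) / 2 := by
    norm_num
    ring
  rw [e, e2]
  exact h

theorem sk_up_inst_sq2 (r z : ℝ) :
    deriv^[2] (fun y => scD 1 (scLC 1) π r y ^ 2 / 2) z = scD 2 (scLC 1) π r z ^ 2 + scD 1 (scLC 1) π r z * scD 3 (scLC 1) π r z := by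
  have e : deriv (fun y => scD 1 (scLC 1) π r y ^ 2 / 2) = fun y => scD 1 (scLC 1) π r y * scD 2 (scLC 1) π r y :=
    funext fun y => (sk_up_inst_sq1 r y).deriv
  have h := (sc_D_hasDerivAt sk_up_LC_BI 1 π r z).mul (sc_D_hasDerivAt sk_up_LC_BI 2 π r z)
  show deriv (deriv (fun y => scD 1 (scLC 1) π r y ^ 2 / 2)) z = _
  rw [e]
  have h2 : deriv (fun y => scD 1 (scLC 1) π r y * scD 2 (scLC 1) π r y) z = _ := h.deriv
  rw [h2]
  norm_num
  ring

theorem sk_up_inst_sol4 (hT : 0 < T) (hπ : ScAdm 1 π) (hlen : scLen π = T) (hP : SkPart K τ)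
    (hav : ∀ k < K, ∀ t ∈ Ioo (τ k) (τ (k + 1)), T * t ∉ scGrid π) :
    SkSol4 T (fun t => scAl π (T * t)) K τ (fun t => scD 1 (scLC 1) π (T * t)) (fun t => scD 2 (scLC 1) π (T * t))
      (fun t => scD 3 (scLC 1) π (T * t)) (fun t => scD 4 (scLC 1) π (T * t)) where
  cont1 := sk_up_inst_cont hT hπ.pos hlen 1
  cont2 := sk_up_inst_cont hT hπ.pos hlen 2
  term1 := fun z => by
    rw [mul_one, ← hlen, sc_D_of_le 1 _ hπ.pos le_rfl, Function.iterate_one, sk_up_LC_d1]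
  term2 := fun z => by
    rw [mul_one, ← hlen, sc_D_of_le 2 _ hπ.pos le_rfl]
    show deriv (deriv (scLC 1)) z = _
    rw [sk_up_LC_d2]
  bd1 := fun t _ z => sc_D1_le sk_up_LC_BI (L := 1) (fun y => by rw [sk_up_LC_d1]; exact (Real.abs_tanh_lt_one y).le) π (T * t) z
  bd2 := by
    obtain ⟨C2, hC2⟩ := sc_D_bdd sk_up_LC_BI 1 hπ.pos
    exact ⟨C2, fun t ht z => hC2 (T * t) (mul_nonneg hT.le ht.1) z⟩
  d2 := fun k _ t _ z => sc_D_hasDerivAt sk_up_LC_BI 1 π (T * t) z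
  d3 := fun k _ t _ z => sc_D_hasDerivAt sk_up_LC_BI 2 π (T * t) z
  d4 := fun k _ t _ z => sc_D_hasDerivAt sk_up_LC_BI 3 π (T * t) z
  dt1 := fun k hk t ht z => by
    obtain ⟨h0, h1⟩ := sk_up_inst_mem hT hlen (hP.mem hk ht)
    have h := sk_up_time (sc_D_pde sk_up_LC_BI hπ.pos 1 h0 h1 (hav k hk t ht) z)
    rw [Function.iterate_one, (sk_up_inst_sq1 (T * t) z).deriv] at h
    have e : -(T / 2) * (scD 3 (scLC 1) π (T * t) z + 2 * scAl π (T * t) * scD 1 (scLC 1) π (T * t) z * scD 2 (scLC 1) π (T * t) z)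
        = T * (-scD (1 + 2) (scLC 1) π (T * t) z / 2 - scAl π (T * t) * (scD 1 (scLC 1) π (T * t) z * scD 2 (scLC 1) π (T * t) z)) := by
      norm_num
      ring
    rw [e]
    exact h
  dt2 := fun k hk t ht z => by
    obtain ⟨h0, h1⟩ := sk_up_inst_mem hT hlen (hP.mem hk ht)
    have h := sk_up_time (sc_D_pde sk_up_LC_BI hπ.pos 2 h0 h1 (hav k hk t ht) z)
    rw [sk_up_inst_sq2] at h
    have e : -(T / 2) * (scD 4 (scLC 1) π (T * t) z + 2 * scAl π (T * t) * (scD 2 (scLC 1) π (T * t) z ^ 2 + scD 1 (scLC 1) π (T * t) z * scD 3 (scLC 1) π (T * t) z))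
        = T * (-scD (2 + 2) (scLC 1) π (T * t) z / 2 - scAl π (T * t) * (scD 2 (scLC 1) π (T * t) z ^ 2 + scD 1 (scLC 1) π (T * t) z * scD 3 (scLC 1) π (T * t) z)) := by
      norm_num
      ring
    rw [e]
    exact h

end inst

/-! ## D. the midpoint of two profiles on the same grid -/

/-- the midpoint of two profiles on the same grid -/
noncomputable def scMid (π₁ π₂ : List (ℝ × ℝ)) : List (ℝ × ℝ) := List.zipWith (fun p q : ℝ × ℝ => ((p.1 + q.1) / 2, p.2)) π₁ π₂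

theorem sk_up_mid_eqns_cite : True := by
  have := @scMid.eq_1
  trivial

theorem sk_up_same_cons {p q : ℝ × ℝ} {π₁ π₂ : List (ℝ × ℝ)} (h : ScSame (p :: π₁) (q :: π₂)) : p.2 = q.2 ∧ ScSame π₁ π₂ := by
  unfold ScSame at h ⊢
  simp only [List.map_cons, List.cons.injEq] at h
  exact h

theorem sk_up_mid_al : ∀ {π₁ π₂ : List (ℝ × ℝ)}, ScSame π₁ π₂ → ∀ t, scAl (scMid π₁ π₂) t = (scAl π₁ t + scAl π₂ t) / 2
  | [], [], _, t => by simp [scMid, scAl]
  | [], q :: π₂, h, _ => by simp [ScSame] at h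
  | p :: π₁, [], h, _ => by simp [ScSame] at h
  | p :: π₁, q :: π₂, h, t => by
    obtain ⟨h1, h2⟩ := sk_up_same_cons h
    have ih := sk_up_mid_al h2 (t - p.2)
    have e : scMid (p :: π₁) (q :: π₂) = ((p.1 + q.1) / 2, p.2) :: scMid π₁ π₂ := rfl
    rw [e]
    simp only [scAl, ← h1]
    by_cases hp : p.2 ≤ t
    · simp only [if_pos hp]
      exact ih
    · simp only [if_neg hp]

theorem sk_up_mid_len : ∀ {π₁ π₂ : List (ℝ × ℝ)}, ScSame π₁ π₂ → scLen (scMid π₁ π₂) = scLen π₁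
  | [], [], _ => by simp [scMid, scLen]
  | [], q :: π₂, h => by simp [ScSame] at h
  | p :: π₁, [], h => by simp [ScSame] at h
  | p :: π₁, q :: π₂, h => by
    obtain ⟨_, h2⟩ := sk_up_same_cons h
    have e : scMid (p :: π₁) (q :: π₂) = ((p.1 + q.1) / 2, p.2) :: scMid π₁ π₂ := rfl
    rw [e]
    simp only [scLen, sk_up_mid_len h2]

theorem sk_up_mid_adm {a : ℝ} : ∀ {π₁ π₂ : List (ℝ × ℝ)}, ScAdm a π₁ → ScAdm a π₂ → ScAdm a (scMid π₁ π₂)
  | [], _, _, _ => by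
    intro p hp
    simp [scMid] at hp
  | p :: π₁, [], _, _ => by
    intro p hp
    simp [scMid] at hp
  | p :: π₁, q :: π₂, h1, h2 => by
    have e : scMid (p :: π₁) (q :: π₂) = ((p.1 + q.1) / 2, p.2) :: scMid π₁ π₂ := rfl
    rw [e]
    intro x hx
    rcases List.mem_cons.1 hx with rfl | hx
    · have a1 := h1 p (List.mem_cons_self ..)
      have a2 := h2 q (List.mem_cons_self ..)
      exact ⟨by simp only; linarith [a1.1, a2.1], by simp only; linarith [a1.2.1, a2.2.1], a1.2.2⟩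
    · exact sk_up_mid_adm h1.of_cons h2.of_cons x hx

theorem sk_up_same_len : ∀ {π₁ π₂ : List (ℝ × ℝ)}, ScSame π₁ π₂ → scLen π₂ = scLen π₁
  | [], [], _ => rfl
  | [], q :: π₂, h => by simp [ScSame] at h
  | p :: π₁, [], h => by simp [ScSame] at h
  | p :: π₁, q :: π₂, h => by
    obtain ⟨h1, h2⟩ := sk_up_same_cons h
    simp only [scLen, sk_up_same_len h2, h1]

/-! ## E. the exit -/

section exit

variable {T : ℝ} {π : List (ℝ × ℝ)} {K : ℕ} {τ : ℕ → ℝ}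

theorem sk_up_al_int (hπ : ScAdm 1 π) (T a b : ℝ) : IntervalIntegrable (fun t => scAl π (T * t)) volume a b := by
  have hm : Measurable fun t : ℝ => scAl π (T * t) := (sc_Al_measurable π).comp (measurable_const.mul measurable_id)
  refine (intervalIntegrable_const (c := (1 : ℝ))).mono_fun hm.aestronglyMeasurable (Filter.Eventually.of_forall fun t => ?_)
  have := sc_Al_mem zero_le_one hπ (T * t)
  simp only [Real.norm_eq_abs, abs_of_nonneg this.1, abs_one]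
  exact this.2

theorem sk_up_al_cont (hT : 0 < T) (hπ : ScAdm 1 π) (hlen : scLen π = T) (hP : SkPart K τ)
    (hav : ∀ k < K, ∀ t ∈ Ioo (τ k) (τ (k + 1)), T * t ∉ scGrid π) : ∀ k < K, ContinuousOn (fun t => scAl π (T * t)) (Ioo (τ k) (τ (k + 1))) := by
  intro k hk
  have h0 : 0 ≤ τ k := by
    have := hP.mono 0 k (Nat.zero_le _) hk.le
    rwa [hP.zero] at this
  have h1 : τ (k + 1) ≤ 1 := by
    have := hP.mono (k + 1) K hk le_rfl
    rwa [hP.one] at this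
  have hd : Disjoint (Ioo (T * τ k) (T * τ (k + 1))) (scGrid π) := by
    rw [Set.disjoint_left]
    intro x hx hxg
    refine hav k hk (x / T) ⟨?_, ?_⟩ ?_
    · rw [lt_div_iff₀ hT]
      linarith [hx.1]
    · rw [div_lt_iff₀ hT]
      linarith [hx.2]
    · rw [mul_div_cancel₀ _ hT.ne']
      exact hxg
  obtain ⟨hc, -, -⟩ := sc_local sk_up_LC_BI hπ.pos (mul_nonneg hT.le h0) (mul_lt_mul_of_pos_left (hP.lt k hk) hT) (by rw [hlen]; nlinarith) hd
  refine (continuousOn_const (c := scAl π (T * τ k))).congr fun t ht => ?_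
  exact hc (T * t) ⟨(mul_le_mul_of_nonneg_left ht.1.le hT.le), mul_lt_mul_of_pos_left ht.2 hT⟩

end exit

/-- **(U+) for step profiles**, time scaled to `[0, 1]` -/
theorem sk_up_list01 {T : ℝ} (hT : 0 < T) {π₁ π₂ : List (ℝ × ℝ)} (h1 : ScAdm 1 π₁) (h2 : ScAdm 1 π₂) (hs : ScSame π₁ π₂) (hlen : scLen π₁ = T) :
    T ^ 3 / 16 * Real.exp (-(18 * T)) * ∫ t in (0 : ℝ)..1, (∫ x in t..1, (scAl π₁ (T * x) - scAl π₂ (T * x))) ^ 2
      ≤ 1 / 2 * scV (scLC 1) π₁ 0 + 1 / 2 * scV (scLC 1) π₂ 0 - scV (scLC 1) (scMid π₁ π₂) 0 := by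
  have hb := sk_up_mid_adm h1 h2
  have hlen2 : scLen π₂ = T := by rw [sk_up_same_len hs, hlen]
  have hlenb : scLen (scMid π₁ π₂) = T := by rw [sk_up_mid_len hs, hlen]
  have hfin : {t : ℝ | T * t ∈ scGrid π₁ ∪ scGrid π₂ ∪ scGrid (scMid π₁ π₂)}.Finite :=
    Set.Finite.preimage (fun x _ y _ hxy => mul_left_cancel₀ hT.ne' hxy)
      (((sc_grid_finite π₁).union (sc_grid_finite π₂)).union (sc_grid_finite (scMid π₁ π₂)))
  obtain ⟨K, τ, hP, hav⟩ := sk_up_part_of_finite hfin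
  have hav1 : ∀ k < K, ∀ t ∈ Ioo (τ k) (τ (k + 1)), T * t ∉ scGrid π₁ := fun k hk t ht h => hav k hk t ht (Or.inl (Or.inl h))
  have hav2 : ∀ k < K, ∀ t ∈ Ioo (τ k) (τ (k + 1)), T * t ∉ scGrid π₂ := fun k hk t ht h => hav k hk t ht (Or.inl (Or.inr h))
  have havb : ∀ k < K, ∀ t ∈ Ioo (τ k) (τ (k + 1)), T * t ∉ scGrid (scMid π₁ π₂) := fun k hk t ht h => hav k hk t ht (Or.inr h)
  have h := sk_up_main hT hP (fun t _ => sc_Al_mem zero_le_one h1 (T * t)) (fun t _ => sc_Al_mem zero_le_one h2 (T * t))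
    (αb := fun t => scAl (scMid π₁ π₂) (T * t)) (fun t => sk_up_mid_al hs (T * t))
    (sk_up_inst_sol hT h1 hlen hP hav1) (sk_up_inst_sol hT h2 hlen2 hP hav2) (sk_up_inst_sol hT hb hlenb hP havb) (sk_up_inst_sol4 hT hb hlenb hP havb)
    (sk_up_al_int h1 T 0 1) (sk_up_al_int h2 T 0 1) (sk_up_al_cont hT h1 hlen hP hav1) (sk_up_al_cont hT h2 hlen2 hP hav2)
  simp only [mul_zero, sc_Vt_zero _ h1.pos, sc_Vt_zero _ h2.pos, sc_Vt_zero _ hb.pos] at h
  exact h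

/-- **(U+) for step profiles**      TEX[PE:prof:scalar-minimizer] -/
theorem sk_up_list {T : ℝ} (hT : 0 < T) {π₁ π₂ : List (ℝ × ℝ)} (h1 : ScAdm 1 π₁) (h2 : ScAdm 1 π₂) (hs : ScSame π₁ π₂) (hlen : scLen π₁ = T) :
    1 / 16 * Real.exp (-(18 * T)) * ∫ s in (0 : ℝ)..T, (∫ r in s..T, (scAl π₁ r - scAl π₂ r)) ^ 2
      ≤ 1 / 2 * scV (scLC 1) π₁ 0 + 1 / 2 * scV (scLC 1) π₂ 0 - scV (scLC 1) (scMid π₁ π₂) 0 := by
  refine le_trans (le_of_eq ?_) (sk_up_list01 hT h1 h2 hs hlen)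
  have e1 : ∀ t : ℝ, (∫ x in t..1, (scAl π₁ (T * x) - scAl π₂ (T * x))) = T⁻¹ * ∫ r in T * t..T, (scAl π₁ r - scAl π₂ r) := by
    intro t
    have := intervalIntegral.integral_comp_mul_left (a := t) (b := 1) (fun r => scAl π₁ r - scAl π₂ r) hT.ne'
    rw [mul_one, smul_eq_mul] at this
    exact this
  have e2 : (∫ t in (0 : ℝ)..1, (T⁻¹ * ∫ r in T * t..T, (scAl π₁ r - scAl π₂ r)) ^ 2)
      = T⁻¹ * ∫ s in (0 : ℝ)..T, (T⁻¹ * ∫ r in s..T, (scAl π₁ r - scAl π₂ r)) ^ 2 := by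
    have := intervalIntegral.integral_comp_mul_left (a := 0) (b := 1) (fun s => (T⁻¹ * ∫ r in s..T, (scAl π₁ r - scAl π₂ r)) ^ 2) hT.ne'
    rw [mul_one, mul_zero, smul_eq_mul] at this
    exact this
  simp only [e1]
  rw [e2]
  simp only [mul_pow]
  rw [intervalIntegral.integral_const_mul]
  field_simp

end Claimed.Agent.R286
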