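import Claimed.Agent.R286.Sc.UpAlg

/-!
# Row 286, scalar block, (U+), file 3: COERCIVE STRICT CONVEXITY OF THE PARISI FUNCTIONAL      (helper159; paper proof helper67, notes/R286/P11_helper67.md sec. 4; prefix `sk_up_`)

TEX[PE:prof:scalar-minimizer] (the uniqueness part, profile.tex l.757-801, in the quantitative form (U+) which LL (G2) wants).      NO Ito calculus, NO stochastic control.
INTERFACE (abstract; nothing of the scalar block is imported):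
* `SkPart K τ`  : `0 = τ 0 < τ 1 < .. < τ K = 1`.
* `SkSol T α K τ V V1 V2`  : `V` is continuous on `[0,1] × ℝ`, `V(1, z) = log cosh z`, `V - log cosh` bounded, and at the times of the OPEN steps: `V1 = V_z`, `V2 = V_zz`,
  `V_t = -(T/2) (V_zz + α V_z²)`, `V_z` jointly continuous.
* `SkSol4 T α K τ V1 V2 V3 V4` : two more derivatives: `V1, V2` continuous on `[0,1] × ℝ`, `V1(1) = tanh`, `V2(1) = sech²`, `|V1| ≤ 1`, `V2` bounded, the two differentiated equations.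
EXIT  `sk_up_main` :  `(T³/16) e^{-18 T} ∫₀¹ (∫ₜ¹ (α1 - α2))² dt ≤ (1/2) V¹(0,0) + (1/2) V²(0,0) - V^{mid}(0,0)`      for `α1, α2 : [0,1] → [0,1]` integrable, continuous on the open steps.
By-products: `sk_up_w2_le` (`V_zz ≤ 1 - V_z²`), `sk_up_w2_ge` (`V_zz ≥ e^{-3T(1-t)} sech² z`).
-/

set_option autoImplicit false

namespace Claimed.Agent.R286

open Set Filter Topology

/-! ## the operator calculus -/

/-- `F` has a jet at `(t, z, w)`; `fz` = its first space derivative, `ℓ` = the value of `L F` -/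
def SkOp (T β c : ℝ) (F : ℝ → ℝ → ℝ → ℝ) (t z w fz ℓ : ℝ) : Prop :=
  ∃ dr dzz, SkJet c F t z w dr fz dzz ∧ skL T β dr fz dzz = ℓ

theorem sk_up_op_eqns_cite : True := by
  have := @SkOp.eq_1
  trivial

namespace SkOp

variable {T β c t z w : ℝ} {F G : ℝ → ℝ → ℝ → ℝ} {fz gz ℓf ℓg : ℝ}

theorem of_jet {dr dz dzz : ℝ} (J : SkJet c F t z w dr dz dzz) : SkOp T β c F t z w dz (skL T β dr dz dzz) := ⟨_, _, J, rfl⟩

theorem congr_val {fz' ℓ' : ℝ} (h : SkOp T β c F t z w fz ℓf) (e1 : fz = fz') (e2 : ℓf = ℓ') : SkOp T β c F t z w fz' ℓ' := by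
  rw [← e1, ← e2]
  exact h

theorem add (hF : SkOp T β c F t z w fz ℓf) (hG : SkOp T β c G t z w gz ℓg) :
    SkOp T β c (fun t z w => F t z w + G t z w) t z w (fz + gz) (ℓf + ℓg) := by
  obtain ⟨fr, fzz, JF, eF⟩ := hF
  obtain ⟨gr, gzz, JG, eG⟩ := hG
  refine ⟨_, _, JF.add JG, ?_⟩
  rw [← eF, ← eG]
  unfold skL
  ring

theorem sub (hF : SkOp T β c F t z w fz ℓf) (hG : SkOp T β c G t z w gz ℓg) :
    SkOp T β c (fun t z w => F t z w - G t z w) t z w (fz - gz) (ℓf - ℓg) := by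
  obtain ⟨fr, fzz, JF, eF⟩ := hF
  obtain ⟨gr, gzz, JG, eG⟩ := hG
  refine ⟨_, _, JF.sub JG, ?_⟩
  rw [← eF, ← eG]
  unfold skL
  ring

theorem const_mul (a : ℝ) (hF : SkOp T β c F t z w fz ℓf) :
    SkOp T β c (fun t z w => a * F t z w) t z w (a * fz) (a * ℓf) := by
  obtain ⟨fr, fzz, JF, eF⟩ := hF
  refine ⟨_, _, JF.const_mul a, ?_⟩
  rw [← eF]
  unfold skL
  ring

theorem mul (hF : SkOp T β c F t z w fz ℓf) (hG : SkOp T β c G t z w gz ℓg) :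
    SkOp T β c (fun t z w => F t z w * G t z w) t z w (fz * G t z w + F t z w * gz) (G t z w * ℓf + F t z w * ℓg + T * fz * gz) := by
  obtain ⟨fr, fzz, JF, eF⟩ := hF
  obtain ⟨gr, gzz, JG, eG⟩ := hG
  refine ⟨_, _, JF.mul JG, ?_⟩
  rw [sk_up_L_mul, eF, eG]

theorem sq (hF : SkOp T β c F t z w fz ℓf) :
    SkOp T β c (fun t z w => F t z w ^ 2) t z w (2 * F t z w * fz) (2 * F t z w * ℓf + T * fz ^ 2) := by
  obtain ⟨fr, fzz, JF, eF⟩ := hF
  refine ⟨_, _, JF.sq, ?_⟩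
  rw [sk_up_L_sq, eF]

theorem of_time {f : ℝ → ℝ} {f' : ℝ} (h : HasDerivAt f f' t) : SkOp T β c (fun t _ _ => f t) t z w 0 f' := by
  refine ⟨_, _, SkJet.of_time h, ?_⟩
  unfold skL
  ring

theorem const (a : ℝ) : SkOp T β c (fun _ _ _ => a) t z w 0 0 := of_time (f := fun _ => a) (hasDerivAt_const _ _)

theorem coord_w : SkOp T β c (fun _ _ w => w) t z w 0 c := by
  refine ⟨_, _, SkJet.coord_w, ?_⟩
  unfold skL
  ring

/-- the form which the maximum principle wants -/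
theorem wmp (h : SkOp T β c F t z w fz ℓf) (hℓ : ℓf ≤ 0) : ∃ dr dz dzz, SkJet c F t z w dr dz dzz ∧ dr + T / 2 * dzz + β * dz ≤ 0 := by
  obtain ⟨fr, fzz, JF, eF⟩ := h
  refine ⟨_, _, _, JF, ?_⟩
  rw [← eF] at hℓ
  exact hℓ

end SkOp

/-! ## the derivative along a ray -/

theorem sk_up_ray {V V1 : ℝ → ℝ → ℝ} {t x c vt : ℝ} (hz : ∀ᶠ s in 𝓝 t, ∀ y, HasDerivAt (V s) (V1 s y) y)
    (ht : HasDerivAt (fun s => V s x) vt t) (hc : ContinuousAt (fun p : ℝ × ℝ => V1 p.1 p.2) (t, x)) :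
    HasDerivAt (fun s : ℝ => V (t + s) (x + s * c)) (vt + c * V1 t x) 0 := by
  have h2 : HasDerivAt (fun s : ℝ => V (t + s) x) vt 0 :=
    HasDerivAt.comp_const_add (f := fun s => V s x) t 0 (by simpa using ht)
  have h1 : HasDerivAt (fun s : ℝ => V (t + s) (x + s * c) - V (t + s) x) (c * V1 t x) 0 := by
    rw [hasDerivAt_iff_isLittleO_nhds_zero, Asymptotics.isLittleO_iff]
    intro ε hε
    obtain ⟨ε', hε', hεε⟩ : ∃ ε' : ℝ, 0 < ε' ∧ ε' * |c| ≤ ε := by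
      refine ⟨ε / (|c| + 1), by positivity, ?_⟩
      rw [div_mul_eq_mul_div, div_le_iff₀ (by positivity)]
      nlinarith [abs_nonneg c]
    obtain ⟨δ, hδ, hcon⟩ := Metric.continuousAt_iff.1 hc ε' hε'
    have e1 : ∀ᶠ s : ℝ in 𝓝 0, |s| < δ := by
      have : Tendsto (fun s : ℝ => |s|) (𝓝 0) (𝓝 |0|) := (continuous_abs.tendsto 0)
      rw [abs_zero] at this
      exact this.eventually (gt_mem_nhds hδ)
    have e2 : ∀ᶠ s : ℝ in 𝓝 0, |s * c| < δ := by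
      have : Tendsto (fun s : ℝ => |s * c|) (𝓝 0) (𝓝 |0 * c|) := ((continuous_abs.comp (continuous_id.mul continuous_const)).tendsto 0)
      rw [zero_mul, abs_zero] at this
      exact this.eventually (gt_mem_nhds hδ)
    have e3 : ∀ᶠ s : ℝ in 𝓝 0, ∀ y, HasDerivAt (V (t + s)) (V1 (t + s) y) y := by
      have : Tendsto (fun s : ℝ => t + s) (𝓝 0) (𝓝 (t + 0)) := ((continuous_const.add continuous_id).tendsto 0)
      rw [add_zero] at this
      exact this.eventually hz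
    filter_upwards [e1, e2, e3] with s hs1 hs2 hs3
    have hmv := Convex.norm_image_sub_le_of_norm_hasDerivWithin_le (f := fun y => V (t + s) y - y * V1 t x)
      (f' := fun y => V1 (t + s) y - 1 * V1 t x) (C := ε') (s := Metric.ball x δ) (x := x) (y := x + s * c)
      (fun y _ => ((hs3 y).sub ((hasDerivAt_id y).mul_const (V1 t x))).hasDerivWithinAt)
      (fun y hy => by
        have h3 : dist ((t + s, y) : ℝ × ℝ) (t, x) < δ := by
          rw [Prod.dist_eq]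
          refine max_lt ?_ hy
          rw [Real.dist_eq]
          simpa using hs1
        have h4 := hcon h3
        rw [Real.dist_eq] at h4
        rw [Real.norm_eq_abs, one_mul]
        exact h4.le)
      (convex_ball x δ) (Metric.mem_ball_self hδ) (by
        rw [Metric.mem_ball, Real.dist_eq]
        simpa using hs2)
    simp only [Real.norm_eq_abs, zero_add, zero_mul, add_zero, sub_self, smul_eq_mul, sub_zero] at hmv ⊢
    have e4 : V (t + s) (x + s * c) - V (t + s) x - s * (c * V1 t x) = V (t + s) (x + s * c) - (x + s * c) * V1 t x - (V (t + s) x - x * V1 t x) := by ring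
    rw [e4]
    refine hmv.trans ?_
    have e5 : x + s * c - x = s * c := by ring
    rw [e5, abs_mul]
    calc ε' * (|s| * |c|) = ε' * |c| * |s| := by ring
      _ ≤ ε * |s| := mul_le_mul_of_nonneg_right hεε (abs_nonneg _)
  have h := h2.add h1
  have e : (fun s : ℝ => V (t + s) (x + s * c)) = fun s => V (t + s) x + (V (t + s) (x + s * c) - V (t + s) x) := by
    funext s
    ring
  rw [e]
  exact h

/-! ## the interface -/

/-- a partition of `[0, 1]` -/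
structure SkPart (K : ℕ) (τ : ℕ → ℝ) : Prop where
  lt : ∀ k < K, τ k < τ (k + 1)
  zero : τ 0 = 0
  one : τ K = 1

/-- a solution of the Parisi equation `V_t = -(T/2)(V_zz + α V_z²)`, `V(1) = log cosh` -/
structure SkSol (T : ℝ) (α : ℝ → ℝ) (K : ℕ) (τ : ℕ → ℝ) (V V1 V2 : ℝ → ℝ → ℝ) : Prop where
  cont : ContinuousOn (fun p : ℝ × ℝ => V p.1 p.2) (Icc 0 1 ×ˢ univ)
  term : ∀ z, V 1 z = Real.log (Real.cosh z)
  bdd : ∃ C : ℝ, ∀ t ∈ Icc (0 : ℝ) 1, ∀ z, |V t z - Real.log (Real.cosh z)| ≤ C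
  dz : ∀ k < K, ∀ t ∈ Ioo (τ k) (τ (k + 1)), ∀ z, HasDerivAt (V t) (V1 t z) z
  dzz : ∀ k < K, ∀ t ∈ Ioo (τ k) (τ (k + 1)), ∀ z, HasDerivAt (V1 t) (V2 t z) z
  dt : ∀ k < K, ∀ t ∈ Ioo (τ k) (τ (k + 1)), ∀ z, HasDerivAt (fun s => V s z) (-(T / 2) * (V2 t z + α t * V1 t z ^ 2)) t
  cz : ∀ k < K, ∀ t ∈ Ioo (τ k) (τ (k + 1)), ∀ z, ContinuousAt (fun p : ℝ × ℝ => V1 p.1 p.2) (t, z)

/-- two more space derivatives -/
structure SkSol4 (T : ℝ) (α : ℝ → ℝ) (K : ℕ) (τ : ℕ → ℝ) (V1 V2 V3 V4 : ℝ → ℝ → ℝ) : Prop where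
  cont1 : ContinuousOn (fun p : ℝ × ℝ => V1 p.1 p.2) (Icc 0 1 ×ˢ univ)
  cont2 : ContinuousOn (fun p : ℝ × ℝ => V2 p.1 p.2) (Icc 0 1 ×ˢ univ)
  term1 : ∀ z, V1 1 z = Real.tanh z
  term2 : ∀ z, V2 1 z = skRho z
  bd1 : ∀ t ∈ Icc (0 : ℝ) 1, ∀ z, |V1 t z| ≤ 1
  bd2 : ∃ C : ℝ, ∀ t ∈ Icc (0 : ℝ) 1, ∀ z, |V2 t z| ≤ C
  d2 : ∀ k < K, ∀ t ∈ Ioo (τ k) (τ (k + 1)), ∀ z, HasDerivAt (V1 t) (V2 t z) z
  d3 : ∀ k < K, ∀ t ∈ Ioo (τ k) (τ (k + 1)), ∀ z, HasDerivAt (V2 t) (V3 t z) z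
  d4 : ∀ k < K, ∀ t ∈ Ioo (τ k) (τ (k + 1)), ∀ z, HasDerivAt (V3 t) (V4 t z) z
  dt1 : ∀ k < K, ∀ t ∈ Ioo (τ k) (τ (k + 1)), ∀ z, HasDerivAt (fun s => V1 s z) (-(T / 2) * (V3 t z + 2 * α t * V1 t z * V2 t z)) t
  dt2 : ∀ k < K, ∀ t ∈ Ioo (τ k) (τ (k + 1)), ∀ z,
    HasDerivAt (fun s => V2 s z) (-(T / 2) * (V4 t z + 2 * α t * (V2 t z ^ 2 + V1 t z * V3 t z))) t

/-! ## the jets of the solutions -/

section jets

variable {T : ℝ} {α : ℝ → ℝ} {K : ℕ} {τ : ℕ → ℝ} {V V1 V2 V3 V4 : ℝ → ℝ → ℝ}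

theorem SkSol.jet_plus (S : SkSol T α K τ V V1 V2) {k : ℕ} (hk : k < K) {t : ℝ} (ht : t ∈ Ioo (τ k) (τ (k + 1))) (c z w : ℝ) :
    SkJet c (fun t z w => V t (z + w)) t z w (-(T / 2) * (V2 t (z + w) + α t * V1 t (z + w) ^ 2) + c * V1 t (z + w)) (V1 t (z + w)) (V2 t (z + w)) := by
  refine ⟨?_, fun x => V1 t (x + w), fun x => HasDerivAt.comp_add_const x w (S.dz k hk t ht (x + w)), rfl,
    HasDerivAt.comp_add_const z w (S.dzz k hk t ht (z + w))⟩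
  have h := sk_up_ray (c := c) (by filter_upwards [Ioo_mem_nhds ht.1 ht.2] with s hs using S.dz k hk s hs) (S.dt k hk t ht (z + w)) (S.cz k hk t ht (z + w))
  have e : (fun s : ℝ => V (t + s) (z + (w + s * c))) = fun s => V (t + s) (z + w + s * c) := by
    funext s
    rw [add_assoc]
  rw [e]
  exact h

theorem SkSol.jet_minus (S : SkSol T α K τ V V1 V2) {k : ℕ} (hk : k < K) {t : ℝ} (ht : t ∈ Ioo (τ k) (τ (k + 1))) (c z w : ℝ) :
    SkJet c (fun t z w => V t (z - w)) t z w (-(T / 2) * (V2 t (z - w) + α t * V1 t (z - w) ^ 2) - c * V1 t (z - w)) (V1 t (z - w)) (V2 t (z - w)) := by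
  refine ⟨?_, fun x => V1 t (x - w), fun x => HasDerivAt.comp_sub_const x w (S.dz k hk t ht (x - w)), rfl,
    HasDerivAt.comp_sub_const z w (S.dzz k hk t ht (z - w))⟩
  have h := sk_up_ray (c := -c) (by filter_upwards [Ioo_mem_nhds ht.1 ht.2] with s hs using S.dz k hk s hs) (S.dt k hk t ht (z - w)) (S.cz k hk t ht (z - w))
  have e : (fun s : ℝ => V (t + s) (z - (w + s * c))) = fun s => V (t + s) (z - w + s * -c) := by
    funext s
    congr 1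
    ring
  have e2 : -(T / 2) * (V2 t (z - w) + α t * V1 t (z - w) ^ 2) - c * V1 t (z - w) = -(T / 2) * (V2 t (z - w) + α t * V1 t (z - w) ^ 2) + -c * V1 t (z - w) := by ring
  rw [e, e2]
  exact h

theorem SkSol.jet (S : SkSol T α K τ V V1 V2) {k : ℕ} (hk : k < K) {t : ℝ} (ht : t ∈ Ioo (τ k) (τ (k + 1))) (c z w : ℝ) :
    SkJet c (fun t z _ => V t z) t z w (-(T / 2) * (V2 t z + α t * V1 t z ^ 2)) (V1 t z) (V2 t z) :=
  SkJet.of_tz (f := V) (f' := V1 t) (S.dt k hk t ht z) (S.dz k hk t ht) (S.dzz k hk t ht z)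

/-- `L m = 0` -/
theorem SkSol4.op1 (S : SkSol4 T α K τ V1 V2 V3 V4) {k : ℕ} (hk : k < K) {t : ℝ} (ht : t ∈ Ioo (τ k) (τ (k + 1))) (c z w : ℝ) :
    SkOp T (T * α t * V1 t z) c (fun t z _ => V1 t z) t z w (V2 t z) 0 := by
  refine ⟨_, _, SkJet.of_tz (f := V1) (f' := V2 t) (S.dt1 k hk t ht z) (S.d2 k hk t ht) (S.d3 k hk t ht z), ?_⟩
  unfold skL
  ring

/-- `L w₂ = - T α w₂²` -/
theorem SkSol4.op2 (S : SkSol4 T α K τ V1 V2 V3 V4) {k : ℕ} (hk : k < K) {t : ℝ} (ht : t ∈ Ioo (τ k) (τ (k + 1))) (c z w : ℝ) :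
    SkOp T (T * α t * V1 t z) c (fun t z _ => V2 t z) t z w (V3 t z) (-(T * α t * V2 t z ^ 2)) := by
  refine ⟨_, _, SkJet.of_tz (f := V2) (f' := V3 t) (S.dt2 k hk t ht z) (S.d3 k hk t ht) (S.d4 k hk t ht z), ?_⟩
  unfold skL
  ring

end jets

/-- `ρ` as a function of `(t, z, w)` -/
theorem sk_up_op_rho (T β c t z w : ℝ) : SkOp T β c (fun _ z _ => skRho z) t z w (skRho1 z) (skL T β 0 (skRho1 z) (skRho2 z)) :=
  SkOp.of_jet (SkJet.of_space sk_up_rho_d1 (sk_up_rho_d2 z))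

/-! ## small tools -/

theorem SkPart.mono {K : ℕ} {τ : ℕ → ℝ} (hP : SkPart K τ) : ∀ i j, i ≤ j → j ≤ K → τ i ≤ τ j := by
  intro i j hij
  induction j, hij using Nat.le_induction with
  | base => exact fun _ => le_rfl
  | succ j _ ih => exact fun hj => (ih (by omega)).trans (hP.lt j (by omega)).le

theorem SkPart.mem {K : ℕ} {τ : ℕ → ℝ} (hP : SkPart K τ) {k : ℕ} (hk : k < K) {t : ℝ} (ht : t ∈ Ioo (τ k) (τ (k + 1))) : t ∈ Ioo (0 : ℝ) 1 := by
  have h1 := hP.mono 0 k (Nat.zero_le _) hk.le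
  have h2 := hP.mono (k + 1) K hk le_rfl
  rw [hP.zero] at h1
  rw [hP.one] at h2
  exact ⟨lt_of_le_of_lt h1 ht.1, lt_of_lt_of_le ht.2 h2⟩

/-- the maximum principle over a partition of `[0, 1]` -/
theorem sk_up_wmp01 {T κ C : ℝ} (hT : 0 < T) (hκ : 0 ≤ κ) {K : ℕ} {τ : ℕ → ℝ} (hP : SkPart K τ) (F c β : ℝ → ℝ → ℝ → ℝ)
    (hc : ∀ t ∈ Icc (0 : ℝ) 1, ∀ z w, |c t z w| ≤ κ) (hβ : ∀ t ∈ Icc (0 : ℝ) 1, ∀ z w, |β t z w| ≤ T)
    (hcont : ContinuousOn (fun p : ℝ × ℝ × ℝ => F p.1 p.2.1 p.2.2) {p | p.1 ∈ Icc (0 : ℝ) 1})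
    (hbd : ∀ t ∈ Icc (0 : ℝ) 1, ∀ z w, |w| ≤ κ * t → -C ≤ F t z w)
    (hjet : ∀ k < K, ∀ t ∈ Ioo (τ k) (τ (k + 1)), ∀ z w, |w| ≤ κ * t →
      ∃ dr dz dzz, SkJet (c t z w) F t z w dr dz dzz ∧ dr + T / 2 * dzz + β t z w * dz ≤ 0)
    (hterm : ∀ z w, |w| ≤ κ * 1 → 0 ≤ F 1 z w) :
    ∀ t ∈ Icc (0 : ℝ) 1, ∀ z w, |w| ≤ κ * t → 0 ≤ F t z w := by
  have h := sk_up_wmp (C := C) hT hκ K τ hP.lt F c β
  rw [hP.zero, hP.one] at h
  exact h hc hβ hcont hbd hjet hterm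

theorem sk_up_beta_le {T a m : ℝ} (hT : 0 < T) (ha : a ∈ Icc (0 : ℝ) 1) (hm : |m| ≤ 1) : |T * a * m| ≤ T := by
  rw [abs_mul, abs_mul, abs_of_pos hT, abs_of_nonneg ha.1]
  have h1 : a * |m| ≤ 1 := by nlinarith [abs_nonneg m, ha.1, ha.2]
  nlinarith

theorem sk_up_cont_tz {f : ℝ → ℝ → ℝ} (h : ContinuousOn (fun p : ℝ × ℝ => f p.1 p.2) (Icc 0 1 ×ˢ univ)) {g : ℝ × ℝ × ℝ → ℝ} (hg : Continuous g) :
    ContinuousOn (fun p : ℝ × ℝ × ℝ => f p.1 (g p)) {p | p.1 ∈ Icc (0 : ℝ) 1} :=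
  h.comp (f := fun p : ℝ × ℝ × ℝ => (p.1, g p)) (continuous_fst.prodMk hg).continuousOn (fun _ hp => ⟨hp, mem_univ _⟩)

theorem sk_up_cont_t {f : ℝ → ℝ} (h : ContinuousOn f (Icc 0 1)) : ContinuousOn (fun p : ℝ × ℝ × ℝ => f p.1) {p | p.1 ∈ Icc (0 : ℝ) 1} :=
  h.comp continuous_fst.continuousOn (fun _ hp => hp)

theorem sk_up_exp_deriv (a t : ℝ) : HasDerivAt (fun t => Real.exp (-a * (1 - t))) (a * Real.exp (-a * (1 - t))) t := by
  have h := ((((hasDerivAt_id t).const_sub 1).const_mul (-a))).exp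
  simp only [id] at h
  have e : a * Real.exp (-a * (1 - t)) = Real.exp (-a * (1 - t)) * (-a * -1) := by ring
  rw [e]
  exact h

theorem sk_up_exp_le_one {a t : ℝ} (ha : 0 ≤ a) (ht : t ≤ 1) : Real.exp (-a * (1 - t)) ≤ 1 := by
  rw [Real.exp_le_one_iff]
  nlinarith

theorem sk_up_rho_tanh (z : ℝ) : skRho z = 1 - Real.tanh z ^ 2 := by
  have hc := Real.cosh_pos z
  have h := Real.cosh_sq z
  unfold skRho
  rw [Real.tanh_eq_sinh_div_cosh]
  field_simp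
  linarith

/-! ## two by-products: `e^{-3T(1-t)} sech² z ≤ V_zz ≤ 1 - V_z²` -/

section byprod

variable {T : ℝ} {K : ℕ} {τ : ℕ → ℝ} {α : ℝ → ℝ} {m w2 w3 w4 : ℝ → ℝ → ℝ}

theorem sk_up_w2_le (hT : 0 < T) (hP : SkPart K τ) (hα : ∀ t ∈ Icc (0 : ℝ) 1, α t ∈ Icc (0 : ℝ) 1) (S : SkSol4 T α K τ m w2 w3 w4) :
    ∀ t ∈ Icc (0 : ℝ) 1, ∀ z, w2 t z ≤ 1 - m t z ^ 2 := by
  obtain ⟨C, hC⟩ := S.bd2
  have h := sk_up_wmp01 (κ := 0) (C := C) hT le_rfl hP (fun t z _ => 1 - m t z ^ 2 - w2 t z) (fun _ _ _ => 0) (fun t z _ => T * α t * m t z)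
    (fun t _ z w => by simp) (fun t ht z _ => sk_up_beta_le hT (hα t ht) (S.bd1 t ht z))
    ((continuousOn_const.sub ((sk_up_cont_tz S.cont1 (continuous_fst.comp continuous_snd)).pow 2)).sub (sk_up_cont_tz S.cont2 (continuous_fst.comp continuous_snd)))
    (fun t ht z w _ => by
      have h1 := abs_le.1 (hC t ht z)
      have h2 := abs_le.1 (S.bd1 t ht z)
      nlinarith)
    (fun k hk t ht z w _ => by
      refine (((SkOp.const 1).sub (S.op1 hk ht 0 z w).sq).sub (S.op2 hk ht 0 z w)).wmp ?_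
      have h1 := (hα t (Ioo_subset_Icc_self (hP.mem hk ht))).2
      have h2 : 0 ≤ T * (1 - α t) * w2 t z ^ 2 := mul_nonneg (mul_nonneg hT.le (by linarith)) (sq_nonneg _)
      nlinarith)
    (fun z w _ => by
      rw [S.term1, S.term2, sk_up_rho_tanh]
      linarith)
  intro t ht z
  have := h t ht z 0 (by simp)
  linarith

theorem sk_up_w2_ge (hT : 0 < T) (hP : SkPart K τ) (hα : ∀ t ∈ Icc (0 : ℝ) 1, α t ∈ Icc (0 : ℝ) 1) (S : SkSol4 T α K τ m w2 w3 w4) :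
    ∀ t ∈ Icc (0 : ℝ) 1, ∀ z, Real.exp (-(3 * T) * (1 - t)) * skRho z ≤ w2 t z := by
  obtain ⟨C, hC⟩ := S.bd2
  have h := sk_up_wmp01 (κ := 0) (C := C + 1) hT le_rfl hP (fun t z _ => w2 t z - Real.exp (-(3 * T) * (1 - t)) * skRho z) (fun _ _ _ => 0)
    (fun t z _ => T * α t * m t z)
    (fun t _ z w => by simp) (fun t ht z _ => sk_up_beta_le hT (hα t ht) (S.bd1 t ht z))
    ((sk_up_cont_tz S.cont2 (continuous_fst.comp continuous_snd)).sub
      (Continuous.continuousOn (by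
        have := sk_up_rho_cont
        fun_prop)))
    (fun t ht z w _ => by
      have h1 := abs_le.1 (hC t ht z)
      have h2 := sk_up_exp_le_one (a := 3 * T) (by positivity) ht.2
      have h3 := sk_up_rho_le_one z
      have h4 := sk_up_rho_pos z
      have h5 := Real.exp_pos (-(3 * T) * (1 - t))
      nlinarith)
    (fun k hk t ht z w _ => by
      refine ((S.op2 hk ht 0 z w).sub ((SkOp.of_time (sk_up_exp_deriv (3 * T) t)).mul (sk_up_op_rho T (T * α t * m t z) 0 t z w))).wmp ?_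
      have htI := Ioo_subset_Icc_self (hP.mem hk ht)
      have h1 := (hα t htI).1
      have h2 := sk_up_L_rho hT (sk_up_beta_le hT (hα t htI) (S.bd1 t htI z)) z
      have h3 := Real.exp_pos (-(3 * T) * (1 - t))
      have h4 : 0 ≤ T * α t * w2 t z ^ 2 := mul_nonneg (mul_nonneg hT.le h1) (sq_nonneg _)
      have h5 := mul_le_mul_of_nonneg_left h2 h3.le
      nlinarith)
    (fun z w _ => by
      rw [S.term2]
      simp)
  intro t ht z
  have := h t ht z 0 (by simp)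
  linarith

end byprod

/-! ## the core -/

/-- the final pointwise inequality `L Θ ≤ 0` -/
theorem sk_up_alg_final {T E1 G ρ ρ1 Lρ y φ w2 w3 ab LU c0 : ℝ} (hT : 0 < T) (hE1 : 0 ≤ E1) (hG : 0 ≤ G) (hρ : 0 ≤ ρ) (h1 : |ρ1| ≤ 2 * ρ)
    (hL : -(3 * T) * ρ ≤ Lρ) (ha1 : ab ≤ 1) (hw0 : 0 ≤ w2) (hw1 : w2 ≤ 1) (hU : LU ≤ 0) (hc0 : 0 ≤ c0) :
    LU - c0 * (11 * T * E1 * (ρ * y ^ 2) + E1 * (y ^ 2 * Lρ + ρ * (T * (φ * w2) ^ 2) + T * ρ1 * (2 * y * (φ * w2))))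
      - c0 * ((9 * T * G - E1 * (T / 2) * φ ^ 2) * (ρ * w2 ^ 2) + G * (w2 ^ 2 * Lρ + ρ * (2 * w2 * (-(T * ab * w2 ^ 2)) + T * w3 ^ 2) + T * ρ1 * (2 * w2 * w3))) ≤ 0 := by
  have hA := mul_le_mul_of_nonneg_left (sk_up_alg_rY (y := y) (yz := φ * w2) hT hρ h1 hL) hE1
  have hB := mul_le_mul_of_nonneg_left (sk_up_alg_sig (w3 := w3) hT hρ h1 hL ha1 hw0 hw1) hG
  have hS : 0 ≤ (11 * T * E1 * (ρ * y ^ 2) + E1 * (y ^ 2 * Lρ + ρ * (T * (φ * w2) ^ 2) + T * ρ1 * (2 * y * (φ * w2))))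
      + ((9 * T * G - E1 * (T / 2) * φ ^ 2) * (ρ * w2 ^ 2) + G * (w2 ^ 2 * Lρ + ρ * (2 * w2 * (-(T * ab * w2 ^ 2)) + T * w3 ^ 2) + T * ρ1 * (2 * w2 * w3))) := by
    linarith
  have := mul_nonneg hc0 hS
  linarith

section core

variable {T : ℝ} {K : ℕ} {τ : ℕ → ℝ} {α1 α2 αb : ℝ → ℝ} {V1 V1z V1zz V2 V2z V2zz Vb m w2 w3 w4 : ℝ → ℝ → ℝ} {φ G : ℝ → ℝ}

/-- **the core**: `φ' = -(T/2)(α1 - α2)`, `φ(1) = 0`, `G' = 9 T G - e^{-11T(1-t)} (T/2) φ²`, `G(1) = 0`, `G ≥ 0` -/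
theorem sk_up_core (hT : 0 < T) (hP : SkPart K τ) (h1 : ∀ t ∈ Icc (0 : ℝ) 1, α1 t ∈ Icc (0 : ℝ) 1) (h2 : ∀ t ∈ Icc (0 : ℝ) 1, α2 t ∈ Icc (0 : ℝ) 1)
    (hb : ∀ t, αb t = (α1 t + α2 t) / 2) (S1 : SkSol T α1 K τ V1 V1z V1zz) (S2 : SkSol T α2 K τ V2 V2z V2zz) (Sb : SkSol T αb K τ Vb m w2)
    (Sb4 : SkSol4 T αb K τ m w2 w3 w4) (hφc : ContinuousOn φ (Icc 0 1)) (hφ1 : φ 1 = 0)
    (hφ' : ∀ k < K, ∀ t ∈ Ioo (τ k) (τ (k + 1)), HasDerivAt φ (-(T / 2) * (α1 t - α2 t)) t)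
    (hGc : ContinuousOn G (Icc 0 1)) (hG1 : G 1 = 0) (hG0 : ∀ t ∈ Icc (0 : ℝ) 1, 0 ≤ G t)
    (hG' : ∀ k < K, ∀ t ∈ Ioo (τ k) (τ (k + 1)), HasDerivAt G (9 * T * G t - Real.exp (-(11 * T) * (1 - t)) * (T / 2) * φ t ^ 2) t) :
    1 / 2 * Real.exp (-T) * (G 0 * w2 0 0 ^ 2) ≤ 1 / 2 * V1 0 0 + 1 / 2 * V2 0 0 - Vb 0 0 := by
  have hαb : ∀ t ∈ Icc (0 : ℝ) 1, αb t ∈ Icc (0 : ℝ) 1 := by
    intro t ht
    rw [hb]
    have := h1 t ht
    have := h2 t ht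
    exact ⟨by linarith [(h1 t ht).1, (h2 t ht).1], by linarith [(h1 t ht).2, (h2 t ht).2]⟩
  have hw1 : ∀ t ∈ Icc (0 : ℝ) 1, ∀ z, w2 t z ≤ 1 := by
    intro t ht z
    have := sk_up_w2_le hT hP hαb Sb4 t ht z
    nlinarith [sq_nonneg (m t z)]
  have hw0 : ∀ t ∈ Icc (0 : ℝ) 1, ∀ z, 0 ≤ w2 t z := by
    intro t ht z
    have := sk_up_w2_ge hT hP hαb Sb4 t ht z
    have h3 := mul_pos (Real.exp_pos (-(3 * T) * (1 - t))) (sk_up_rho_pos z)
    linarith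
  obtain ⟨c0, hc0⟩ : ∃ c0 : ℝ, c0 = 1 / 2 * Real.exp (-T) := ⟨_, rfl⟩
  have hc0p : 0 ≤ c0 := by rw [hc0]; positivity
  obtain ⟨C1, hC1⟩ := S1.bdd
  obtain ⟨C2, hC2⟩ := S2.bdd
  obtain ⟨Cb, hCb⟩ := Sb.bdd
  obtain ⟨Cφ, hCφ⟩ := (isCompact_Icc (a := (0 : ℝ)) (b := 1)).exists_bound_of_continuousOn hφc
  obtain ⟨CG, hCG⟩ := (isCompact_Icc (a := (0 : ℝ)) (b := 1)).exists_bound_of_continuousOn hGc
  have hz : Continuous (fun p : ℝ × ℝ × ℝ => p.2.1) := continuous_fst.comp continuous_snd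
  have hw : Continuous (fun p : ℝ × ℝ × ℝ => p.2.2) := continuous_snd.comp continuous_snd
  have h := sk_up_wmp01 (κ := T / 2) (C := C1 / 2 + C2 / 2 + Cb + c0 * (T / 2 + Cφ) ^ 2 + c0 * CG) hT (by positivity) hP
    (fun t z w => 1 / 2 * V1 t (z + w) + 1 / 2 * V2 t (z - w) - Vb t z - c0 * (Real.exp (-(11 * T) * (1 - t)) * (skRho z * (w + φ t * m t z) ^ 2))
      - c0 * (G t * (skRho z * w2 t z ^ 2)))
    (fun t z _ => T / 2 * (α1 t - α2 t) * m t z) (fun t z _ => T * αb t * m t z) ?_ (fun t ht z _ => sk_up_beta_le hT (hαb t ht) (Sb4.bd1 t ht z)) ?_ ?_ ?_ ?_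
  · -- conclusion
    have h3 := h 0 ⟨le_rfl, zero_le_one⟩ 0 0 (by simp)
    simp only [add_zero, sub_zero, sk_up_rho_zero, one_mul, zero_add] at h3
    have h4 : 0 ≤ c0 * (Real.exp (-(11 * T) * 1) * (φ 0 * m 0 0) ^ 2) := by positivity
    rw [← hc0]
    linarith
  · -- the speed of the ray
    intro t ht z _
    have h3 : |α1 t - α2 t| ≤ 1 := abs_le.2 ⟨by linarith [(h1 t ht).1, (h2 t ht).2], by linarith [(h1 t ht).2, (h2 t ht).1]⟩
    have h4 := Sb4.bd1 t ht z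
    rw [abs_mul, abs_mul, abs_of_pos (by positivity : 0 < T / 2)]
    have h5 : |α1 t - α2 t| * |m t z| ≤ 1 := by nlinarith [abs_nonneg (α1 t - α2 t), abs_nonneg (m t z)]
    nlinarith
  · -- continuity
    have hρc : ContinuousOn (fun p : ℝ × ℝ × ℝ => skRho p.2.1) {p | p.1 ∈ Icc (0 : ℝ) 1} := (sk_up_rho_cont.comp hz).continuousOn
    have hEc : ContinuousOn (fun p : ℝ × ℝ × ℝ => Real.exp (-(11 * T) * (1 - p.1))) {p | p.1 ∈ Icc (0 : ℝ) 1} := Continuous.continuousOn (by fun_prop)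
    refine ((((continuousOn_const.mul (sk_up_cont_tz S1.cont (hz.add hw))).add (continuousOn_const.mul (sk_up_cont_tz S2.cont (hz.sub hw)))).sub
      (sk_up_cont_tz Sb.cont hz)).sub (continuousOn_const.mul (hEc.mul (hρc.mul ((hw.continuousOn.add ((sk_up_cont_t hφc).mul (sk_up_cont_tz Sb4.cont1 hz))).pow 2))))).sub
      (continuousOn_const.mul ((sk_up_cont_t hGc).mul (hρc.mul ((sk_up_cont_tz Sb4.cont2 hz).pow 2))))
  · -- the lower bound
    intro t ht z w hwt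
    have a1 := abs_le.1 (hC1 t ht (z + w))
    have a2 := abs_le.1 (hC2 t ht (z - w))
    have a3 := abs_le.1 (hCb t ht z)
    have a4 := sk_up_lc_diff_nonneg z w
    have hρ0 := sk_up_rho_pos z
    have hρ1 := sk_up_rho_le_one z
    have hE0 := Real.exp_pos (-(11 * T) * (1 - t))
    have hE1 := sk_up_exp_le_one (a := 11 * T) (by positivity) ht.2
    have hY : (w + φ t * m t z) ^ 2 ≤ (T / 2 + Cφ) ^ 2 := by
      refine sq_le_sq' ?_ ?_
      · have b1 := abs_le.1 (hwt.trans (by nlinarith [ht.2] : T / 2 * t ≤ T / 2))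
        have b2 : |φ t * m t z| ≤ Cφ := by
          rw [abs_mul]
          have := hCφ t ht
          rw [Real.norm_eq_abs] at this
          nlinarith [abs_nonneg (φ t), abs_nonneg (m t z), Sb4.bd1 t ht z]
        have b3 := abs_le.1 b2
        linarith [b1.1, b3.1]
      · have b1 := abs_le.1 (hwt.trans (by nlinarith [ht.2] : T / 2 * t ≤ T / 2))
        have b2 : |φ t * m t z| ≤ Cφ := by
          rw [abs_mul]
          have := hCφ t ht
          rw [Real.norm_eq_abs] at this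
          nlinarith [abs_nonneg (φ t), abs_nonneg (m t z), Sb4.bd1 t ht z]
        have b3 := abs_le.1 b2
        linarith [b1.2, b3.2]
    have hψ : Real.exp (-(11 * T) * (1 - t)) * (skRho z * (w + φ t * m t z) ^ 2) ≤ (T / 2 + Cφ) ^ 2 := by
      have b1 : skRho z * (w + φ t * m t z) ^ 2 ≤ (w + φ t * m t z) ^ 2 := by nlinarith [sq_nonneg (w + φ t * m t z)]
      have b2 : 0 ≤ skRho z * (w + φ t * m t z) ^ 2 := by positivity
      nlinarith
    have hGh : G t * (skRho z * w2 t z ^ 2) ≤ CG := by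
      have b1 : skRho z * w2 t z ^ 2 ≤ 1 := by
        have : w2 t z ^ 2 ≤ 1 := by nlinarith [hw0 t ht z, hw1 t ht z]
        nlinarith [sq_nonneg (w2 t z)]
      have b2 : 0 ≤ skRho z * w2 t z ^ 2 := by positivity
      have b3 := hCG t ht
      rw [Real.norm_eq_abs] at b3
      have b4 := (abs_le.1 b3).2
      nlinarith [hG0 t ht]
    have c1 := mul_le_mul_of_nonneg_left hψ hc0p
    have c2 := mul_le_mul_of_nonneg_left hGh hc0p
    linarith [a1.1, a2.1, a3.2]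
  · -- the operator
    intro k hk t ht z w _
    have htI := Ioo_subset_Icc_self (hP.mem hk ht)
    obtain ⟨c, hc⟩ : ∃ c : ℝ, c = T / 2 * (α1 t - α2 t) * m t z := ⟨_, rfl⟩
    obtain ⟨β, hβ⟩ : ∃ β : ℝ, β = T * αb t * m t z := ⟨_, rfl⟩
    simp only [← hc, ← hβ]
    have O1 : SkOp T β c (fun t z w => V1 t (z + w)) t z w _ _ := SkOp.of_jet (S1.jet_plus hk ht c z w)
    have O2 : SkOp T β c (fun t z w => V2 t (z - w)) t z w _ _ := SkOp.of_jet (S2.jet_minus hk ht c z w)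
    have Ob : SkOp T β c (fun t z _ => Vb t z) t z w _ _ := SkOp.of_jet (Sb.jet hk ht c z w)
    have Om : SkOp T β c (fun t z _ => m t z) t z w (w2 t z) 0 := by rw [hβ]; exact Sb4.op1 hk ht c z w
    have Ow : SkOp T β c (fun t z _ => w2 t z) t z w (w3 t z) (-(T * αb t * w2 t z ^ 2)) := by rw [hβ]; exact Sb4.op2 hk ht c z w
    have Oρ := sk_up_op_rho T β c t z w
    have OY : SkOp T β c (fun t z w => w + φ t * m t z) t z w (φ t * w2 t z) 0 :=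
      (SkOp.coord_w.add ((SkOp.of_time (hφ' k hk t ht)).mul Om)).congr_val (by ring) (by rw [hc]; ring)
    have Oψ := (SkOp.of_time (T := T) (β := β) (c := c) (z := z) (w := w) (sk_up_exp_deriv (11 * T) t)).mul (Oρ.mul OY.sq)
    have OG := (SkOp.of_time (T := T) (β := β) (c := c) (z := z) (w := w) (hG' k hk t ht)).mul (Oρ.mul Ow.sq)
    refine (((((O1.const_mul (1 / 2)).add (O2.const_mul (1 / 2))).sub Ob).sub (Oψ.const_mul c0)).sub (OG.const_mul c0)).wmp ?_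
    have hU := sk_up_alg_U hT (h1 t htI).1 (h2 t htI).1 (m t z) (V1z t (z + w)) (V2z t (z - w)) (V1zz t (z + w)) (V2zz t (z - w)) (w2 t z)
    have hβ' : T * ((α1 t + α2 t) / 2) * m t z = β := by rw [hβ, hb]
    rw [hβ', ← hc, ← hb] at hU
    have hβa : |β| ≤ T := by rw [hβ]; exact sk_up_beta_le hT (hαb t htI) (Sb4.bd1 t htI z)
    have hfin := sk_up_alg_final (y := w + φ t * m t z) (φ := φ t) (w3 := w3 t z) hT (Real.exp_pos (-(11 * T) * (1 - t))).le (hG0 t htI) (sk_up_rho_pos z).le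
      (sk_up_rho1_abs z) (sk_up_L_rho hT hβa z) (hαb t htI).2 (hw0 t htI z) (hw1 t htI z) hU hc0p
    linarith
  · -- the terminal time
    intro z w hwt
    rw [S1.term, S2.term, Sb.term, hφ1, hG1]
    have h3 := sk_up_term (T := T) z w (by linarith)
    simp only [sub_self, mul_zero, Real.exp_zero, zero_mul, add_zero, one_mul, sub_zero]
    rw [hc0]
    linarith

/-- the primitive `t ↦ ∫ₜ¹ f` : continuity and derivative -/
theorem sk_up_prim {f : ℝ → ℝ} (hi : IntervalIntegrable f MeasureTheory.volume 0 1) :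
    ContinuousOn (fun t => ∫ x in t..1, f x) (Icc 0 1) ∧
      ∀ l r : ℝ, Ioo l r ⊆ Ioo 0 1 → ContinuousOn f (Ioo l r) → ∀ t ∈ Ioo l r, HasDerivAt (fun t => ∫ x in t..1, f x) (-f t) t := by
  constructor
  · have h := intervalIntegral.continuousOn_primitive_interval_left (μ := MeasureTheory.volume) (f := f) (a := 0) (b := 1)
      ((intervalIntegrable_iff_integrableOn_Icc_of_le zero_le_one).1 hi |>.mono_set (by rw [uIcc_of_le zero_le_one]))
    rw [uIcc_of_le zero_le_one] at h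
    exact h
  · intro l r hsub hc t ht
    have ht01 := hsub ht
    refine intervalIntegral.integral_hasDerivAt_left (hi.mono_set ?_) (hc.stronglyMeasurableAtFilter isOpen_Ioo t ht) (hc.continuousAt (isOpen_Ioo.mem_nhds ht))
    rw [uIcc_of_le ht01.2.le, uIcc_of_le zero_le_one]
    exact Icc_subset_Icc_left ht01.1.le

/-- **(U+): coercive strict convexity of the Parisi functional.**      TEX[PE:prof:scalar-minimizer] -/
theorem sk_up_main (hT : 0 < T) (hP : SkPart K τ) (h1 : ∀ t ∈ Icc (0 : ℝ) 1, α1 t ∈ Icc (0 : ℝ) 1) (h2 : ∀ t ∈ Icc (0 : ℝ) 1, α2 t ∈ Icc (0 : ℝ) 1)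
    (hb : ∀ t, αb t = (α1 t + α2 t) / 2) (S1 : SkSol T α1 K τ V1 V1z V1zz) (S2 : SkSol T α2 K τ V2 V2z V2zz) (Sb : SkSol T αb K τ Vb m w2)
    (Sb4 : SkSol4 T αb K τ m w2 w3 w4) (hi1 : IntervalIntegrable α1 MeasureTheory.volume 0 1) (hi2 : IntervalIntegrable α2 MeasureTheory.volume 0 1)
    (hc1 : ∀ k < K, ContinuousOn α1 (Ioo (τ k) (τ (k + 1)))) (hc2 : ∀ k < K, ContinuousOn α2 (Ioo (τ k) (τ (k + 1)))) :
    T ^ 3 / 16 * Real.exp (-(18 * T)) * ∫ t in (0 : ℝ)..1, (∫ x in t..1, (α1 x - α2 x)) ^ 2 ≤ 1 / 2 * V1 0 0 + 1 / 2 * V2 0 0 - Vb 0 0 := by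
  have hαb : ∀ t ∈ Icc (0 : ℝ) 1, αb t ∈ Icc (0 : ℝ) 1 := by
    intro t ht
    rw [hb]
    exact ⟨by linarith [(h1 t ht).1, (h2 t ht).1], by linarith [(h1 t ht).2, (h2 t ht).2]⟩
  obtain ⟨A, hA⟩ : ∃ A : ℝ → ℝ, A = fun t => ∫ x in t..1, (α1 x - α2 x) := ⟨_, rfl⟩
  obtain ⟨hAc, hA'⟩ := sk_up_prim (hi1.sub hi2)
  simp only [← hA] at hAc hA'
  have hAv : ∀ t, (∫ x in t..1, (α1 x - α2 x)) = A t := fun t => by rw [hA]
  simp only [hAv]
  have hA1 : A 1 = 0 := by rw [hA]; simp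
  -- the source
  obtain ⟨g0, hg0⟩ : ∃ g0 : ℝ → ℝ, g0 = fun s => Real.exp (-(11 * T) * (1 - s)) * (T / 2) * (T / 2 * A s) ^ 2 * Real.exp (-(9 * T) * s) := ⟨_, rfl⟩
  have hg0c : ContinuousOn g0 (Icc 0 1) := by
    rw [hg0]
    have e1 : Continuous fun s : ℝ => Real.exp (-(11 * T) * (1 - s)) * (T / 2) := by fun_prop
    have e2 : Continuous fun s : ℝ => Real.exp (-(9 * T) * s) := by fun_prop
    exact (e1.continuousOn.mul ((continuousOn_const.mul hAc).pow 2)).mul e2.continuousOn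
  have hg0i : IntervalIntegrable g0 MeasureTheory.volume 0 1 := ContinuousOn.intervalIntegrable (by rw [uIcc_of_le zero_le_one]; exact hg0c)
  obtain ⟨hγc, hγ'⟩ := sk_up_prim hg0i
  obtain ⟨γ, hγ⟩ : ∃ γ : ℝ → ℝ, γ = fun t => ∫ x in t..1, g0 x := ⟨_, rfl⟩
  simp only [← hγ] at hγc hγ'
  have hg0n : ∀ s, 0 ≤ g0 s := by
    intro s
    rw [hg0]
    positivity
  have hcore := sk_up_core (φ := fun t => T / 2 * A t) (G := fun t => Real.exp (9 * T * t) * γ t) hT hP h1 h2 hb S1 S2 Sb Sb4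
    (continuousOn_const.mul hAc) (by simp only [hA1, mul_zero])
    (fun k hk t ht => by
      have h := (hA' (τ k) (τ (k + 1)) (fun s hs => hP.mem hk hs) ((hc1 k hk).sub (hc2 k hk)) t ht).const_mul (T / 2)
      have e : -(T / 2) * (α1 t - α2 t) = T / 2 * -(α1 t - α2 t) := by ring
      rw [e]
      exact h)
    ((Continuous.continuousOn (by fun_prop)).mul hγc) (by
      have : γ 1 = 0 := by rw [hγ]; simp
      simp only [this, mul_zero])
    (fun t ht => by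
      have : 0 ≤ γ t := by
        rw [hγ]
        exact intervalIntegral.integral_nonneg ht.2 fun u _ => hg0n u
      positivity)
    (fun k hk t ht => by
      have h3 := hγ' 0 1 subset_rfl (hg0c.mono Ioo_subset_Icc_self) t (hP.mem hk ht)
      have h4 : HasDerivAt (fun t : ℝ => Real.exp (9 * T * t)) (Real.exp (9 * T * t) * (9 * T)) t := by
        have h5 := ((hasDerivAt_id t).const_mul (9 * T)).exp
        simp only [id, mul_one] at h5
        exact h5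
      have h6 := h4.mul h3
      have e : 9 * T * (Real.exp (9 * T * t) * γ t) - Real.exp (-(11 * T) * (1 - t)) * (T / 2) * (T / 2 * A t) ^ 2
          = Real.exp (9 * T * t) * (9 * T) * γ t + Real.exp (9 * T * t) * -g0 t := by
        have e2 : Real.exp (9 * T * t) * Real.exp (-(9 * T) * t) = 1 := by
          rw [← Real.exp_add]
          have : 9 * T * t + -(9 * T) * t = 0 := by ring
          rw [this, Real.exp_zero]
        have e3 : Real.exp (9 * T * t) * -g0 t = -(Real.exp (-(11 * T) * (1 - t)) * (T / 2) * (T / 2 * A t) ^ 2) * (Real.exp (9 * T * t) * Real.exp (-(9 * T) * t)) := by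
          rw [hg0]
          ring
        rw [e3, e2]
        ring
      rw [e]
      exact h6)
  simp only [mul_zero, Real.exp_zero, one_mul] at hcore
  -- the lower bound of `γ 0`
  have hA2i : IntervalIntegrable (fun t => A t ^ 2) MeasureTheory.volume 0 1 :=
    ContinuousOn.intervalIntegrable (by rw [uIcc_of_le zero_le_one]; exact hAc.pow 2)
  have hγ0 : T ^ 3 / 8 * Real.exp (-(11 * T)) * ∫ t in (0 : ℝ)..1, A t ^ 2 ≤ γ 0 := by
    rw [hγ, ← intervalIntegral.integral_const_mul]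
    refine intervalIntegral.integral_mono_on zero_le_one (hA2i.const_mul _) hg0i fun s hs => ?_
    rw [hg0]
    have e1 : Real.exp (-(11 * T)) ≤ Real.exp (-(11 * T) * (1 - s)) * Real.exp (-(9 * T) * s) := by
      rw [← Real.exp_add]
      refine Real.exp_le_exp.2 ?_
      nlinarith [hs.1]
    have e2 : 0 ≤ T ^ 3 / 8 * A s ^ 2 := by positivity
    have e3 := mul_le_mul_of_nonneg_left e1 e2
    have e4 : Real.exp (-(11 * T) * (1 - s)) * (T / 2) * (T / 2 * A s) ^ 2 * Real.exp (-(9 * T) * s)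
        = T ^ 3 / 8 * A s ^ 2 * (Real.exp (-(11 * T) * (1 - s)) * Real.exp (-(9 * T) * s)) := by ring
    simp only []
    rw [e4]
    calc T ^ 3 / 8 * Real.exp (-(11 * T)) * A s ^ 2 = T ^ 3 / 8 * A s ^ 2 * Real.exp (-(11 * T)) := by ring
      _ ≤ _ := e3
  -- the lower bound of `w2 0 0`
  have hw := sk_up_w2_ge hT hP hαb Sb4 0 ⟨le_rfl, zero_le_one⟩ 0
  rw [sk_up_rho_zero, sub_zero, mul_one, mul_one] at hw
  have hw2 : Real.exp (-(6 * T)) ≤ w2 0 0 ^ 2 := by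
    have e : Real.exp (-(6 * T)) = Real.exp (-(3 * T)) ^ 2 := by
      rw [← Real.exp_nat_mul]
      congr 1
      push_cast
      ring
    rw [e]
    exact pow_le_pow_left₀ (Real.exp_pos _).le hw 2
  obtain ⟨I, hI⟩ : ∃ I : ℝ, I = ∫ t in (0 : ℝ)..1, A t ^ 2 := ⟨_, rfl⟩
  rw [← hI] at hγ0 ⊢
  have hI0 : 0 ≤ I := by
    rw [hI]
    exact intervalIntegral.integral_nonneg zero_le_one fun u _ => sq_nonneg _
  have hprod : T ^ 3 / 8 * Real.exp (-(11 * T)) * I * Real.exp (-(6 * T)) ≤ γ 0 * w2 0 0 ^ 2 :=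
    mul_le_mul hγ0 hw2 (Real.exp_pos _).le ((by positivity : 0 ≤ T ^ 3 / 8 * Real.exp (-(11 * T)) * I).trans hγ0)
  have hfin := mul_le_mul_of_nonneg_left hprod (by positivity : 0 ≤ 1 / 2 * Real.exp (-T))
  have e : T ^ 3 / 16 * Real.exp (-(18 * T)) * I = 1 / 2 * Real.exp (-T) * (T ^ 3 / 8 * Real.exp (-(11 * T)) * I * Real.exp (-(6 * T))) := by
    have e2 : Real.exp (-(18 * T)) = Real.exp (-T) * Real.exp (-(11 * T)) * Real.exp (-(6 * T)) := by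
      rw [← Real.exp_add, ← Real.exp_add]
      congr 1
      ring
    rw [e2]
    ring
  rw [e]
  exact hfin.trans hcore

end core

end Claimed.Agent.R286
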