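import Claimed.Agent.R286.Sc.MaxP

/-!
# Row 286, scalar block, (U+) = COERCIVE STRICT CONVEXITY OF THE PARISI FUNCTIONAL, file 1: JETS AND THE WEAK MAXIMUM PRINCIPLE IN TWO SPACE VARIABLES      (architect + prover helper159; proof on paper: helper67, notes/R286/P11_helper67.md sec. 4; prefix `sk_up_`)

Replaces the stochastic control argument of PE Lemma 5.8 (profile.tex l.757-801; Auffinger-Chen 2015).   PAPER FREE, no measure theory.
Variables `(t, z, w)`.   Region `|w| ≤ κ t`.   Operator `L = (∂_t + c ∂_w) + (T/2) ∂_zz + β ∂_z`, `|c| ≤ κ`, `|β| ≤ T`.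
* `SkJet c F t z w dr dz dzz` : `dr` = derivative of `F` along the ray `s ↦ (t + s, z, w + s c)`, `dz`, `dzz` = the two derivatives in `z`.      Calculus: `add`, `sub`, `const_mul`, `mul`, `sq`.
* `sk_up_wmp_slab` : on one slab `l ≤ t ≤ r`: `F` continuous on the closed slab, bounded below, `L F ≤ 0` at the times of the OPEN interval, `F ≥ 0` at `t = r`   ⟹   `F ≥ 0`.
* `sk_up_wmp` : the same over a finite partition (no differentiability at the partition times).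
-/

set_option autoImplicit false

namespace Claimed.Agent.R286

open Set Filter Topology

/-- derivative data of `F` at `(t, z, w)` -/
structure SkJet (c : ℝ) (F : ℝ → ℝ → ℝ → ℝ) (t z w dr dz dzz : ℝ) : Prop where
  ray : HasDerivAt (fun s : ℝ => F (t + s) z (w + s * c)) dr 0
  fst : ∃ F' : ℝ → ℝ, (∀ x, HasDerivAt (fun x => F t x w) (F' x) x) ∧ F' z = dz ∧ HasDerivAt F' dzz z

namespace SkJet

variable {c t z w : ℝ} {F G : ℝ → ℝ → ℝ → ℝ} {fr fz fzz gr gz gzz : ℝ}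

theorem add (hF : SkJet c F t z w fr fz fzz) (hG : SkJet c G t z w gr gz gzz) :
    SkJet c (fun t z w => F t z w + G t z w) t z w (fr + gr) (fz + gz) (fzz + gzz) := by
  obtain ⟨F', f1, f2, f3⟩ := hF.fst
  obtain ⟨G', g1, g2, g3⟩ := hG.fst
  exact ⟨hF.ray.add hG.ray, fun x => F' x + G' x, fun x => (f1 x).add (g1 x), by simp only [f2, g2], f3.add g3⟩

theorem sub (hF : SkJet c F t z w fr fz fzz) (hG : SkJet c G t z w gr gz gzz) :
    SkJet c (fun t z w => F t z w - G t z w) t z w (fr - gr) (fz - gz) (fzz - gzz) := by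
  obtain ⟨F', f1, f2, f3⟩ := hF.fst
  obtain ⟨G', g1, g2, g3⟩ := hG.fst
  exact ⟨hF.ray.sub hG.ray, fun x => F' x - G' x, fun x => (f1 x).sub (g1 x), by simp only [f2, g2], f3.sub g3⟩

theorem const_mul (a : ℝ) (hF : SkJet c F t z w fr fz fzz) :
    SkJet c (fun t z w => a * F t z w) t z w (a * fr) (a * fz) (a * fzz) := by
  obtain ⟨F', f1, f2, f3⟩ := hF.fst
  exact ⟨hF.ray.const_mul a, fun x => a * F' x, fun x => (f1 x).const_mul a, by simp only [f2], f3.const_mul a⟩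

theorem mul (hF : SkJet c F t z w fr fz fzz) (hG : SkJet c G t z w gr gz gzz) :
    SkJet c (fun t z w => F t z w * G t z w) t z w (fr * G t z w + F t z w * gr) (fz * G t z w + F t z w * gz)
      (fzz * G t z w + 2 * fz * gz + F t z w * gzz) := by
  obtain ⟨F', f1, f2, f3⟩ := hF.fst
  obtain ⟨G', g1, g2, g3⟩ := hG.fst
  refine ⟨?_, fun x => F' x * G t x w + F t x w * G' x, fun x => (f1 x).mul (g1 x), by simp only [f2, g2], ?_⟩
  · have h := hF.ray.mul hG.ray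
    simp only [add_zero, zero_mul] at h
    exact h
  · have h := (f3.mul (g1 z)).add ((f1 z).mul g3)
    rw [f2, g2] at h
    have e : fzz * G t z w + 2 * fz * gz + F t z w * gzz = fzz * G t z w + fz * gz + (fz * gz + F t z w * gzz) := by ring
    rw [e]
    exact h

theorem sq (hF : SkJet c F t z w fr fz fzz) :
    SkJet c (fun t z w => F t z w ^ 2) t z w (2 * F t z w * fr) (2 * F t z w * fz) (2 * fz ^ 2 + 2 * F t z w * fzz) := by
  have h := hF.mul hF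
  have e : (fun t z w => F t z w ^ 2) = fun t z w => F t z w * F t z w := by
    funext t z w
    ring
  rw [e]
  convert h using 1 <;> ring

/-- a function of the time alone -/
theorem of_time {f : ℝ → ℝ} {f' : ℝ} (h : HasDerivAt f f' t) : SkJet c (fun t _ _ => f t) t z w f' 0 0 := by
  refine ⟨?_, fun _ => 0, fun x => hasDerivAt_const _ _, rfl, hasDerivAt_const _ _⟩
  exact HasDerivAt.comp_const_add t 0 (by simpa using h)

/-- a function of `z` alone -/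
theorem of_space {f f' : ℝ → ℝ} {f'' : ℝ} (h1 : ∀ x, HasDerivAt f (f' x) x) (h2 : HasDerivAt f' f'' z) :
    SkJet c (fun _ z _ => f z) t z w 0 (f' z) f'' :=
  ⟨hasDerivAt_const _ _, f', h1, rfl, h2⟩

/-- a function of `(t, z)` -/
theorem of_tz {f : ℝ → ℝ → ℝ} {f' : ℝ → ℝ} {ft f'' : ℝ} (h0 : HasDerivAt (fun s => f s z) ft t) (h1 : ∀ x, HasDerivAt (f t) (f' x) x)
    (h2 : HasDerivAt f' f'' z) : SkJet c (fun t z _ => f t z) t z w ft (f' z) f'' := by
  refine ⟨?_, f', h1, rfl, h2⟩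
  exact HasDerivAt.comp_const_add (f := fun s => f s z) t 0 (by simpa using h0)

/-- the coordinate `w` -/
theorem coord_w : SkJet c (fun _ _ w => w) t z w c 0 0 := by
  refine ⟨?_, fun _ => 0, fun x => hasDerivAt_const _ _, rfl, hasDerivAt_const _ _⟩
  simpa using ((hasDerivAt_id (0 : ℝ)).mul_const c).const_add w

end SkJet

/-- a function with a minimum at the left end of an interval has a nonnegative derivative there -/
theorem sk_up_right_nonneg {g : ℝ → ℝ} {g' η : ℝ} (hη : 0 < η) (h : HasDerivAt g g' 0) (hmin : ∀ s ∈ Icc 0 η, g 0 ≤ g s) : 0 ≤ g' := by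
  have hs : Tendsto (slope g 0) (𝓝[>] 0) (𝓝 g') :=
    (hasDerivAt_iff_tendsto_slope.mp h).mono_left (nhdsWithin_mono _ fun y hy => ne_of_gt hy)
  refine ge_of_tendsto hs ?_
  filter_upwards [Ioo_mem_nhdsGT hη] with s hs
  rw [slope_def_field, sub_zero]
  exact div_nonneg (sub_nonneg.2 (hmin s ⟨hs.1.le, hs.2.le⟩)) hs.1.le

/-- the jet of the coercive barrier -/
theorem sk_up_chi_jet (T c t z w : ℝ) :
    SkJet c (fun t z _ => (1 + z ^ 2) * Real.exp (-(3 * T) * t)) t z w (-(3 * T) * ((1 + z ^ 2) * Real.exp (-(3 * T) * t)))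
      (2 * z * Real.exp (-(3 * T) * t)) (2 * Real.exp (-(3 * T) * t)) := by
  refine SkJet.of_tz (f := fun t z => (1 + z ^ 2) * Real.exp (-(3 * T) * t)) (f' := fun x => 2 * x * Real.exp (-(3 * T) * t)) ?_ ?_ ?_
  · have h := (((hasDerivAt_id t).const_mul (-(3 * T))).exp).const_mul (1 + z ^ 2)
    simp only [id, mul_one] at h
    have e : -(3 * T) * ((1 + z ^ 2) * Real.exp (-(3 * T) * t)) = (1 + z ^ 2) * (Real.exp (-(3 * T) * t) * -(3 * T)) := by ring
    rw [e]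
    exact h
  · intro x
    have h := (((hasDerivAt_id x).pow 2).const_add 1).mul_const (Real.exp (-(3 * T) * t))
    simp only [id, mul_one, Nat.cast_ofNat, Nat.add_one_sub_one, pow_one] at h
    exact h
  · have h := ((hasDerivAt_id z).const_mul 2).mul_const (Real.exp (-(3 * T) * t))
    simp only [id, mul_one] at h
    exact h

/-- **the perturbed principle** on `[l', r]`, `l < l'` : `F + ε χ ≥ 0` -/
theorem sk_up_wmp_eps {T κ l l' r C ε : ℝ} (hT : 0 < T) (hll : l < l') (hε : 0 < ε) (F c β : ℝ → ℝ → ℝ → ℝ)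
    (hc : ∀ t ∈ Icc l r, ∀ z w, |c t z w| ≤ κ) (hβ : ∀ t ∈ Icc l r, ∀ z w, |β t z w| ≤ T)
    (hcont : ContinuousOn (fun p : ℝ × ℝ × ℝ => F p.1 p.2.1 p.2.2) {p | p.1 ∈ Icc l r})
    (hbd : ∀ t ∈ Icc l r, ∀ z w, |w| ≤ κ * t → -C ≤ F t z w)
    (hjet : ∀ t ∈ Ioo l r, ∀ z w, |w| ≤ κ * t → ∃ dr dz dzz, SkJet (c t z w) F t z w dr dz dzz ∧ dr + T / 2 * dzz + β t z w * dz ≤ 0)
    (hterm : ∀ z w, |w| ≤ κ * r → 0 ≤ F r z w) :
    ∀ t ∈ Icc l' r, ∀ z w, |w| ≤ κ * t → 0 ≤ F t z w + ε * ((1 + z ^ 2) * Real.exp (-(3 * T) * t)) := by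
  by_contra hcon
  push Not at hcon
  obtain ⟨t0, ht0, z0, w0, hw0, hneg⟩ := hcon
  obtain ⟨G, hG⟩ : ∃ G : ℝ → ℝ → ℝ → ℝ, G = fun t z w => F t z w + ε * ((1 + z ^ 2) * Real.exp (-(3 * T) * t)) := ⟨_, rfl⟩
  have hGv : ∀ t z w, G t z w = F t z w + ε * ((1 + z ^ 2) * Real.exp (-(3 * T) * t)) := fun t z w => by rw [hG]
  rw [← hGv] at hneg
  obtain ⟨em, hem⟩ : ∃ em : ℝ, em = Real.exp (-(3 * T) * r) := ⟨_, rfl⟩
  have hem0 : 0 < em := by rw [hem]; exact Real.exp_pos _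
  have hemle : ∀ t, t ≤ r → em ≤ Real.exp (-(3 * T) * t) := by
    intro t ht
    rw [hem]
    exact Real.exp_le_exp.2 (by nlinarith)
  obtain ⟨Z0, hZ0⟩ : ∃ Z0 : ℝ, Z0 = max 1 (|C| / (ε * em)) := ⟨_, rfl⟩
  have hsub : ∀ t, t ∈ Icc l' r → t ∈ Icc l r := fun t ht => ⟨hll.le.trans ht.1, ht.2⟩
  -- outside the box the function is nonnegative
  have hout : ∀ t ∈ Icc l' r, ∀ z w, |w| ≤ κ * t → Z0 ≤ |z| → 0 ≤ G t z w := by
    intro t ht z w hw hz
    have h1 : (1 : ℝ) ≤ |z| := (le_max_left _ _).trans (hZ0 ▸ hz)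
    have h2 : |C| / (ε * em) ≤ |z| := (le_max_right _ _).trans (hZ0 ▸ hz)
    have h3 : |z| ≤ 1 + z ^ 2 := by
      have : |z| ^ 2 = z ^ 2 := sq_abs z
      nlinarith
    have h4 : |C| ≤ (1 + z ^ 2) * (ε * em) := by
      rw [div_le_iff₀ (by positivity)] at h2
      exact h2.trans (mul_le_mul_of_nonneg_right h3 (by positivity))
    have h5 : (1 + z ^ 2) * (ε * em) ≤ ε * ((1 + z ^ 2) * Real.exp (-(3 * T) * t)) := by
      have := mul_le_mul_of_nonneg_left (hemle t ht.2) (by positivity : 0 ≤ ε * (1 + z ^ 2))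
      nlinarith
    have h6 := hbd t (hsub t ht) z w hw
    rw [hGv]
    linarith [le_abs_self C]
  -- the compact box
  obtain ⟨Kc, hKc⟩ : ∃ Kc : Set (ℝ × ℝ × ℝ), Kc = {p | p.1 ∈ Icc l' r ∧ |p.2.1| ≤ Z0 ∧ |p.2.2| ≤ κ * p.1} := ⟨_, rfl⟩
  have hKcomp : IsCompact Kc := by
    refine IsCompact.of_isClosed_subset ((isCompact_Icc (a := l') (b := r)).prod ((isCompact_Icc (a := -Z0) (b := Z0)).prod
      (isCompact_Icc (a := -(|κ| * max |l'| |r|)) (b := |κ| * max |l'| |r|)))) ?_ ?_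
    · rw [hKc]
      have e : {p : ℝ × ℝ × ℝ | p.1 ∈ Icc l' r ∧ |p.2.1| ≤ Z0 ∧ |p.2.2| ≤ κ * p.1}
          = {p | l' ≤ p.1} ∩ {p | p.1 ≤ r} ∩ {p | |p.2.1| ≤ Z0} ∩ {p | |p.2.2| ≤ κ * p.1} := by
        ext p
        simp only [mem_ofPred_eq, mem_Icc, mem_inter_iff]
        tauto
      rw [e]
      refine (((isClosed_le continuous_const continuous_fst).inter (isClosed_le continuous_fst continuous_const)).inter
        (isClosed_le (continuous_abs.comp (continuous_fst.comp continuous_snd)) continuous_const)).inter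
        (isClosed_le (continuous_abs.comp (continuous_snd.comp continuous_snd)) (continuous_const.mul continuous_fst))
    · rw [hKc]
      rintro ⟨t, z, w⟩ ⟨h1, h2, h3⟩
      refine ⟨h1, abs_le.1 h2, abs_le.1 (h3.trans ?_)⟩
      have h4 : |t| ≤ max |l'| |r| := abs_le_max_abs_abs h1.1 h1.2
      calc κ * t ≤ |κ * t| := le_abs_self _
        _ = |κ| * |t| := abs_mul _ _
        _ ≤ |κ| * max |l'| |r| := mul_le_mul_of_nonneg_left h4 (abs_nonneg _)
  have hGcont : ContinuousOn (fun p : ℝ × ℝ × ℝ => G p.1 p.2.1 p.2.2) Kc := by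
    have h1 : ContinuousOn (fun p : ℝ × ℝ × ℝ => F p.1 p.2.1 p.2.2) Kc := hcont.mono (by
      rw [hKc]
      exact fun p hp => hsub _ hp.1)
    have h2 : Continuous (fun p : ℝ × ℝ × ℝ => ε * ((1 + p.2.1 ^ 2) * Real.exp (-(3 * T) * p.1))) := by fun_prop
    have e : (fun p : ℝ × ℝ × ℝ => G p.1 p.2.1 p.2.2) = fun p => F p.1 p.2.1 p.2.2 + ε * ((1 + p.2.1 ^ 2) * Real.exp (-(3 * T) * p.1)) := by
      funext p
      rw [hGv]
    rw [e]
    exact h1.add h2.continuousOn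
  have hp0 : ((t0, z0, w0) : ℝ × ℝ × ℝ) ∈ Kc := by
    rw [hKc]
    refine ⟨ht0, ?_, hw0⟩
    by_contra h
    exact absurd (hout t0 ht0 z0 w0 hw0 (not_le.1 h).le) (not_le.2 hneg)
  obtain ⟨⟨ts, zs, ws⟩, hps, hmin⟩ := hKcomp.exists_isMinOn ⟨_, hp0⟩ hGcont
  have hps' : ts ∈ Icc l' r ∧ |zs| ≤ Z0 ∧ |ws| ≤ κ * ts := by rw [hKc] at hps; exact hps
  obtain ⟨hts, -, hws⟩ := hps'
  have hneg' : G ts zs ws < 0 := lt_of_le_of_lt (hmin hp0) hneg
  have hglob : ∀ t ∈ Icc l' r, ∀ z w, |w| ≤ κ * t → G ts zs ws ≤ G t z w := by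
    intro t ht z w hw
    by_cases hz : |z| ≤ Z0
    · exact hmin (a := ((t, z, w) : ℝ × ℝ × ℝ)) (by rw [hKc]; exact ⟨ht, hz, hw⟩)
    · exact hneg'.le.trans (hout t ht z w hw (not_le.1 hz).le)
  have htr : ts < r := by
    rcases hts.2.lt_or_eq with h | h
    · exact h
    · exfalso
      rw [h] at hneg' hws
      have h1 := hterm zs ws hws
      rw [hGv] at hneg'
      have : 0 < ε * ((1 + zs ^ 2) * Real.exp (-(3 * T) * r)) := by positivity
      linarith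
  have htI : ts ∈ Ioo l r := ⟨lt_of_lt_of_le hll hts.1, htr⟩
  obtain ⟨dr, dz, dzz, J, hL⟩ := hjet ts htI zs ws hws
  have JG := J.add ((sk_up_chi_jet T (c ts zs ws) ts zs ws).const_mul ε)
  obtain ⟨E, hE⟩ : ∃ E : ℝ, E = Real.exp (-(3 * T) * ts) := ⟨_, rfl⟩
  have hE0 : 0 < E := by rw [hE]; exact Real.exp_pos _
  rw [← hE] at JG
  -- the ray
  have hray : 0 ≤ dr + ε * (-(3 * T) * ((1 + zs ^ 2) * E)) := by
    refine sk_up_right_nonneg (sub_pos.2 htr) JG.ray ?_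
    intro s hs
    have h1 : ts + s ∈ Icc l' r := ⟨by linarith [hts.1, hs.1], by linarith [hs.2]⟩
    have h2 : |ws + s * c ts zs ws| ≤ κ * (ts + s) := by
      have h3 : |s * c ts zs ws| ≤ s * κ := by
        rw [abs_mul, abs_of_nonneg hs.1]
        exact mul_le_mul_of_nonneg_left (hc ts (hsub ts hts) _ _) hs.1
      have := abs_add_le ws (s * c ts zs ws)
      nlinarith
    have h4 := hglob (ts + s) h1 zs (ws + s * c ts zs ws) h2
    rw [hGv, hGv] at h4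
    simpa using h4
  -- the space variable
  obtain ⟨G', g1, g2, g3⟩ := JG.fst
  have hloc : IsLocalMin (fun x => F ts x ws + ε * ((1 + x ^ 2) * Real.exp (-(3 * T) * ts))) zs := by
    refine Filter.Eventually.of_forall fun x => ?_
    have := hglob ts hts x ws hws
    rw [hGv, hGv] at this
    exact this
  have hz1 : dz + ε * (2 * zs * E) = 0 := by
    rw [← g2]
    exact hloc.hasDerivAt_eq_zero (g1 zs)
  have hz2 : 0 ≤ dzz + ε * (2 * E) := sc_mp_second_nonneg hloc (Filter.Eventually.of_forall g1) g3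
  -- contradiction
  have h7 : β ts zs ws * zs ≤ T * (1 + zs ^ 2) / 2 := by
    have h8 : β ts zs ws * zs ≤ |β ts zs ws| * |zs| := by rw [← abs_mul]; exact le_abs_self _
    have h9 : |β ts zs ws| * |zs| ≤ T * |zs| := mul_le_mul_of_nonneg_right (hβ ts (hsub ts hts) _ _) (abs_nonneg _)
    have h10 : |zs| ^ 2 = zs ^ 2 := sq_abs zs
    nlinarith [sq_nonneg (|zs| - 1)]
  have hsum : 0 ≤ (dr + T / 2 * dzz + β ts zs ws * dz) + ε * E * (-(3 * T) * (1 + zs ^ 2) + T + 2 * (β ts zs ws * zs)) := by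
    have h11 : β ts zs ws * (dz + ε * (2 * zs * E)) = 0 := by rw [hz1, mul_zero]
    have h12 : 0 ≤ T / 2 * (dzz + ε * (2 * E)) := by positivity
    nlinarith
  have hlast : ε * E * (-(3 * T) * (1 + zs ^ 2) + T + 2 * (β ts zs ws * zs)) < 0 := by
    refine mul_neg_of_pos_of_neg (by positivity) ?_
    nlinarith [sq_nonneg zs]
  linarith

/-- **the weak maximum principle on one slab** -/
theorem sk_up_wmp_slab {T κ l r C : ℝ} (hT : 0 < T) (hκ : 0 ≤ κ) (hlr : l < r) (F c β : ℝ → ℝ → ℝ → ℝ)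
    (hc : ∀ t ∈ Icc l r, ∀ z w, |c t z w| ≤ κ) (hβ : ∀ t ∈ Icc l r, ∀ z w, |β t z w| ≤ T)
    (hcont : ContinuousOn (fun p : ℝ × ℝ × ℝ => F p.1 p.2.1 p.2.2) {p | p.1 ∈ Icc l r})
    (hbd : ∀ t ∈ Icc l r, ∀ z w, |w| ≤ κ * t → -C ≤ F t z w)
    (hjet : ∀ t ∈ Ioo l r, ∀ z w, |w| ≤ κ * t → ∃ dr dz dzz, SkJet (c t z w) F t z w dr dz dzz ∧ dr + T / 2 * dzz + β t z w * dz ≤ 0)
    (hterm : ∀ z w, |w| ≤ κ * r → 0 ≤ F r z w) :
    ∀ t ∈ Icc l r, ∀ z w, |w| ≤ κ * t → 0 ≤ F t z w := by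
  -- times after `l`
  have hopen : ∀ t ∈ Ioc l r, ∀ z w, |w| ≤ κ * t → 0 ≤ F t z w := by
    intro t ht z w hw
    have h1 : ∀ ε : ℝ, 0 < ε → 0 ≤ F t z w + ε * ((1 + z ^ 2) * Real.exp (-(3 * T) * t)) := fun ε hε =>
      sk_up_wmp_eps hT ht.1 hε F c β hc hβ hcont hbd hjet hterm t ⟨le_rfl, ht.2⟩ z w hw
    have h2 : Tendsto (fun ε : ℝ => F t z w + ε * ((1 + z ^ 2) * Real.exp (-(3 * T) * t))) (𝓝[>] 0) (𝓝 (F t z w + 0 * ((1 + z ^ 2) * Real.exp (-(3 * T) * t)))) :=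
      ((continuous_const.add (continuous_id.mul continuous_const)).tendsto 0).mono_left nhdsWithin_le_nhds
    rw [zero_mul, add_zero] at h2
    exact ge_of_tendsto h2 (by filter_upwards [self_mem_nhdsWithin] with ε hε using h1 ε hε)
  intro t ht z w hw
  rcases ht.1.lt_or_eq with h | h
  · exact hopen t ⟨h, ht.2⟩ z w hw
  · -- the initial time, by continuity
    subst h
    have h1 : ContinuousWithinAt (fun p : ℝ × ℝ × ℝ => F p.1 p.2.1 p.2.2) {p | p.1 ∈ Icc l r} (l, z, w) := hcont _ (by exact ⟨le_rfl, hlr.le⟩)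
    have h2 : Tendsto (fun s : ℝ => ((s, z, w) : ℝ × ℝ × ℝ)) (𝓝[>] l) (𝓝[{p | p.1 ∈ Icc l r}] (l, z, w)) := by
      refine tendsto_nhdsWithin_iff.2 ⟨?_, ?_⟩
      · exact ((continuous_id.prodMk continuous_const).tendsto l).mono_left nhdsWithin_le_nhds
      · filter_upwards [Ioo_mem_nhdsGT hlr] with s hs using ⟨hs.1.le, hs.2.le⟩
    have h3 := h1.tendsto.comp h2
    refine ge_of_tendsto h3 ?_
    filter_upwards [Ioo_mem_nhdsGT hlr] with s hs
    exact hopen s ⟨hs.1, hs.2.le⟩ z w (hw.trans (mul_le_mul_of_nonneg_left hs.1.le hκ))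

/-- **the weak maximum principle over a partition** `τ 0 < τ 1 < .. < τ K` -/
theorem sk_up_wmp {T κ C : ℝ} (hT : 0 < T) (hκ : 0 ≤ κ) (K : ℕ) (τ : ℕ → ℝ) (hτ : ∀ k < K, τ k < τ (k + 1)) (F c β : ℝ → ℝ → ℝ → ℝ)
    (hc : ∀ t ∈ Icc (τ 0) (τ K), ∀ z w, |c t z w| ≤ κ) (hβ : ∀ t ∈ Icc (τ 0) (τ K), ∀ z w, |β t z w| ≤ T)
    (hcont : ContinuousOn (fun p : ℝ × ℝ × ℝ => F p.1 p.2.1 p.2.2) {p | p.1 ∈ Icc (τ 0) (τ K)})
    (hbd : ∀ t ∈ Icc (τ 0) (τ K), ∀ z w, |w| ≤ κ * t → -C ≤ F t z w)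
    (hjet : ∀ k < K, ∀ t ∈ Ioo (τ k) (τ (k + 1)), ∀ z w, |w| ≤ κ * t →
      ∃ dr dz dzz, SkJet (c t z w) F t z w dr dz dzz ∧ dr + T / 2 * dzz + β t z w * dz ≤ 0)
    (hterm : ∀ z w, |w| ≤ κ * τ K → 0 ≤ F (τ K) z w) :
    ∀ t ∈ Icc (τ 0) (τ K), ∀ z w, |w| ≤ κ * t → 0 ≤ F t z w := by
  have hmono : ∀ i j, i ≤ j → j ≤ K → τ i ≤ τ j := by
    intro i j hij
    induction j, hij using Nat.le_induction with
    | base => exact fun _ => le_rfl
    | succ j _ ih => exact fun hj => (ih (by omega)).trans (hτ j (by omega)).le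
  have key : ∀ n, n ≤ K → ∀ t ∈ Icc (τ (K - n)) (τ K), ∀ z w, |w| ≤ κ * t → 0 ≤ F t z w := by
    intro n
    induction n with
    | zero =>
      intro _ t ht z w hw
      have : t = τ K := le_antisymm ht.2 (by simpa using ht.1)
      rw [this] at hw ⊢
      exact hterm z w hw
    | succ n ih =>
      intro hn t ht z w hw
      have e : K - (n + 1) + 1 = K - n := by omega
      have hk : K - (n + 1) < K := by omega
      by_cases h : τ (K - n) ≤ t
      · exact ih (by omega) t ⟨h, ht.2⟩ z w hw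
      · have h1 : τ 0 ≤ τ (K - (n + 1)) := hmono _ _ (Nat.zero_le _) (by omega)
        have h2 : τ (K - n) ≤ τ K := hmono _ _ (by omega) le_rfl
        have hlt := hτ _ hk
        rw [e] at hlt
        refine sk_up_wmp_slab (C := C) hT hκ hlt F c β (fun t ht => hc t ⟨h1.trans ht.1, ht.2.trans h2⟩)
          (fun t ht => hβ t ⟨h1.trans ht.1, ht.2.trans h2⟩) (hcont.mono fun p hp => ⟨h1.trans hp.1, hp.2.trans h2⟩)
          (fun t ht => hbd t ⟨h1.trans ht.1, ht.2.trans h2⟩) (fun t ht => hjet _ hk t (by rw [e]; exact ht))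
          (fun z w hw => ih (by omega) _ ⟨le_rfl, h2⟩ z w hw) t ⟨ht.1, (not_le.1 h).le⟩ z w hw
  intro t ht
  exact key K le_rfl t (by simpa using ht)

end Claimed.Agent.R286
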