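import Claimed.Agent.R286.Sc.UqKit

/-!
# Row 286, scalar block, unit UQ, file 2: QUANTITATIVE STRICT CONVEXITY OF `α ↦ V_α(0,0)`      (owner helper141; prefix `sku_`; 0 sorry)

`SkuSol T α` = a classical solution of `V_t = -(T/2)(V_zz + α V_z²)`, `V(1,z) = log cosh z` (time derivatives from the right: step profiles are allowed).
EXIT `sku_main`, `sku_sconv`:   `(V¹(0,0) + V²(0,0))/2 - V̄(0,0) ≥ κ_T ∫_0^1 (∫_s^1 (α₁ - α₂))² ds`,  `κ_T = skuKap T > 0`,  `V̄` = solution for `(α₁+α₂)/2`.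
No Ito calculus, no control representation: one maximum principle in the variables `(t, z, δ)`; replaces PE Lemma 5.8 (uniqueness), LL (G2) coercivity core.
TEX[PE:prof:scalar-minimizer] (first half), TEX[LL:eq:G2] (core)
-/

set_option autoImplicit false

namespace Claimed.Agent.R286

open Set Filter Topology

/-! ## the comparison principle in jet form -/

theorem SkuJet.congr {T b μ t z δ p g p' g' : ℝ} {F : ℝ → ℝ → ℝ → ℝ} (h : SkuJet T b μ F t z δ p g) (hp : p = p') (hg : g = g') :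
    SkuJet T b μ F t z δ p' g' := by
  subst hp
  subst hg
  exact h

theorem sku_mp_jet {T : ℝ} (hT : 0 < T) (w : ℝ → ℝ → ℝ → ℝ)
    (hcont : ContinuousOn (fun p : ℝ × ℝ × ℝ => w p.1 p.2.1 p.2.2) (skuReg T))
    (hcoer : ∃ R : ℝ, ∀ t z δ, (t, z, δ) ∈ skuReg T → R ≤ |z| → 0 ≤ w t z δ)
    (hterm : ∀ z δ, (1, z, δ) ∈ skuReg T → 0 ≤ w 1 z δ)
    (hgen : ∀ t z δ, (t, z, δ) ∈ skuReg T → t < 1 → ∃ b μ p g : ℝ, |b| ≤ T / 2 ∧ SkuJet T b μ w t z δ p g ∧ g < 0) :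
    ∀ t z δ, (t, z, δ) ∈ skuReg T → 0 ≤ w t z δ := by
  refine sku_mp hT w hcont hcoer hterm ?_
  intro t z δ h ht
  obtain ⟨b, μ, p, g, hb, ⟨d, w2, w1, h1, h2, h3, h4, h5⟩, hg⟩ := hgen t z δ h ht
  refine ⟨b, d, w2, μ, w1, hb, h1, h2, h3, ?_⟩
  rw [h4, h5]
  exact hg

/-- **comparison principle**: `𝓐 F ≤ 0`, `F ≥ 0` at the terminal time, at most linear growth from below ⟹ `F ≥ 0` -/
theorem sku_cmp {T : ℝ} (hT : 0 < T) (F : ℝ → ℝ → ℝ → ℝ)
    (hcont : ContinuousOn (fun p : ℝ × ℝ × ℝ => F p.1 p.2.1 p.2.2) (skuReg T))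
    (hgrow : ∃ C : ℝ, ∀ t z δ, (t, z, δ) ∈ skuReg T → -(C * (1 + |z|)) ≤ F t z δ)
    (hterm : ∀ z δ, (1, z, δ) ∈ skuReg T → 0 ≤ F 1 z δ)
    (hgen : ∀ t z δ, (t, z, δ) ∈ skuReg T → t < 1 →
      ∃ b μ p g : ℝ, |b| ≤ T / 2 ∧ |μ| ≤ T ∧ SkuJet T b μ F t z δ p g ∧ g ≤ 0) :
    ∀ t z δ, (t, z, δ) ∈ skuReg T → 0 ≤ F t z δ := by
  have key : ∀ ε : ℝ, 0 < ε → ∀ t z δ, (t, z, δ) ∈ skuReg T → 0 ≤ F t z δ + ε * skuB T t z := by
    intro ε hε
    refine sku_mp_jet hT (fun t z δ => F t z δ + ε * skuB T t z) ?_ ?_ ?_ ?_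
    · refine hcont.add (continuousOn_const.mul ?_)
      have h1 : Continuous (fun p : ℝ × ℝ × ℝ => skuB T p.1 p.2.1) :=
        (sku_B_cont T).comp (continuous_fst.prodMk (continuous_fst.comp continuous_snd))
      exact h1.continuousOn
    · obtain ⟨C, hC⟩ := hgrow
      refine ⟨max 1 (2 * |C| / ε), ?_⟩
      intro t z δ h hz
      have h1 := hC t z δ h
      have h2 := sku_B_ge hT.le h.2.1 z
      have hz1 : 1 ≤ |z| := le_trans (le_max_left _ _) hz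
      have hz2 : 2 * |C| / ε ≤ |z| := le_trans (le_max_right _ _) hz
      rw [div_le_iff₀ hε] at hz2
      have h3 : C * (1 + |z|) ≤ |C| * (2 * |z|) := by
        calc C * (1 + |z|) ≤ |C| * (1 + |z|) := mul_le_mul_of_nonneg_right (le_abs_self C) (by positivity)
          _ ≤ |C| * (2 * |z|) := mul_le_mul_of_nonneg_left (by linarith) (abs_nonneg C)
      have h4 : |C| * (2 * |z|) ≤ ε * z ^ 2 := by
        have : z ^ 2 = |z| * |z| := by rw [← sq, sq_abs]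
        rw [this]
        nlinarith [abs_nonneg z]
      have h5 : ε * (1 + z ^ 2) ≤ ε * skuB T t z := mul_le_mul_of_nonneg_left h2 hε.le
      show 0 ≤ F t z δ + ε * skuB T t z
      nlinarith
    · intro z δ h
      have h1 := hterm z δ h
      have h2 := sku_B_ge hT.le le_rfl z
      have : 0 ≤ ε * skuB T 1 z := mul_nonneg hε.le (by nlinarith [sq_nonneg z])
      show 0 ≤ F 1 z δ + ε * skuB T 1 z
      linarith
    · intro t z δ h ht
      obtain ⟨b, μ, p, g, hb, hμ, hj, hg⟩ := hgen t z δ h ht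
      obtain ⟨p', g', hj', hg'⟩ := sku_jet_B (b := b) (t := t) (z := z) (δ := δ) hT hμ
      refine ⟨b, μ, _, _, hb, hj.add (hj'.const_mul ε), ?_⟩
      have : ε * g' < 0 := mul_neg_of_pos_of_neg hε hg'
      linarith
  intro t z δ h
  by_contra hneg
  rw [not_le] at hneg
  have hB : 0 < skuB T t z := lt_of_lt_of_le (by positivity) (sku_B_ge hT.le h.2.1 z)
  have := key (-(F t z δ) / (2 * skuB T t z)) (by
    apply div_pos (by linarith) (by positivity)) t z δ h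
  have e : -(F t z δ) / (2 * skuB T t z) * skuB T t z = -(F t z δ) / 2 := by
    field_simp
  rw [e] at this
  linarith

/-! ## classical solutions -/

/-- classical solution of the scalar Parisi equation `V_t = -(T/2)(V_zz + α V_z²)`, `V(1,·) = log cosh`; `Vk = ∂_z^k V` -/
structure SkuSol (T : ℝ) (α : ℝ → ℝ) where
  V : ℝ → ℝ → ℝ
  V1 : ℝ → ℝ → ℝ
  V2 : ℝ → ℝ → ℝ
  V3 : ℝ → ℝ → ℝ
  V4 : ℝ → ℝ → ℝ
  term : ∀ z, V 1 z = Real.log (Real.cosh z)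
  term2 : ∀ z, V2 1 z = 1 / Real.cosh z ^ 2
  c0 : ContinuousOn (fun p : ℝ × ℝ => V p.1 p.2) (Icc (0 : ℝ) 1 ×ˢ univ)
  c1 : ContinuousOn (fun p : ℝ × ℝ => V1 p.1 p.2) (Icc (0 : ℝ) 1 ×ˢ univ)
  c2 : ContinuousOn (fun p : ℝ × ℝ => V2 p.1 p.2) (Icc (0 : ℝ) 1 ×ˢ univ)
  d1 : ∀ t ∈ Ico (0 : ℝ) 1, ∀ z, HasDerivAt (V t) (V1 t z) z
  d2 : ∀ t ∈ Ico (0 : ℝ) 1, ∀ z, HasDerivAt (V1 t) (V2 t z) z
  d3 : ∀ t ∈ Ico (0 : ℝ) 1, ∀ z, HasDerivAt (V2 t) (V3 t z) z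
  d4 : ∀ t ∈ Ico (0 : ℝ) 1, ∀ z, HasDerivAt (V3 t) (V4 t z) z
  t0 : ∀ t ∈ Ico (0 : ℝ) 1, ∀ z, HasDerivWithinAt (fun s => V s z) (-(T / 2) * (V2 t z + α t * V1 t z ^ 2)) (Ici t) t
  t1 : ∀ t ∈ Ico (0 : ℝ) 1, ∀ z, HasDerivWithinAt (fun s => V1 s z) (-(T / 2) * (V3 t z + 2 * α t * (V1 t z * V2 t z))) (Ici t) t
  t2 : ∀ t ∈ Ico (0 : ℝ) 1, ∀ z,
    HasDerivWithinAt (fun s => V2 s z) (-(T / 2) * (V4 t z + 2 * α t * (V2 t z ^ 2 + V1 t z * V3 t z))) (Ici t) t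
  b1 : ∀ t ∈ Icc (0 : ℝ) 1, ∀ z, |V1 t z| ≤ 1
  b2 : ∃ C : ℝ, ∀ t ∈ Icc (0 : ℝ) 1, ∀ z, -C ≤ V2 t z

theorem sku_reg_mem {T t z δ : ℝ} (h : (t, z, δ) ∈ skuReg T) : t ∈ Icc (0 : ℝ) 1 := ⟨h.1, h.2.1⟩

theorem sku_contOn_tz {T : ℝ} {U : ℝ → ℝ → ℝ} (hU : ContinuousOn (fun p : ℝ × ℝ => U p.1 p.2) (Icc (0 : ℝ) 1 ×ˢ univ))
    {φ : ℝ × ℝ × ℝ → ℝ} (hφ : Continuous φ) : ContinuousOn (fun p : ℝ × ℝ × ℝ => U p.1 (φ p)) (skuReg T) := by
  have h1 : ContinuousOn (fun p : ℝ × ℝ × ℝ => ((p.1, φ p) : ℝ × ℝ)) (skuReg T) := (continuous_fst.prodMk hφ).continuousOn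
  exact hU.comp h1 (fun p hp => ⟨⟨hp.1, hp.2.1⟩, mem_univ _⟩)

theorem sku_contOn_time {T : ℝ} {f : ℝ → ℝ} (hf : ContinuousOn f (Icc (0 : ℝ) 1)) :
    ContinuousOn (fun p : ℝ × ℝ × ℝ => f p.1) (skuReg T) :=
  hf.comp continuous_fst.continuousOn (fun _ hp => ⟨hp.1, hp.2.1⟩)

/-- **lower bound of the curvature**: `V_zz ≥ e^{-3T(1-t)} / cosh² z` -/
theorem sku_V2_lower {T : ℝ} (hT : 0 < T) {α : ℝ → ℝ} (hα : ∀ t ∈ Ico (0 : ℝ) 1, α t ∈ Icc (0 : ℝ) 1) (S : SkuSol T α) :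
    ∀ t ∈ Icc (0 : ℝ) 1, ∀ z, skuG (3 * T) 2 t z ≤ S.V2 t z := by
  have key := sku_cmp hT (fun t z _ => S.V2 t z - skuG (3 * T) 2 t z) ?_ ?_ ?_ ?_
  · intro t ht z
    have := key t z 0 ⟨ht.1, ht.2, by
      show |(0 : ℝ)| ≤ T / 2 * t
      rw [abs_zero]
      exact mul_nonneg (by positivity) ht.1⟩
    linarith
  · refine (sku_contOn_tz S.c2 (continuous_fst.comp continuous_snd)).sub ?_
    have h1 : Continuous (fun p : ℝ × ℝ × ℝ => skuG (3 * T) 2 p.1 p.2.1) :=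
      (sku_G_cont (3 * T) 2).comp (continuous_fst.prodMk (continuous_fst.comp continuous_snd))
    exact h1.continuousOn
  · obtain ⟨C, hC⟩ := S.b2
    refine ⟨|C| + 1, ?_⟩
    intro t z δ h
    have h1 := hC t (sku_reg_mem h) z
    have h2 := sku_G_le_one (K := 3 * T) (k := 2) (by positivity) (by norm_num) h.2.1 z
    have h3 : (|C| + 1) * 1 ≤ (|C| + 1) * (1 + |z|) :=
      mul_le_mul_of_nonneg_left (by linarith [abs_nonneg z]) (by positivity)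
    have h4 := le_abs_self C
    linarith
  · intro z δ _
    rw [S.term2 z]
    have := sku_G_one (3 * T) 2 z
    norm_num at this
    rw [this]
    simp
  · intro t z δ h ht
    have ht' : t ∈ Ico (0 : ℝ) 1 := ⟨h.1, ht⟩
    have hα' := hα t ht'
    have hm := S.b1 t (sku_reg_mem h) z
    have hμ : |T * α t * S.V1 t z| ≤ T := by
      rw [abs_mul, abs_mul, abs_of_pos hT, abs_of_nonneg hα'.1]
      calc T * α t * |S.V1 t z| ≤ T * 1 * 1 :=
            mul_le_mul (mul_le_mul_of_nonneg_left hα'.2 hT.le) hm (abs_nonneg _) (by positivity)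
        _ = T := by ring
    obtain ⟨g, hj, hg⟩ := sku_jet_G (b := 0) (t := t) (z := z) (δ := δ) (K := 3 * T) (k := 2) hT (by norm_num) hμ
    have hj2 := sku_jet_tz (T := T) (b := 0) (μ := T * α t * S.V1 t z) (δ := δ) (U := S.V2) (S.d3 t ht') (S.d4 t ht' z) (S.t2 t ht' z)
    refine ⟨0, T * α t * S.V1 t z, _, _, by rw [abs_zero]; positivity, hμ, hj2.sub hj, ?_⟩
    have e : -(T / 2) * (S.V4 t z + 2 * α t * (S.V2 t z ^ 2 + S.V1 t z * S.V3 t z)) + T / 2 * S.V4 t z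
        + T * α t * S.V1 t z * S.V3 t z = -(T * α t * S.V2 t z ^ 2) := by ring
    rw [e]
    have h1 : 0 ≤ T * α t * S.V2 t z ^ 2 := by
      have := hα'.1
      positivity
    have h2 : (3 * T - 3 / 2 * T * 2) * skuG (3 * T) 2 t z = 0 := by ring
    linarith

/-! ## the terminal inequality -/

theorem sku_term {T z δ : ℝ} (hδ : |δ| ≤ T / 2) :
    1 / (2 + T ^ 2 / 2) * (1 / Real.cosh z ^ 2) * δ ^ 2 ≤ (skuL (z + δ) + skuL (z - δ)) / 2 - skuL z := by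
  have hc : 0 < Real.cosh z := Real.cosh_pos z
  have hc1 : 1 ≤ Real.cosh z := Real.one_le_cosh z
  have hprod : Real.cosh (z + δ) * Real.cosh (z - δ) = Real.cosh z ^ 2 + Real.sinh δ ^ 2 := by
    rw [Real.cosh_add, Real.cosh_sub]
    have h1 := Real.cosh_sq δ
    have h2 := Real.cosh_sq z
    nlinarith
  have hsum : skuL (z + δ) + skuL (z - δ) - 2 * skuL z = Real.log (1 + Real.sinh δ ^ 2 / Real.cosh z ^ 2) := by
    unfold skuL
    rw [← Real.log_mul (Real.cosh_pos _).ne' (Real.cosh_pos _).ne', hprod]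
    have : (2:ℝ) * Real.log (Real.cosh z) = Real.log (Real.cosh z ^ 2) := by
      rw [Real.log_pow]
      norm_num
    rw [this, ← Real.log_div (by positivity) (by positivity)]
    congr 1
    field_simp
  have hsinh : δ ^ 2 ≤ Real.sinh δ ^ 2 := by
    have h1 : |δ| ≤ |Real.sinh δ| := by
      rw [Real.abs_sinh]
      exact Real.self_le_sinh_iff.2 (abs_nonneg δ)
    exact sq_le_sq.2 h1
  set y := δ ^ 2 / Real.cosh z ^ 2 with hy
  have hy0 : 0 ≤ y := by positivity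
  have hyx : y ≤ Real.sinh δ ^ 2 / Real.cosh z ^ 2 := div_le_div_of_nonneg_right hsinh (by positivity)
  have hδ2 : δ ^ 2 ≤ T ^ 2 / 4 := by
    have : δ ^ 2 = |δ| ^ 2 := (sq_abs δ).symm
    rw [this]
    nlinarith [abs_nonneg δ]
  have hyT : y ≤ T ^ 2 / 4 := by
    refine le_trans ?_ hδ2
    rw [hy]
    apply div_le_self (sq_nonneg δ)
    nlinarith
  have hlog : y / (1 + y) ≤ Real.log (1 + Real.sinh δ ^ 2 / Real.cosh z ^ 2) := by
    have h1 : Real.log (1 + y) ≤ Real.log (1 + Real.sinh δ ^ 2 / Real.cosh z ^ 2) :=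
      Real.log_le_log (by positivity) (by linarith)
    have h2 := Real.one_sub_inv_le_log_of_pos (x := 1 + y) (by positivity)
    have h3 : y / (1 + y) = 1 - (1 + y)⁻¹ := by
      field_simp
      ring
    linarith
  have hfin : y / (1 + T ^ 2 / 4) ≤ y / (1 + y) := by
    apply div_le_div_of_nonneg_left hy0 (by positivity) (by linarith)
  have e : 1 / (2 + T ^ 2 / 2) * (1 / Real.cosh z ^ 2) * δ ^ 2 = y / (1 + T ^ 2 / 4) / 2 := by
    rw [hy]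
    field_simp
    ring
  rw [e]
  linarith

/-! ## shifted jets -/

theorem sku_jet_plus {T b μ t z δ : ℝ} {α : ℝ → ℝ} (S : SkuSol T α) (ht : t ∈ Ico (0 : ℝ) 1) :
    SkuJet T b μ (fun t z δ => S.V t (z + δ)) t z δ (S.V1 t (z + δ))
      (-(T / 2) * α t * S.V1 t (z + δ) ^ 2 + (μ + b) * S.V1 t (z + δ)) := by
  have h := sku_jet_shift (T := T) (b := b) (μ := μ) (z := z) (δ := δ) 1 ht S.d1 S.d2 S.c1 (S.t0 t ht (z + 1 * δ))
  have e : (fun t z δ => S.V t (z + 1 * δ)) = fun t z δ => S.V t (z + δ) := by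
    funext t z δ
    rw [one_mul]
  rw [e, one_mul] at h
  exact h.congr rfl (by ring)

theorem sku_jet_minus {T b μ t z δ : ℝ} {α : ℝ → ℝ} (S : SkuSol T α) (ht : t ∈ Ico (0 : ℝ) 1) :
    SkuJet T b μ (fun t z δ => S.V t (z - δ)) t z δ (S.V1 t (z - δ))
      (-(T / 2) * α t * S.V1 t (z - δ) ^ 2 + (μ - b) * S.V1 t (z - δ)) := by
  have h := sku_jet_shift (T := T) (b := b) (μ := μ) (z := z) (δ := δ) (-1) ht S.d1 S.d2 S.c1 (S.t0 t ht (z + (-1) * δ))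
  have e : (fun t z δ => S.V t (z + (-1) * δ)) = fun t z δ => S.V t (z - δ) := by
    funext t z δ
    rw [neg_one_mul, ← sub_eq_add_neg]
  rw [e, neg_one_mul, ← sub_eq_add_neg] at h
  exact h.congr rfl (by ring)

theorem sku_jet_V {T b t z δ : ℝ} {α : ℝ → ℝ} (S : SkuSol T α) (ht : t ∈ Ico (0 : ℝ) 1) :
    SkuJet T b (T * α t * S.V1 t z) (fun t z _ => S.V t z) t z δ (S.V1 t z) (T / 2 * α t * S.V1 t z ^ 2) :=
  (sku_jet_tz (U := S.V) (S.d1 t ht) (S.d2 t ht z) (S.t0 t ht z)).congr rfl (by ring)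

theorem sku_jet_V1 {T b t z δ : ℝ} {α : ℝ → ℝ} (S : SkuSol T α) (ht : t ∈ Ico (0 : ℝ) 1) :
    SkuJet T b (T * α t * S.V1 t z) (fun t z _ => S.V1 t z) t z δ (S.V2 t z) 0 :=
  (sku_jet_tz (U := S.V1) (S.d2 t ht) (S.d3 t ht z) (S.t1 t ht z)).congr rfl (by ring)

/-- `|V(t,z) - V(t,0)| ≤ |z|` -/
theorem sku_V_lip {T : ℝ} {α : ℝ → ℝ} (S : SkuSol T α) {t : ℝ} (ht : t ∈ Icc (0 : ℝ) 1) (x y : ℝ) : |S.V t x - S.V t y| ≤ |x - y| := by
  rcases lt_or_eq_of_le ht.2 with h | h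
  · have := Convex.norm_image_sub_le_of_norm_hasDerivWithin_le (f := S.V t) (f' := S.V1 t) (C := 1) (s := univ) (x := y) (y := x)
      (fun ζ _ => (S.d1 t ⟨ht.1, h⟩ ζ).hasDerivWithinAt) (fun ζ _ => S.b1 t ht ζ) convex_univ (mem_univ _) (mem_univ _)
    simpa using this
  · subst h
    have := Convex.norm_image_sub_le_of_norm_hasDerivWithin_le (f := skuL) (f' := Real.tanh) (C := 1) (s := univ) (x := y) (y := x)
      (fun ζ _ => (sku_L_deriv ζ).hasDerivWithinAt) (fun ζ _ => (Real.abs_tanh_lt_one ζ).le) convex_univ (mem_univ _) (mem_univ _)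
    rw [S.term, S.term]
    show |skuL x - skuL y| ≤ |x - y|
    simpa using this

/-! ## the main comparison -/

/-- the algebra of the subsolution inequality -/
theorem sku_alg {T c0 c3 E8 A a Y w τ G1 G2 G3 g1 g2 : ℝ} (hT : 0 < T) (hc0 : 0 < c0) (hc3 : c3 = T ^ 3 / 8 * c0 * E8)
    (ha : 0 ≤ a) (hτ : |τ| < 1) (hG1 : 0 < G1) (hG3 : 0 < G3) (hw : G3 ≤ w) (hG : E8 * G2 ≤ G1 * G3 * G3)
    (hg1 : 8 * T * G1 ≤ g1) (hg2 : 0 ≤ g2) :
    0 ≤ c0 * (g1 * (Y * Y) + G1 * (0 * Y + Y * 0 + T * (T / 2 * A * w) * (T / 2 * A * w))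
        + T * (-2 * τ * G1) * (T / 2 * A * w * Y + Y * (T / 2 * A * w)))
      + (-(c3 * A ^ 2) * G2 + a * g2 + T * 0 * (-6 * τ * G2)) := by
  obtain ⟨Z, hZ⟩ : ∃ Z, Z = T / 2 * A * w := ⟨_, rfl⟩
  rw [← hZ]
  have h1 : 0 ≤ (g1 - 8 * T * G1) * (Y * Y) := mul_nonneg (by linarith) (mul_self_nonneg Y)
  have hτ2 : τ ^ 2 ≤ 1 := by
    have := abs_lt.1 hτ
    nlinarith
  have h2 : 0 ≤ 8 * (Y - τ * Z / 4) ^ 2 + (1 - τ ^ 2) * Z ^ 2 / 2 := by
    have : 0 ≤ (1 - τ ^ 2) * Z ^ 2 := mul_nonneg (by linarith) (sq_nonneg Z)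
    have := sq_nonneg (Y - τ * Z / 4)
    linarith
  have h3 : 0 ≤ T * G1 * (8 * (Y - τ * Z / 4) ^ 2 + (1 - τ ^ 2) * Z ^ 2 / 2) := mul_nonneg (by positivity) h2
  -- `G1 Z² ≥ (T²/4) A² E8 G2`
  have h4 : G3 * G3 ≤ w * w := mul_le_mul hw hw hG3.le (by linarith)
  have h5 : E8 * G2 ≤ G1 * (w * w) := by
    calc E8 * G2 ≤ G1 * G3 * G3 := hG
      _ = G1 * (G3 * G3) := by ring
      _ ≤ G1 * (w * w) := mul_le_mul_of_nonneg_left h4 hG1.le
  have h6 : 0 ≤ T ^ 3 / 8 * c0 * A ^ 2 * (G1 * (w * w) - E8 * G2) := mul_nonneg (by positivity) (by linarith)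
  have h7 : 0 ≤ a * g2 := mul_nonneg ha hg2
  have h8 : 0 ≤ c0 * ((g1 - 8 * T * G1) * (Y * Y)) := mul_nonneg hc0.le h1
  have h9 : 0 ≤ c0 * (T * G1 * (8 * (Y - τ * Z / 4) ^ 2 + (1 - τ ^ 2) * Z ^ 2 / 2)) := mul_nonneg hc0.le h3
  have e : c0 * (g1 * (Y * Y) + G1 * (0 * Y + Y * 0 + T * Z * Z) + T * (-2 * τ * G1) * (Z * Y + Y * Z))
      + (-(c3 * A ^ 2) * G2 + a * g2 + T * 0 * (-6 * τ * G2))
      = c0 * ((g1 - 8 * T * G1) * (Y * Y)) + c0 * (T * G1 * (8 * (Y - τ * Z / 4) ^ 2 + (1 - τ ^ 2) * Z ^ 2 / 2))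
        + T ^ 3 / 8 * c0 * A ^ 2 * (G1 * (w * w) - E8 * G2) + a * g2 := by
    rw [hc3, hZ]
    ring
  rw [e]
  linarith

/-- **MAIN COMPARISON** (abstract primitives `A' = -(α₁ - α₂)`, `a' = -c₃ A²`) -/
theorem sku_main {T : ℝ} (hT : 0 < T) {α1 α2 : ℝ → ℝ} (h1 : ∀ t ∈ Ico (0 : ℝ) 1, α1 t ∈ Icc (0 : ℝ) 1)
    (h2 : ∀ t ∈ Ico (0 : ℝ) 1, α2 t ∈ Icc (0 : ℝ) 1) (S1 : SkuSol T α1) (S2 : SkuSol T α2)
    (Sb : SkuSol T (fun t => (α1 t + α2 t) / 2)) {A a : ℝ → ℝ}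
    (hA : ∀ t ∈ Ico (0 : ℝ) 1, HasDerivWithinAt A (-(α1 t - α2 t)) (Ici t) t) (hAc : ContinuousOn A (Icc 0 1)) (hA1 : A 1 = 0)
    (hAb : ∀ t ∈ Icc (0 : ℝ) 1, |A t| ≤ 1)
    (ha : ∀ t ∈ Ico (0 : ℝ) 1,
      HasDerivWithinAt a (-(T ^ 3 / 8 * (1 / (2 + T ^ 2 / 2)) * Real.exp (-(8 * T)) * A t ^ 2)) (Ici t) t)
    (hac : ContinuousOn a (Icc 0 1)) (ha1 : a 1 = 0) (ha0 : ∀ t ∈ Icc (0 : ℝ) 1, 0 ≤ a t) :
    Real.exp (-(9 * T)) * a 0 ≤ (S1.V 0 0 + S2.V 0 0) / 2 - Sb.V 0 0 := by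
  obtain ⟨c0, hc0⟩ : ∃ c0 : ℝ, c0 = 1 / (2 + T ^ 2 / 2) := ⟨_, rfl⟩
  have hc0p : 0 < c0 := by rw [hc0]; positivity
  rw [← hc0] at ha
  have hb : ∀ t ∈ Ico (0 : ℝ) 1, (fun t => (α1 t + α2 t) / 2) t ∈ Icc (0 : ℝ) 1 := by
    intro t ht
    have := h1 t ht
    have := h2 t ht
    constructor <;> simp only <;> linarith [(h1 t ht).1, (h1 t ht).2, (h2 t ht).1, (h2 t ht).2]
  have hlow := sku_V2_lower hT hb Sb
  have key := sku_cmp hT (fun t z δ => ((1 / 2 : ℝ) * (S1.V t (z + δ) + S2.V t (z - δ)) - Sb.V t z)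
    - (c0 * (skuG (11 * T) 2 t z * ((δ + T / 2 * (A t * Sb.V1 t z)) * (δ + T / 2 * (A t * Sb.V1 t z)))) + a t * skuG (9 * T) 6 t z))
    ?_ ?_ ?_ ?_
  · have := key 0 0 0 ⟨le_rfl, zero_le_one, by simp⟩
    simp only [add_zero, sub_zero, zero_add] at this
    rw [sku_G_zero, sku_G_zero] at this
    have h3 : 0 ≤ c0 * (Real.exp (-(11 * T)) * (T / 2 * (A 0 * Sb.V1 0 0) * (T / 2 * (A 0 * Sb.V1 0 0)))) :=
      mul_nonneg hc0p.le (mul_nonneg (Real.exp_pos _).le (mul_self_nonneg _))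
    linarith
  · -- continuity
    have hz : Continuous (fun p : ℝ × ℝ × ℝ => p.2.1) := continuous_fst.comp continuous_snd
    have hδ : Continuous (fun p : ℝ × ℝ × ℝ => p.2.2) := continuous_snd.comp continuous_snd
    have hG : ∀ K k : ℝ, ContinuousOn (fun p : ℝ × ℝ × ℝ => skuG K k p.1 p.2.1) (skuReg T) := fun K k =>
      ((sku_G_cont K k).comp (continuous_fst.prodMk hz)).continuousOn
    have hY : ContinuousOn (fun p : ℝ × ℝ × ℝ => p.2.2 + T / 2 * (A p.1 * Sb.V1 p.1 p.2.1)) (skuReg T) :=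
      hδ.continuousOn.add (continuousOn_const.mul ((sku_contOn_time hAc).mul (sku_contOn_tz Sb.c1 hz)))
    exact ((continuousOn_const.mul ((sku_contOn_tz S1.c0 (hz.add hδ)).add (sku_contOn_tz S2.c0 (hz.sub hδ)))).sub
      (sku_contOn_tz Sb.c0 hz)).sub ((continuousOn_const.mul ((hG _ _).mul (hY.mul hY))).add ((sku_contOn_time hac).mul (hG _ _)))
  · -- growth
    have hbd : ∀ {α : ℝ → ℝ} (S : SkuSol T α), ∃ M, ∀ t ∈ Icc (0 : ℝ) 1, |S.V t 0| ≤ M := by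
      intro α S
      have hc : ContinuousOn (fun t => S.V t 0) (Icc (0 : ℝ) 1) :=
        S.c0.comp (continuous_id.prodMk continuous_const).continuousOn (fun t ht => ⟨ht, mem_univ _⟩)
      obtain ⟨M, hM⟩ := isCompact_Icc.exists_bound_of_continuousOn hc
      exact ⟨M, fun t ht => hM t ht⟩
    obtain ⟨M1, hM1⟩ := hbd S1
    obtain ⟨M2, hM2⟩ := hbd S2
    obtain ⟨Mb, hMb⟩ := hbd Sb
    obtain ⟨Ma, hMa⟩ := isCompact_Icc.exists_bound_of_continuousOn hac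
    refine ⟨|M1| + |M2| + |Mb| + |Ma| + T + c0 * (T * T) + 2, ?_⟩
    intro t z δ h
    have ht := sku_reg_mem h
    have hδ : |δ| ≤ T / 2 := by
      have h3 : |δ| ≤ T / 2 * t := h.2.2
      have : T / 2 * t ≤ T / 2 * 1 := mul_le_mul_of_nonneg_left ht.2 (by positivity)
      linarith
    have e1 := abs_le.1 (sku_V_lip S1 ht (z + δ) 0)
    have e2 := abs_le.1 (sku_V_lip S2 ht (z - δ) 0)
    have e3 := abs_le.1 (sku_V_lip Sb ht z 0)
    have f1 := abs_le.1 (hM1 t ht)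
    have f2 := abs_le.1 (hM2 t ht)
    have f3 := abs_le.1 (hMb t ht)
    have f4 := abs_le.1 (hMa t ht)
    rw [sub_zero] at e1 e2 e3
    have k1 : |z + δ| ≤ |z| + T / 2 := (abs_add_le z δ).trans (by linarith)
    have k2 : |z - δ| ≤ |z| + T / 2 := (abs_sub z δ).trans (by linarith)
    have hY : |δ + T / 2 * (A t * Sb.V1 t z)| ≤ T := by
      have h3 : |T / 2 * (A t * Sb.V1 t z)| ≤ T / 2 := by
        rw [abs_mul, abs_mul, abs_of_pos (by positivity : 0 < T / 2)]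
        have : |A t| * |Sb.V1 t z| ≤ 1 * 1 := mul_le_mul (hAb t ht) (Sb.b1 t ht z) (abs_nonneg _) zero_le_one
        nlinarith
      exact (abs_add_le _ _).trans (by linarith)
    have hYY : (δ + T / 2 * (A t * Sb.V1 t z)) * (δ + T / 2 * (A t * Sb.V1 t z)) ≤ T * T := by
      rw [← abs_mul_abs_self]
      exact mul_le_mul hY hY (abs_nonneg _) hT.le
    have g1 := sku_G_le_one (K := 11 * T) (k := 2) (by positivity) (by norm_num) ht.2 z
    have g2 := sku_G_le_one (K := 9 * T) (k := 6) (by positivity) (by norm_num) ht.2 z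
    have g1p := sku_G_pos (11 * T) 2 t z
    have g2p := sku_G_pos (9 * T) 6 t z
    have hΘ1 : c0 * (skuG (11 * T) 2 t z * ((δ + T / 2 * (A t * Sb.V1 t z)) * (δ + T / 2 * (A t * Sb.V1 t z)))) ≤ c0 * (T * T) := by
      apply mul_le_mul_of_nonneg_left _ hc0p.le
      calc skuG (11 * T) 2 t z * ((δ + T / 2 * (A t * Sb.V1 t z)) * (δ + T / 2 * (A t * Sb.V1 t z)))
          ≤ 1 * (T * T) := mul_le_mul g1 hYY (mul_self_nonneg _) zero_le_one
        _ = T * T := one_mul _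
    have hΘ2 : a t * skuG (9 * T) 6 t z ≤ |Ma| := by
      calc a t * skuG (9 * T) 6 t z ≤ a t * 1 := mul_le_mul_of_nonneg_left g2 (ha0 t ht)
        _ ≤ |Ma| := by linarith [le_abs_self Ma, f4.2]
    have hpos : 0 ≤ c0 * (T * T) := by positivity
    have hexp : (|M1| + |M2| + |Mb| + |Ma| + T + c0 * (T * T) + 2) * (1 + |z|)
        = (|M1| + |M2| + |Mb| + |Ma| + T + c0 * (T * T) + 2) + (|M1| + |M2| + |Mb| + |Ma| + T + c0 * (T * T)) * |z| + 2 * |z| := by ring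
    have hnn : 0 ≤ (|M1| + |M2| + |Mb| + |Ma| + T + c0 * (T * T)) * |z| := by positivity
    have a1 := le_abs_self M1
    have a2 := le_abs_self M2
    have a3 := le_abs_self Mb
    rw [hexp]
    linarith
  · -- terminal inequality
    intro z δ h
    have hδ : |δ| ≤ T / 2 := by
      have h3 : |δ| ≤ T / 2 * 1 := h.2.2
      linarith
    have := sku_term (z := z) hδ
    rw [S1.term, S2.term, Sb.term, hA1, ha1]
    have hG := sku_G_one (11 * T) 2 z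
    norm_num at hG
    rw [hG]
    unfold skuL at this
    rw [← hc0] at this
    have e : c0 * ((Real.cosh z ^ 2)⁻¹ * ((δ + T / 2 * (0 * Sb.V1 1 z)) * (δ + T / 2 * (0 * Sb.V1 1 z)))) + 0 * skuG (9 * T) 6 1 z
        = c0 * (1 / Real.cosh z ^ 2) * δ ^ 2 := by
      rw [one_div]
      ring
    rw [e]
    linarith
  · -- the generator
    intro t z δ h ht1
    have ht : t ∈ Ico (0 : ℝ) 1 := ⟨h.1, ht1⟩
    have ht' := sku_reg_mem h
    obtain ⟨m, hm⟩ : ∃ m, m = Sb.V1 t z := ⟨_, rfl⟩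
    have hmb : |m| ≤ 1 := by rw [hm]; exact Sb.b1 t ht' z
    have hα1 := h1 t ht
    have hα2 := h2 t ht
    have hbb : |T / 2 * (α1 t - α2 t) * m| ≤ T / 2 := by
      rw [abs_mul, abs_mul, abs_of_pos (by positivity : 0 < T / 2)]
      have h3 : |α1 t - α2 t| ≤ 1 := by
        rw [abs_le]
        constructor <;> linarith [hα1.1, hα1.2, hα2.1, hα2.2]
      have : |α1 t - α2 t| * |m| ≤ 1 * 1 := mul_le_mul h3 hmb (abs_nonneg _) zero_le_one
      nlinarith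
    have hμ : |T * ((α1 t + α2 t) / 2) * Sb.V1 t z| ≤ T := by
      rw [← hm, abs_mul, abs_mul, abs_of_pos hT]
      have h3 : |(α1 t + α2 t) / 2| ≤ 1 := by
        rw [abs_le]
        constructor <;> linarith [hα1.1, hα1.2, hα2.1, hα2.2]
      have : |(α1 t + α2 t) / 2| * |m| ≤ 1 * 1 := mul_le_mul h3 hmb (abs_nonneg _) zero_le_one
      nlinarith
    -- jets
    have J1 := sku_jet_plus (b := T / 2 * (α1 t - α2 t) * m) (μ := T * ((α1 t + α2 t) / 2) * Sb.V1 t z) (z := z) (δ := δ) S1 ht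
    have J2 := sku_jet_minus (b := T / 2 * (α1 t - α2 t) * m) (μ := T * ((α1 t + α2 t) / 2) * Sb.V1 t z) (z := z) (δ := δ) S2 ht
    have Jb := sku_jet_V (b := T / 2 * (α1 t - α2 t) * m) (z := z) (δ := δ) Sb ht
    have Jm := sku_jet_V1 (b := T / 2 * (α1 t - α2 t) * m) (z := z) (δ := δ) Sb ht
    have JA := sku_jet_time (T := T) (b := T / 2 * (α1 t - α2 t) * m) (μ := T * ((α1 t + α2 t) / 2) * Sb.V1 t z) (z := z) (δ := δ) (hA t ht)
    have Ja := sku_jet_time (T := T) (b := T / 2 * (α1 t - α2 t) * m) (μ := T * ((α1 t + α2 t) / 2) * Sb.V1 t z) (z := z) (δ := δ) (ha t ht)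
    have Jδ := sku_jet_delta (T := T) (b := T / 2 * (α1 t - α2 t) * m) (μ := T * ((α1 t + α2 t) / 2) * Sb.V1 t z) (t := t) (z := z) (δ := δ)
    obtain ⟨g1, JG1, hg1⟩ := sku_jet_G (b := T / 2 * (α1 t - α2 t) * m) (t := t) (z := z) (δ := δ) (K := 11 * T) (k := 2) hT (by norm_num) hμ
    obtain ⟨g2, JG2, hg2⟩ := sku_jet_G (b := T / 2 * (α1 t - α2 t) * m) (t := t) (z := z) (δ := δ) (K := 9 * T) (k := 6) hT (by norm_num) hμ
    have JY := (Jδ.add ((JA.mul Jm).const_mul (T / 2))).congr (p' := T / 2 * A t * Sb.V2 t z) (g' := 0) (by ring) (by rw [hm]; ring)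
    have JD := ((J1.add J2).const_mul (1 / 2)).sub Jb
    have JΘ := ((JG1.mul (JY.mul JY)).const_mul c0).add (Ja.mul JG2)
    refine ⟨_, _, _, _, hbb, hμ, JD.sub JΘ, ?_⟩
    have hD : 1 / 2 * (-(T / 2) * α1 t * S1.V1 t (z + δ) ^ 2 + (T * ((α1 t + α2 t) / 2) * Sb.V1 t z + T / 2 * (α1 t - α2 t) * m) * S1.V1 t (z + δ)
        + (-(T / 2) * α2 t * S2.V1 t (z - δ) ^ 2 + (T * ((α1 t + α2 t) / 2) * Sb.V1 t z - T / 2 * (α1 t - α2 t) * m) * S2.V1 t (z - δ)))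
        - T / 2 * ((α1 t + α2 t) / 2) * Sb.V1 t z ^ 2
        = -(T / 4 * (α1 t * (S1.V1 t (z + δ) - m) ^ 2 + α2 t * (S2.V1 t (z - δ) - m) ^ 2)) := by
      rw [hm]
      ring
    have hD0 : 0 ≤ T / 4 * (α1 t * (S1.V1 t (z + δ) - m) ^ 2 + α2 t * (S2.V1 t (z - δ) - m) ^ 2) := by
      have := hα1.1
      have := hα2.1
      positivity
    have halg := sku_alg (T := T) (c0 := c0) (c3 := T ^ 3 / 8 * c0 * Real.exp (-(8 * T))) (E8 := Real.exp (-(8 * T))) (A := A t) (a := a t)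
      (Y := δ + T / 2 * (A t * Sb.V1 t z)) (w := Sb.V2 t z) (τ := Real.tanh z) (G1 := skuG (11 * T) 2 t z) (G2 := skuG (9 * T) 6 t z)
      (G3 := skuG (3 * T) 2 t z) (g1 := g1) (g2 := g2) hT hc0p rfl (ha0 t ht') (Real.abs_tanh_lt_one z) (sku_G_pos _ _ _ _) (sku_G_pos _ _ _ _)
      (hlow t ht' z) (by
        rw [sku_G_mul, sku_G_mul]
        have := sku_G_mono (K := 17 * T) (K' := 9 * T) (T := 8 * T) (k := 6) (t := t) (by linarith) (by linarith) ht.1 z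
        have e1 : 11 * T + 3 * T + 3 * T = 17 * T := by ring
        have e2 : (2 : ℝ) + 2 + 2 = 6 := by norm_num
        rw [e1, e2]
        exact this) (by
        have : (11 * T - 3 / 2 * T * 2) * skuG (11 * T) 2 t z = 8 * T * skuG (11 * T) 2 t z := by ring
        linarith) (by
        have : (9 * T - 3 / 2 * T * 6) * skuG (9 * T) 6 t z = 0 := by ring
        linarith)
    rw [hD]
    linarith

/-! ## the integral form -/

/-- the constant of strict convexity -/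
noncomputable def skuKap (T : ℝ) : ℝ := T ^ 3 / 8 * (1 / (2 + T ^ 2 / 2)) * Real.exp (-(17 * T))

theorem sku_kap_pos {T : ℝ} (hT : 0 < T) : 0 < skuKap T := by
  unfold skuKap
  positivity

theorem sku_cwa_Ioi {f : ℝ → ℝ} (hf : ContinuousOn f (Icc 0 1)) {t : ℝ} (ht : t ∈ Ico (0 : ℝ) 1) : ContinuousWithinAt f (Ioi t) t := by
  refine (hf t ⟨ht.1, ht.2.le⟩).mono_of_mem_nhdsWithin ?_
  exact mem_of_superset (Ioc_mem_nhdsGT ht.2) (fun x hx => ⟨le_trans ht.1 hx.1.le, hx.2⟩)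

/-- right derivative of `t ↦ ∫_t^1 f` -/
theorem sku_prim_deriv {f : ℝ → ℝ} (hf : IntervalIntegrable f MeasureTheory.volume 0 1) {t : ℝ} (ht : t ∈ Ico (0 : ℝ) 1)
    (hc : ContinuousWithinAt f (Ioi t) t) : HasDerivWithinAt (fun u => ∫ x in u..1, f x) (-f t) (Ici t) t := by
  have hft : IntervalIntegrable f MeasureTheory.volume t 1 :=
    hf.mono_set (uIcc_subset_uIcc ⟨by rw [min_eq_left zero_le_one]; exact ht.1, by rw [max_eq_right zero_le_one]; exact ht.2.le⟩ right_mem_uIcc)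
  have hmeas : StronglyMeasurableAtFilter f (𝓝[>] t) MeasureTheory.volume :=
    ⟨Ioc t 1, Ioc_mem_nhdsGT ht.2, hft.1.aestronglyMeasurable⟩
  exact intervalIntegral.integral_hasDerivWithinAt_left hft hmeas hc

theorem sku_prim_cont {f : ℝ → ℝ} (hf : IntervalIntegrable f MeasureTheory.volume 0 1) :
    ContinuousOn (fun u => ∫ x in u..1, f x) (Icc 0 1) := by
  have := intervalIntegral.continuousOn_primitive_interval_left (μ := MeasureTheory.volume) (f := f) (a := 0) (b := 1) (by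
    rw [uIcc_of_le zero_le_one]
    exact (intervalIntegrable_iff_integrableOn_Icc_of_le zero_le_one).1 hf)
  rwa [uIcc_of_le zero_le_one] at this

/-- **QUANTITATIVE STRICT CONVEXITY** for right continuous coefficients.   TEX[PE:prof:scalar-minimizer] TEX[LL:eq:G2] -/
theorem sku_sconv {T : ℝ} (hT : 0 < T) {α1 α2 : ℝ → ℝ} (h1 : ∀ t ∈ Icc (0 : ℝ) 1, α1 t ∈ Icc (0 : ℝ) 1)
    (h2 : ∀ t ∈ Icc (0 : ℝ) 1, α2 t ∈ Icc (0 : ℝ) 1) (hi1 : IntervalIntegrable α1 MeasureTheory.volume 0 1)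
    (hi2 : IntervalIntegrable α2 MeasureTheory.volume 0 1) (hr1 : ∀ t ∈ Ico (0 : ℝ) 1, ContinuousWithinAt α1 (Ici t) t)
    (hr2 : ∀ t ∈ Ico (0 : ℝ) 1, ContinuousWithinAt α2 (Ici t) t) (S1 : SkuSol T α1) (S2 : SkuSol T α2)
    (Sb : SkuSol T (fun t => (α1 t + α2 t) / 2)) :
    skuKap T * ∫ s in (0 : ℝ)..1, (∫ r in s..1, (α1 r - α2 r)) ^ 2 ≤ (S1.V 0 0 + S2.V 0 0) / 2 - Sb.V 0 0 := by
  have hη : IntervalIntegrable (fun r => α1 r - α2 r) MeasureTheory.volume 0 1 := hi1.sub hi2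
  have hAc := sku_prim_cont hη
  have hA2c : ContinuousOn (fun s => (∫ r in s..1, (α1 r - α2 r)) ^ 2) (Icc 0 1) := hAc.pow 2
  have hA2i : IntervalIntegrable (fun s => (∫ r in s..1, (α1 r - α2 r)) ^ 2) MeasureTheory.volume 0 1 := by
    apply ContinuousOn.intervalIntegrable
    rwa [uIcc_of_le zero_le_one]
  obtain ⟨c3, hc3⟩ : ∃ c3 : ℝ, c3 = T ^ 3 / 8 * (1 / (2 + T ^ 2 / 2)) * Real.exp (-(8 * T)) := ⟨_, rfl⟩
  have hc3p : 0 < c3 := by rw [hc3]; positivity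
  have key := sku_main hT (fun t ht => h1 t ⟨ht.1, ht.2.le⟩) (fun t ht => h2 t ⟨ht.1, ht.2.le⟩) S1 S2 Sb
    (A := fun s => ∫ r in s..1, (α1 r - α2 r)) (a := fun t => c3 * ∫ s in t..1, (∫ r in s..1, (α1 r - α2 r)) ^ 2)
    (fun t ht => sku_prim_deriv hη ht (((hr1 t ht).sub (hr2 t ht)).mono Ioi_subset_Ici_self)) hAc
    intervalIntegral.integral_same ?_ ?_ (continuousOn_const.mul (sku_prim_cont hA2i)) (by simp) ?_
  · have e : skuKap T = Real.exp (-(9 * T)) * c3 := by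
      unfold skuKap
      rw [hc3]
      have : Real.exp (-(17 * T)) = Real.exp (-(9 * T)) * Real.exp (-(8 * T)) := by
        rw [← Real.exp_add]
        congr 1
        ring
      rw [this]
      ring
    rw [e, mul_assoc]
    exact key
  · intro t ht
    have := intervalIntegral.norm_integral_le_of_norm_le_const (a := t) (b := 1) (f := fun r => α1 r - α2 r) (C := 1) (by
      intro x hx
      rw [uIoc_of_le ht.2] at hx
      have hx' : x ∈ Icc (0 : ℝ) 1 := ⟨le_trans ht.1 hx.1.le, hx.2⟩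
      rw [Real.norm_eq_abs, abs_le]
      constructor <;> linarith [(h1 x hx').1, (h1 x hx').2, (h2 x hx').1, (h2 x hx').2])
    rw [Real.norm_eq_abs, abs_of_nonneg (by linarith [ht.2] : (0 : ℝ) ≤ 1 - t)] at this
    linarith [ht.1]
  · intro t ht
    have := (sku_prim_deriv hA2i ht (sku_cwa_Ioi hA2c ht)).const_mul c3
    rw [← hc3]
    refine this.congr_deriv ?_
    ring
  · intro t ht
    apply mul_nonneg hc3p.le
    apply intervalIntegral.integral_nonneg ht.2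
    intro u _
    positivity

end Claimed.Agent.R286
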