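import Claimed.Agent.R286.Sc.VarK

/-!
# Row 286 (S0533), BOX-C (scalar block), unit C6, file 3: THE BASE PROFILE, ABSTRACT PART      (OWNER helper229)

LL Lemma `paths:base-profile` (03-paths.tex l.53-103) after Theorem (L):
* `sv_boot`      : BOOTSTRAP.  An abstract "moment algebra" `E p`, `p : ι`, closed under the Dynkin rule `(E p)' = T (E (D0 p) + α E (D1 p))`, together with `α = E n / (2 E d)` on `[0,q)`:
                   every `E p` and the ratio are `C^r` on the CLOSED interval `[0,q]`, every `r`  (so all one-sided derivatives are bounded).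
* `sv_top_decay` : ANNEALED INEQUALITY from its differential form `N3 - 2 M3 ≤ - M2 / 2` on a top plateau `α = 1`.
* `sv_ptop`      : `p_top = lim_{s ↑ q} α(s) = N3(q) / (2 M3(q)) ∈ (0,1)`.
* (the static inequality behind the differential form, `∫ w (sech³)'' ≤ 0` for `w` with `z w'(z) ≤ 0`, comes in file 4.)
-/

set_option autoImplicit false

namespace Claimed.Agent.R286

open MeasureTheory Set Filter Topology

/-! ## 1. bootstrap -/

/-- a function with a continuous "derivative" in the integrated sense on `[0,q]` -/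
theorem sv_hasDerivWithin_of_int {f g : ℝ → ℝ} {q : ℝ} (hq : 0 < q) (hg : ContinuousOn g (Icc 0 q))
    (hfg : ∀ s ∈ Icc 0 q, ∀ t ∈ Icc 0 q, f t - f s = ∫ r in s..t, g r) :
    ∀ t ∈ Icc 0 q, HasDerivWithinAt f (g t) (Icc 0 q) t := by
  intro t ht
  set G : ℝ → ℝ := IccExtend hq.le (fun t : Icc (0:ℝ) q => g t) with hG
  have hGc : Continuous G := by
    apply Continuous.Icc_extend'
    exact continuousOn_iff_continuous_domRestrict.1 hg
  have hGg : ∀ r ∈ Icc (0:ℝ) q, G r = g r := fun r hr => by rw [hG, IccExtend_of_mem _ _ hr]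
  have h1 : HasDerivAt (fun u => f 0 + ∫ r in (0:ℝ)..u, G r) (G t) t := by
    have := intervalIntegral.integral_hasDerivAt_right (hGc.intervalIntegrable 0 t)
      (hGc.stronglyMeasurableAtFilter _ _) hGc.continuousAt
    exact this.const_add (f 0)
  rw [← hGg t ht]
  apply h1.hasDerivWithinAt.congr
  · intro u hu
    have h0 : (0:ℝ) ∈ Icc (0:ℝ) q := ⟨le_rfl, hq.le⟩
    have := hfg 0 h0 u hu
    have e : (∫ r in (0:ℝ)..u, G r) = ∫ r in (0:ℝ)..u, g r := by
      apply intervalIntegral.integral_congr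
      intro r hr
      rw [uIcc_of_le hu.1] at hr
      exact hGg r ⟨hr.1, le_trans hr.2 hu.2⟩
    rw [e]; linarith
  · have h0 : (0:ℝ) ∈ Icc (0:ℝ) q := ⟨le_rfl, hq.le⟩
    have := hfg 0 h0 t ht
    have e : (∫ r in (0:ℝ)..t, G r) = ∫ r in (0:ℝ)..t, g r := by
      apply intervalIntegral.integral_congr
      intro r hr
      rw [uIcc_of_le ht.1] at hr
      exact hGg r ⟨hr.1, le_trans hr.2 ht.2⟩
    rw [e]; linarith

/-- **BOOTSTRAP** (LL 03-paths l.62-73).   TEX[LL:paths:base-profile] (the part "bounded one-sided derivatives of every fixed order") -/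
theorem sv_boot {ι : Type*} (D0 D1 : ι → ι) (E : ι → ℝ → ℝ) (α : ℝ → ℝ) (T : ℝ) {q : ℝ} (hq : 0 < q) (n d : ι)
    (hc : ∀ p, ContinuousOn (E p) (Icc 0 q))
    (hdyn : ∀ p, ∀ s ∈ Icc 0 q, ∀ t ∈ Icc 0 q,
      E p t - E p s = T * ∫ r in s..t, (E (D0 p) r + α r * E (D1 p) r))
    (hpos : ∀ t ∈ Icc 0 q, 0 < E d t)
    (hα : ∀ s ∈ Ico 0 q, α s = E n s / (2 * E d s)) (r : ℕ) :
    (∀ p, ContDiffOn ℝ r (E p) (Icc 0 q)) ∧ ContDiffOn ℝ r (fun s => E n s / (2 * E d s)) (Icc 0 q) := by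
  set a : ℝ → ℝ := fun s => E n s / (2 * E d s) with ha
  have hne : ∀ t ∈ Icc 0 q, 2 * E d t ≠ 0 := fun t ht => (mul_pos two_pos (hpos t ht)).ne'
  have hratio : ∀ k : ℕ, (∀ p, ContDiffOn ℝ k (E p) (Icc 0 q)) → ContDiffOn ℝ k a (Icc 0 q) := by
    intro k hk
    exact (hk n).div (contDiffOn_const.mul (hk d)) hne
  have hac : ContinuousOn a (Icc 0 q) := (hc n).div (continuousOn_const.mul (hc d)) hne
  -- the Dynkin rule with the ratio in place of α
  have hdyn' : ∀ p, ∀ s ∈ Icc 0 q, ∀ t ∈ Icc 0 q,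
      E p t - E p s = ∫ r in s..t, T * (E (D0 p) r + a r * E (D1 p) r) := by
    intro p s hs t ht
    rw [hdyn p s hs t ht, intervalIntegral.integral_const_mul]
    congr 1
    apply intervalIntegral.integral_congr_uIoo
    intro r hr
    have hr' : r ∈ Ico 0 q := by
      rcases le_total s t with h | h
      · rw [uIoo_of_le h] at hr; exact ⟨le_trans hs.1 hr.1.le, lt_of_lt_of_le hr.2 ht.2⟩
      · rw [uIoo_of_ge h] at hr; exact ⟨le_trans ht.1 hr.1.le, lt_of_lt_of_le hr.2 hs.2⟩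
    simp only
    rw [hα r hr']
  have hgc : ∀ p, ContinuousOn (fun r => T * (E (D0 p) r + a r * E (D1 p) r)) (Icc 0 q) := fun p =>
    continuousOn_const.mul ((hc _).add (hac.mul (hc _)))
  have hder : ∀ p, ∀ t ∈ Icc 0 q,
      HasDerivWithinAt (E p) (T * (E (D0 p) t + a t * E (D1 p) t)) (Icc 0 q) t := fun p =>
    sv_hasDerivWithin_of_int hq (hgc p) (hdyn' p)
  have hu : UniqueDiffOn ℝ (Icc 0 q) := uniqueDiffOn_Icc hq
  have main : ∀ k : ℕ, ∀ p, ContDiffOn ℝ k (E p) (Icc 0 q) := by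
    intro k
    induction k with
    | zero => intro p; exact contDiffOn_zero.2 (hc p)
    | succ k ih =>
      intro p
      have : ((k + 1 : ℕ) : WithTop ℕ∞) = (k : WithTop ℕ∞) + 1 := by norm_cast
      rw [this, contDiffOn_succ_iff_derivWithin hu]
      refine ⟨fun t ht => (hder p t ht).differentiableWithinAt, fun h => by simp at h, ?_⟩
      have hk : ContDiffOn ℝ k (fun r => T * (E (D0 p) r + a r * E (D1 p) r)) (Icc 0 q) :=
        contDiffOn_const.mul ((ih _).add ((hratio k ih).mul (ih _)))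
      exact hk.congr (fun t ht => (hder p t ht).derivWithin (hu t ht))
  exact ⟨main r, hratio r (main r)⟩

/-! ## 2. the top plateau -/

/-- the same as `sv_hasDerivWithin_of_int` on an arbitrary interval -/
theorem sv_hasDerivWithin_of_int' {f g : ℝ → ℝ} {a b : ℝ} (hab : a < b) (hg : ContinuousOn g (Icc a b))
    (hfg : ∀ s ∈ Icc a b, ∀ t ∈ Icc a b, f t - f s = ∫ r in s..t, g r) :
    ∀ t ∈ Icc a b, HasDerivWithinAt f (g t) (Icc a b) t := by
  intro t ht
  have h1 := sv_hasDerivWithin_of_int (f := fun u => f (u + a)) (g := fun u => g (u + a)) (q := b - a)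
    (sub_pos.2 hab)
    (hg.comp (by fun_prop) (fun u hu => ⟨by linarith [hu.1], by linarith [hu.2]⟩))
    (by
      intro s hs u hu
      rw [hfg (s + a) ⟨by linarith [hs.1], by linarith [hs.2]⟩ (u + a) ⟨by linarith [hu.1], by linarith [hu.2]⟩]
      rw [intervalIntegral.integral_comp_add_right (fun r => g r) a])
    (t - a) ⟨by linarith [ht.1], by linarith [ht.2]⟩
  simp only [sub_add_cancel] at h1
  have h2 : HasDerivWithinAt (fun u : ℝ => u - a) 1 (Icc a b) t := (hasDerivAt_id t).sub_const a |>.hasDerivWithinAt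
  have hmaps : MapsTo (fun u : ℝ => u - a) (Icc a b) (Icc 0 (b - a)) :=
    fun u hu => ⟨by linarith [hu.1], by linarith [hu.2]⟩
  have h3 := h1.scomp t h2 hmaps
  simp only [one_smul] at h3
  refine h3.congr_of_eventuallyEq_of_mem ?_ ht
  exact Eventually.of_forall (fun u => by simp [Function.comp])

/-- **ANNEALED INEQUALITY** (LL 03-paths l.85-92) from its differential form. -/
theorem sv_decay {m2 h : ℝ → ℝ} {T a b : ℝ} (hT : 0 ≤ T) (hab : a < b) (hh : ContinuousOn h (Icc a b))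
    (heq : ∀ s ∈ Icc a b, ∀ t ∈ Icc a b, m2 t - m2 s = T * ∫ r in s..t, h r)
    (hle : ∀ t ∈ Icc a b, h t ≤ -(1 / 2) * m2 t) :
    ∀ s ∈ Icc a b, ∀ t ∈ Icc a b, s ≤ t → m2 t ≤ Real.exp (-(T * (t - s) / 2)) * m2 s := by
  have hder : ∀ t ∈ Icc a b, HasDerivWithinAt m2 (T * h t) (Icc a b) t :=
    sv_hasDerivWithin_of_int' hab (continuousOn_const.mul hh) (by
      intro s hs t ht
      rw [heq s hs t ht, intervalIntegral.integral_const_mul])
  set φ : ℝ → ℝ := fun t => Real.exp (T * t / 2) * m2 t with hφ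
  have hφder : ∀ t ∈ Icc a b, HasDerivWithinAt φ
      (Real.exp (T * t / 2) * (T / 2) * m2 t + Real.exp (T * t / 2) * (T * h t)) (Icc a b) t := by
    intro t ht
    have h1 : HasDerivAt (fun t : ℝ => Real.exp (T * t / 2)) (Real.exp (T * t / 2) * (T / 2)) t := by
      have : HasDerivAt (fun t : ℝ => T * t / 2) (T / 2) t := by
        simpa using ((hasDerivAt_id t).const_mul T).div_const 2
      exact this.exp
    exact h1.hasDerivWithinAt.mul (hder t ht)
  have hanti : AntitoneOn φ (Icc a b) := by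
    apply antitoneOn_of_deriv_nonpos (convex_Icc a b)
    · exact fun t ht => (hφder t ht).continuousWithinAt
    · intro t ht
      rw [interior_Icc] at ht
      exact ((hφder t (Ioo_subset_Icc_self ht)).hasDerivAt (Icc_mem_nhds ht.1 ht.2)).differentiableAt.differentiableWithinAt
    · intro t ht
      rw [interior_Icc] at ht
      rw [((hφder t (Ioo_subset_Icc_self ht)).hasDerivAt (Icc_mem_nhds ht.1 ht.2)).deriv]
      have h1 := hle t (Ioo_subset_Icc_self ht)
      have h2 : 0 < Real.exp (T * t / 2) := Real.exp_pos _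
      have h3 : T * h t ≤ T * (-(1 / 2) * m2 t) := mul_le_mul_of_nonneg_left h1 hT
      have : Real.exp (T * t / 2) * (T / 2) * m2 t + Real.exp (T * t / 2) * (T * h t)
          = Real.exp (T * t / 2) * (T / 2 * m2 t + T * h t) := by ring
      rw [this]
      apply mul_nonpos_of_nonneg_of_nonpos h2.le
      linarith
  intro s hs t ht hst
  have h1 := hanti hs ht hst
  simp only [hφ] at h1
  have h2 : Real.exp (-(T * (t - s) / 2)) = Real.exp (T * s / 2) / Real.exp (T * t / 2) := by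
    rw [← Real.exp_sub]; congr 1; ring
  rw [h2, div_mul_eq_mul_div, le_div_iff₀ (Real.exp_pos _)]
  linarith

/-- converse of `sv_decay`: the differential form of the annealed inequality from the integrated form (which is what `Sc/Ann.lean` proves for step profiles) -/
theorem sv_top_of_decay {m2 h : ℝ → ℝ} {T a b : ℝ} (hT : 0 < T) (hab : a < b) (hh : ContinuousOn h (Icc a b))
    (heq : ∀ s ∈ Icc a b, ∀ t ∈ Icc a b, m2 t - m2 s = T * ∫ r in s..t, h r)
    (hdec : ∀ s ∈ Icc a b, ∀ t ∈ Icc a b, s ≤ t → m2 t ≤ Real.exp (-(T * (t - s) / 2)) * m2 s) :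
    ∀ t ∈ Icc a b, h t ≤ -(1 / 2) * m2 t := by
  have hder : ∀ t ∈ Icc a b, HasDerivWithinAt m2 (T * h t) (Icc a b) t :=
    sv_hasDerivWithin_of_int' hab (continuousOn_const.mul hh) (by
      intro s hs t ht
      rw [heq s hs t ht, intervalIntegral.integral_const_mul])
  set φ : ℝ → ℝ := fun t => Real.exp (T * t / 2) * m2 t with hφ
  have hφder : ∀ t ∈ Icc a b, HasDerivWithinAt φ
      (Real.exp (T * t / 2) * (T / 2) * m2 t + Real.exp (T * t / 2) * (T * h t)) (Icc a b) t := by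
    intro t ht
    have h1 : HasDerivAt (fun t : ℝ => Real.exp (T * t / 2)) (Real.exp (T * t / 2) * (T / 2)) t := by
      have : HasDerivAt (fun t : ℝ => T * t / 2) (T / 2) t := by
        simpa using ((hasDerivAt_id t).const_mul T).div_const 2
      exact this.exp
    exact h1.hasDerivWithinAt.mul (hder t ht)
  have hanti : AntitoneOn φ (Icc a b) := by
    intro s hs t ht hst
    have h1 := hdec s hs t ht hst
    have h2 : Real.exp (-(T * (t - s) / 2)) = Real.exp (T * s / 2) / Real.exp (T * t / 2) := by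
      rw [← Real.exp_sub]; congr 1; ring
    rw [h2, div_mul_eq_mul_div, le_div_iff₀ (Real.exp_pos _)] at h1
    simp only [hφ]
    linarith
  intro t ht
  have h1 : derivWithin φ (Icc a b) t ≤ 0 := hanti.derivWithin_nonpos
  rw [(hφder t ht).derivWithin (uniqueDiffOn_Icc hab t ht)] at h1
  have h2 : 0 < Real.exp (T * t / 2) := Real.exp_pos _
  have h3 : Real.exp (T * t / 2) * (T / 2) * m2 t + Real.exp (T * t / 2) * (T * h t)
      = (Real.exp (T * t / 2) * T) * (1 / 2 * m2 t + h t) := by ring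
  rw [h3] at h1
  have h4 : 1 / 2 * m2 t + h t ≤ 0 := by
    by_contra hneg
    have := mul_pos (mul_pos h2 hT) (not_le.1 hneg)
    linarith
  linarith

/-- a one-sided derivative from a bound of the difference quotient along `θ + ε d` -/
theorem sv_deriv_of_quot {φ : ℝ → ℝ} {θ G d : ℝ} (hd : d ≠ 0)
    (K : ∀ e > 0, ∃ ε₀ > 0, ∀ ε, 0 < ε → ε ≤ ε₀ → ε ≤ 1 → |φ (θ + ε * d) - φ θ - ε * (d * G)| ≤ ε * e)
    {S : Set ℝ} (hS : ∀ x ∈ S, 0 < (x - θ) / d) : HasDerivWithinAt φ G S θ := by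
  rw [hasDerivWithinAt_iff_isLittleO, Asymptotics.isLittleO_iff]
  intro c hc
  have hd' : 0 < |d| := abs_pos.2 hd
  obtain ⟨ε₀, hε₀, hK⟩ := K (c * |d|) (mul_pos hc hd')
  have hm : 0 < min ε₀ 1 * |d| := mul_pos (lt_min hε₀ one_pos) hd'
  have hev : ∀ᶠ x in 𝓝[S] θ, |x - θ| < min ε₀ 1 * |d| := by
    apply mem_nhdsWithin_of_mem_nhds
    have := Metric.ball_mem_nhds θ hm
    filter_upwards [this] with x hx
    rwa [Metric.mem_ball, Real.dist_eq] at hx
  filter_upwards [hev, self_mem_nhdsWithin] with x hx hxS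
  have hpos := hS x hxS
  set ε := (x - θ) / d with hε
  have e1 : ε * d = x - θ := by rw [hε]; field_simp
  have e2 : ε = |x - θ| / |d| := by rw [← abs_div, ← hε, abs_of_pos hpos]
  have hle : ε ≤ min ε₀ 1 := by rw [e2, div_le_iff₀ hd']; exact hx.le
  have h1 := hK ε hpos (hle.trans (min_le_left _ _)) (hle.trans (min_le_right _ _))
  have e3 : θ + ε * d = x := by rw [e1]; ring
  rw [e3] at h1
  have e4 : ε * (d * G) = (x - θ) * G := by rw [← mul_assoc, e1]
  rw [e4] at h1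
  simp only [smul_eq_mul, Real.norm_eq_abs]
  calc |φ x - φ θ - (x - θ) * G| ≤ ε * (c * |d|) := h1
    _ = c * |x - θ| := by rw [e2]; field_simp

/-- **the field `var` of `SvPkg`** (exact integrated variation formula) from the TWO-SIDED first variation at every base point and the `L¹`-continuity of `Gam`.
`φ(θ) = v0 (α + θ η)` has the right derivative `G(θ) = (T/2) ∫ η Γ_{α_θ}` (variation towards `α'`) and the same left derivative (variation towards `α`); `G` is continuous; FTC. -/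
theorem sv_var_of_fv2 {T : ℝ} {v0 : (ℝ → ℝ) → ℝ} {Gam : (ℝ → ℝ) → ℝ → ℝ}
    (hfv : ∀ α α', SvCoef α → SvCoef α' → ∀ e > 0, ∃ ε₀ > 0, ∀ ε, 0 < ε → ε ≤ ε₀ → ε ≤ 1 →
      |v0 (fun s => α s + ε * (α' s - α s)) - v0 α - ε * (T / 2 * ∫ t in (0:ℝ)..1, (α' t - α t) * Gam α t)| ≤ ε * e)
    (hcont : ∀ α, SvCoef α → ∀ ε > 0, ∃ δ > 0, ∀ α', SvCoef α' → (∫ t in (0:ℝ)..1, |α' t - α t|) < δ →
      ∀ t ∈ Icc (0:ℝ) 1, |Gam α' t - Gam α t| < ε)
    (hGc : ∀ α, SvCoef α → ContinuousOn (Gam α) (Icc 0 1)) :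
    ∀ α α', SvCoef α → SvCoef α' →
      v0 α' - v0 α = T / 2 * ∫ θ in (0:ℝ)..1, ∫ t in (0:ℝ)..1,
        (α' t - α t) * Gam (fun s => α s + θ * (α' s - α s)) t := by
  intro α α' h h'
  set A : ℝ → ℝ → ℝ := fun θ s => α s + θ * (α' s - α s) with hA
  set φ : ℝ → ℝ := fun θ => v0 (A θ) with hφ
  set ψ : ℝ → ℝ := fun θ => ∫ t in (0:ℝ)..1, (α' t - α t) * Gam (A θ) t with hψ
  have hψc : ContinuousOn ψ (Icc 0 1) := sv_psi_cont_of hcont hGc h h'
  have hAc : ∀ θ ∈ Icc (0:ℝ) 1, SvCoef (A θ) := fun θ hθ => sv_coef_seg h h' hθ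
  -- the key estimate
  have K : ∀ θ ∈ Icc (0:ℝ) 1, ∀ θ1 ∈ Icc (0:ℝ) 1, ∀ e > 0, ∃ ε₀ > 0, ∀ ε, 0 < ε → ε ≤ ε₀ → ε ≤ 1 →
      |φ (θ + ε * (θ1 - θ)) - φ θ - ε * ((θ1 - θ) * (T / 2 * ψ θ))| ≤ ε * e := by
    intro θ hθ θ1 hθ1 e he
    obtain ⟨ε₀, hε₀, H⟩ := hfv (A θ) (A θ1) (hAc θ hθ) (hAc θ1 hθ1) e he
    refine ⟨ε₀, hε₀, fun ε h1 h2 h3 => ?_⟩
    have h4 := H ε h1 h2 h3
    have e1 : (fun s => A θ s + ε * (A θ1 s - A θ s)) = A (θ + ε * (θ1 - θ)) := by
      funext s; simp only [hA]; ring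
    have e2 : (∫ t in (0:ℝ)..1, (A θ1 t - A θ t) * Gam (A θ) t) = (θ1 - θ) * ψ θ := by
      rw [hψ]; simp only
      rw [← intervalIntegral.integral_const_mul]
      congr 1; funext t; simp only [hA]; ring
    rw [e1, e2] at h4
    have e3 : ε * (T / 2 * ((θ1 - θ) * ψ θ)) = ε * ((θ1 - θ) * (T / 2 * ψ θ)) := by ring
    rw [e3] at h4
    exact h4
  have h0 : (0:ℝ) ∈ Icc (0:ℝ) 1 := ⟨le_rfl, zero_le_one⟩
  have h1 : (1:ℝ) ∈ Icc (0:ℝ) 1 := ⟨zero_le_one, le_rfl⟩
  have hR : ∀ θ ∈ Ico (0:ℝ) 1, HasDerivWithinAt φ (T / 2 * ψ θ) (Ioi θ) θ := by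
    intro θ hθ
    apply sv_deriv_of_quot (d := 1 - θ) (sub_pos.2 hθ.2).ne'
      (K θ ⟨hθ.1, hθ.2.le⟩ 1 h1)
    intro x hx
    exact div_pos (sub_pos.2 hx) (sub_pos.2 hθ.2)
  have hL : ∀ θ ∈ Ioc (0:ℝ) 1, HasDerivWithinAt φ (T / 2 * ψ θ) (Iio θ) θ := by
    intro θ hθ
    apply sv_deriv_of_quot (d := 0 - θ) (by simpa using hθ.1.ne') (K θ ⟨hθ.1.le, hθ.2⟩ 0 h0)
    intro x hx
    apply div_pos_of_neg_of_neg (sub_neg.2 hx) (by linarith [hθ.1])
  have hφc : ContinuousOn φ (Icc 0 1) := by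
    intro θ hθ
    rcases eq_or_lt_of_le hθ.1 with e0 | hpos
    · subst e0
      have := (hR 0 ⟨le_rfl, one_pos⟩).continuousWithinAt
      exact (continuousWithinAt_Ioi_iff_Ici.1 this).mono Icc_subset_Ici_self
    · rcases eq_or_lt_of_le hθ.2 with e1 | hlt
      · subst e1
        have := (hL 1 ⟨one_pos, le_rfl⟩).continuousWithinAt
        exact (continuousWithinAt_Iio_iff_Iic.1 this).mono Icc_subset_Iic_self
      · exact (continuousAt_iff_continuous_left'_right'.2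
          ⟨(hL θ ⟨hpos, hlt.le⟩).continuousWithinAt, (hR θ ⟨hpos.le, hlt⟩).continuousWithinAt⟩).continuousWithinAt
  have key := intervalIntegral.integral_eq_sub_of_hasDeriv_right (a := 0) (b := 1) (f := φ) (f' := fun θ => T / 2 * ψ θ)
    (by rwa [uIcc_of_le zero_le_one])
    (by
      intro θ hθ
      rw [min_eq_left zero_le_one, max_eq_right zero_le_one] at hθ
      exact hR θ ⟨hθ.1.le, hθ.2⟩)
    (by
      apply ContinuousOn.intervalIntegrable
      rw [uIcc_of_le zero_le_one]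
      exact continuousOn_const.mul hψc)
  rw [intervalIntegral.integral_const_mul] at key
  have eA1 : A 1 = α' := by funext s; simp only [hA]; ring
  have eA0 : A 0 = α := by funext s; simp only [hA]; ring
  have : φ 1 - φ 0 = v0 α' - v0 α := by simp only [hφ]; rw [eA1, eA0]
  rw [← this, ← key]

/-- `SvPkgK` + positivity of `M2` + the differential form of the annealed inequality on a top plateau.
INSTANCE for the SK scalar objects: `pkPkg` (`Sc/Pkg.lean`, owner helper229). -/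
structure SvPkgB (T : ℝ) extends SvPkgK T where
  M2_pos : ∀ α, SvCoef α → ∀ t ∈ Icc (0:ℝ) 1, 0 < M2 α t
  /-- on a top plateau `V = log cosh + const`, `ρ_t = w_t cosh`, `w_t` even and unimodal: `2 (N3 - 2 M3) + M2 = ∫ w_t (sech³)'' ≤ 0`;   from the integrated form: `sv_top_of_decay` -/
  top : ∀ α, SvCoef α → ∀ s ∈ Ico (0:ℝ) 1, (∀ t ∈ Icc s 1, α t = 1) →
    ∀ t ∈ Icc s 1, N3 α t - 2 * M3 α t ≤ -(1 / 2) * M2 α t

/-- annealed inequality for the package.   TEX[LL:paths:base-profile] (the display l.86-89, in PE time) -/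
theorem sv_top_decay {T : ℝ} (S : SvPkgB T) (hT : 0 ≤ T) {α : ℝ → ℝ} (hc : SvCoef α) {s : ℝ} (hs : s ∈ Ico (0:ℝ) 1)
    (h1 : ∀ t ∈ Icc s 1, α t = 1) :
    ∀ u ∈ Icc s 1, ∀ t ∈ Icc s 1, u ≤ t → S.M2 α t ≤ Real.exp (-(T * (t - u) / 2)) * S.M2 α u := by
  have hsub : Icc s 1 ⊆ Icc (0:ℝ) 1 := Icc_subset_Icc hs.1 le_rfl
  apply sv_decay (h := fun r => S.N3 α r - 2 * S.M3 α r) hT hs.2
  · exact ((S.N3_cont α hc).sub (continuousOn_const.mul (S.M3_cont α hc))).mono hsub
  · intro u hu t ht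
    rw [S.M2_eq α hc u (hsub hu) t (hsub ht)]
    congr 1
    apply intervalIntegral.integral_congr
    intro r hr
    have hr' : r ∈ Icc s 1 := (uIcc_subset_Icc hu ht) hr
    simp only
    rw [h1 r hr']; ring
  · exact S.top α hc s hs h1

/-- **`p_top ∈ (0,1)`** (LL 03-paths l.75-101).   TEX[LL:paths:base-profile] (the part "strict top plateau") -/
theorem sv_ptop {T : ℝ} (S : SvPkgB T) {α : ℝ → ℝ} (hα : SvDist α) {q : ℝ} (hq : q ∈ Ioo (0:ℝ) 1)
    (hF : ∀ s ∈ Ico 0 q, α s = S.N3 α s / (2 * S.M3 α s)) (h0 : α 0 = 0) (hmono : StrictMonoOn α (Icc 0 q))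
    (htop : ∀ t, q ≤ t → α t = 1) :
    S.N3 α q / (2 * S.M3 α q) ∈ Ioo (0:ℝ) 1 ∧ Tendsto α (𝓝[<] q) (𝓝 (S.N3 α q / (2 * S.M3 α q))) := by
  have hc := sv_dist_coef hα
  have hq01 : q ∈ Icc (0:ℝ) 1 := ⟨hq.1.le, hq.2.le⟩
  have hM3 := S.M3_pos α hc q hq01
  have hlim : Tendsto α (𝓝[<] q) (𝓝 (S.N3 α q / (2 * S.M3 α q))) := by
    have hcw : ContinuousWithinAt (fun s => S.N3 α s / (2 * S.M3 α s)) (Icc 0 1) q :=
      ((S.N3_cont α hc) q hq01).div (continuousWithinAt_const.mul ((S.M3_cont α hc) q hq01))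
        (mul_pos two_pos hM3).ne'
    have h1 : Tendsto (fun s => S.N3 α s / (2 * S.M3 α s)) (𝓝[<] q) (𝓝 (S.N3 α q / (2 * S.M3 α q))) := by
      apply hcw.tendsto.mono_left
      apply nhdsWithin_le_of_mem
      exact mem_of_superset (Ioo_mem_nhdsLT hq.1) (fun r hr => ⟨hr.1.le, le_trans hr.2.le hq.2.le⟩)
    apply h1.congr'
    filter_upwards [Ioo_mem_nhdsLT hq.1] with r hr
    exact (hF r ⟨hr.1.le, hr.2⟩).symm
  refine ⟨⟨?_, ?_⟩, hlim⟩
  · -- positivity: the limit dominates α (q/2) > α 0 = 0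
    have h1 : 0 < α (q / 2) := by
      have := hmono ⟨le_rfl, hq.1.le⟩ (show q / 2 ∈ Icc 0 q from ⟨by linarith [hq.1], by linarith [hq.1]⟩)
        (by linarith [hq.1])
      rwa [h0] at this
    have h2 : α (q / 2) ≤ S.N3 α q / (2 * S.M3 α q) := by
      apply ge_of_tendsto hlim
      filter_upwards [Ioo_mem_nhdsLT (show q / 2 < q by linarith [hq.1])] with r hr
      exact hα.mono hr.1.le
    linarith
  · have h1 := S.top α hc q ⟨hq.1.le, hq.2⟩ (fun t ht => htop t ht.1) q ⟨le_rfl, hq.2.le⟩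
    have h2 := S.M2_pos α hc q hq01
    rw [div_lt_one (mul_pos two_pos hM3)]
    linarith

end Claimed.Agent.R286
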